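import Mathlib

/-!
Row 175 (S0263): positivity lemmas for symmetric real matrices with nonpositive entries off the
diagonal (helper418).
-/

set_option autoImplicit false

namespace Crest.Agent.R175.Pos_418

universe u

variable {T : Type u} [Fintype T]

/-- the quadratic form of `C` -/
def qf (C : T → T → ℝ) (x : T → ℝ) : ℝ := ∑ s, ∑ t, x s * x t * C s t

/-- `(C x)_t` -/
def mv (C : T → T → ℝ) (x : T → ℝ) (t : T) : ℝ := ∑ s, C t s * x s

/-- positive definite -/
def PDm (C : T → T → ℝ) : Prop := ∀ x : T → ℝ, x ≠ 0 → 0 < qf C x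

/-- irreducible -/
def Irr (C : T → T → ℝ) : Prop :=
  ∀ P : T → Prop, (∃ s, P s) → (∃ t, ¬ P t) → ∃ s t, P s ∧ ¬ P t ∧ C s t ≠ 0

variable {C : T → T → ℝ}

theorem qf_eq (x : T → ℝ) : qf C x = ∑ s, x s * mv C x s := by
  simp only [qf, mv, Finset.mul_sum]
  exact Finset.sum_congr rfl fun s _ => Finset.sum_congr rfl fun t _ => by ring


theorem mv_add (x y : T → ℝ) (t : T) : mv C (fun s => x s + y s) t = mv C x t + mv C y t := by
  simp only [mv, ← Finset.sum_add_distrib]
  exact Finset.sum_congr rfl fun s _ => by ring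

theorem mv_smul (c : ℝ) (x : T → ℝ) (t : T) : mv C (fun s => c * x s) t = c * mv C x t := by
  simp only [mv, Finset.mul_sum]
  exact Finset.sum_congr rfl fun s _ => by ring


/-- inverse positivity: `C x ≥ 0` implies `x ≥ 0`. -/
theorem nonneg_of_mv (h : PDm C) (off : ∀ s t, s ≠ t → C s t ≤ 0) {x : T → ℝ}
    (hx : ∀ t, 0 ≤ mv C x t) (t : T) : 0 ≤ x t := by
  classical
  -- negative part
  set n : T → ℝ := fun s => max (-(x s)) 0 with hn
  have hn0 : ∀ s, 0 ≤ n s := fun s => le_max_right _ _
  have hp0 : ∀ s, 0 ≤ x s + n s := fun s => by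
    have : -(x s) ≤ n s := le_max_left _ _
    linarith
  have hdis : ∀ s, n s * (x s + n s) = 0 := by
    intro s
    rcases le_total (-(x s)) 0 with h1 | h1
    · have : n s = 0 := max_eq_right h1
      simp [this]
    · have : n s = -(x s) := max_eq_left h1
      rw [this]; ring
  have h1 : 0 ≤ ∑ s, n s * mv C x s := Finset.sum_nonneg fun s _ => mul_nonneg (hn0 s) (hx s)
  have h2 : ∑ s, n s * mv C (fun r => x r + n r) s ≤ 0 := by
    simp only [mv, Finset.mul_sum]
    apply Finset.sum_nonpos
    intro s _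
    apply Finset.sum_nonpos
    intro r _
    by_cases hsr : s = r
    · subst hsr
      have := hdis s
      have h3 : n s * (C s s * (x s + n s)) = C s s * (n s * (x s + n s)) := by ring
      rw [h3, this, mul_zero]
    · have h3 := off s r hsr
      have h4 : n s * (C s r * (x r + n r)) = C s r * (n s * (x r + n r)) := by ring
      rw [h4]
      exact mul_nonpos_of_nonpos_of_nonneg h3 (mul_nonneg (hn0 s) (hp0 r))
  have h3 : qf C n ≤ 0 := by
    rw [qf_eq]
    have : ∑ s, n s * mv C (fun r => x r + n r) s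
        = ∑ s, n s * mv C x s + ∑ s, n s * mv C n s := by
      rw [← Finset.sum_add_distrib]
      exact Finset.sum_congr rfl fun s _ => by rw [mv_add]; ring
    linarith
  have h4 : n = 0 := by
    by_contra hne
    exact absurd (h n hne) (not_lt.2 h3)
  have h5 : n t = 0 := congrFun h4 t
  have := hp0 t
  rw [h5] at this
  linarith

/-- strictness for irreducible `C` (no positivity of the form needed). -/
theorem pos_of_mv (irr : Irr C) (off : ∀ s t, s ≠ t → C s t ≤ 0) {x : T → ℝ}
    (hx0 : ∀ t, 0 ≤ x t) (hne : ∃ t, x t ≠ 0) (hx : ∀ t, x t = 0 → 0 ≤ mv C x t) (t : T) :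
    0 < x t := by
  classical
  by_contra ht
  have ht0 : x t = 0 := le_antisymm (not_lt.1 ht) (hx0 t)
  obtain ⟨s, r, hs, hr, hsr⟩ := irr (fun s => x s = 0) ⟨t, ht0⟩ (by simpa using hne)
  have h1 := hx s hs
  have h2 : mv C x s < 0 := by
    unfold mv
    refine Finset.sum_neg' ?_ ⟨r, Finset.mem_univ r, ?_⟩
    · intro i _
      by_cases hi : s = i
      · subst hi; simp [hs]
      · exact mul_nonpos_of_nonpos_of_nonneg (off s i hi) (hx0 i)
    · have h3 : s ≠ r := by rintro rfl; exact hr hs
      have h4 : C s r < 0 := lt_of_le_of_ne (off s r h3) hsr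
      have h5 : 0 < x r := lt_of_le_of_ne (hx0 r) (Ne.symm hr)
      exact mul_neg_of_neg_of_pos h4 h5
  linarith

/-- a positive definite `C` is invertible -/
theorem exists_mv_eq (h : PDm C) (y : T → ℝ) : ∃ x : T → ℝ, ∀ t, mv C x t = y t := by
  classical
  let f : (T → ℝ) →ₗ[ℝ] (T → ℝ) :=
    { toFun := fun x t => mv C x t
      map_add' := fun a b => by ext t; exact mv_add a b t
      map_smul' := fun c a => by ext t; exact mv_smul c a t }
  have hinj : Function.Injective f := by
    rw [← LinearMap.ker_eq_bot, LinearMap.ker_eq_bot']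
    intro x hx
    by_contra hne
    have h1 := h x hne
    rw [qf_eq] at h1
    have h2 : ∀ s, mv C x s = 0 := fun s => congrFun hx s
    simp [h2] at h1
  obtain ⟨x, hx⟩ := (LinearMap.injective_iff_surjective.1 hinj) y
  exact ⟨x, fun t => congrFun hx t⟩



/-- `b = C⁻¹ 1 > 0` for positive definite `C` with nonpositive entries off the diagonal (no
irreducibility needed). -/
theorem exists_pos_mv_eq_one (h : PDm C) (off : ∀ s t, s ≠ t → C s t ≤ 0) :
    ∃ b : T → ℝ, (∀ t, 0 < b t) ∧ ∀ t, mv C b t = 1 := by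
  classical
  obtain ⟨x, hx⟩ := exists_mv_eq h (fun _ => (1 : ℝ))
  have h0 : ∀ t, 0 ≤ x t := nonneg_of_mv h off (fun t => by rw [hx]; norm_num)
  refine ⟨x, fun t => lt_of_le_of_ne (h0 t) ?_, hx⟩
  intro ht
  have h1 := hx t
  have h2 : mv C x t ≤ 0 := by
    unfold mv
    apply Finset.sum_nonpos
    intro s _
    by_cases hs : t = s
    · subst hs; simp [← ht]
    · exact mul_nonpos_of_nonpos_of_nonneg (off t s hs) (h0 s)
  linarith


/-- **Perron vector**: symmetric, nonpositive off the diagonal, irreducible, not positive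
definite. -/
theorem perron [Nonempty T] (symm : ∀ s t, C s t = C t s) (off : ∀ s t, s ≠ t → C s t ≤ 0)
    (irr : Irr C) (hn : ¬ PDm C) :
    ∃ b : T → ℝ, (∀ t, 0 < b t) ∧ ∀ t, mv C b t ≤ 0 := by
  classical
  -- minimise the form on the unit sphere of the sum of squares
  let K : Set (T → ℝ) := {x | ∑ t, x t ^ 2 = 1}
  have hq : Continuous (qf C) := by
    unfold qf; fun_prop
  have hKc : IsCompact K := by
    apply Metric.isCompact_of_isClosed_isBounded
    · exact isClosed_eq (by fun_prop) continuous_const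
    · rw [isBounded_iff_forall_norm_le]
      refine ⟨1, fun x hx => ?_⟩
      rw [pi_norm_le_iff_of_nonneg (by norm_num)]
      intro t
      have h1 : x t ^ 2 ≤ ∑ t, x t ^ 2 :=
        Finset.single_le_sum (f := fun t => x t ^ 2) (fun s _ => sq_nonneg _) (Finset.mem_univ t)
      rw [show ∑ t, x t ^ 2 = 1 from hx] at h1
      rw [Real.norm_eq_abs]
      exact abs_le_one_iff_mul_self_le_one.2 (by nlinarith)
  obtain ⟨t0⟩ := ‹Nonempty T›
  have hKn : K.Nonempty := ⟨Pi.single t0 1, by
    show ∑ t, (Pi.single t0 (1 : ℝ) : T → ℝ) t ^ 2 = 1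
    rw [Finset.sum_eq_single t0]
    · simp
    · intro b _ hb; simp [hb]
    · simp⟩
  obtain ⟨x, hxK, hxmin⟩ := hKc.exists_isMinOn hKn hq.continuousOn
  have hx1 : ∑ t, x t ^ 2 = 1 := hxK
  set lam : ℝ := qf C x with hlam
  -- homogeneity: qf y ≥ lam * |y|^2
  have hmin : ∀ y : T → ℝ, lam * ∑ t, y t ^ 2 ≤ qf C y := by
    intro y
    by_cases hy : ∑ t, y t ^ 2 = 0
    · have : y = 0 := by
        ext t
        have h1 := (Finset.sum_eq_zero_iff_of_nonneg (fun s _ => sq_nonneg (y s))).1 hy t
          (Finset.mem_univ t)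
        simpa using h1
      simp [this, qf]
    · have hpos : 0 < ∑ t, y t ^ 2 :=
        lt_of_le_of_ne (Finset.sum_nonneg fun s _ => sq_nonneg _) (Ne.symm hy)
      set r := Real.sqrt (∑ t, y t ^ 2) with hr
      have hr0 : 0 < r := Real.sqrt_pos.2 hpos
      have hr2 : r ^ 2 = ∑ t, y t ^ 2 := Real.sq_sqrt hpos.le
      have hz : (fun t => r⁻¹ * y t) ∈ K := by
        show ∑ t, (r⁻¹ * y t) ^ 2 = 1
        have : ∑ t, (r⁻¹ * y t) ^ 2 = (r⁻¹) ^ 2 * ∑ t, y t ^ 2 := by
          rw [Finset.mul_sum]
          exact Finset.sum_congr rfl fun s _ => by ring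
        rw [this, ← hr2]
        field_simp
      have h1 : lam ≤ qf C (fun t => r⁻¹ * y t) := hxmin hz
      have h2 : qf C (fun t => r⁻¹ * y t) = (r⁻¹) ^ 2 * qf C y := by
        simp only [qf, Finset.mul_sum]
        exact Finset.sum_congr rfl fun s _ => Finset.sum_congr rfl fun t _ => by ring
      rw [h2] at h1
      rw [← hr2]
      have h3 : lam * r ^ 2 ≤ (r⁻¹) ^ 2 * qf C y * r ^ 2 :=
        mul_le_mul_of_nonneg_right h1 (sq_nonneg r)
      have h4 : (r⁻¹) ^ 2 * qf C y * r ^ 2 = qf C y := by field_simp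
      linarith
  have hlam0 : lam ≤ 0 := by
    by_contra hc
    push Not at hc
    apply hn
    intro y hy
    have h1 := hmin y
    have h2 : 0 < ∑ t, y t ^ 2 := by
      apply lt_of_le_of_ne (Finset.sum_nonneg fun s _ => sq_nonneg _)
      intro h0
      apply hy
      ext t
      have h1 := (Finset.sum_eq_zero_iff_of_nonneg (fun s _ => sq_nonneg (y s))).1 h0.symm t
        (Finset.mem_univ t)
      simpa using h1
    nlinarith
  -- the absolute value is a minimiser too
  set b : T → ℝ := fun t => |x t| with hb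
  have hb1 : ∑ t, b t ^ 2 = 1 := by simpa [hb, sq_abs] using hx1
  have hqb : qf C b ≤ lam := by
    rw [hlam]
    unfold qf
    apply Finset.sum_le_sum
    intro s _
    apply Finset.sum_le_sum
    intro t _
    by_cases hst : s = t
    · subst hst
      simp [hb, abs_mul_abs_self]
    · have h1 := off s t hst
      have h2 : x s * x t ≤ |x s| * |x t| := by
        rw [← abs_mul]; exact le_abs_self _
      show |x s| * |x t| * C s t ≤ x s * x t * C s t
      exact mul_le_mul_of_nonpos_right h2 h1
  have hqb' : qf C b = lam := le_antisymm hqb (by have := hmin b; rwa [hb1, mul_one] at this)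
  -- minimisers are eigenvectors
  have heig : ∀ t, mv C b t = lam * b t := by
    intro t
    -- derivative along e_t
    have h1 : ∀ ε : ℝ, 0 ≤ 2 * ε * (mv C b t - lam * b t) + ε ^ 2 * (C t t - lam) := by
      intro ε
      have h2 := hmin (fun s => b s + ε * (Pi.single t (1 : ℝ) : T → ℝ) s)
      have h3 : ∑ s, (b s + ε * (Pi.single t (1 : ℝ) : T → ℝ) s) ^ 2
          = 1 + 2 * ε * b t + ε ^ 2 := by
        have : ∀ s, (b s + ε * (Pi.single t (1 : ℝ) : T → ℝ) s) ^ 2
            = b s ^ 2 + 2 * ε * (b s * (Pi.single t (1 : ℝ) : T → ℝ) s)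
              + ε ^ 2 * ((Pi.single t (1 : ℝ) : T → ℝ) s) ^ 2 := fun s => by ring
        simp only [this, Finset.sum_add_distrib, ← Finset.mul_sum]
        rw [hb1]
        have e1 : ∑ s, b s * (Pi.single t (1 : ℝ) : T → ℝ) s = b t := by
          rw [Finset.sum_eq_single t]
          · simp
          · intro s _ hs; simp [hs]
          · simp
        have e2 : ∑ s, ((Pi.single t (1 : ℝ) : T → ℝ) s) ^ 2 = 1 := by
          rw [Finset.sum_eq_single t]
          · simp
          · intro s _ hs; simp [hs]
          · simp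
        rw [e1, e2]; ring
      have h4 : qf C (fun s => b s + ε * (Pi.single t (1 : ℝ) : T → ℝ) s)
          = lam + 2 * ε * mv C b t + ε ^ 2 * C t t := by
        rw [qf_eq]
        have e0 : ∀ s, mv C (fun s => b s + ε * (Pi.single t (1 : ℝ) : T → ℝ) s) s
            = mv C b s + ε * C s t := by
          intro s
          rw [mv_add, mv_smul]
          congr 2
          unfold mv
          rw [Finset.sum_eq_single t]
          · simp
          · intro r _ hr; simp [hr]
          · simp
        simp only [e0]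
        have e1 : ∀ s, (b s + ε * (Pi.single t (1 : ℝ) : T → ℝ) s) * (mv C b s + ε * C s t)
            = b s * mv C b s + ε * (C t s * b s)
              + ε * ((Pi.single t (1 : ℝ) : T → ℝ) s * mv C b s)
              + ε ^ 2 * ((Pi.single t (1 : ℝ) : T → ℝ) s * C s t) := fun s => by
          rw [symm t s]; ring
        simp only [e1, Finset.sum_add_distrib, ← Finset.mul_sum]
        have e2 : ∑ s, (Pi.single t (1 : ℝ) : T → ℝ) s * mv C b s = mv C b t := by
          rw [Finset.sum_eq_single t]
          · simp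
          · intro s _ hs; simp [hs]
          · simp
        have e3 : ∑ s, (Pi.single t (1 : ℝ) : T → ℝ) s * C s t = C t t := by
          rw [Finset.sum_eq_single t]
          · simp
          · intro s _ hs; simp [hs]
          · simp
        rw [e2, e3, ← qf_eq, hqb']
        have e4 : ∑ s, C t s * b s = mv C b t := rfl
        rw [e4]; ring
      rw [h3, h4] at h2
      nlinarith
    by_contra hne
    set g := mv C b t - lam * b t with hg
    have hg0 : g ≠ 0 := fun h0 => hne (by linarith)
    set a := |C t t - lam| + 1 with ha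
    have ha0 : 0 < a := by positivity
    have h2 := h1 (-(g / a))
    have h3 : C t t - lam ≤ a := by
      have := le_abs_self (C t t - lam); linarith
    have h4 : 0 < g ^ 2 := by positivity
    have h5 : 2 * (-(g / a)) * g + (-(g / a)) ^ 2 * (C t t - lam)
        ≤ 2 * (-(g / a)) * g + (-(g / a)) ^ 2 * a := by
      have : (-(g / a)) ^ 2 * (C t t - lam) ≤ (-(g / a)) ^ 2 * a :=
        mul_le_mul_of_nonneg_left h3 (sq_nonneg _)
      linarith
    have h6 : 2 * (-(g / a)) * g + (-(g / a)) ^ 2 * a = - (g ^ 2 / a) := by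
      field_simp; ring
    have h7 : 0 < g ^ 2 / a := by positivity
    linarith
  have hb0 : ∀ t, 0 ≤ b t := fun t => abs_nonneg _
  have hbne : ∃ t, b t ≠ 0 := by
    by_contra hc
    push Not at hc
    simp [hc] at hb1
  refine ⟨b, pos_of_mv irr off hb0 hbne (fun t ht => by rw [heig, ht, mul_zero]), fun t => ?_⟩
  rw [heig]
  exact mul_nonpos_of_nonpos_of_nonneg hlam0 (hb0 t)

end Crest.Agent.R175.Pos_418
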