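import Mathlib
import Crest.Agent.R175.Unf_109
import Crest.Agent.R175.Pos_418
import Crest.Agent.R175.Pos2_418

/-!
Row 175 (S0263), labels > 3 (helper109), part 4: the unfolded Coxeter matrix.

* `Cr M s t = -2 cos (π / M s t)` (real Cartan matrix), `Cu M Λ` (unfolded integral Cartan matrix);
* `qf_le`, `cu_pd` : `Cr M` positive definite implies `Cu M Λ` positive definite;
* `mv_wt` : `Cu (h ⊗ wt) = (Cr h) ⊗ wt`;
* `Mu hΛ : CoxeterMatrix (S × J Λ)`, labels `2, 3, ∞` only; `cr_mu : Cr (Mu) = Cu`; `mu_pd`,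
  `mu_finite` : its Coxeter group is finite;
* `unfHom : ArtinGroup M →* ArtinGroup (Mu hΛ)`.
-/

set_option autoImplicit false

namespace Crest.Agent.R175.Unf_109

open Crest.Agent.R175.Lcm_109 Crest.Agent.R175.Pos_418 Crest.GroupTheory Finset

/-- multiplicative form of `nb_le`. -/
theorem nb_le' {Λ : Finset ℕ} (hΛ : ∀ m ∈ Λ, 4 ≤ m) {n : ℕ} (hn : n ∈ Λ ∨ n = 0 ∨ n = 2 ∨ n = 3)
    (x y : J Λ → ℝ) :
    ∑ i, ∑ j, mu Λ n i j * (x i * y j)
      ≤ 2 * Real.cos (Real.pi / n) * (√(∑ i, x i ^ 2) * √(∑ j, y j ^ 2)) := by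
  set a := √(∑ i, x i ^ 2) with ha
  set b := √(∑ j, y j ^ 2) with hb
  have hx0 : 0 ≤ ∑ i, x i ^ 2 := Finset.sum_nonneg fun i _ => sq_nonneg _
  have hy0 : 0 ≤ ∑ i, y i ^ 2 := Finset.sum_nonneg fun i _ => sq_nonneg _
  have ha2 : ∑ i, x i ^ 2 = a ^ 2 := (Real.sq_sqrt hx0).symm
  have hb2 : ∑ i, y i ^ 2 = b ^ 2 := (Real.sq_sqrt hy0).symm
  by_cases ha0 : a = 0
  · have : ∀ i, x i = 0 := fun i => by
      rw [ha0] at ha2
      have := (Finset.sum_eq_zero_iff_of_nonneg fun i _ => sq_nonneg (x i)).1 (by rw [ha2]; ring) i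
        (Finset.mem_univ i)
      exact pow_eq_zero_iff (by norm_num) |>.1 this
    simp [this, ha0]
  by_cases hb0 : b = 0
  · have : ∀ i, y i = 0 := fun i => by
      rw [hb0] at hb2
      have := (Finset.sum_eq_zero_iff_of_nonneg fun i _ => sq_nonneg (y i)).1 (by rw [hb2]; ring) i
        (Finset.mem_univ i)
      exact pow_eq_zero_iff (by norm_num) |>.1 this
    simp [this, hb0]
  have hap : 0 < a := lt_of_le_of_ne (Real.sqrt_nonneg _) (Ne.symm ha0)
  have hbp : 0 < b := lt_of_le_of_ne (Real.sqrt_nonneg _) (Ne.symm hb0)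
  have h := nb_le hΛ hn (fun i => x i / a) (fun j => y j / b)
  have e1 : ∑ i, (x i / a) ^ 2 = 1 := by
    simp only [div_pow]
    rw [← Finset.sum_div, ha2, div_self (by positivity)]
  have e2 : ∑ i, (y i / b) ^ 2 = 1 := by
    simp only [div_pow]
    rw [← Finset.sum_div, hb2, div_self (by positivity)]
  have e3 : ∑ i, ∑ j, mu Λ n i j * (x i / a * (y j / b))
      = (∑ i, ∑ j, mu Λ n i j * (x i * y j)) / (a * b) := by
    rw [Finset.sum_div]
    refine Finset.sum_congr rfl fun i _ => ?_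
    rw [Finset.sum_div]
    refine Finset.sum_congr rfl fun j _ => ?_
    field_simp
  rw [e1, e2, e3, div_le_iff₀ (by positivity)] at h
  linarith

variable {S : Type*}

/-- the real Cartan matrix. -/
noncomputable def Cr {S : Type*} (M : CoxeterMatrix S) (s t : S) : ℝ :=
  -2 * Real.cos (Real.pi / (M s t : ℝ))

/-- the unfolded Cartan matrix. -/
noncomputable def Cu (M : CoxeterMatrix S) (Λ : Finset ℕ) (a b : S × J Λ) : ℝ := by
  classical exact if a.1 = b.1 then (if a.2 = b.2 then 2 else 0) else - mu Λ (M a.1 b.1) a.2 b.2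

theorem cr_self (M : CoxeterMatrix S) (s : S) : Cr M s s = 2 := by
  simp [Cr]

theorem Good.cases {M : CoxeterMatrix S} {Λ : Finset ℕ} (hΛ : Good M Λ) {s t : S} (h : s ≠ t) :
    M s t ∈ Λ ∨ M s t = 0 ∨ M s t = 2 ∨ M s t = 3 := by
  by_cases h4 : 4 ≤ M s t
  · exact Or.inl (hΛ.mem s t h4)
  · have := M.off_diagonal s t h
    have h1 : M s t ≠ 1 := this
    omega

theorem cu_sum {M : CoxeterMatrix S} {Λ : Finset ℕ} (hΛ : Good M Λ) (s t : S) (i : J Λ) :
    ∑ j, Cu M Λ (s, i) (t, j) * wt Λ j = Cr M s t * wt Λ i := by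
  classical
  by_cases h : s = t
  · subst h
    rw [cr_self]
    have : ∀ j, Cu M Λ (s, i) (s, j) = if i = j then 2 else 0 := fun j => by simp [Cu]
    rw [Finset.sum_congr rfl fun j _ => by rw [this j]]
    simp
  · have : ∀ j, Cu M Λ (s, i) (t, j) = - mu Λ (M s t) i j := fun j => by simp [Cu, h]
    rw [Finset.sum_congr rfl fun j _ => by rw [this j, neg_mul]]
    rw [Finset.sum_neg_distrib, wt_sum hΛ.four (hΛ.cases h) i, Cr]
    ring

section fin

variable [Fintype S] {M : CoxeterMatrix S} {Λ : Finset ℕ}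

/-- `Cu (h ⊗ wt) = (Cr h) ⊗ wt`. -/
theorem mv_wt (hΛ : Good M Λ) (h : S → ℝ) (s : S) (i : J Λ) :
    mv (Cu M Λ) (fun a => h a.1 * wt Λ a.2) (s, i) = mv (Cr M) h s * wt Λ i := by
  unfold mv
  rw [Fintype.sum_prod_type, Finset.sum_mul]
  refine Finset.sum_congr rfl fun t _ => ?_
  have : ∀ j, Cu M Λ (s, i) (t, j) * (h t * wt Λ j) = h t * (Cu M Λ (s, i) (t, j) * wt Λ j) :=
    fun j => by ring
  rw [Finset.sum_congr rfl fun j _ => this j, ← Finset.mul_sum, cu_sum hΛ]
  ring

theorem qf_le (hΛ : Good M Λ) (x : S × J Λ → ℝ) :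
    qf (Cr M) (fun s => √(∑ i, x (s, i) ^ 2)) ≤ qf (Cu M Λ) x := by
  classical
  unfold qf
  rw [Fintype.sum_prod_type]
  have e : ∀ s : S, ∑ i, ∑ b : S × J Λ, x (s, i) * x b * Cu M Λ (s, i) b
      = ∑ t, ∑ i, ∑ j, x (s, i) * x (t, j) * Cu M Λ (s, i) (t, j) := by
    intro s
    rw [Finset.sum_comm]
    rw [Fintype.sum_prod_type]
    refine Finset.sum_congr rfl fun t _ => ?_
    rw [Finset.sum_comm]
  rw [Finset.sum_congr rfl fun s _ => e s]
  refine Finset.sum_le_sum fun s _ => Finset.sum_le_sum fun t _ => ?_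
  by_cases h : s = t
  · subst h
    rw [cr_self]
    have h0 : 0 ≤ ∑ i, x (s, i) ^ 2 := Finset.sum_nonneg fun i _ => sq_nonneg _
    have h1 : ∀ i, ∑ j, x (s, i) * x (s, j) * Cu M Λ (s, i) (s, j) = x (s, i) ^ 2 * 2 := by
      intro i
      have : ∀ j, Cu M Λ (s, i) (s, j) = if i = j then 2 else 0 := fun j => by simp [Cu]
      rw [Finset.sum_congr rfl fun j _ => by rw [this j]]
      simp
      ring
    rw [Finset.sum_congr rfl fun i _ => h1 i, ← Finset.sum_mul, ← pow_two, Real.sq_sqrt h0]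
  · have h1 : ∀ i j, x (s, i) * x (t, j) * Cu M Λ (s, i) (t, j)
        = -(mu Λ (M s t) i j * (x (s, i) * x (t, j))) := by
      intro i j
      have : Cu M Λ (s, i) (t, j) = - mu Λ (M s t) i j := by simp [Cu, h]
      rw [this]; ring
    simp only [h1, Finset.sum_neg_distrib]
    have := nb_le' hΛ.four (hΛ.cases h) (fun i => x (s, i)) (fun j => x (t, j))
    rw [Cr]
    linarith

/-- **positive definiteness of the unfolding.** -/
theorem cu_pd (hΛ : Good M Λ) (h : PDm (Cr M)) : PDm (Cu M Λ) := by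
  intro x hx
  refine lt_of_lt_of_le (h _ ?_) (qf_le hΛ x)
  intro h0
  apply hx
  funext a
  obtain ⟨s, i⟩ := a
  have h1 := congrFun h0 s
  have h2 : 0 ≤ ∑ i, x (s, i) ^ 2 := Finset.sum_nonneg fun i _ => sq_nonneg _
  have h3 : ∑ i, x (s, i) ^ 2 = 0 := (Real.sqrt_eq_zero h2).1 h1
  have := (Finset.sum_eq_zero_iff_of_nonneg fun i _ => sq_nonneg (x (s, i))).1 h3 i
    (Finset.mem_univ i)
  exact pow_eq_zero_iff (by norm_num) |>.1 this


end fin

/-! ### the unfolded Coxeter matrix -/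

open Classical in
/-- the entries. -/
noncomputable def muM (M : CoxeterMatrix S) (Λ : Finset ℕ) (a b : S × J Λ) : ℕ :=
  if a.1 = b.1 then (if a.2 = b.2 then 1 else 2)
  else if nb Λ (M a.1 b.1) a.2 b.2 then (if M a.1 b.1 = 0 then 0 else 3) else 2

/-- **the unfolded Coxeter matrix** on `S × J Λ` (labels `2, 3, ∞`). -/
noncomputable def Mu (M : CoxeterMatrix S) (Λ : Finset ℕ) : CoxeterMatrix (S × J Λ) where
  M := muM M Λ
  isSymm := by
    ext a b
    show muM M Λ b a = muM M Λ a b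
    unfold muM
    have h3 : M b.1 a.1 = M a.1 b.1 := M.symmetric _ _
    have h4 : nb Λ (M a.1 b.1) b.2 a.2 ↔ nb Λ (M a.1 b.1) a.2 b.2 := nb_comm
    rw [h3]
    by_cases h1 : a.1 = b.1
    · rw [if_pos h1, if_pos h1.symm]
      by_cases h2 : a.2 = b.2
      · rw [if_pos h2, if_pos h2.symm]
      · rw [if_neg h2, if_neg (fun h => h2 h.symm)]
    · rw [if_neg h1, if_neg (fun h => h1 h.symm)]
      by_cases h2 : nb Λ (M a.1 b.1) a.2 b.2
      · rw [if_pos h2, if_pos (h4.2 h2)]
      · rw [if_neg h2, if_neg (fun h => h2 (h4.1 h))]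
  diagonal a := by simp [muM]
  off_diagonal a b hab := by
    unfold muM
    split_ifs with h1 h2
    · exact absurd (Prod.ext h1 h2) hab
    all_goals norm_num

theorem mu_apply (M : CoxeterMatrix S) (Λ : Finset ℕ) (a b : S × J Λ) : Mu M Λ a b = muM M Λ a b :=
  rfl



theorem finite_of_cr {T : Type*} [Fintype T] {N : CoxeterMatrix T} (h : PDm (Cr N)) :
    Finite N.Group := by
  refine finite_group_of_posDef N fun x hx => ?_
  have h1 := h x hx
  unfold qf Cr at h1
  have h2 : ∑ s, ∑ t, x s * x t * (-2 * Real.cos (Real.pi / (N s t : ℝ)))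
      = 2 * ∑ s, ∑ t, x s * x t * (-Real.cos (Real.pi / (N s t : ℝ))) := by
    rw [Finset.mul_sum]
    refine Finset.sum_congr rfl fun s _ => ?_
    rw [Finset.mul_sum]
    exact Finset.sum_congr rfl fun t _ => by ring
  rw [h2] at h1
  linarith


/-! ### the homomorphism -/

section hom

variable {M : CoxeterMatrix S} {Λ : Finset ℕ}

theorem gen_comm {T : Type*} {N : CoxeterMatrix T} {a b : T} (h : N a b = 2) :
    Commute (artinGen N a) (artinGen N b) := by
  have := Semi_663.alt_gen N a b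
  have h' : N.M a b = 2 := h
  rw [h'] at this
  show artinGen N a * artinGen N b = artinGen N b * artinGen N a
  simpa [Semi_663.alt] using this

theorem gen_braid {T : Type*} {N : CoxeterMatrix T} {a b : T} (h : N a b = 3) :
    artinGen N a * artinGen N b * artinGen N a = artinGen N b * artinGen N a * artinGen N b := by
  have := Semi_663.alt_gen N a b
  have h' : N.M a b = 3 := h
  rw [h'] at this
  simpa [Semi_663.alt, mul_assoc] using this

/-- the relations hold in every image of the Artin group of the unfolding. -/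
theorem unf_of_hom {G : Type*} [Group G] (φ : ArtinGroup (Mu M Λ) →* G) :
    Unf M Λ (fun s i => φ (artinGen (Mu M Λ) (s, i))) where
  self s i i' := by
    by_cases h : i = i'
    · subst h; exact Commute.refl _
    · refine (gen_comm (N := Mu M Λ) ?_).map φ
      rw [mu_apply]; simp [muM, h]
  comm s t hst h0 i j hn := by
    refine (gen_comm (N := Mu M Λ) ?_).map φ
    rw [mu_apply]; simp [muM, hst, hn]
  braid s t hst h0 i j hn := by
    rw [← map_mul, ← map_mul, ← map_mul, ← map_mul, gen_braid (N := Mu M Λ)]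
    rw [mu_apply]; simp [muM, hst, hn, h0]

/-- **the unfolding homomorphism** followed by `φ`. -/
noncomputable def unfHom (hΛ : Good M Λ) {G : Type*} [Group G] (φ : ArtinGroup (Mu M Λ) →* G) :
    ArtinGroup M →* G :=
  ((unf_of_hom φ).fold hΛ).hom

theorem unfHom_gen (hΛ : Good M Λ) {G : Type*} [Group G] (φ : ArtinGroup (Mu M Λ) →* G) (s : S) :
    unfHom hΛ φ (artinGen M s)
      = cp (fun i => φ (artinGen (Mu M Λ) (s, i))) ((unf_of_hom φ).self s) :=
  Fold.hom_gen _ s

end hom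

end Crest.Agent.R175.Unf_109
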