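import Mathlib
import Crest.Prelude.Def_ArtinGroup
import Crest.Agent.Rz.Def_ArtinGroup

-- ▼ part R175/FreeC_663
section

/-!
The centralizer of a basic commutator `⁅x, y⁆` in a free group is generated by it.
-/

set_option autoImplicit false

namespace Crest.Agent.R175.FreeC_663

open FreeGroup

/-- the commutator `a b a⁻¹ b⁻¹` -/
def cm {G : Type*} [Group G] (a b : G) : G := a * b * a⁻¹ * b⁻¹

theorem map_cm {G H : Type*} [Group G] [Group H] (f : G →* H) (a b : G) :
    f (cm a b) = cm (f a) (f b) := by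
  simp only [cm, _root_.map_mul, _root_.map_inv]

/-- the integral Heisenberg group -/
@[ext] structure Hei where
  a : ℤ
  b : ℤ
  c : ℤ

namespace Hei

instance : Mul Hei := ⟨fun x y => ⟨x.a + y.a, x.b + y.b, x.c + y.c + x.a * y.b⟩⟩
instance : One Hei := ⟨⟨0, 0, 0⟩⟩
instance : Inv Hei := ⟨fun x => ⟨-x.a, -x.b, -x.c + x.a * x.b⟩⟩

@[simp] theorem mul_a (x y : Hei) : (x * y).a = x.a + y.a := rfl
@[simp] theorem mul_b (x y : Hei) : (x * y).b = x.b + y.b := rfl
@[simp] theorem mul_c (x y : Hei) : (x * y).c = x.c + y.c + x.a * y.b := rfl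
@[simp] theorem one_a : (1 : Hei).a = 0 := rfl
@[simp] theorem one_b : (1 : Hei).b = 0 := rfl
@[simp] theorem one_c : (1 : Hei).c = 0 := rfl
@[simp] theorem inv_a (x : Hei) : (x⁻¹).a = -x.a := rfl
@[simp] theorem inv_b (x : Hei) : (x⁻¹).b = -x.b := rfl
@[simp] theorem inv_c (x : Hei) : (x⁻¹).c = -x.c + x.a * x.b := rfl

instance : Group Hei :=
  Group.ofLeftAxioms
    (by intro x y z; ext <;> simp <;> ring)
    (by intro x; ext <;> simp)
    (by intro x; ext <;> simp)

theorem npow_a (x : Hei) (n : ℕ) : (x ^ n).a = n * x.a := by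
  induction n with
  | zero => simp
  | succ n ih => rw [pow_succ, mul_a, ih]; push_cast; ring


theorem zpow_a (x : Hei) (n : ℤ) : (x ^ n).a = n * x.a := by
  cases n with
  | ofNat n => simpa using npow_a x n
  | negSucc n => rw [zpow_negSucc, inv_a, npow_a]; push_cast [Int.negSucc_eq]; ring


theorem npow_c (x : Hei) (ha : x.a = 0) (n : ℕ) : (x ^ n).c = n * x.c := by
  induction n with
  | zero => simp
  | succ n ih => rw [pow_succ, mul_c, ih, npow_a, ha]; push_cast; ring

theorem zpow_c (x : Hei) (ha : x.a = 0) (n : ℤ) : (x ^ n).c = n * x.c := by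
  cases n with
  | ofNat n => simpa using npow_c x ha n
  | negSucc n =>
    rw [zpow_negSucc, inv_c, npow_c x ha, npow_a, ha]; push_cast [Int.negSucc_eq]; ring

end Hei

variable {X : Type*}

open Classical in
/-- the map to the Heisenberg group with `x ↦ (1,0,0)`, `y ↦ (0,1,0)`. -/
noncomputable def hei (x y : X) : FreeGroup X →* Hei :=
  FreeGroup.lift fun z => if z = x then ⟨1, 0, 0⟩ else if z = y then ⟨0, 1, 0⟩ else 1

theorem hei_comm {x y : X} (h : x ≠ y) :
    hei x y (cm (of x) (of y)) = ⟨0, 0, 1⟩ := by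
  rw [map_cm]
  simp only [cm, hei, lift_apply_of, if_true, if_neg h.symm]
  ext <;> simp

theorem comm_ne_one {x y : X} (h : x ≠ y) : cm (of x) (of y) ≠ (1 : FreeGroup X) := by
  intro e
  have h1 := hei_comm h
  rw [e, _root_.map_one] at h1
  have := congrArg Hei.c h1
  simp at this


/-- a power equal to the commutator has exponent `± 1`. -/
theorem root_comm {x y : X} (h : x ≠ y) {g : FreeGroup X} {n : ℤ}
    (e : g ^ n = cm (of x) (of y)) : n = 1 ∨ n = -1 := by
  have h0 := congrArg (hei x y) e
  rw [map_zpow, hei_comm h] at h0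
  set z := hei x y g with hz
  have ha : n * z.a = 0 := by
    have := congrArg Hei.a h0
    rwa [Hei.zpow_a] at this
  have hn : n ≠ 0 := by
    rintro rfl
    have := congrArg Hei.c h0
    simp at this
  have hza : z.a = 0 := by
    rcases mul_eq_zero.1 ha with h | h
    · exact absurd h hn
    · exact h
  have hc : n * z.c = 1 := by
    have := congrArg Hei.c h0
    rwa [Hei.zpow_c _ hza] at this
  exact Int.isUnit_iff.1 (IsUnit.of_mul_eq_one _ hc)

/-- in a commutative free group everything is a power of one element -/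
theorem exists_root_of_comm (A : Type*) [Group A] [IsFreeGroup A]
    (hA : ∀ a b : A, a * b = b * a) : ∃ u : A, ∀ a : A, ∃ n : ℤ, a = u ^ n := by
  classical
  set e := IsFreeGroup.toFreeGroup A
  have hF : ∀ a b : FreeGroup (IsFreeGroup.Generators A), a * b = b * a := by
    intro a b
    have := congrArg e (hA (e.symm a) (e.symm b))
    simpa using this
  have hs : Subsingleton (IsFreeGroup.Generators A) := by
    refine ⟨fun a b => ?_⟩
    by_contra hab
    have h1 := hF (of a) (of b)
    have h2 := comm_ne_one (X := IsFreeGroup.Generators A) hab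
    apply h2
    rw [cm, h1]
    group
  by_cases hne : Nonempty (IsFreeGroup.Generators A)
  · obtain ⟨s⟩ := hne
    refine ⟨e.symm (of s), fun a => ?_⟩
    have key : ∀ w : FreeGroup (IsFreeGroup.Generators A), ∃ n : ℤ, w = (of s) ^ n := by
      intro w
      induction w using FreeGroup.induction_on with
      | C1 => exact ⟨0, by simp⟩
      | of t => exact ⟨1, by rw [Subsingleton.elim t s, zpow_one]⟩
      | inv_of t _ => exact ⟨-1, by rw [Subsingleton.elim t s, zpow_neg, zpow_one]⟩
      | mul v w hv hw =>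
        obtain ⟨n, hn⟩ := hv
        obtain ⟨m, hm⟩ := hw
        exact ⟨n + m, by rw [hn, hm, zpow_add]⟩
    obtain ⟨n, hn⟩ := key (e a)
    refine ⟨n, ?_⟩
    rw [← map_zpow, ← hn, MulEquiv.symm_apply_apply]
  · refine ⟨1, fun a => ⟨0, ?_⟩⟩
    have : e a = 1 := by
      induction (e a) using FreeGroup.induction_on with
      | C1 => rfl
      | of t => exact absurd ⟨t⟩ hne
      | inv_of t _ => exact absurd ⟨t⟩ hne
      | mul v w hv hw => rw [hv, hw, one_mul]
    rw [zpow_zero]
    exact (map_eq_one_iff e e.injective).1 this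

/-- **Centralizer of a basic commutator.** -/
theorem centralizer_comm {x y : X} (h : x ≠ y) {w : FreeGroup X}
    (hw : w * cm (of x) (of y) = cm (of x) (of y) * w) : ∃ n : ℤ, w = (cm (of x) (of y)) ^ n := by
  set c : FreeGroup X := cm (of x) (of y) with hc
  let A : Subgroup (FreeGroup X) := Subgroup.closure {w, c}
  have hcm : ∀ a ∈ A, ∀ b ∈ A, a * b = b * a := by
    intro a ha b hb
    have hset : ∀ p ∈ ({w, c} : Set (FreeGroup X)), ∀ q ∈ ({w, c} : Set (FreeGroup X)),
        p * q = q * p := by
      rintro p (rfl | rfl) q (rfl | rfl)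
      · rfl
      · exact hw
      · exact hw.symm
      · rfl
    have := (Subgroup.closure_le_centralizer_centralizer ({w, c} : Set (FreeGroup X))) ha
    have h1 : A ≤ Subgroup.centralizer ({w, c} : Set (FreeGroup X)) := by
      rw [Subgroup.closure_le]
      intro p hp
      rw [SetLike.mem_coe, Subgroup.mem_centralizer_iff]
      intro q hq
      exact hset q hq p hp
    exact ((Subgroup.mem_centralizer_iff.1 this) b (h1 hb)).symm
  obtain ⟨u, hu⟩ := exists_root_of_comm A (by
    rintro ⟨a, ha⟩ ⟨b, hb⟩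
    exact Subtype.ext (hcm a ha b hb))
  have hwA : w ∈ A := Subgroup.subset_closure (by simp)
  have hcA : c ∈ A := Subgroup.subset_closure (by simp)
  obtain ⟨n, hn⟩ := hu ⟨w, hwA⟩
  obtain ⟨m, hm⟩ := hu ⟨c, hcA⟩
  have hn' : w = (u : FreeGroup X) ^ n := by
    have := congrArg Subtype.val hn
    simpa using this
  have hm' : c = (u : FreeGroup X) ^ m := by
    have := congrArg Subtype.val hm
    simpa using this
  rcases root_comm h (g := (u : FreeGroup X)) (n := m) hm'.symm with h1 | h1
  · refine ⟨n, ?_⟩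
    rw [h1, zpow_one] at hm'
    rw [hm', hn']
  · refine ⟨-n, ?_⟩
    rw [h1, zpow_neg, zpow_one] at hm'
    rw [hm', hn', inv_zpow', neg_neg]

end Crest.Agent.R175.FreeC_663
end

-- ▼ part R175/Semi_663

/-!
Artin groups with a set `R` of generators which commute with a set `Γ` of generators and have label
infinity with everything else: `A = FreeGroup (R × A_{Rᶜ}/A_Γ) ⋊ A_{Rᶜ}`; the centralizer of the
commutator of two generators of `R` is `⟨⁅r₁,r₂⁆⟩ × A_Γ`.
-/

set_option autoImplicit false

namespace Crest.Agent.R175.Semi_663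

open Crest.GroupTheory Crest.Agent.R175.FreeC_663

section Basic

variable {S : Type*} (M : CoxeterMatrix S) {L : Type*} [Group L]

/-- the alternating product `a b a ⋯` with `m` factors -/
def alt {L : Type*} [Monoid L] : L → L → ℕ → L
  | _, _, 0 => 1
  | a, b, m + 1 => a * alt b a m

theorem lift_alt (f : S → L) (m : ℕ) : ∀ s t : S,
    FreeGroup.lift f (artinAltWord s t m) = alt (f s) (f t) m := by
  induction m with
  | zero => intro s t; simp [artinAltWord, alt]
  | succ m ih => intro s t; simp [artinAltWord, alt, ih]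

theorem map_alt {L L' : Type*} [Monoid L] [Monoid L'] (f : L →* L') (m : ℕ) : ∀ a b : L,
    f (alt a b m) = alt (f a) (f b) m := by
  induction m with
  | zero => intro s t; simp [alt]
  | succ m ih => intro s t; simp [alt, ih]

/-- homomorphisms out of an Artin group -/
def toHom (f : S → L)
    (h : ∀ s t, alt (f s) (f t) (M.M s t) = alt (f t) (f s) (M.M s t)) : ArtinGroup M →* L :=
  PresentedGroup.toGroup (f := f) (by
    rintro _ ⟨⟨s, t⟩, rfl⟩
    simp only [map_mul, map_inv, lift_alt]
    rw [h s t, mul_inv_cancel])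

@[simp] theorem toHom_gen (f : S → L)
    (h : ∀ s t, alt (f s) (f t) (M.M s t) = alt (f t) (f s) (M.M s t)) (s : S) :
    toHom M f h (artinGen M s) = f s :=
  PresentedGroup.toGroup.of _

theorem alt_gen (s t : S) :
    alt (artinGen M s) (artinGen M t) (M.M s t) = alt (artinGen M t) (artinGen M s) (M.M s t) := by
  have h1 : (PresentedGroup.mk (artinRelators M)
      (artinAltWord s t (M.M s t) * (artinAltWord t s (M.M s t))⁻¹)) = 1 := by
    rw [PresentedGroup.mk_eq_one_iff]
    exact Subgroup.subset_normalClosure ⟨(s, t), rfl⟩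
  have h2 : ∀ w, PresentedGroup.mk (artinRelators M) w
      = FreeGroup.lift (artinGen M) w := by
    intro w
    have : PresentedGroup.mk (artinRelators M) = FreeGroup.lift (artinGen M) := by
      ext s
      simp [artinGen, PresentedGroup.of]
    rw [this]
  rw [h2, map_mul, map_inv, lift_alt, lift_alt, mul_inv_eq_one] at h1
  exact h1

theorem hom_ext {f g : ArtinGroup M →* L}
    (h : ∀ s, f (artinGen M s) = g (artinGen M s)) : f = g :=
  PresentedGroup.ext h

theorem comm_of_two {s t : S} (h : M.M s t = 2) :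
    artinGen M s * artinGen M t = artinGen M t * artinGen M s := by
  have := alt_gen M s t
  rw [h] at this
  simpa [alt] using this

theorem braid_of_three {s t : S} (h : M.M s t = 3) :
    artinGen M s * artinGen M t * artinGen M s = artinGen M t * artinGen M s * artinGen M t := by
  have := alt_gen M s t
  rw [h] at this
  simpa [alt, mul_assoc] using this

end Basic

section Abstract

variable {G : Type*} [Group G] {ι : Type*}

/-- the index set -/
abbrev XX (ι : Type*) {K : Type*} [Group K] (H : Subgroup K) := ι × (K ⧸ H)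

/-- permutation of the index set -/
def prm {K : Type*} [Group K] (H : Subgroup K) (k : K) : Equiv.Perm (XX ι H) :=
  Equiv.prodCongr (Equiv.refl ι) (MulAction.toPerm k)

@[simp] theorem prm_apply {K : Type*} [Group K] (H : Subgroup K) (k : K) (p : XX ι H) :
    prm H k p = (p.1, k • p.2) := rfl

/-- the action of `K` on the free group -/
def th {K : Type*} [Group K] (H : Subgroup K) : K →* MulAut (FreeGroup (XX ι H)) where
  toFun k := FreeGroup.freeGroupCongr (prm H k)
  map_one' := by
    ext x
    induction x using FreeGroup.induction_on with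
    | C1 => simp
    | of x => simp
    | inv_of x _ => simp
    | mul x y hx hy => rw [map_mul, map_mul, hx, hy]
  map_mul' a b := by
    ext x
    induction x using FreeGroup.induction_on with
    | C1 => simp
    | of x => simp [mul_smul]
    | inv_of x _ => simp [mul_smul]
    | mul x y hx hy => rw [map_mul, map_mul, hx, hy]

@[simp] theorem th_of {K : Type*} [Group K] (H : Subgroup K) (k : K) (p : XX ι H) :
    th H k (FreeGroup.of p) = FreeGroup.of (p.1, k • p.2) := by
  simp [th]

variable (K : Subgroup G) (H : Subgroup K) (x : ι → G)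

/-- the conjugates of the `x i` -/
noncomputable def cj (p : XX ι H) : G := (p.2.out : G) * x p.1 * (p.2.out : G)⁻¹

variable (hx : ∀ i, ∀ h ∈ H, (h : G) * x i = x i * (h : G))

include hx in
theorem cj_mk (i : ι) (k : K) : cj K H x (i, (k : K ⧸ H)) = (k : G) * x i * (k : G)⁻¹ := by
  obtain ⟨h, hh⟩ := QuotientGroup.mk_out_eq_mul H k
  simp only [cj]
  rw [hh]
  have := hx i h h.2
  push_cast
  rw [mul_assoc (k : G), this]
  group

/-- the map of the semidirect product to the group -/
noncomputable def psi : FreeGroup (XX ι H) ⋊[th H] K →* G :=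
  SemidirectProduct.lift (FreeGroup.lift (cj K H x)) K.subtype (by
    intro k
    ext ⟨i, q⟩
    induction q using QuotientGroup.induction_on with
    | H a =>
      have h1 := cj_mk K H x hx i a
      have h2 := cj_mk K H x hx i (k * a)
      simp only [MonoidHom.comp_apply, MulEquiv.coe_toMonoidHom, FreeGroup.lift_apply_of, th_of,
        MulAut.conj_apply, Subgroup.coe_subtype]
      rw [h1]
      have h3 : k • (a : K ⧸ H) = ((k * a : K) : K ⧸ H) := rfl
      rw [h3, h2]
      push_cast
      group)

theorem psi_inl (i : ι) (k : K) : psi K H x hx (SemidirectProduct.inl (FreeGroup.of (i, (k : K ⧸ H))))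
    = (k : G) * x i * (k : G)⁻¹ := by
  rw [psi, SemidirectProduct.lift_inl, FreeGroup.lift_apply_of, cj_mk K H x hx]

theorem psi_inr (k : K) : psi K H x hx (SemidirectProduct.inr k) = k := by
  rw [psi, SemidirectProduct.lift_inr]; rfl

/-- `G` splits as `FreeGroup (ι × K/H) ⋊ K`, `x i ↦ (i, H)`. -/
structure Split where
  phi : G →* FreeGroup (XX ι H) ⋊[th H] K
  phi_inj : Function.Injective phi
  phi_k : ∀ k : K, phi k = SemidirectProduct.inr k
  phi_x : ∀ i, phi (x i) = SemidirectProduct.inl (FreeGroup.of (i, ((1 : K) : K ⧸ H)))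

variable {K H x}

namespace Split

variable (P : Split K H x)

include P in
theorem phi_pair (w : FreeGroup (XX ι H)) (k : K) (g : G)
    (hg : P.phi g = SemidirectProduct.inl w) : P.phi (g * k) = ⟨w, k⟩ := by
  rw [map_mul, P.phi_k, hg]
  ext <;> simp

theorem phi_cm (i j : ι) : P.phi (cm (x i) (x j)) =
    SemidirectProduct.inl (cm (FreeGroup.of (i, ((1 : K) : K ⧸ H)))
      (FreeGroup.of (j, ((1 : K) : K ⧸ H)))) := by
  rw [map_cm, P.phi_x, P.phi_x, map_cm]

open Classical in
/-- kill the generators outside of the base coset -/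
noncomputable def kill (H : Subgroup K) : FreeGroup (XX ι H) →* FreeGroup (XX ι H) :=
  FreeGroup.lift fun p => if p.2 = ((1 : K) : K ⧸ H) then FreeGroup.of p else 1

theorem ne_of {i j : ι} (hij : i ≠ j) :
    (i, ((1 : K) : K ⧸ H)) ≠ (j, ((1 : K) : K ⧸ H)) := by
  intro h
  exact hij (congrArg Prod.fst h)

include P in
/-- the centralizer of the commutator of two letters -/
theorem centralizer {i j : ι} (hij : i ≠ j) {g : G}
    (hg : g * cm (x i) (x j) = cm (x i) (x j) * g) :
    ∃ (n : ℤ) (k : K), k ∈ H ∧ g = (cm (x i) (x j)) ^ n * k := by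
  classical
  set c := cm (FreeGroup.of (i, ((1 : K) : K ⧸ H)))
      (FreeGroup.of (j, ((1 : K) : K ⧸ H))) with hc
  have h1 := congrArg P.phi hg
  rw [map_mul, map_mul, P.phi_cm, ← hc] at h1
  set w := (P.phi g).left with hw
  set k := (P.phi g).right with hk
  have h2 : w * th H k c = c * w := by
    have := congrArg SemidirectProduct.left h1
    simpa using this
  have hthc : th H k c = cm (FreeGroup.of (i, (k : K ⧸ H))) (FreeGroup.of (j, (k : K ⧸ H))) := by
    have h3 : k • ((1 : K) : K ⧸ H) = (k : K ⧸ H) := by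
      have : k • ((1 : K) : K ⧸ H) = ((k * 1 : K) : K ⧸ H) := rfl
      rw [this, mul_one]
    rw [hc]
    have h4 := map_cm (th H k).toMonoidHom (FreeGroup.of (i, ((1 : K) : K ⧸ H)))
      (FreeGroup.of (j, ((1 : K) : K ⧸ H)))
    simp only [MulEquiv.coe_toMonoidHom, th_of, h3] at h4
    exact h4
  have hkc : kill H c = c := by
    rw [hc, map_cm]
    simp [kill]
  have hkH : (k : K ⧸ H) = ((1 : K) : K ⧸ H) := by
    by_contra hne
    have h5 : kill H (th H k c) = 1 := by
      rw [hthc, map_cm]
      simp [kill, hne, cm]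
    have h6 := congrArg (kill H) h2
    rw [map_mul, map_mul, h5, hkc, mul_one] at h6
    have h7 : c = 1 := by
      have := mul_right_cancel (b := kill H w) (a := c) (c := 1) (by rw [one_mul]; exact h6.symm)
      exact this
    exact comm_ne_one (ne_of hij) h7
  have hkm : k ∈ H := by
    have := QuotientGroup.eq.1 hkH.symm
    simpa using this
  have hthc' : th H k c = c := by
    rw [hthc, hkH]
  rw [hthc'] at h2
  obtain ⟨n, hn⟩ := centralizer_comm (ne_of (H := H) hij) h2
  refine ⟨n, k, hkm, ?_⟩
  apply P.phi_inj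
  have h8 : P.phi ((cm (x i) (x j)) ^ n) = SemidirectProduct.inl (c ^ n) := by
    rw [map_zpow, P.phi_cm, map_zpow]
  rw [P.phi_pair (c ^ n) k _ h8]
  ext
  · show w = c ^ n
    exact hn
  · rfl


end Split

end Abstract

section Artin

variable {S : Type*} (M : CoxeterMatrix S) (R Γ : Set S)

/-- the elements of `R` commute with `Γ` and have label infinity with everything else -/
structure Att : Prop where
  disj : ∀ s ∈ Γ, s ∉ R
  two : ∀ r ∈ R, ∀ s ∈ Γ, M.M r s = 2
  zero : ∀ r ∈ R, ∀ s, s ∉ Γ → s ≠ r → M.M r s = 0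

/-- the subgroup generated by the generators outside `R` -/
def KK : Subgroup (ArtinGroup M) := stdParabolic M Rᶜ

/-- the subgroup generated by `Γ` as a subgroup of `KK` -/
def HH : Subgroup (KK M R) := (stdParabolic M Γ).subgroupOf (KK M R)

theorem gen_mem {s : S} (hs : s ∉ R) : artinGen M s ∈ KK M R :=
  Subgroup.subset_closure ⟨s, hs, rfl⟩

/-- the letters -/
def xl (r : R) : ArtinGroup M := artinGen M r

variable {M R Γ}

theorem Att.le (hA : Att M R Γ) : stdParabolic M Γ ≤ KK M R := by
  rw [stdParabolic, Subgroup.closure_le]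
  rintro _ ⟨s, hs, rfl⟩
  exact gen_mem M R (hA.disj s hs)

theorem Att.comm (hA : Att M R Γ) (r : R) (h : KK M R) (hh : h ∈ HH M R Γ) :
    (h : ArtinGroup M) * xl M R r = xl M R r * h := by
  have h1 : (h : ArtinGroup M) ∈ stdParabolic M Γ := hh
  have h2 : stdParabolic M Γ ≤ Subgroup.centralizer {xl M R r} := by
    rw [stdParabolic, Subgroup.closure_le]
    rintro _ ⟨s, hs, rfl⟩
    rw [SetLike.mem_coe, Subgroup.mem_centralizer_iff]
    rintro _ rfl
    exact comm_of_two M (hA.two r r.2 s hs)
  exact ((Subgroup.mem_centralizer_iff.1 (h2 h1)) _ rfl).symm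

open Classical in
/-- the images of the generators -/
noncomputable def ff (M : CoxeterMatrix S) (R Γ : Set S) (s : S) :
    FreeGroup (XX R (HH M R Γ)) ⋊[th (HH M R Γ)] (KK M R) :=
  if h : s ∈ R then SemidirectProduct.inl (FreeGroup.of (⟨s, h⟩, ((1 : KK M R) : _ ⧸ HH M R Γ)))
  else SemidirectProduct.inr ⟨artinGen M s, gen_mem M R h⟩

theorem inr_comm_inl {K : Type*} [Group K] {ι : Type*} (H : Subgroup K) (i : ι) (k : K)
    (hk : k ∈ H) : (SemidirectProduct.inr k : FreeGroup (XX ι H) ⋊[th H] K) *
      SemidirectProduct.inl (FreeGroup.of (i, ((1 : K) : K ⧸ H))) =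
    SemidirectProduct.inl (FreeGroup.of (i, ((1 : K) : K ⧸ H))) * SemidirectProduct.inr k := by
  have h3 : k • ((1 : K) : K ⧸ H) = ((1 : K) : K ⧸ H) := by
    have : k • ((1 : K) : K ⧸ H) = ((k * 1 : K) : K ⧸ H) := rfl
    rw [this, mul_one]
    exact (QuotientGroup.eq.2 (by simpa using hk)).symm
  ext <;> simp [h3]

theorem ff_pos {r : S} (hr : r ∈ R) : ff M R Γ r =
    SemidirectProduct.inl (FreeGroup.of (⟨r, hr⟩, ((1 : KK M R) : _ ⧸ HH M R Γ))) := by
  rw [ff, dif_pos hr]

theorem ff_neg {s : S} (hs : s ∉ R) : ff M R Γ s =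
    SemidirectProduct.inr ⟨artinGen M s, gen_mem M R hs⟩ := by
  rw [ff, dif_neg hs]

theorem ff_comm (hA : Att M R Γ) {r s : S} (hr : r ∈ R) (hs : s ∈ Γ) :
    ff M R Γ s * ff M R Γ r = ff M R Γ r * ff M R Γ s := by
  rw [ff_pos hr, ff_neg (hA.disj s hs)]
  apply inr_comm_inl
  exact Subgroup.subset_closure ⟨s, hs, rfl⟩

theorem alt_two {L : Type*} [Monoid L] (a b : L) : alt a b 2 = a * b := by
  simp [alt]

theorem ff_rel (hA : Att M R Γ) (s t : S) :
    alt (ff M R Γ s) (ff M R Γ t) (M.M s t) = alt (ff M R Γ t) (ff M R Γ s) (M.M s t) := by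
  by_cases hs : s ∈ R <;> by_cases ht : t ∈ R
  · by_cases hst : s = t
    · subst hst; rfl
    · rw [hA.zero s hs t (fun h => hA.disj t h ht) (Ne.symm hst)]; rfl
  · by_cases htG : t ∈ Γ
    · rw [hA.two s hs t htG, alt_two, alt_two]
      exact (ff_comm hA hs htG).symm
    · rw [hA.zero s hs t htG (fun h => ht (h ▸ hs))]; rfl
  · by_cases hsG : s ∈ Γ
    · rw [M.symmetric s t, hA.two t ht s hsG, alt_two, alt_two]
      exact ff_comm hA ht hsG
    · rw [M.symmetric s t, hA.zero t ht s hsG (fun h => hs (h ▸ ht))]; rfl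
  · rw [ff_neg hs, ff_neg ht, ← map_alt, ← map_alt]
    congr 1
    apply Subtype.ext
    have h1 := map_alt (KK M R).subtype (M.M s t) ⟨artinGen M s, gen_mem M R hs⟩
      ⟨artinGen M t, gen_mem M R ht⟩
    have h2 := map_alt (KK M R).subtype (M.M s t) ⟨artinGen M t, gen_mem M R ht⟩
      ⟨artinGen M s, gen_mem M R hs⟩
    exact (h1.trans (alt_gen M s t)).trans h2.symm

/-- **the splitting** `A = FreeGroup (R × A_{Rᶜ}/A_Γ) ⋊ A_{Rᶜ}` -/
noncomputable def Att.split (hA : Att M R Γ) : Split (KK M R) (HH M R Γ) (xl M R) where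
  phi := toHom M (ff M R Γ) (ff_rel hA)
  phi_inj := by
    classical
    have h : ∀ g, psi (KK M R) (HH M R Γ) (xl M R) hA.comm (toHom M (ff M R Γ) (ff_rel hA) g) = g := by
      intro g
      have h1 : (psi (KK M R) (HH M R Γ) (xl M R) hA.comm).comp (toHom M (ff M R Γ) (ff_rel hA))
          = MonoidHom.id _ := by
        apply hom_ext M
        intro s
        rw [MonoidHom.comp_apply, toHom_gen, MonoidHom.id_apply]
        by_cases hs : s ∈ R
        · rw [ff_pos hs, psi_inl]
          simp [xl]
        · rw [ff_neg hs, psi_inr]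
      exact DFunLike.congr_fun h1 g
    intro a b hab
    rw [← h a, hab, h b]
  phi_k := by
    classical
    rintro ⟨k, hk⟩
    simp only
    induction hk using Subgroup.closure_induction with
    | mem x hx =>
      obtain ⟨s, hs, rfl⟩ := hx
      rw [toHom_gen, ff_neg (show s ∉ R from hs)]
    | one => 
      rw [map_one]
      exact (map_one _).symm
    | mul a b ha hb h1 h2 =>
      rw [map_mul, h1, h2, ← map_mul]
      rfl
    | inv a ha h1 =>
      rw [map_inv, h1, ← map_inv]
      rfl
  phi_x := by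
    classical
    intro r
    rw [xl, toHom_gen, ff_pos r.2]

/-- **(A1)** the centralizer of `r₁ r₂ r₁⁻¹ r₂⁻¹` -/
theorem centralizer_cm (hA : Att M R Γ) {r₁ r₂ : S} (h1 : r₁ ∈ R) (h2 : r₂ ∈ R) (hne : r₁ ≠ r₂)
    {g : ArtinGroup M}
    (hg : g * cm (artinGen M r₁) (artinGen M r₂) = cm (artinGen M r₁) (artinGen M r₂) * g) :
    ∃ (n : ℤ) (k : ArtinGroup M), k ∈ stdParabolic M Γ ∧
      g = (cm (artinGen M r₁) (artinGen M r₂)) ^ n * k := by
  obtain ⟨n, k, hk, e⟩ := hA.split.centralizer (i := (⟨r₁, h1⟩ : R)) (j := ⟨r₂, h2⟩)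
    (fun h => hne (congrArg Subtype.val h)) (g := g) hg
  exact ⟨n, k, hk, e⟩



end Artin

end Crest.Agent.R175.Semi_663
private theorem rz_3a99f4c790 : type_of% @_root_.Crest.Agent.R175.Semi_663.alt.eq_def := @_root_.Crest.Agent.R175.Semi_663.alt.eq_def -- L21
private theorem rz_4c4bd97f03 : type_of% @_root_.Crest.Agent.R175.Semi_663.alt.eq_1 := @_root_.Crest.Agent.R175.Semi_663.alt.eq_1 -- L21
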