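import Crest.Prelude.Def_ArtinGroup
import Crest.Agent.R175.Semi_663
import Crest.Agent.R061.GeomFull

/-!
van der Lek's theorem for every Coxeter matrix: `A_X → A_S` is injective and
`A_X ⊓ A_Y = A_{X ∩ Y}`.  `A_S` acts on `W^X × L` (`W^X` = elements `q` of the Coxeter group with
`q α_x > 0` for `x ∈ X`) by `s (q, g) = (q, f x * g)` if `q⁻¹ α_s = α_x`, `x ∈ X`, and
`s (q, g) = (s q, g)` otherwise.
-/

set_option autoImplicit false

namespace Crest.Agent.R175.VdL_527

open Crest.GroupTheory Crest.Agent.R061.GeomFull Crest.Agent.R175.Semi_663 CoxeterSystem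

section Alt

variable {L : Type*} [Monoid L]

/-- alternating product, first factor on the right -/
def altR : L → L → ℕ → L
  | _, _, 0 => 1
  | a, b, m + 1 => altR b a m * a

theorem alt_succ_even (m : ℕ) : ∀ a b : L,
    alt a b (m + 1) = alt a b m * (if Even m then a else b) := by
  induction m with
  | zero => intro a b; simp [alt]
  | succ m ih =>
    intro a b
    have e : alt a b (m + 1) = a * alt b a m := rfl
    have e' : alt a b (m + 1 + 1) = a * alt b a (m + 1) := rfl
    rw [e', ih b a, e, mul_assoc]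
    by_cases h : Even m
    · have h1 : ¬ Even (m + 1) := by simp [h, parity_simps]
      rw [if_pos h, if_neg h1]
    · have h1 : Even (m + 1) := by simp [h, parity_simps]
      rw [if_neg h, if_pos h1]

theorem altR_eq (m : ℕ) : ∀ a b : L,
    altR a b m = if Even m then alt b a m else alt a b m := by
  induction m with
  | zero => intro a b; simp [alt, altR]
  | succ m ih =>
    intro a b
    rw [altR, ih b a, alt_succ_even, alt_succ_even]
    by_cases h : Even m
    · have h1 : ¬ Even (m + 1) := by simp [h, parity_simps]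
      simp only [if_pos h, if_neg h1]
    · have h1 : Even (m + 1) := by simp [h, parity_simps]
      simp only [if_neg h, if_pos h1]

theorem altR_comm {a b : L} {m : ℕ} (h : alt a b m = alt b a m) : altR a b m = altR b a m := by
  rw [altR_eq, altR_eq, h]

theorem alt_comm {a b : L} {m : ℕ} (h : altR a b m = altR b a m) : alt a b m = alt b a m := by
  rw [altR_eq, altR_eq] at h
  split_ifs at h
  · exact h.symm
  · exact h

end Alt

section Dih

variable {S : Type*} (M : CoxeterMatrix S)

/-- the roots of a rank two system, in the order of the alternating word `a, b, a, …` -/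
noncomputable def gam : S → S → ℕ → (S →₀ ℝ)
  | a, _, 0 => sr a
  | a, b, k + 1 => sig M a (gam b a k)

theorem gam_eq (k : ℕ) : ∀ a b : S,
    gam M a b k = qs (Real.cos (Real.pi / (M a b : ℝ))) (k + 1) • sr a
      + qs (Real.cos (Real.pi / (M a b : ℝ))) k • sr b := by
  induction k with
  | zero => intro a b; simp [gam, qs]
  | succ k ih =>
    intro a b
    rw [gam, ih b a, M.symmetric b a, add_comm, sig_pair_left]
    simp only [qs]

theorem qs_det (c : ℝ) (n : ℕ) : ∀ i : ℕ,
    qs c (i + 1) * qs c (i + n) - qs c i * qs c (i + n + 1) = qs c n := by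
  intro i
  induction i with
  | zero => simp [qs]
  | succ i ih =>
    rw [← ih, show i + 1 + n = (i + n) + 1 by ring, show i + n + 1 + 1 = (i + n) + 2 by ring]
    simp only [qs]
    ring

theorem qs_pos {m n : ℕ} (hm : 2 ≤ m) (h0 : 0 < n) (h : n < m) :
    0 < qs (Real.cos (Real.pi / (m : ℝ))) n := by
  have h1 := qs_mul_sin (Real.pi / m) n
  have h2 := sin_pi_div_pos hm
  have hm0 : (0 : ℝ) < m := by positivity
  have h3 : 0 < Real.sin (n * (Real.pi / m)) := by
    apply Real.sin_pos_of_pos_of_lt_pi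
    · have : (0 : ℝ) < n := by exact_mod_cast h0
      have := Real.pi_pos
      positivity
    · have h4 : (n : ℝ) < m := by exact_mod_cast h
      rw [← mul_div_assoc, div_lt_iff₀ hm0]
      nlinarith [Real.pi_pos]
  rw [← h1] at h3
  exact (mul_pos_iff_of_pos_right h2).1 h3

theorem qs_refl {m n : ℕ} (hm : 2 ≤ m) (h : n ≤ m) :
    qs (Real.cos (Real.pi / (m : ℝ))) (m - n) = qs (Real.cos (Real.pi / (m : ℝ))) n := by
  have h1 := qs_mul_sin (Real.pi / m) n
  have h1' := qs_mul_sin (Real.pi / m) (m - n)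
  have h2 := sin_pi_div_pos hm
  have hm0 : (0 : ℝ) < m := by positivity
  have h3 : Real.sin (((m - n : ℕ) : ℝ) * (Real.pi / m)) = Real.sin (n * (Real.pi / m)) := by
    rw [Nat.cast_sub h, sub_mul, mul_div_cancel₀ _ hm0.ne', Real.sin_pi_sub]
  rw [h3, ← h1] at h1'
  exact mul_right_cancel₀ h2.ne' h1'

theorem gam_symm {a b : S} (hm : 2 ≤ M a b) {j : ℕ} (hj : j < M a b) :
    gam M b a (M a b - 1 - j) = gam M a b j := by
  rw [gam_eq, gam_eq, M.symmetric b a, add_comm]
  congr 2
  · rw [show M a b - 1 - j = M a b - (j + 1) by omega]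
    exact qs_refl hm (by omega)
  · rw [show M a b - 1 - j + 1 = M a b - j by omega]
    exact qs_refl hm (by omega)

end Dih

section Act

variable {S : Type*} {M : CoxeterMatrix S} {W : Type*} [Group W] (cs : CoxeterSystem M W)
  (X : Set S)

/-- `v` is supported on `X` -/
def InX (v : S →₀ ℝ) : Prop := ∀ b, b ∉ X → v b = 0

/-- `q` is minimal in `q W_X` -/
def Red (q : W) : Prop := ∀ x ∈ X, Pos (rep cs q (sr x))

theorem red_one : Red cs X 1 := fun x _ => by
  rw [rep_one_apply]; exact pos_sr x


theorem rep_apply_eq_sum (q : W) (v : S →₀ ℝ) (b : S) :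
    (rep cs q v) b = v.sum (fun x c => c * (rep cs q (sr x)) b) := by
  conv_lhs => rw [← Finsupp.sum_single v]
  rw [map_finsuppSum, Finsupp.sum_apply]
  apply Finsupp.sum_congr
  intro x _
  have : Finsupp.single x (v x) = (v x) • (sr x : S →₀ ℝ) := by simp
  rw [this, map_smul, Finsupp.smul_apply, smul_eq_mul]

/-- Deodhar's lemma -/
theorem deodhar {q : W} (hq : Red cs X q) {s : S} (h : InX X (rep cs q⁻¹ (sr s))) :
    ∃ x ∈ X, rep cs q⁻¹ (sr s) = sr x := by
  classical
  set β := rep cs q⁻¹ (sr s) with hβ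
  have hr : IsRoot cs β := ⟨q⁻¹, s, rfl⟩
  have hqβ : rep cs q β = sr s := rep_apply_inv_self cs q _
  have hsum : ∀ b, (sr s : S →₀ ℝ) b = β.sum (fun x c => c * (rep cs q (sr x)) b) := by
    intro b
    rw [← hqβ]
    exact rep_apply_eq_sum cs q β b
  have hX : ∀ x ∈ β.support, x ∈ X := by
    intro x hx
    by_contra hn
    exact (Finsupp.mem_support_iff.1 hx) (h x hn)
  have hpos : Pos β := by
    rcases hr.pos_or_neg cs with h1 | h1
    · exact h1
    · exfalso
      have h2 := hsum s
      rw [Finsupp.single_eq_same] at h2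
      have h3 : β.sum (fun x c => c * (rep cs q (sr x)) s) ≤ 0 := by
        apply Finset.sum_nonpos
        intro x hx
        have h4 := h1.2 x
        rw [Finsupp.neg_apply] at h4
        exact mul_nonpos_of_nonpos_of_nonneg (by linarith) ((hq x (hX x hx)).2 s)
      linarith
  obtain ⟨x, hx⟩ : ∃ x, x ∈ β.support := by
    by_contra hn
    push Not at hn
    exact hpos.1 (Finsupp.support_eq_empty.1 (Finset.eq_empty_of_forall_notMem hn))
  refine ⟨x, hX x hx, ?_⟩
  have hxpos : 0 < β x := lt_of_le_of_ne (hpos.2 x) (Ne.symm (Finsupp.mem_support_iff.1 hx))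
  have hb : ∀ b, b ≠ s → (rep cs q (sr x)) b = 0 := by
    intro b hbs
    have h2 := hsum b
    rw [Finsupp.single_eq_of_ne hbs] at h2
    have h3 := (Finset.sum_eq_zero_iff_of_nonneg (s := β.support)
      (f := fun x => β x * (rep cs q (sr x)) b) (by
        intro y hy
        exact mul_nonneg (hpos.2 y) ((hq y (hX y hy)).2 b))).1 h2.symm x hx
    rcases mul_eq_zero.1 h3 with h4 | h4
    · exact absurd h4 hxpos.ne'
    · exact h4
  have hq' : rep cs q (sr x) = ((rep cs q (sr x)) s) • sr s := by
    ext b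
    by_cases hbs : b = s
    · subst hbs; simp
    · rw [hb b hbs, Finsupp.smul_apply, Finsupp.single_eq_of_ne hbs, smul_zero]
  have h5 : IsRoot cs (rep cs q (sr x)) := ⟨q, x, rfl⟩
  have h6 := (isRoot_sr cs s).eq_of_smul_of_pos cs (pos_sr s) (hq' ▸ h5)
    (hq' ▸ hq x (hX x hx))
  rw [← hq'] at h6
  rw [hβ, ← h6, rep_inv_apply_self]

theorem inX_sr {x : S} (hx : x ∈ X) : InX X (sr x) := by
  intro b hb
  rw [Finsupp.single_eq_of_ne]
  rintro rfl
  exact hb hx

theorem InX.add {X : Set S} {v w : S →₀ ℝ} (hv : InX X v) (hw : InX X w) : InX X (v + w) := by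
  intro b hb
  rw [Finsupp.add_apply, hv b hb, hw b hb, add_zero]

theorem InX.smul {X : Set S} {v : S →₀ ℝ} (hv : InX X v) (c : ℝ) : InX X (c • v) := by
  intro b hb
  rw [Finsupp.smul_apply, hv b hb, smul_zero]

theorem InX.sg {X : Set S} {v : S →₀ ℝ} (hv : InX X v) {x : S} (hx : x ∈ X) :
    InX X (sig M x v) := by
  rw [sig_apply, sub_eq_add_neg, ← neg_smul]
  exact hv.add ((inX_sr X hx).smul _)


theorem sr_inj {a b : S} (h : (sr a : S →₀ ℝ) = sr b) : a = b :=
  Finsupp.single_left_injective one_ne_zero h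

variable {X}

theorem red_mul {q : W} (hq : Red cs X q) {s : S} (h : ∀ x ∈ X, rep cs q⁻¹ (sr s) ≠ sr x) :
    Red cs X (cs.simple s * q) := by
  intro x hx
  rw [rep_mul_apply, rep_simple]
  apply pos_sig_of_ne cs ⟨q, x, rfl⟩ (hq x hx)
  intro h1
  apply h x hx
  rw [← h1, rep_inv_apply_self]

/-- if `q⁻¹ α_s = α_x` then `s q = q x` -/
theorem mul_eq {q : W} {s x : S} (h : rep cs q⁻¹ (sr s) = sr x) :
    cs.simple s * q = q * cs.simple x := by
  have h1 : rep cs (q * cs.simple x * q⁻¹) = rep cs (cs.simple s) := by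
    ext1 v
    rw [rep_conj_simple, rep_simple, sig_apply, ← h, rep_apply_inv_self]
  have h2 := rep_injective cs h1
  rw [← h2]
  group

variable {L : Type*} [Group L] (f : X → L)

variable (X L) in
/-- states -/
abbrev St := {q : W // Red cs X q} × L

open Classical in
/-- one step with letters `f x` -/
noncomputable def step (s : S) (z : St cs X L) : St cs X L :=
  if h : ∃ x : X, rep cs z.1.1⁻¹ (sr s) = sr (x : S) then (z.1, f h.choose * z.2)
  else (⟨cs.simple s * z.1.1, red_mul cs z.1.2 (fun x hx he => h ⟨⟨x, hx⟩, he⟩)⟩, z.2)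

theorem step_letter {s : S} {z : St cs X L} {x : X}
    (h : rep cs z.1.1⁻¹ (sr s) = sr (x : S)) : step cs f s z = (z.1, f x * z.2) := by
  have h1 : ∃ x : X, rep cs z.1.1⁻¹ (sr s) = sr (x : S) := ⟨x, h⟩
  rw [step, dif_pos h1]
  have h2 := h.symm.trans h1.choose_spec
  rw [← Subtype.ext (sr_inj h2)]

theorem step_move {s : S} {z : St cs X L}
    (h : ¬ InX X (rep cs z.1.1⁻¹ (sr s))) :
    ∃ hr : Red cs X (cs.simple s * z.1.1), step cs f s z = (⟨cs.simple s * z.1.1, hr⟩, z.2) := by
  have h1 : ¬ ∃ x : X, rep cs z.1.1⁻¹ (sr s) = sr (x : S) := by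
    rintro ⟨x, hx⟩
    apply h
    rw [hx]
    exact inX_sr X x.2
  exact ⟨red_mul cs z.1.2 (fun x hx he => h1 ⟨⟨x, hx⟩, he⟩), by rw [step, dif_neg h1]⟩

theorem step_cases (s : S) (z : St cs X L) :
    (∃ x : X, rep cs z.1.1⁻¹ (sr s) = sr (x : S) ∧ step cs f s z = (z.1, f x * z.2)) ∨
    (¬ InX X (rep cs z.1.1⁻¹ (sr s)) ∧
      (step cs f s z).1.1 = cs.simple s * z.1.1 ∧ (step cs f s z).2 = z.2) := by
  by_cases h : InX X (rep cs z.1.1⁻¹ (sr s))
  · left
    obtain ⟨x, hx, he⟩ := deodhar cs X z.1.2 h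
    exact ⟨⟨x, hx⟩, he, step_letter cs f he⟩
  · right
    obtain ⟨hr, he⟩ := step_move cs f h
    refine ⟨h, ?_, ?_⟩ <;> rw [he]

omit [Group L] in
theorem st_ext {z w : St cs X L} (h1 : z.1.1 = w.1.1) (h2 : z.2 = w.2) : z = w :=
  Prod.ext (Subtype.ext h1) h2

theorem step_step (f' : X → L) (hf : ∀ x, f' x * f x = 1) (s : S) (z : St cs X L) :
    step cs f' s (step cs f s z) = z := by
  rcases step_cases cs f s z with ⟨x, hx, he⟩ | ⟨hn, h1, h2⟩
  · rw [he, step_letter cs f' (z := (z.1, f x * z.2)) (x := x) hx]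
    apply st_ext
    · rfl
    · show f' x * (f x * z.2) = z.2
      rw [← mul_assoc, hf, one_mul]
  · have hn' : ¬ InX X (rep cs (step cs f s z).1.1⁻¹ (sr s)) := by
      rw [h1, mul_inv_rev, cs.inv_simple, rep_mul_apply, rep_simple, sig_apply, bil_sr, gram_self]
      intro h3
      apply hn
      have h4 : (sr s : S →₀ ℝ) - (2 * 1 : ℝ) • sr s = (-1 : ℝ) • sr s := by module
      rw [h4, map_smul] at h3
      have h5 := h3.smul (-1)
      rw [smul_smul] at h5
      simpa using h5
    obtain ⟨hr, he⟩ := step_move cs f' hn'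
    rw [he]
    apply st_ext
    · show cs.simple s * (step cs f s z).1.1 = z.1.1
      rw [h1, cs.simple_mul_simple_cancel_left]
    · exact h2

/-- the permutation of the states attached to a generator -/
noncomputable def perm (s : S) : Equiv.Perm (St cs X L) where
  toFun := step cs f s
  invFun := step cs (fun x => (f x)⁻¹) s
  left_inv := step_step cs f _ (fun _ => inv_mul_cancel _) s
  right_inv := step_step cs _ f (fun _ => mul_inv_cancel _) s

/-- alternate `k` steps, `a` first -/
noncomputable def run : S → S → ℕ → St cs X L → St cs X L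
  | _, _, 0, z => z
  | a, b, k + 1, z => run b a k (step cs f a z)

theorem altR_apply (k : ℕ) : ∀ (a b : S) (z : St cs X L),
    altR (perm cs f a) (perm cs f b) k z = run cs f a b k z := by
  induction k with
  | zero => intro a b z; simp [altR, run]
  | succ k ih =>
    intro a b z
    rw [altR, Equiv.Perm.mul_apply, ih]
    rfl

/-- the element of `W` of an alternating word, first letter `a` on the right -/
def uu (a b : S) (k : ℕ) : W := altR (cs.simple a) (cs.simple b) k

theorem uu_succ (a b : S) (k : ℕ) : uu cs a b (k + 1) = uu cs b a k * cs.simple a := rfl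

theorem rep_gam_succ (q : W) (a b : S) (k : ℕ) :
    rep cs q⁻¹ (gam M a b (k + 1)) = rep cs (cs.simple a * q)⁻¹ (gam M b a k) := by
  rw [mul_inv_rev, cs.inv_simple, rep_mul_apply, rep_simple]
  rfl

theorem run_nolet (k : ℕ) : ∀ (a b : S) (z : St cs X L),
    (∀ j < k, ¬ InX X (rep cs z.1.1⁻¹ (gam M a b j))) →
    (run cs f a b k z).1.1 = uu cs a b k * z.1.1 ∧ (run cs f a b k z).2 = z.2 := by
  induction k with
  | zero => intro a b z _; simp [run, uu, altR]
  | succ k ih =>
    intro a b z h
    obtain ⟨hr, he⟩ := step_move cs f (h 0 (by omega))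
    rw [run, he]
    obtain ⟨h1, h2⟩ := ih b a (⟨cs.simple a * z.1.1, hr⟩, z.2) (by
      intro j hj
      rw [← rep_gam_succ]
      exact h (j + 1) (by omega))
    refine ⟨?_, h2⟩
    rw [h1, uu_succ, mul_assoc]

theorem run_onelet (k : ℕ) : ∀ (a b : S) (z : St cs X L) (j : ℕ), j < k →
    InX X (rep cs z.1.1⁻¹ (gam M a b j)) →
    (∀ i < k, i ≠ j → ¬ InX X (rep cs z.1.1⁻¹ (gam M a b i))) →
    ∃ x : X, rep cs z.1.1⁻¹ (gam M a b j) = sr (x : S) ∧
      (run cs f a b k z).1.1 = uu cs a b k * z.1.1 * cs.simple x ∧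
      (run cs f a b k z).2 = f x * z.2 := by
  induction k with
  | zero => intro a b z j hj; omega
  | succ k ih =>
    intro a b z j hj hin hout
    rcases Nat.eq_zero_or_pos j with rfl | hpos
    · obtain ⟨x, hx, he⟩ := deodhar cs X z.1.2 hin
      refine ⟨⟨x, hx⟩, he, ?_⟩
      have he' : rep cs z.1.1⁻¹ (sr a) = sr ((⟨x, hx⟩ : X) : S) := he
      rw [run, step_letter cs f he']
      have hm := mul_eq cs he
      obtain ⟨h1, h2⟩ := run_nolet cs f k b a (z.1, f ⟨x, hx⟩ * z.2) (by
        intro i hi hc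
        apply hout (i + 1) (by omega) (by omega)
        rw [rep_gam_succ, hm, mul_inv_rev, cs.inv_simple, rep_mul_apply, rep_simple]
        exact InX.sg hc hx)
      refine ⟨?_, h2⟩
      rw [h1, uu_succ, mul_assoc (uu cs b a k), hm, mul_assoc, mul_assoc,
        cs.simple_mul_simple_self, mul_one]
    · obtain ⟨j, rfl⟩ : ∃ i, j = i + 1 := ⟨j - 1, by omega⟩
      obtain ⟨hr, he⟩ := step_move cs f (hout 0 (by omega) (by omega))
      obtain ⟨x, h1, h2, h3⟩ := ih b a (⟨cs.simple a * z.1.1, hr⟩, z.2) j (by omega)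
        (by rw [← rep_gam_succ]; exact hin) (by
          intro i hi hij
          rw [← rep_gam_succ]
          exact hout (i + 1) (by omega) (by omega))
      refine ⟨x, ?_, ?_, ?_⟩
      · rw [rep_gam_succ]; exact h1
      · rw [run, he, h2, uu_succ]
        simp only [mul_assoc]
      · rw [run, he, h3]

theorem run_all (k : ℕ) : ∀ (a b : S) (z : St cs X L) (x y : X),
    rep cs z.1.1⁻¹ (sr a) = sr (x : S) → rep cs z.1.1⁻¹ (sr b) = sr (y : S) →
    run cs f a b k z = (z.1, altR (f x) (f y) k * z.2) := by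
  induction k with
  | zero => intro a b z x y _ _; simp [run, altR]
  | succ k ih =>
    intro a b z x y hx hy
    rw [run, step_letter cs f hx, ih b a (z.1, f x * z.2) y x hy hx, altR, mul_assoc]

theorem two_inX {q : W} {a b : S} (hm : 2 ≤ M a b) {i j : ℕ} (hij : i < j) (hj : j < M a b)
    (h1 : InX X (rep cs q⁻¹ (gam M a b i))) (h2 : InX X (rep cs q⁻¹ (gam M a b j))) :
    InX X (rep cs q⁻¹ (sr a)) ∧ InX X (rep cs q⁻¹ (sr b)) := by
  set c := Real.cos (Real.pi / (M a b : ℝ)) with hc
  obtain ⟨n, rfl⟩ : ∃ n, j = i + n := ⟨j - i, by omega⟩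
  have hn : 0 < qs c n := qs_pos hm (by omega) (by omega)
  have hd := qs_det c n i
  rw [gam_eq, ← hc, map_add, map_smul, map_smul] at h1 h2
  have h3 := (h1.smul (qs c (i + n))).add (h2.smul (- qs c i))
  have h4 := (h1.smul (qs c (i + n + 1))).add (h2.smul (- qs c (i + 1)))
  have key : ∀ A V : S →₀ ℝ, qs c n • A = V → A = (qs c n)⁻¹ • V := by
    intro A V h
    rw [← h, smul_smul, inv_mul_cancel₀ hn.ne', one_smul]
  constructor
  · have h5 := h3.smul (qs c n)⁻¹
    rw [← key (rep cs q⁻¹ (sr a))] at h5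
    · exact h5
    · rw [← hd]; module
  · have h5 := (h4.smul (-1)).smul (qs c n)⁻¹
    rw [← key (rep cs q⁻¹ (sr b))] at h5
    · exact h5
    · rw [← hd]; module

theorem M_eq_of {q : W} {a b x y : S} (h1 : rep cs q⁻¹ (sr a) = sr x)
    (h2 : rep cs q⁻¹ (sr b) = sr y) : M x y = M a b := by
  have h : gram M x y = gram M a b := by
    rw [← bil_sr, ← bil_sr, ← h1, ← h2, bil_rep]
  simp only [gram, neg_inj] at h
  have hpi : ∀ n : ℕ, Real.pi / (n : ℝ) ∈ Set.Icc 0 Real.pi := by
    intro n
    constructor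
    · have := Real.pi_pos; positivity
    · rcases Nat.eq_zero_or_pos n with rfl | hn
      · simp [Real.pi_pos.le]
      · exact div_le_self Real.pi_pos.le (by exact_mod_cast hn)
  have h3 := Real.injOn_cos (hpi _) (hpi _) h
  have hp := Real.pi_pos.ne'
  rw [div_eq_mul_inv, div_eq_mul_inv] at h3
  have h4 := inv_injective (mul_left_cancel₀ hp h3)
  exact_mod_cast h4

theorem uu_comm (a b : S) : uu cs a b (M a b) = uu cs b a (M a b) := by
  apply altR_comm
  have key : ∀ (k : ℕ) (a b : S),
      alt (cs.simple a) (cs.simple b) k = cs.wordProd (alternatingWord (if Even k then a else b)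
        (if Even k then b else a) k) := by
    intro k
    induction k with
    | zero => intro a b; simp [alt, alternatingWord]
    | succ k ih =>
      intro a b
      rw [alt, ih b a, alternatingWord_succ', cs.wordProd_cons]
      by_cases h : Even k
      · have h1 : ¬ Even (k + 1) := by simp [h, parity_simps]
        simp only [if_pos h, if_neg h1]
      · have h1 : Even (k + 1) := by simp [h, parity_simps]
        simp only [if_neg h, if_pos h1]
  have hb := cs.wordProd_braidWord_eq a b
  rw [braidWord, braidWord, M.symmetric b a] at hb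
  rw [key, key]
  by_cases h : Even (M a b)
  · simp only [if_pos h]
    exact hb
  · simp only [if_neg h]
    exact hb.symm

theorem run_comm (hf : ∀ x y : X, alt (f x) (f y) (M x y) = alt (f y) (f x) (M x y))
    (a b : S) (z : St cs X L) : run cs f a b (M a b) z = run cs f b a (M a b) z := by
  rcases eq_or_ne a b with rfl | hab
  · rfl
  rcases Nat.eq_zero_or_pos (M a b) with h0 | h0
  · rw [h0]; rfl
  have hm : 2 ≤ M a b := by
    have := M.off_diagonal a b hab
    omega
  by_cases hall : InX X (rep cs z.1.1⁻¹ (sr a)) ∧ InX X (rep cs z.1.1⁻¹ (sr b))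
  · obtain ⟨x, hx, hxa⟩ := deodhar cs X z.1.2 hall.1
    obtain ⟨y, hy, hyb⟩ := deodhar cs X z.1.2 hall.2
    rw [run_all cs f _ a b z ⟨x, hx⟩ ⟨y, hy⟩ hxa hyb,
      run_all cs f _ b a z ⟨y, hy⟩ ⟨x, hx⟩ hyb hxa]
    have h1 := hf ⟨x, hx⟩ ⟨y, hy⟩
    rw [M_eq_of cs hxa hyb] at h1
    rw [altR_comm h1]
  · have hone : ∀ i < M a b, ∀ j < M a b, InX X (rep cs z.1.1⁻¹ (gam M a b i)) →
        InX X (rep cs z.1.1⁻¹ (gam M a b j)) → i = j := by
      intro i hi j hj h1 h2
      by_contra hne
      rcases lt_or_gt_of_ne hne with h | h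
      · exact hall (two_inX cs hm h hj h1 h2)
      · exact hall (two_inX cs hm h hi h2 h1)
    by_cases hex : ∃ j < M a b, InX X (rep cs z.1.1⁻¹ (gam M a b j))
    · obtain ⟨j, hj, hin⟩ := hex
      obtain ⟨x, h1, h2, h3⟩ := run_onelet cs f (M a b) a b z j hj hin (by
        intro i hi hij hc
        exact hij (hone i hi j hj hc hin))
      obtain ⟨y, h1', h2', h3'⟩ := run_onelet cs f (M a b) b a z (M a b - 1 - j) (by omega)
        (by rw [gam_symm M hm hj]; exact hin) (by
          intro i hi hij hc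
          have hi' : i = M a b - 1 - (M a b - 1 - i) := by omega
          rw [hi', gam_symm M hm (by omega)] at hc
          have := hone _ (by omega) j hj hc hin
          omega)
      rw [gam_symm M hm hj, h1] at h1'
      obtain rfl : x = y := Subtype.ext (sr_inj h1')
      apply st_ext
      · rw [h2, h2', uu_comm]
      · rw [h3, h3']
    · push Not at hex
      obtain ⟨h1, h2⟩ := run_nolet cs f (M a b) a b z hex
      obtain ⟨h1', h2'⟩ := run_nolet cs f (M a b) b a z (by
        intro i hi
        have hi' : i = M a b - 1 - (M a b - 1 - i) := by omega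
        rw [hi', gam_symm M hm (by omega)]
        exact hex _ (by omega))
      apply st_ext
      · rw [h1, h1', uu_comm]
      · rw [h2, h2']

/-- the action of the Artin group on the states -/
noncomputable def act (hf : ∀ x y : X, alt (f x) (f y) (M x y) = alt (f y) (f x) (M x y)) :
    ArtinGroup M →* Equiv.Perm (St cs X L) :=
  toHom M (perm cs f) (by
    intro s t
    apply alt_comm
    ext1 z
    rw [altR_apply, altR_apply]
    exact run_comm cs f hf s t z)

variable (hf : ∀ x y : X, alt (f x) (f y) (M x y) = alt (f y) (f x) (M x y))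

theorem act_gen (s : S) (z : St cs X L) : act cs f hf (artinGen M s) z = step cs f s z := by
  rw [act, toHom_gen]; rfl

theorem act_gen_inv (s : S) (z : St cs X L) : act cs f hf (artinGen M s)⁻¹ z
    = step cs (fun x => (f x)⁻¹) s z := by
  rw [map_inv, act, toHom_gen]; rfl

/-- induction principle -/
theorem artin_induction {p : ArtinGroup M → Prop} (h1 : p 1)
    (hs : ∀ s g, p g → p (artinGen M s * g)) (hs' : ∀ s g, p g → p ((artinGen M s)⁻¹ * g))
    (g : ArtinGroup M) : p g := by
  have hg : g ∈ Subgroup.closure (Set.range (artinGen M)) := by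
    have : Set.range (artinGen M) = Set.range (PresentedGroup.of (rels := artinRelators M)) := rfl
    rw [this, PresentedGroup.closure_range_of]
    trivial
  induction hg using Subgroup.closure_induction_left with
  | one => exact h1
  | mul_left x hx y _ ih =>
    obtain ⟨s, rfl⟩ := hx
    exact hs s y ih
  | inv_mul_cancel x hx y _ ih =>
    obtain ⟨s, rfl⟩ := hx
    exact hs' s y ih

theorem step_right (s : S) (q : {q : W // Red cs X q}) (a b : L) :
    step cs f s (q, a * b) = ((step cs f s (q, a)).1, (step cs f s (q, a)).2 * b) := by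
  rcases step_cases cs f s (q, a) with ⟨x, hx, he⟩ | ⟨hn, h1, h2⟩
  · rw [he, step_letter cs f (z := (q, a * b)) (x := x) hx]
    simp only [mul_assoc]
  · obtain ⟨hr, he⟩ := step_move cs f (z := (q, a * b)) hn
    obtain ⟨hr', he'⟩ := step_move cs f (z := (q, a)) hn
    rw [he, he']

/-- right equivariance of the action -/
theorem act_right (g : ArtinGroup M) (q : {q : W // Red cs X q}) (a b : L) :
    act cs f hf g (q, a * b) = ((act cs f hf g (q, a)).1, (act cs f hf g (q, a)).2 * b) := by
  induction g using artin_induction with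
  | h1 => simp
  | hs s g ih =>
    rw [map_mul, Equiv.Perm.mul_apply, ih, Equiv.Perm.mul_apply, act_gen, act_gen, step_right]
  | hs' s g ih =>
    rw [map_mul, Equiv.Perm.mul_apply, ih, Equiv.Perm.mul_apply, act_gen_inv, act_gen_inv,
      step_right]

/-- the base point of `W^X` -/
def pt : {q : W // Red cs X q} := ⟨1, red_one cs X⟩


theorem act_gen_pt (x : X) (a : L) :
    act cs f hf (artinGen M x) (pt cs, a) = (pt cs, f x * a) := by
  rw [act_gen]
  apply step_letter
  show rep cs (1 : W)⁻¹ (sr (x : S)) = _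
  rw [inv_one, rep_one_apply]

theorem act_gen_inv_pt (x : X) (a : L) :
    act cs f hf (artinGen M x)⁻¹ (pt cs, a) = (pt cs, (f x)⁻¹ * a) := by
  rw [act_gen_inv]
  apply step_letter cs (fun x => (f x)⁻¹)
  show rep cs (1 : W)⁻¹ (sr (x : S)) = _
  rw [inv_one, rep_one_apply]

end Act

section Main

variable {S : Type*} (M : CoxeterMatrix S)

/-- the restricted matrix -/
def res (X : Set S) : CoxeterMatrix X where
  M := Matrix.of fun x y => M x y
  isSymm := by
    ext x y
    exact M.symmetric _ _
  diagonal := fun x => M.diagonal x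
  off_diagonal := fun x y h => M.off_diagonal x y (fun h' => h (Subtype.ext h'))

@[simp] theorem res_apply (X : Set S) (x y : X) : res M X x y = M x y := rfl

/-- the map `A_X → A_S` -/
noncomputable def incl (X : Set S) : ArtinGroup (res M X) →* ArtinGroup M :=
  toHom (res M X) (fun x => artinGen M (x : S)) (fun x y => alt_gen M x y)

@[simp] theorem incl_gen (X : Set S) (x : X) : incl M X (artinGen (res M X) x) = artinGen M x :=
  toHom_gen _ _ _ _

theorem range_incl (X : Set S) : (incl M X).range = stdParabolic M X := by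
  have h1 : (⊤ : Subgroup (ArtinGroup (res M X))) =
      Subgroup.closure (Set.range (artinGen (res M X))) := by
    have : Set.range (artinGen (res M X)) =
      Set.range (PresentedGroup.of (rels := artinRelators (res M X))) := rfl
    rw [this, PresentedGroup.closure_range_of]
  rw [MonoidHom.range_eq_map, h1, MonoidHom.map_closure, stdParabolic]
  congr 1
  ext g
  constructor
  · rintro ⟨_, ⟨x, rfl⟩, rfl⟩
    exact ⟨x, x.2, (incl_gen M X x).symm⟩
  · rintro ⟨x, hx, rfl⟩
    exact ⟨_, ⟨⟨x, hx⟩, rfl⟩, incl_gen M X ⟨x, hx⟩⟩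

theorem map_incl_std (X : Set S) (Z : Set X) :
    (stdParabolic (res M X) Z).map (incl M X) = stdParabolic M (Subtype.val '' Z) := by
  rw [stdParabolic, MonoidHom.map_closure, stdParabolic]
  congr 1
  ext g
  constructor
  · rintro ⟨_, ⟨x, hx, rfl⟩, rfl⟩
    exact ⟨x, ⟨x, hx, rfl⟩, (incl_gen M X x).symm⟩
  · rintro ⟨_, ⟨x, hx, rfl⟩, rfl⟩
    exact ⟨_, ⟨x, hx, rfl⟩, incl_gen M X x⟩

theorem braidX (X : Set S) (x y : X) :
    alt (artinGen (res M X) x) (artinGen (res M X) y) (M x y)
      = alt (artinGen (res M X) y) (artinGen (res M X) x) (M x y) := alt_gen (res M X) x y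

/-- the action of `A_S` on `W^X × A_X` -/
noncomputable abbrev actX (X : Set S) :=
  act M.toCoxeterSystem (artinGen (res M X)) (braidX M X)

/-- the retraction onto the abstract group `A_X` -/
noncomputable def rho (X : Set S) (g : ArtinGroup M) : ArtinGroup (res M X) :=
  (actX M X g (pt M.toCoxeterSystem, 1)).2

theorem act_incl (X : Set S) (h a : ArtinGroup (res M X)) :
    actX M X (incl M X h) (pt M.toCoxeterSystem, a) = (pt M.toCoxeterSystem, h * a) := by
  induction h using artin_induction with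
  | h1 => simp
  | hs s g ih =>
    rw [map_mul, map_mul, Equiv.Perm.mul_apply, ih, incl_gen, act_gen_pt, mul_assoc]
  | hs' s g ih =>
    rw [map_mul, map_mul, Equiv.Perm.mul_apply, ih, map_inv, incl_gen, act_gen_inv_pt, mul_assoc]

theorem rho_mul_incl (X : Set S) (g : ArtinGroup M) (h : ArtinGroup (res M X)) :
    rho M X (g * incl M X h) = rho M X g * h := by
  rw [rho, map_mul, Equiv.Perm.mul_apply, act_incl]
  have := act_right M.toCoxeterSystem (artinGen (res M X)) (braidX M X) g
    (pt M.toCoxeterSystem) 1 h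
  rw [one_mul] at this
  rw [mul_one, this]
  rfl

theorem rho_one (X : Set S) : rho M X 1 = 1 := by
  rw [rho, map_one]; rfl

theorem rho_incl (X : Set S) (h : ArtinGroup (res M X)) : rho M X (incl M X h) = h := by
  have := rho_mul_incl M X 1 h
  rwa [rho_one, one_mul, one_mul] at this

/-- **van der Lek**: `A_X → A_S` is injective -/
theorem incl_injective (X : Set S) : Function.Injective (incl M X) :=
  Function.LeftInverse.injective (rho_incl M X)



section Inter

variable {W : Type*} [Group W] {M} (cs : CoxeterSystem M W) {X : Set S}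
  {L : Type*} [Group L] (f : X → L)

theorem step_Y (Y : Set S) {H : Subgroup L} (hH : ∀ x : X, (x : S) ∈ Y → f x ∈ H) {s : S}
    (hs : s ∈ Y) {z : St cs X L} (hz : ∀ v, InX Y v → InX Y (rep cs z.1.1⁻¹ v)) (hz2 : z.2 ∈ H) :
    (∀ v, InX Y v → InX Y (rep cs (step cs f s z).1.1⁻¹ v)) ∧ (step cs f s z).2 ∈ H := by
  rcases step_cases cs f s z with ⟨x, hx, he⟩ | ⟨hn, h1, h2⟩
  · rw [he]
    refine ⟨hz, H.mul_mem (hH x ?_) hz2⟩
    have h3 := hz _ (inX_sr Y hs)
    rw [hx] at h3
    by_contra hn
    have := h3 x hn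
    simp at this
  · rw [h2]
    refine ⟨?_, hz2⟩
    intro v hv
    rw [h1, mul_inv_rev, cs.inv_simple, rep_mul_apply, rep_simple]
    exact hz _ (hv.sg hs)

end Inter

theorem rho_mem (X Y : Set S) {g : ArtinGroup M} (hg : g ∈ stdParabolic M Y) :
    rho M X g ∈ stdParabolic (res M X) {x | (x : S) ∈ Y} := by
  set H := stdParabolic (res M X) {x | (x : S) ∈ Y} with hH
  have hH1 : ∀ x : X, (x : S) ∈ Y → artinGen (res M X) x ∈ H := fun x hx =>
    Subgroup.subset_closure ⟨x, hx, rfl⟩
  suffices h : (∀ v, InX Y v → InX Y (rep M.toCoxeterSystem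
      (actX M X g (pt M.toCoxeterSystem, 1)).1.1⁻¹ v)) ∧
      rho M X g ∈ H from h.2
  rw [stdParabolic] at hg
  induction hg using Subgroup.closure_induction_left with
  | one =>
    refine ⟨?_, by rw [rho_one]; exact H.one_mem⟩
    intro v hv
    rw [map_one]
    show InX Y (rep M.toCoxeterSystem (1 : M.Group)⁻¹ v)
    rwa [inv_one, rep_one_apply]
  | mul_left x hx y _ ih =>
    obtain ⟨s, hs, rfl⟩ := hx
    rw [rho, map_mul, Equiv.Perm.mul_apply, act_gen]
    exact step_Y M.toCoxeterSystem _ Y hH1 hs ih.1 ih.2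
  | inv_mul_cancel x hx y _ ih =>
    obtain ⟨s, hs, rfl⟩ := hx
    rw [rho, map_mul, Equiv.Perm.mul_apply, act_gen_inv]
    exact step_Y M.toCoxeterSystem _ Y (fun x hx => H.inv_mem (hH1 x hx)) hs ih.1 ih.2

theorem std_mono {X Y : Set S} (h : X ⊆ Y) : stdParabolic M X ≤ stdParabolic M Y :=
  Subgroup.closure_mono (Set.image_mono h)

/-- **van der Lek**: `A_X ⊓ A_Y = A_{X ∩ Y}` -/
theorem std_inf (X Y : Set S) :
    stdParabolic M X ⊓ stdParabolic M Y = stdParabolic M (X ∩ Y) := by
  apply le_antisymm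
  · rintro g ⟨h1, h2⟩
    rw [SetLike.mem_coe, ← range_incl] at h1
    obtain ⟨h, rfl⟩ := h1
    have h3 := rho_mem M X Y h2
    rw [rho_incl] at h3
    have h4 := Subgroup.mem_map_of_mem (incl M X) h3
    rw [map_incl_std] at h4
    refine std_mono M ?_ h4
    rintro _ ⟨x, hx, rfl⟩
    exact ⟨x.2, hx⟩
  · exact le_inf (std_mono M Set.inter_subset_left) (std_mono M Set.inter_subset_right)

end Main

end Crest.Agent.R175.VdL_527
private theorem rz_3c80f31c1c : type_of% @_root_.Crest.Agent.R175.VdL_527.altR.eq_def := @_root_.Crest.Agent.R175.VdL_527.altR.eq_def -- L23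
private theorem rz_af8fe0e4c6 : type_of% @_root_.Crest.Agent.R175.VdL_527.altR.eq_1 := @_root_.Crest.Agent.R175.VdL_527.altR.eq_1 -- L23
private theorem rz_8005356114 : type_of% @_root_.Crest.Agent.R175.VdL_527.gam.eq_def := @_root_.Crest.Agent.R175.VdL_527.gam.eq_def -- L71
private theorem rz_a5aaf33509 : type_of% @_root_.Crest.Agent.R175.VdL_527.gam.eq_1 := @_root_.Crest.Agent.R175.VdL_527.gam.eq_1 -- L71
private theorem rz_3ee03ecbb8 : type_of% @_root_.Crest.Agent.R175.VdL_527.run.eq_def := @_root_.Crest.Agent.R175.VdL_527.run.eq_def -- L341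
private theorem rz_4fa96a3239 : type_of% @_root_.Crest.Agent.R175.VdL_527.run.eq_1 := @_root_.Crest.Agent.R175.VdL_527.run.eq_1 -- L341
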