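import Crest.Agent.R175.PTA_534
import Crest.Agent.R175.Unf2_109
import Crest.Agent.R175.ResI_663
import Crest.Agent.R175.VdL_527

/-!
# Row 175: the multigraph of the unfolding on `S × J Λ`

`UG M Λ : MG (S × J Λ)`, edges `a -> b`: colours `c : Fin 2` with `nb Λ (M a.1 b.1) a.2 b.2` and
(`c = 0` or label `∞`).  `card_UG`, `UG_comap` (restriction to a subset of `S` is definitional).
-/

set_option autoImplicit false
set_option linter.unusedSectionVars false
set_option linter.unusedVariables false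

open scoped Classical

namespace Crest.Agent.R175.UG_27

open Crest.Agent.R175.PTA Crest.Agent.R175.Unf_109 Crest.Agent.R175.Pos_418

universe u

variable {S : Type u}

/-- the adjacency condition of colour `c` -/
def adjc (M : CoxeterMatrix S) (Λ : Finset ℕ) (c : Fin 2) (a b : S × J Λ) : Prop :=
  nb Λ (M a.1 b.1) a.2 b.2 ∧ (c = 0 ∨ M a.1 b.1 = 0)

theorem adjc.symm {M : CoxeterMatrix S} {Λ : Finset ℕ} {c : Fin 2} {a b : S × J Λ}
    (h : adjc M Λ c a b) : adjc M Λ c b a := by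
  have e : M b.1 a.1 = M a.1 b.1 := M.symmetric _ _
  refine ⟨?_, ?_⟩
  · rw [e]; exact h.1.symm
  · rw [e]; exact h.2

theorem not_nb_one {Λ : Finset ℕ} (i j : J Λ) : ¬ nb Λ 1 i j := by
  rintro (⟨h, -, -⟩ | ⟨-, h, -⟩)
  · exact (i ⟨1, h⟩).elim0
  · omega

theorem not_adjc_self {M : CoxeterMatrix S} {Λ : Finset ℕ} {c : Fin 2} {a b : S × J Λ}
    (h : a.1 = b.1) : ¬ adjc M Λ c a b := by
  intro h'
  have := h'.1
  rw [h, M.diagonal] at this
  exact not_nb_one _ _ this

/-- the edges -/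
def UE (M : CoxeterMatrix S) (Λ : Finset ℕ) (a b : S × J Λ) : Type := {c : Fin 2 // adjc M Λ c a b}

/-- **the multigraph of the unfolding** -/
noncomputable def UG (M : CoxeterMatrix S) (Λ : Finset ℕ) : MG (S × J Λ) where
  E := UE M Λ
  fin a b := inferInstanceAs (Fintype {c : Fin 2 // adjc M Λ c a b})
  rev e := ⟨e.1, e.2.symm⟩
  rev_rev e := rfl
  irr a := ⟨fun e => not_adjc_self rfl e.2⟩

variable {M : CoxeterMatrix S} {Λ : Finset ℕ}

/-- colour of an edge -/
def col {a b : S × J Λ} (e : (UG M Λ).E a b) : Fin 2 := e.1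

theorem col_adj {a b : S × J Λ} (e : (UG M Λ).E a b) : adjc M Λ (col e) a b := e.2

theorem col_inj {a b : S × J Λ} {e f : (UG M Λ).E a b} (h : col e = col f) : e = f :=
  Subtype.ext h

@[simp] theorem col_rev {a b : S × J Λ} (e : (UG M Λ).E a b) : col ((UG M Λ).rev e) = col e := rfl

/-- the edge of colour `c` -/
def mkE {c : Fin 2} {a b : S × J Λ} (h : adjc M Λ c a b) : (UG M Λ).E a b := ⟨c, h⟩

@[simp] theorem col_mkE {c : Fin 2} {a b : S × J Λ} (h : adjc M Λ c a b) : col (mkE h) = c := rfl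

theorem nb_of_edge {a b : S × J Λ} (e : (UG M Λ).E a b) : nb Λ (M a.1 b.1) a.2 b.2 := e.2.1

theorem ne_of_edge {a b : S × J Λ} (e : (UG M Λ).E a b) : a.1 ≠ b.1 :=
  fun h => not_adjc_self h e.2

/-- sums over edges -/
theorem sum_edge {N : Type*} [AddCommMonoid N] (a b : S × J Λ) (f : (UG M Λ).E a b → N) :
    ∑ e, f e = ∑ c : Fin 2, if h : adjc M Λ c a b then f (mkE h) else 0 := by
  have h1 := Finset.sum_subtype (F := (UG M Λ).fin a b)
    (Finset.univ.filter fun c : Fin 2 => adjc M Λ c a b)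
    (p := fun c => adjc M Λ c a b) (by simp)
    (fun c => if h : adjc M Λ c a b then f (mkE h) else 0)
  rw [Finset.sum_filter] at h1
  have h2 : (∑ c : Fin 2, if h : adjc M Λ c a b then f (mkE h) else 0)
      = ∑ c : Fin 2, if adjc M Λ c a b then (if h : adjc M Λ c a b then f (mkE h) else 0) else 0 := by
    refine Finset.sum_congr rfl fun c _ => ?_
    by_cases h : adjc M Λ c a b
    · rw [if_pos h]
    · rw [if_neg h, dif_neg h]
  rw [h2, h1]
  refine Finset.sum_congr rfl fun e _ => ?_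
  rw [dif_pos e.2]
  rfl

theorem card_UG (a b : S × J Λ) : Fintype.card ((UG M Λ).E a b)
    = if nb Λ (M a.1 b.1) a.2 b.2 then (if M a.1 b.1 = 0 then 2 else 1) else 0 := by
  have h := sum_edge (M := M) (Λ := Λ) a b (fun _ => (1 : ℕ))
  rw [Finset.sum_const, Finset.card_univ, smul_eq_mul, mul_one] at h
  rw [h, Fin.sum_univ_two]
  by_cases h1 : nb Λ (M a.1 b.1) a.2 b.2
  · by_cases h2 : M a.1 b.1 = 0
    · rw [dif_pos ⟨h1, Or.inl rfl⟩, dif_pos ⟨h1, Or.inr h2⟩, if_pos h1, if_pos h2]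
    · rw [dif_pos ⟨h1, Or.inl rfl⟩, dif_neg (fun h => h.2.elim (by decide) h2), if_pos h1,
        if_neg h2, add_zero]
  · rw [dif_neg (fun h => h1 h.1), dif_neg (fun h => h1 h.1), if_neg h1, add_zero]

/-- multiplicity = 109's `mu` -/
theorem card_UG_real (a b : S × J Λ) :
    (Fintype.card ((UG M Λ).E a b) : ℝ) = mu Λ (M a.1 b.1) a.2 b.2 := by
  rw [card_UG]
  unfold mu
  split_ifs <;> norm_num

/-- in terms of the unfolded Coxeter matrix -/
theorem card_UG_mu {a b : S × J Λ} (h : a.1 ≠ b.1) :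
    (Fintype.card ((UG M Λ).E a b) = 0 ∧ Mu M Λ a b = 2) ∨
    (Fintype.card ((UG M Λ).E a b) = 1 ∧ Mu M Λ a b = 3) ∨
    (Fintype.card ((UG M Λ).E a b) = 2 ∧ Mu M Λ a b = 0) := by
  rw [card_UG, mu_apply, muM, if_neg h]
  split_ifs <;> simp

theorem isEmpty_fibre {a b : S × J Λ} (h : a.1 = b.1) : IsEmpty ((UG M Λ).E a b) :=
  ⟨fun e => ne_of_edge e h⟩


end Crest.Agent.R175.UG_27
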