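import Mathlib
import Crest.Agent.R175.Unf_109
import Crest.Agent.R175.Fm4_27
import Crest.Agent.R175.UG_27

-- ▼ part R175/Fm1_27
section

/-!
# Row 175, block F_m, part 1: quantum integers at a root of unity (real form)

`q m i = sin (i π / m) / sin (π / m)`, `i = 0 .. m`.
-/

namespace Crest.Agent.R175.Fm1_27

open Real

/-- quantum integer `[i]` at level `m` -/
noncomputable def q (m i : ℕ) : ℝ := Real.sin (i * (π / m)) / Real.sin (π / m)

theorem sin_pos_of {m i : ℕ} (hi : 0 < i) (him : i < m) : 0 < Real.sin (i * (π / m)) := by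
  have hm : (0 : ℝ) < m := by exact_mod_cast (lt_trans hi him)
  have hi' : (0 : ℝ) < i := by exact_mod_cast hi
  have him' : (i : ℝ) < m := by exact_mod_cast him
  apply Real.sin_pos_of_pos_of_lt_pi
  · positivity
  · have : (i : ℝ) * (π / m) = (i / m) * π := by ring
    rw [this]
    have h1 : (i : ℝ) / m < 1 := (div_lt_one hm).2 him'
    nlinarith [Real.pi_pos]

theorem sin_one_pos {m : ℕ} (hm : 2 ≤ m) : 0 < Real.sin (π / m) := by
  have := sin_pos_of (m := m) (i := 1) one_pos (by omega)
  simpa using this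

theorem q_zero (m : ℕ) : q m 0 = 0 := by simp [q]


theorem q_self {m : ℕ} (hm : 2 ≤ m) : q m m = 0 := by
  have hm0 : (m : ℝ) ≠ 0 := by positivity
  have : (m : ℝ) * (π / m) = π := by field_simp
  simp [q, this]

theorem q_pos {m i : ℕ} (hi : 0 < i) (him : i < m) : 0 < q m i :=
  div_pos (sin_pos_of hi him) (sin_one_pos (by omega))

theorem q_ne_zero {m i : ℕ} (hi : 0 < i) (him : i < m) : q m i ≠ 0 := (q_pos hi him).ne'

theorem q_nonneg {m i : ℕ} (him : i ≤ m) : 0 ≤ q m i := by
  rcases Nat.eq_zero_or_pos i with rfl | hi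
  · simp [q_zero]
  · rcases him.lt_or_eq with h | rfl
    · exact (q_pos hi h).le
    · rcases Nat.lt_or_ge i 2 with h2 | h2
      · have : i = 1 := by omega
        subst this
        simp [q]
      · exact (q_self h2).ge

/-- `[i+1]^2 = [i][i+2] + 1` -/
theorem q_sq {m : ℕ} (hm : 2 ≤ m) (i : ℕ) : q m (i + 1) ^ 2 = q m i * q m (i + 2) + 1 := by
  have h0 := (sin_one_pos hm).ne'
  unfold q
  set a := π / (m : ℝ) with ha
  have e1 : Real.sin (((i + 1 : ℕ) : ℝ) * a) = Real.sin ((i : ℝ) * a + a) := by
    congr 1; push_cast; ring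
  have e2 : Real.sin (((i + 2 : ℕ) : ℝ) * a) = Real.sin (((i : ℝ) * a + a) + a) := by
    congr 1; push_cast; ring
  have e0 : Real.sin ((i : ℝ) * a) = Real.sin (((i : ℝ) * a + a) - a) := by
    congr 1; ring
  rw [e1, e2, e0]
  generalize (i : ℝ) * a + a = b
  rw [Real.sin_add b a, Real.sin_sub b a]
  field_simp
  have h1 := Real.sin_sq_add_cos_sq a
  have h2 := Real.sin_sq_add_cos_sq b
  nlinarith [h1, h2]




end Crest.Agent.R175.Fm1_27
end

-- ▼ part R175/Fm2_27
section

/-!
# Row 175, block F_m, part 2: the connection on the path graph `A_{m-1}`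

Vertices `1 .. m-1`; `nbr i j : |i - j| = 1`.
`chi m i i' j j'` is the coefficient of the arrow `i' -> j'` in `F (i -> j)`.
-/

namespace Crest.Agent.R175.Fm2_27

open Crest.Agent.R175.Fm1_27

/-- adjacency of natural numbers -/
def nbr (i j : ℕ) : Prop := i + 1 = j ∨ j + 1 = i

instance (i j : ℕ) : Decidable (nbr i j) := by unfold nbr; infer_instance

theorem nbr_comm {i j : ℕ} : nbr i j ↔ nbr j i := by unfold nbr; tauto

theorem nbr_symm {i j : ℕ} (h : nbr i j) : nbr j i := nbr_comm.1 h

/-- coefficient of `i' -> j'` in `F (i -> j)` -/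
noncomputable def chi (m i i' j j' : ℕ) : ℝ :=
  if i' = j then (if j' = i then (-1) ^ (min i j) / q m i else 1)
  else (if j' = i then q m j / q m i else 0)

/-- sum over the neighbours inside `1..m-1` -/
theorem sum_nbr {M : Type*} [AddCommMonoid M] {m i : ℕ} (hi : 0 < i) (him : i < m)
    (f : ℕ → M) :
    (∑ j ∈ Finset.Ioo 0 m, if nbr i j then f j else 0)
      = (if i + 1 < m then f (i + 1) else 0) + (if 1 < i then f (i - 1) else 0) := by
  rw [← Finset.sum_filter]
  by_cases h1 : i + 1 < m
  · by_cases h2 : 1 < i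
    · have : Finset.filter (fun j => nbr i j) (Finset.Ioo 0 m) = {i + 1, i - 1} := by
        ext j
        simp only [Finset.mem_filter, Finset.mem_Ioo, Finset.mem_insert, Finset.mem_singleton]
        unfold nbr; omega
      rw [this, Finset.sum_pair (by omega)]
      simp [h1, h2]
    · have : Finset.filter (fun j => nbr i j) (Finset.Ioo 0 m) = {i + 1} := by
        ext j
        simp only [Finset.mem_filter, Finset.mem_Ioo, Finset.mem_singleton]
        unfold nbr; omega
      rw [this, Finset.sum_singleton]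
      simp [h1, h2]
  · by_cases h2 : 1 < i
    · have : Finset.filter (fun j => nbr i j) (Finset.Ioo 0 m) = {i - 1} := by
        ext j
        simp only [Finset.mem_filter, Finset.mem_Ioo, Finset.mem_singleton]
        unfold nbr; omega
      rw [this, Finset.sum_singleton]
      simp [h1, h2]
    · have : Finset.filter (fun j => nbr i j) (Finset.Ioo 0 m) = ∅ := by
        ext j
        simp only [Finset.mem_filter, Finset.mem_Ioo, Finset.notMem_empty, iff_false]
        unfold nbr; omega
      rw [this, Finset.sum_empty]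
      simp [h1, h2]

/-- **(★)** backtracking relation for `F`. -/
theorem chi_back {m i i' i2 j : ℕ} (hm : 2 ≤ m)
    (hi : 0 < i) (him : i < m) (hi' : 0 < i') (him' : i' < m)
    (hi2 : 0 < i2) (him2 : i2 < m) (hj : 0 < j) (hjm : j < m)
    (h1 : nbr i i') (h2 : nbr i2 i') (h3 : nbr i j) (h4 : nbr i2 j) :
    (∑ j' ∈ Finset.Ioo 0 m, if nbr i' j' then
        (if nbr j j' then q m j' * (chi m i i' j j' * chi m j j' i2 i') else 0) else 0)
      = if i = i2 then q m j else 0 := by
  rw [sum_nbr hi' him']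
  have qi := q_ne_zero hi him
  have qj := q_ne_zero hj hjm
  have qi' := q_ne_zero hi' him'
  -- cases on the position of `j` relative to `i'`
  have hcase : j = i' ∨ (j ≠ i' ∧ i = i2) := by
    unfold nbr at *; omega
  rcases hcase with rfl | ⟨hne, rfl⟩
  · -- `j = i'`
    have e1 : nbr j (j + 1) := Or.inl rfl
    have e3 : 1 < j → nbr j (j - 1) := fun h => Or.inr (by omega)
    have hA := q_sq hm (j - 1)
    rw [show j - 1 + 1 = j by omega, show j - 1 + 2 = j + 1 by omega] at hA
    -- the term `j' = j+1`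
    have T1 : (if j + 1 < m then (if nbr j (j + 1) then
        q m (j + 1) * (chi m i j j (j + 1) * chi m j (j + 1) i2 j) else 0) else 0)
        = q m (j + 1) * (chi m i j j (j + 1) * chi m j (j + 1) i2 j) := by
      by_cases h : j + 1 < m
      · simp [h, e1]
      · have : j + 1 = m := by omega
        rw [if_neg h, this, q_self hm]; ring
    have T2 : (if 1 < j then (if nbr j (j - 1) then
        q m (j - 1) * (chi m i j j (j - 1) * chi m j (j - 1) i2 j) else 0) else 0)
        = q m (j - 1) * (chi m i j j (j - 1) * chi m j (j - 1) i2 j) := by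
      by_cases h : 1 < j
      · simp [h, e3 h]
      · have : j - 1 = 0 := by omega
        rw [if_neg h, this, q_zero]; ring
    rw [T1, T2]
    have hp : ((-1 : ℝ)) ^ (j - 1) * (-1) ^ (j - 1) = 1 := by
      rw [← mul_pow]; norm_num
    have hp2 : ((-1 : ℝ)) ^ j * (-1) ^ j = 1 := by
      rw [← mul_pow]; norm_num
    have hp3 : ((-1 : ℝ)) ^ j = - (-1) ^ (j - 1) := by
      conv_lhs => rw [show j = (j - 1) + 1 by omega]
      rw [pow_succ]; ring
    rcases h3 with h3 | h3 <;> rcases h4 with h4 | h4
    · -- i = j - 1, i2 = j - 1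
      have a1 : i = j - 1 := by omega
      have a2 : i2 = j - 1 := by omega
      subst a1; subst a2
      have hj1 : j + 1 ≠ j - 1 := by omega
      have hj2 : j - 1 + 1 = j := by omega
      have m1 : min (j - 1) j = j - 1 := by omega
      have m2 : min j (j - 1) = j - 1 := by omega
      simp only [chi, if_true, if_neg hj1, m1, m2]
      field_simp
      have : ((-1 : ℝ)) ^ (j - 1) * (-1) ^ (j - 1) = 1 := hp
      nlinarith [this, hA]
    · -- i = j - 1, i2 = j + 1
      have a1 : i = j - 1 := by omega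
      have a2 : i2 = j + 1 := by omega
      subst a1; subst a2
      have hj1 : j + 1 ≠ j - 1 := by omega
      have hj1' : j - 1 ≠ j + 1 := by omega
      have m1 : min (j - 1) j = j - 1 := by omega
      have m3 : min j (j + 1) = j := by omega
      simp only [chi, if_true, if_neg hj1, if_neg hj1', m1, m3]
      rw [hp3]
      field_simp
      ring
    · -- i = j + 1, i2 = j - 1
      have a1 : i = j + 1 := by omega
      have a2 : i2 = j - 1 := by omega
      subst a1; subst a2
      have hj1 : j + 1 ≠ j - 1 := by omega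
      have hj1' : j - 1 ≠ j + 1 := by omega
      have m1 : min (j + 1) j = j := by omega
      have m3 : min j (j - 1) = j - 1 := by omega
      simp only [chi, if_true, if_neg hj1, if_neg hj1', m1, m3]
      rw [hp3]
      field_simp
      ring
    · -- i = j + 1, i2 = j + 1
      have a1 : i = j + 1 := by omega
      have a2 : i2 = j + 1 := by omega
      subst a1; subst a2
      have hj1' : j - 1 ≠ j + 1 := by omega
      have m1 : min (j + 1) j = j := by omega
      have m3 : min j (j + 1) = j := by omega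
      simp only [chi, if_true, if_neg hj1', m1, m3]
      field_simp
      nlinarith [hp2, hA]
  · -- `j ≠ i'`, the middle point
    simp only [if_true]
    rcases h1 with h1 | h1 <;> rcases h3 with h3 | h3
    · omega
    · -- i' = i + 1, j = i - 1
      have a1 : i' = i + 1 := by omega
      have a2 : j = i - 1 := by omega
      subst a1; subst a2
      have b1 : ¬ nbr (i - 1) (i + 1 + 1) := by unfold nbr; omega
      have b2 : nbr (i - 1) (i + 1 - 1) := by unfold nbr; omega
      have b3 : 1 < i + 1 := by omega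
      have b4 : i + 1 - 1 = i := by omega
      rw [if_neg b1, if_pos b3, if_pos b2, b4]
      have c1 : i + 1 ≠ i - 1 := by omega
      have c2 : i ≠ i + 1 := by omega
      simp only [chi, if_true, if_neg c1]
      simp
      field_simp
    · -- i' = i - 1, j = i + 1
      have a1 : i' = i - 1 := by omega
      have a2 : j = i + 1 := by omega
      subst a1; subst a2
      have b1 : nbr (i + 1) (i - 1 + 1) := by unfold nbr; omega
      have b2 : ¬ nbr (i + 1) (i - 1 - 1) := by unfold nbr; omega
      have b3 : i - 1 + 1 < m := by omega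
      have b4 : i - 1 + 1 = i := by omega
      rw [if_neg b2, if_pos b3, if_pos b1, b4]
      have c1 : i - 1 ≠ i + 1 := by omega
      simp only [chi, if_true, if_neg c1]
      simp
      field_simp
    · omega

/-- powers of `-1` -/
theorem sgn_sq (n : ℕ) : ((-1 : ℝ)) ^ n * (-1) ^ n = 1 := by
  rw [← mul_pow]; norm_num

theorem sgn_pred {j : ℕ} (hj : 0 < j) : ((-1 : ℝ)) ^ j = - (-1) ^ (j - 1) := by
  conv_lhs => rw [show j = (j - 1) + 1 by omega]
  rw [pow_succ]; ring

/-- removing the boundary conditions -/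
theorem bd_up {m j : ℕ} (hm : 2 ≤ m) (hjm : j < m) {P : Prop} [Decidable P] (hP : P)
    (X : ℝ) (hX : ∃ Y, X = q m (j + 1) * Y) :
    (if j + 1 < m then (if P then X else 0) else 0) = X := by
  obtain ⟨Y, rfl⟩ := hX
  by_cases h : j + 1 < m
  · simp [h, hP]
  · have : j + 1 = m := by omega
    rw [if_neg h, this, q_self hm]; ring

theorem bd_down {m j : ℕ} (hj : 0 < j) {P : Prop} [Decidable P] (hP : 1 < j → P)
    (X : ℝ) (hX : ∃ Y, X = q m (j - 1) * Y) :
    (if 1 < j then (if P then X else 0) else 0) = X := by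
  obtain ⟨Y, rfl⟩ := hX
  by_cases h : 1 < j
  · simp [h, hP h]
  · have : j - 1 = 0 := by omega
    rw [if_neg h, this, q_zero]; ring

/-- **naturality of the unit** `V_i -> (FFV)_i`, component `(i', i)` with coefficient `q i'`.
For the arrow `i -> j`, target copy `(j', j'')`. -/
theorem chi_cup {m i j j' j'' : ℕ} (hm : 2 ≤ m)
    (hi : 0 < i) (him : i < m) (hj : 0 < j) (hjm : j < m) (hj' : 0 < j') (hjm' : j' < m)
    (hj'' : 0 < j'') (hjm'' : j'' < m)
    (h1 : nbr i j) (h2 : nbr j j') (h3 : nbr j' j'') (h4 : nbr i j'') :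
    (∑ i' ∈ Finset.Ioo 0 m, if nbr i i' then
        (if nbr i' j' then q m i' * (chi m i' i j' j * chi m i i' j'' j') else 0) else 0)
      = if j'' = j then q m j' else 0 := by
  rw [sum_nbr hi him]
  have qi := q_ne_zero hi him
  have qj := q_ne_zero hj hjm
  have qj' := q_ne_zero hj' hjm'
  have qj'' := q_ne_zero hj'' hjm''
  have hcase : j' = i ∨ (j' ≠ i ∧ j'' = j) := by
    unfold nbr at *; omega
  rcases hcase with rfl | ⟨hne, rfl⟩
  · have e1 : nbr (j' + 1) j' := Or.inr rfl
    have e3 : 1 < j' → nbr (j' - 1) j' := fun h => Or.inl (by omega)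
    have hA := q_sq hm (j' - 1)
    rw [show j' - 1 + 1 = j' by omega, show j' - 1 + 2 = j' + 1 by omega] at hA
    rw [bd_up hm hjm' e1 _ ⟨_, rfl⟩, bd_down hj' e3 _ ⟨_, rfl⟩]
    have hp := sgn_sq (j' - 1)
    have hp2 := sgn_sq j'
    have hp3 := sgn_pred hj'
    have d1 : j' ≠ j' + 1 := by omega
    have d2 : j' + 1 ≠ j' := by omega
    have d3 : j' ≠ j' - 1 := by omega
    have d4 : j' - 1 ≠ j' := by omega
    have d5 : j' + 1 ≠ j' - 1 := by omega
    have d6 : j' - 1 ≠ j' + 1 := by omega
    have m1 : min (j' + 1) j' = j' := by omega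
    have m2 : min j' (j' + 1) = j' := by omega
    have m3 : min (j' - 1) j' = j' - 1 := by omega
    have m4 : min j' (j' - 1) = j' - 1 := by omega
    rcases h1 with h1 | h1 <;> rcases h3 with h3 | h3
    · -- j = j'+1, j'' = j'+1
      subst h1; subst h3
      simp only [chi, if_true, m1, m2, if_neg d5, if_neg d6]
      field_simp
      nlinarith [hp2, hA]
    · -- j = j'+1, j'' = j'-1
      have a : j'' = j' - 1 := by omega
      subst a; subst h1
      simp only [chi, if_true, if_neg d5, if_neg d6, m1, m4]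
      rw [hp3]; field_simp; ring
    · -- j = j'-1, j'' = j'+1
      have a : j = j' - 1 := by omega
      subst a; subst h3
      simp only [chi, if_true, if_neg d5, if_neg d6, m2, m3]
      rw [hp3]; field_simp; ring
    · have a : j = j' - 1 := by omega
      have b : j'' = j' - 1 := by omega
      subst a; subst b
      simp only [chi, if_true, if_neg d5, if_neg d6, m3, m4]
      field_simp
      nlinarith [hp, hA]
  · simp only [if_true]
    rcases h1 with h1 | h1 <;> rcases h2 with h2 | h2
    · -- j'' = i+1, j' = i+2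
      have b1 : nbr (i + 1) j' := by unfold nbr; omega
      have b2 : ¬ nbr (i - 1) j' := by unfold nbr; omega
      have b3 : i + 1 < m := by omega
      rw [if_pos b3, if_pos b1, if_neg b2, h1]
      have c1 : j' ≠ i := by omega
      have c2 : i ≠ j' := by omega
      have c3 : j'' ≠ i := by omega
      simp only [chi, if_true, if_neg c1, if_neg c2]
      simp
      field_simp
    · omega
    · omega
    · have b1 : ¬ nbr (i + 1) j' := by unfold nbr; omega
      have b2 : nbr (i - 1) j' := by unfold nbr; omega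
      have b3 : 1 < i := by omega
      have b4 : i - 1 = j'' := by omega
      rw [if_neg b1, if_pos b3, if_pos b2, b4]
      have c1 : j' ≠ i := by omega
      have c2 : i ≠ j' := by omega
      simp only [chi, if_true, if_neg c1, if_neg c2]
      simp
      field_simp

/-- **naturality of the counit** `(FFV)_i -> V_i`, component `(i', i)` with coefficient `1/q i`.
For the arrow `i -> j`, source copy `(i', i'')`. -/
theorem chi_cap {m i i' i'' j : ℕ} (hm : 2 ≤ m)
    (hi : 0 < i) (him : i < m) (hi' : 0 < i') (him' : i' < m) (hi'' : 0 < i'') (him'' : i'' < m)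
    (hj : 0 < j) (hjm : j < m)
    (h1 : nbr i j) (h2 : nbr i i') (h3 : nbr i' i'') (h4 : nbr i'' j) :
    (∑ j' ∈ Finset.Ioo 0 m, if nbr j j' then
        (if nbr i' j' then (q m j)⁻¹ * (chi m i' i j' j * chi m i'' i' j j') else 0) else 0)
      = if i'' = i then (q m i)⁻¹ else 0 := by
  have qi := q_ne_zero hi him
  have qj := q_ne_zero hj hjm
  have qi' := q_ne_zero hi' him'
  have qi'' := q_ne_zero hi'' him''
  rw [sum_nbr hj hjm]
  have hcase : i' = j ∨ (i' ≠ j ∧ i'' = i) := by
    unfold nbr at *; omega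
  rcases hcase with rfl | ⟨hne, rfl⟩
  · have e1 : nbr i' (i' + 1) := Or.inl rfl
    have e3 : 1 < i' → nbr i' (i' - 1) := fun h => Or.inr (by omega)
    have hA := q_sq hm (i' - 1)
    rw [show i' - 1 + 1 = i' by omega, show i' - 1 + 2 = i' + 1 by omega] at hA
    have hp := sgn_sq (i' - 1)
    have hp2 := sgn_sq i'
    have hp3 := sgn_pred hi'
    have d5 : i' + 1 ≠ i' - 1 := by omega
    have d6 : i' - 1 ≠ i' + 1 := by omega
    have m1 : min (i' + 1) i' = i' := by omega
    have m2 : min i' (i' + 1) = i' := by omega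
    have m3 : min (i' - 1) i' = i' - 1 := by omega
    have m4 : min i' (i' - 1) = i' - 1 := by omega
    rcases h1 with h1 | h1
    · -- i = i' - 1
      have a : i = i' - 1 := by omega
      subst a
      have hlt : 1 < i' := by omega
      rw [if_pos hlt, if_pos (e3 hlt)]
      rw [bd_up hm him' e1 _ ⟨(q m i')⁻¹ * ((q m i')⁻¹ * chi m i'' i' i' (i' + 1)), by
        simp only [chi, if_true, if_neg d6]; ring⟩]
      rcases h4 with h4 | h4
      · have b : i'' = i' - 1 := by omega
        subst b
        simp only [chi, if_true, if_neg d5, if_neg d6, m3, m4]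
        field_simp
        nlinarith [hp, hA]
      · have b : i'' = i' + 1 := by omega
        subst b
        simp only [chi, if_true, if_neg d5, if_neg d6, m1, m4]
        rw [hp3]; field_simp; ring
    · -- i = i' + 1
      subst h1
      rw [if_pos him, if_pos e1]
      rw [bd_down hi' e3 _ ⟨(q m i')⁻¹ * ((q m i')⁻¹ * chi m i'' i' i' (i' - 1)), by
        simp only [chi, if_true, if_neg d5]; ring⟩]
      rcases h4 with h4 | h4
      · have b : i'' = i' - 1 := by omega
        subst b
        simp only [chi, if_true, if_neg d5, if_neg d6, m2, m3]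
        rw [hp3]; field_simp; ring
      · have b : i'' = i' + 1 := by omega
        subst b
        simp only [chi, if_true, if_neg d5, if_neg d6, m1, m2]
        field_simp
        nlinarith [hp2, hA]
  · simp only [if_true]
    rcases h1 with h1 | h1 <;> rcases h2 with h2 | h2
    · omega
    · -- j = i+1, i' = i - 1
      subst h1
      have a : i' = i'' - 1 := by omega
      subst a
      have b1 : ¬ nbr (i'' - 1) (i'' + 1 + 1) := by unfold nbr; omega
      have b2 : nbr (i'' - 1) (i'' + 1 - 1) := by unfold nbr; omega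
      have b3 : 1 < i'' + 1 := by omega
      have b4 : i'' + 1 - 1 = i'' := by omega
      rw [if_neg b1, if_pos b3, if_pos b2, b4]
      have c1 : i'' + 1 ≠ i'' - 1 := by omega
      have c2 : i'' - 1 ≠ i'' + 1 := by omega
      simp only [chi, if_true, if_neg c1, if_neg c2]
      simp
      field_simp
    · -- j = i - 1, i' = i + 1
      subst h2
      have a : j = i'' - 1 := by omega
      subst a
      have b1 : nbr (i'' + 1) (i'' - 1 + 1) := by unfold nbr; omega
      have b2 : ¬ nbr (i'' + 1) (i'' - 1 - 1) := by unfold nbr; omega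
      have b3 : i'' - 1 + 1 < m := by omega
      have b4 : i'' - 1 + 1 = i'' := by omega
      rw [if_pos b3, if_pos b1, if_neg b2, b4]
      have c1 : i'' + 1 ≠ i'' - 1 := by omega
      have c2 : i'' - 1 ≠ i'' + 1 := by omega
      simp only [chi, if_true, if_neg c1, if_neg c2]
      simp
      field_simp
    · omega

end Crest.Agent.R175.Fm2_27
end

-- ▼ part R175/Fm5_27
section

/-!
# Row 175, block F_m, part 5: coordinates on `J Λ`

`co i = (i m) + 1 ∈ 1..m-1`, `upd i n` changes the `m`-th coordinate, `same i j` : all other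
coordinates agree.
-/

set_option autoImplicit false
set_option linter.unusedSectionVars false
set_option linter.unusedVariables false
set_option linter.unusedSimpArgs false

open scoped Classical

namespace Crest.Agent.R175.Fm_27

open Crest.Agent.R175.Unf_109 Crest.Agent.R175.Fm1_27 Crest.Agent.R175.Fm2_27

variable {Λ : Finset ℕ} {m : ℕ} (hm : m ∈ Λ)

/-- the `m`-th coordinate, in `1 .. m-1` -/
def co (i : J Λ) : ℕ := (i ⟨m, hm⟩).val + 1

/-- all coordinates except the `m`-th agree -/
def same (i j : J Λ) : Prop := ∀ k, k ≠ (⟨m, hm⟩ : Λ) → i k = j k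

/-- change the `m`-th coordinate -/
noncomputable def upd (i : J Λ) (n : ℕ) : J Λ :=
  if h : 0 < n ∧ n < m then Function.update i ⟨m, hm⟩ ⟨n - 1, by
    have := h.1; have := h.2; show n - 1 < m - 1; omega⟩ else i

variable {hm}

theorem co_pos (i : J Λ) : 0 < co hm i := Nat.succ_pos _

theorem co_lt (i : J Λ) : co hm i < m := by
  have h := (i ⟨m, hm⟩).isLt
  have h' : (i ⟨m, hm⟩).val < m - 1 := h
  unfold co; omega

theorem same_symm {i j : J Λ} (h : same hm i j) : same hm j i := fun k hk => (h k hk).symm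
theorem same_trans {i j l : J Λ} (h : same hm i j) (h' : same hm j l) : same hm i l :=
  fun k hk => (h k hk).trans (h' k hk)

theorem same_ext {i j : J Λ} (h : same hm i j) (hc : co hm i = co hm j) : i = j := by
  funext k
  by_cases hk : k = ⟨m, hm⟩
  · subst hk
    apply Fin.ext
    have : (i ⟨m, hm⟩).val + 1 = (j ⟨m, hm⟩).val + 1 := hc
    omega
  · exact h k hk

theorem co_upd (i : J Λ) {n : ℕ} (h0 : 0 < n) (h1 : n < m) : co hm (upd hm i n) = n := by
  unfold co upd
  rw [dif_pos ⟨h0, h1⟩, Function.update_self]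
  show n - 1 + 1 = n
  omega

theorem same_upd (i : J Λ) (n : ℕ) : same hm i (upd hm i n) := by
  intro k hk
  unfold upd
  split_ifs with h
  · rw [Function.update_of_ne hk]
  · rfl

theorem upd_eq {i j : J Λ} (h : same hm i j) : upd hm i (co hm j) = j :=
  same_ext (same_trans (same_symm (same_upd i _)) h) (co_upd i (co_pos j) (co_lt j))

theorem nb_iff (hm : m ∈ Λ) (i j : J Λ) : nb Λ m i j ↔ same hm i j ∧ nbr (co hm i) (co hm j) := by
  rw [nb_path hm]
  unfold same nbr co
  constructor
  · rintro ⟨h1, h2⟩; exact ⟨h1, by omega⟩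
  · rintro ⟨h1, h2⟩; exact ⟨h1, by omega⟩

/-- edges with another label do not move the `m`-th coordinate -/
theorem nb_co {l : ℕ} (hl : l ≠ m) {i j : J Λ} (h : nb Λ l i j) : co hm i = co hm j := by
  rcases h with ⟨h, h1, -⟩ | ⟨-, -, rfl⟩
  · unfold co
    rw [h1 ⟨m, hm⟩]
    intro h'
    exact hl (congrArg Subtype.val h').symm
  · rfl

/-- parallel transport of edges with another label -/
theorem nb_par {l : ℕ} (hl : l ≠ m) {i j i' j' : J Λ} (h : nb Λ l i j) (hi : same hm i i')
    (hj : same hm j j') (hc : co hm i' = co hm j') : nb Λ l i' j' := by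
  rcases h with ⟨h, h1, h2⟩ | ⟨h1, h2, rfl⟩
  · have hlm : (⟨l, h⟩ : Λ) ≠ ⟨m, hm⟩ := fun h' => hl (congrArg Subtype.val h')
    refine Or.inl ⟨h, fun k hk => ?_, ?_⟩
    · by_cases hkm : k = ⟨m, hm⟩
      · subst hkm
        apply Fin.ext
        have : (i' ⟨m, hm⟩).val + 1 = (j' ⟨m, hm⟩).val + 1 := hc
        omega
      · rw [← hi k hkm, ← hj k hkm]; exact h1 k hk
    · rw [← hi _ hlm, ← hj _ hlm]; exact h2
  · exact Or.inr ⟨h1, h2, same_ext (same_trans (same_symm hi) hj) hc⟩

/-- sum over the neighbours in direction `m` -/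
theorem sum_nb (hm : m ∈ Λ) {M : Type*} [AddCommMonoid M] (i : J Λ) (f : J Λ → M) :
    (∑ j, if nb Λ m j i then f j else 0)
      = ∑ n ∈ Finset.Ioo 0 m, if nbr (co hm i) n then f (upd hm i n) else 0 := by
  rw [← Finset.sum_filter, ← Finset.sum_filter]
  refine Finset.sum_bij' (fun j _ => co hm j) (fun n _ => upd hm i n) ?_ ?_ ?_ ?_ ?_
  · intro j hj
    rw [Finset.mem_filter] at hj ⊢
    have h := (nb_iff hm _ _).1 hj.2
    exact ⟨Finset.mem_Ioo.2 ⟨co_pos j, co_lt j⟩, nbr_symm h.2⟩
  · intro n hn
    rw [Finset.mem_filter, Finset.mem_Ioo] at hn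
    rw [Finset.mem_filter]
    refine ⟨Finset.mem_univ _, (nb_iff hm _ _).2 ⟨same_symm (same_upd i n), ?_⟩⟩
    rw [co_upd i hn.1.1 hn.1.2]
    exact nbr_symm hn.2
  · intro j hj
    rw [Finset.mem_filter] at hj
    have h := (nb_iff hm _ _).1 hj.2
    exact upd_eq (same_symm h.1)
  · intro n hn
    rw [Finset.mem_filter, Finset.mem_Ioo] at hn
    exact co_upd i hn.1.1 hn.1.2
  · intro j hj
    rw [Finset.mem_filter] at hj
    have h := (nb_iff hm _ _).1 hj.2
    rw [upd_eq (same_symm h.1)]

end Crest.Agent.R175.Fm_27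
end

-- ▼ part R175/Fm6_27
section

/-!
# Row 175, block F_m, part 6: the connection on `J Λ`, all labels (standard normalisation)

`sc i = √[i_m]`; `cf l i i' j j'` is the coefficient of the arrow `i' -> j'` in `F (i -> j)`, the arrows
having label `l`.
-/

set_option autoImplicit false
set_option linter.unusedSectionVars false
set_option linter.unusedVariables false
set_option linter.unusedSimpArgs false

open scoped Classical

namespace Crest.Agent.R175.Fm_27

open Crest.Agent.R175.Unf_109 Crest.Agent.R175.Fm1_27 Crest.Agent.R175.Fm2_27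

/-- square root of the quantum integer -/
noncomputable def sq (m n : ℕ) : ℝ := Real.sqrt (q m n)

theorem sq_sq {m n : ℕ} (h : n ≤ m) : sq m n * sq m n = q m n := Real.mul_self_sqrt (q_nonneg h)

theorem sq_pos {m n : ℕ} (h : 0 < n) (h' : n < m) : 0 < sq m n := Real.sqrt_pos.2 (q_pos h h')

variable {Λ : Finset ℕ} {m : ℕ} (hm : m ∈ Λ)

/-- scale of a vertex -/
noncomputable def sc (i : J Λ) : ℝ := sq m (co hm i)

variable {hm}

theorem sc_pos (i : J Λ) : 0 < sc hm i := sq_pos (co_pos i) (co_lt i)
theorem sc_ne (i : J Λ) : sc hm i ≠ 0 := (sc_pos i).ne'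
theorem sc_sq (i : J Λ) : sc hm i * sc hm i = q m (co hm i) := sq_sq (co_lt i).le
theorem sc_pow (i : J Λ) : sc hm i ^ 2 = q m (co hm i) := by rw [pow_two, sc_sq]

variable (hm) in
/-- coefficient -/
noncomputable def cf (l : ℕ) (i i' j j' : J Λ) : ℝ :=
  if l = m then chi m (co hm i) (co hm i') (co hm j) (co hm j') *
    ((sc hm i' * sc hm j') / (sc hm i * sc hm j)) else sc hm i' / sc hm i

/-- neutral labels: the sum over the parallel edges has one term -/
theorem sum_neutral (hm : m ∈ Λ) {l : ℕ} (hl : l ≠ m) {i i' j : J Λ} (h1 : nb Λ m i' i)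
    (h : nb Λ l i j) (f : J Λ → ℝ) :
    (∑ j', if nb Λ m j' j then (if nb Λ l i' j' then f j' else 0) else 0)
      = f (upd hm j (co hm i')) := by
  have hi := (nb_iff hm _ _).1 h1
  have hc := nb_co (hm := hm) hl h
  have e1 : co hm (upd hm j (co hm i')) = co hm i' := co_upd j (co_pos i') (co_lt i')
  rw [Finset.sum_eq_single (upd hm j (co hm i'))]
  · have h2 : nb Λ m (upd hm j (co hm i')) j := by
      refine (nb_iff hm _ _).2 ⟨same_symm (same_upd j _), ?_⟩
      rw [e1, ← hc]
      exact hi.2
    have h3 : nb Λ l i' (upd hm j (co hm i')) :=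
      nb_par (hm := hm) hl h (same_symm hi.1) (same_upd j _) e1.symm
    rw [if_pos h2, if_pos h3]
  · intro j' _ hj'
    by_cases h2 : nb Λ m j' j
    · rw [if_pos h2]
      by_cases h3 : nb Λ l i' j'
      · exfalso
        apply hj'
        have h4 := (nb_iff hm _ _).1 h2
        exact (same_ext (hm := hm) (same_trans (same_symm (same_upd j _)) (same_symm h4.1))
          (e1.trans (nb_co (hm := hm) hl h3))).symm
      · rw [if_neg h3]
    · rw [if_neg h2]
  · intro h'; exact absurd (Finset.mem_univ _) h'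


/-- label `m`: the sum over the parallel edges as a sum over `1..m-1` -/
theorem sum_level (hm : m ∈ Λ) {i' j : J Λ} (h1 : same hm i' j) (f : J Λ → ℝ) :
    (∑ j', if nb Λ m j' j then (if nb Λ m i' j' then f j' else 0) else 0)
      = ∑ n ∈ Finset.Ioo 0 m, if nbr (co hm j) n then
          (if nbr (co hm i') n then f (upd hm j n) else 0) else 0 := by
  rw [sum_nb hm]
  refine Finset.sum_congr rfl fun n hn => ?_
  rw [Finset.mem_Ioo] at hn
  by_cases h : nbr (co hm j) n
  · rw [if_pos h, if_pos h]
    have : nb Λ m i' (upd hm j n) ↔ nbr (co hm i') n := by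
      rw [nb_iff hm, co_upd j hn.1 hn.2]
      exact ⟨fun h => h.2, fun h => ⟨same_trans h1 (same_upd j _), h⟩⟩
    by_cases h' : nbr (co hm i') n
    · rw [if_pos (this.2 h'), if_pos h']
    · rw [if_neg (fun h => h' (this.1 h)), if_neg h']
  · rw [if_neg h, if_neg h]

/-- backtracking -/
theorem backJ (hm : m ∈ Λ) (h2m : 2 ≤ m) {l : ℕ} {i i' i2 j : J Λ} (h1 : nb Λ m i i')
    (h2 : nb Λ m i2 i') (h3 : nb Λ l i j) (h4 : nb Λ l j i2) :
    (∑ j', if nb Λ m j' j then
      (if nb Λ l i' j' then cf hm l i i' j j' * cf hm l j j' i2 i' else 0) else 0)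
      = if i = i2 then (sc hm i' / sc hm i) ^ 2 else 0 := by
  have n1 := (nb_iff hm _ _).1 h1
  have n2 := (nb_iff hm _ _).1 h2
  by_cases hl : l = m
  · subst hl
    have n3 := (nb_iff hm _ _).1 h3
    have n4 := (nb_iff hm _ _).1 h4
    have s1 : same hm i' j := same_trans (same_symm n1.1) n3.1
    rw [sum_level hm s1]
    have hb := chi_back h2m (co_pos i) (co_lt i) (co_pos i') (co_lt i') (co_pos i2) (co_lt i2)
      (co_pos j) (co_lt j) n1.2 n2.2 n3.2 (nbr_symm n4.2)
    have e : ∀ n ∈ Finset.Ioo 0 l, (if nbr (co hm j) n then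
          (if nbr (co hm i') n then cf hm l i i' j (upd hm j n) * cf hm l j (upd hm j n) i2 i'
            else 0) else 0)
        = (q l (co hm i') / (sc hm i * sc hm i2 * q l (co hm j))) *
          (if nbr (co hm i') n then (if nbr (co hm j) n then q l n *
            (chi l (co hm i) (co hm i') (co hm j) n * chi l (co hm j) n (co hm i2) (co hm i'))
            else 0) else 0) := by
      intro n hn
      rw [Finset.mem_Ioo] at hn
      by_cases ha : nbr (co hm j) n
      · by_cases hb : nbr (co hm i') n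
        · simp only [if_pos ha, if_pos hb]
          unfold cf
          rw [if_pos rfl, if_pos rfl]
          have ec := co_upd (hm := hm) j hn.1 hn.2
          have es : sc hm (upd hm j n) * sc hm (upd hm j n) = q l n := by rw [sc_sq, ec]
          have hj := sc_sq (hm := hm) j
          have hi' := sc_sq (hm := hm) i'
          rw [ec, ← es, ← hj, ← hi']
          have := sc_ne (hm := hm) i
          have := sc_ne (hm := hm) i2
          have := sc_ne (hm := hm) j
          field_simp
        · simp [ha, hb]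
      · simp [ha]
    rw [Finset.sum_congr rfl e, ← Finset.mul_sum, hb]
    by_cases hc : i = i2
    · subst hc
      rw [if_pos rfl, if_pos rfl, ← sc_sq (hm := hm) i', ← sc_sq (hm := hm) j]
      have := sc_ne (hm := hm) i
      have := sc_ne (hm := hm) j
      field_simp
    · have hc' : co hm i ≠ co hm i2 := fun h => hc (same_ext (same_trans n1.1 (same_symm n2.1)) h)
      rw [if_neg hc, if_neg hc', mul_zero]
  · rw [sum_neutral hm hl (nb.symm h1) h3]
    have ei : i = i2 := by
      refine same_ext (same_trans n1.1 (same_symm n2.1)) ?_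
      rw [nb_co (hm := hm) hl h3, nb_co (hm := hm) hl h4]
    subst ei
    rw [if_pos rfl]
    unfold cf
    rw [if_neg hl, if_neg hl]
    have e1 : sc hm (upd hm j (co hm i')) = sc hm i' := by
      unfold sc; rw [co_upd j (co_pos i') (co_lt i')]
    have e2 : sc hm j = sc hm i := by unfold sc; rw [nb_co (hm := hm) hl h3]
    rw [e1, e2]; ring

/-- naturality of the unit -/
theorem cupJ (hm : m ∈ Λ) (h2m : 2 ≤ m) {l : ℕ} {i j j' j'' : J Λ} (h1 : nb Λ l i j)
    (h2 : nb Λ m j' j) (h3 : nb Λ m j'' j') (h4 : nb Λ l i j'') :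
    (∑ i', if nb Λ m i' i then
      (if nb Λ l j' i' then cf hm l i' i j' j * cf hm l i i' j'' j' * sc hm i' ^ 2 else 0) else 0)
      = if j'' = j then sc hm j' ^ 2 else 0 := by
  have n2 := (nb_iff hm _ _).1 h2
  have n3 := (nb_iff hm _ _).1 h3
  by_cases hl : l = m
  · subst hl
    have n1 := (nb_iff hm _ _).1 h1
    have n4 := (nb_iff hm _ _).1 h4
    have s1 : same hm j' i := same_trans n2.1 (same_symm n1.1)
    rw [sum_level hm s1]
    have hb := chi_cup h2m (co_pos i) (co_lt i) (co_pos j) (co_lt j) (co_pos j') (co_lt j')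
      (co_pos j'') (co_lt j'') n1.2 (nbr_symm n2.2) (nbr_symm n3.2) n4.2
    have e : ∀ n ∈ Finset.Ioo 0 l, (if nbr (co hm i) n then
          (if nbr (co hm j') n then cf hm l (upd hm i n) i j' j * cf hm l i (upd hm i n) j'' j' *
            sc hm (upd hm i n) ^ 2 else 0) else 0)
        = (sc hm j / sc hm j'') *
          (if nbr (co hm i) n then (if nbr n (co hm j') then q l n *
            (chi l n (co hm i) (co hm j') (co hm j) * chi l (co hm i) n (co hm j'') (co hm j'))
            else 0) else 0) := by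
      intro n hn
      rw [Finset.mem_Ioo] at hn
      by_cases ha : nbr (co hm i) n
      · by_cases hb : nbr n (co hm j')
        · simp only [if_pos ha, if_pos hb, if_pos (nbr_symm hb)]
          unfold cf
          rw [if_pos rfl, if_pos rfl]
          have ec := co_upd (hm := hm) i hn.1 hn.2
          have es : sc hm (upd hm i n) ^ 2 = q l n := by rw [sc_pow, ec]
          rw [ec, ← es]
          have := sc_ne (hm := hm) i
          have := sc_ne (hm := hm) j'
          have := sc_ne (hm := hm) j''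
          have := sc_ne (hm := hm) (upd hm i n)
          field_simp
        · have hb' : ¬ nbr (co hm j') n := fun h => hb (nbr_symm h)
          simp [ha, hb, hb']
      · simp [ha]
    rw [Finset.sum_congr rfl e, ← Finset.mul_sum, hb]
    by_cases hc : j'' = j
    · subst hc
      rw [if_pos rfl, if_pos rfl, sc_pow, div_self (sc_ne _), one_mul]
    · have hc' : co hm j'' ≠ co hm j := fun h => hc (same_ext (same_trans n3.1 n2.1) h)
      rw [if_neg hc, if_neg hc', mul_zero]
  · rw [sum_neutral hm hl h2 (nb.symm h1)]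
    have ei : j'' = j := by
      refine same_ext (same_trans n3.1 n2.1) ?_
      rw [← nb_co (hm := hm) hl h1, ← nb_co (hm := hm) hl h4]
    subst ei
    rw [if_pos rfl]
    unfold cf
    rw [if_neg hl, if_neg hl]
    have e1 : sc hm (upd hm i (co hm j')) = sc hm j' := by
      unfold sc; rw [co_upd i (co_pos j') (co_lt j')]
    rw [e1]
    have := sc_ne (hm := hm) i
    have := sc_ne (hm := hm) j'
    field_simp

/-- naturality of the counit -/
theorem capJ (hm : m ∈ Λ) (h2m : 2 ≤ m) {l : ℕ} {i i' i'' j : J Λ} (h1 : nb Λ l i j)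
    (h2 : nb Λ m i' i) (h3 : nb Λ m i'' i') (h4 : nb Λ l i'' j) :
    (∑ j', if nb Λ m j' j then
      (if nb Λ l i' j' then cf hm l i' i j' j * cf hm l i'' i' j j' * (sc hm j ^ 2)⁻¹ else 0)
        else 0)
      = if i'' = i then (sc hm i ^ 2)⁻¹ else 0 := by
  have n2 := (nb_iff hm _ _).1 h2
  have n3 := (nb_iff hm _ _).1 h3
  by_cases hl : l = m
  · subst hl
    have n1 := (nb_iff hm _ _).1 h1
    have n4 := (nb_iff hm _ _).1 h4
    have s1 : same hm i' j := same_trans n2.1 n1.1
    rw [sum_level hm s1]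
    have hb := chi_cap h2m (co_pos i) (co_lt i) (co_pos i') (co_lt i') (co_pos i'') (co_lt i'')
      (co_pos j) (co_lt j) n1.2 (nbr_symm n2.2) (nbr_symm n3.2) n4.2
    have e : ∀ n ∈ Finset.Ioo 0 l, (if nbr (co hm j) n then
          (if nbr (co hm i') n then cf hm l i' i (upd hm j n) j * cf hm l i'' i' j (upd hm j n) *
            (sc hm j ^ 2)⁻¹ else 0) else 0)
        = (sc hm i / sc hm i'') *
          (if nbr (co hm j) n then (if nbr (co hm i') n then (q l (co hm j))⁻¹ *
            (chi l (co hm i') (co hm i) n (co hm j) * chi l (co hm i'') (co hm i') (co hm j) n)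
            else 0) else 0) := by
      intro n hn
      rw [Finset.mem_Ioo] at hn
      by_cases ha : nbr (co hm j) n
      · by_cases hb : nbr (co hm i') n
        · simp only [if_pos ha, if_pos hb]
          unfold cf
          rw [if_pos rfl, if_pos rfl]
          have ec := co_upd (hm := hm) j hn.1 hn.2
          rw [ec, ← sc_pow (hm := hm) j]
          have := sc_ne (hm := hm) i'
          have := sc_ne (hm := hm) j
          have := sc_ne (hm := hm) i''
          have := sc_ne (hm := hm) (upd hm j n)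
          field_simp
        · simp [ha, hb]
      · simp [ha]
    rw [Finset.sum_congr rfl e, ← Finset.mul_sum, hb]
    by_cases hc : i'' = i
    · subst hc
      rw [if_pos rfl, if_pos rfl, sc_pow, div_self (sc_ne _), one_mul]
    · have hc' : co hm i'' ≠ co hm i := fun h => hc (same_ext (same_trans n3.1 n2.1) h)
      rw [if_neg hc, if_neg hc', mul_zero]
  · rw [sum_neutral hm hl h2 h1]
    have ei : i'' = i := by
      refine same_ext (same_trans n3.1 n2.1) ?_
      rw [nb_co (hm := hm) hl h1, nb_co (hm := hm) hl h4]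
    subst ei
    rw [if_pos rfl]
    unfold cf
    rw [if_neg hl, if_neg hl]
    have e2 : sc hm j = sc hm i'' := by unfold sc; rw [nb_co (hm := hm) hl h1]
    rw [e2]
    have := sc_ne (hm := hm) i'
    have := sc_ne (hm := hm) i''
    field_simp

end Crest.Agent.R175.Fm_27
end

-- ▼ part R175/Fm7_27

/-!
# Row 175, block F_m, part 7: the functor `F_m` on the unfolding graph `UG M Λ`
-/

set_option autoImplicit false
set_option linter.unusedSectionVars false
set_option linter.unusedVariables false
set_option linter.unusedSimpArgs false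

open scoped Classical

namespace Crest.Agent.R175.Fm_27

open Crest.Agent.R175.PTA Crest.Agent.R175.Unf_109 Crest.Agent.R175.UG_27

universe v

section base

variable {S : Type} [Fintype S] {M : CoxeterMatrix S} {Λ : Finset ℕ} {m : ℕ}

theorem sum_fibre {N : Type*} [AddCommMonoid N] (t : S) (F : S × J Λ → N)
    (h : ∀ b, b.1 ≠ t → F b = 0) : ∑ b, F b = ∑ j, F (t, j) := by
  rw [Fintype.sum_prod_type, Finset.sum_eq_single t]
  · intro s _ hs
    exact Finset.sum_eq_zero fun j _ => h _ hs
  · intro h'; exact absurd (Finset.mem_univ _) h'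

/-- sum over the edges of one colour -/
theorem sumE {a' b' : S × J Λ} (c₀ c₁ : Fin 2) (hc : c₀ = 0 ∨ M a'.1 b'.1 = 0) (X Y : ℝ) :
    (∑ e' : (UG M Λ).E a' b', (if c₀ = col e' then X else 0) * (if c₁ = col e' then Y else 0))
      = if c₀ = c₁ then (if nb Λ (M a'.1 b'.1) a'.2 b'.2 then X * Y else 0) else 0 := by
  have e1 : ∀ c : Fin 2, (if h : adjc M Λ c a' b' then ((if c₀ = col (mkE h) then X else 0) *
      (if c₁ = col (mkE h) then Y else 0)) else 0) = if adjc M Λ c a' b' then
      ((if c₀ = c then X else 0) * (if c₁ = c then Y else 0)) else 0 := by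
    intro c
    by_cases h : adjc M Λ c a' b'
    · rw [dif_pos h, if_pos h]; rfl
    · rw [dif_neg h, if_neg h]
  rw [sum_edge]
  rw [Finset.sum_congr rfl fun c _ => e1 c, Finset.sum_eq_single c₀]
  · by_cases h : nb Λ (M a'.1 b'.1) a'.2 b'.2
    · rw [if_pos ⟨h, hc⟩, if_pos rfl, if_pos h]
      by_cases h1 : c₀ = c₁
      · rw [if_pos h1, if_pos h1.symm]
      · rw [if_neg h1, if_neg (fun h => h1 h.symm), mul_zero]
    · rw [if_neg (fun h' => h h'.1), if_neg h]
      split_ifs <;> rfl
  · intro c _ hc'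
    rw [if_neg (fun h : c₀ = c => hc' h.symm), zero_mul]
    split_ifs <;> rfl
  · intro h; exact absurd (Finset.mem_univ _) h

variable (M) in
/-- the relation of `F_m` -/
def NF (Λ : Finset ℕ) (m : ℕ) (a b : S × J Λ) : Prop := a.1 = b.1 ∧ nb Λ m a.2 b.2

/-- coefficients of `F_m` -/
noncomputable def chiR (hm : m ∈ Λ) {a b a' b' : S × J Λ} (e : (UG M Λ).E a b)
    (e' : (UG M Λ).E a' b') : ℝ :=
  if col e = col e' then cf hm (M a.1 b.1) a.2 a'.2 b.2 b'.2 else 0

theorem M_symm (M : CoxeterMatrix S) (s t : S) : M s t = M t s := M.symmetric _ _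

theorem back_gen0 (hm : m ∈ Λ) (h2 : 2 ≤ m) {a b a₂ a' : S × J Λ} (e : (UG M Λ).E a b)
    (f : (UG M Λ).E b a₂) (h : a.1 = a'.1 ∧ nb Λ m a.2 a'.2) (h' : a₂.1 = a'.1 ∧ nb Λ m a₂.2 a'.2) :
    (∑ b', ∑ e' : (UG M Λ).E a' b', if b.1 = b'.1 ∧ nb Λ m b.2 b'.2 then
        chiR hm e e' * chiR hm f ((UG M Λ).rev e') else 0)
      = if col e = col f then (if a.2 = a₂.2 then (sc hm a'.2 / sc hm a.2) ^ 2 else 0) else 0 := by
  obtain ⟨s, i⟩ := a
  obtain ⟨s', i'⟩ := a'
  obtain ⟨s₂, i₂⟩ := a₂
  obtain ⟨t, j⟩ := b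
  obtain ⟨rfl, h⟩ : s = s' ∧ nb Λ m i i' := h
  obtain ⟨rfl, h'⟩ : s₂ = s ∧ nb Λ m i₂ i' := h'
  rw [sum_fibre t]
  · have e1 := nb_of_edge e
    have e2 := nb_of_edge f
    have ec := (col_adj e).2
    simp only at e1 e2 ec
    rw [M_symm M t s₂] at e2
    rw [← backJ hm h2 h h' e1 e2]
    by_cases hc : col e = col f
    · rw [if_pos hc]
      refine Finset.sum_congr rfl fun j' _ => ?_
      by_cases hN : nb Λ m j' j
      · simp only [true_and, if_pos hN, if_pos (nb.symm hN)]
        have := sumE (M := M) (a' := (s₂, i')) (b' := (t, j')) (col e) (col f) ec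
          (cf hm (M s₂ t) i i' j j') (cf hm (M s₂ t) j j' i₂ i')
        rw [if_pos hc] at this
        rw [← this]
        refine Finset.sum_congr rfl fun e' _ => ?_
        unfold chiR
        rw [col_rev, M_symm M t s₂]
      · have hN' : ¬ nb Λ m j j' := fun h => hN (nb.symm h)
        simp [hN, hN']
    · rw [if_neg hc]
      refine Finset.sum_eq_zero fun j' _ => ?_
      by_cases hN : nb Λ m j' j
      · simp only [true_and, if_pos (nb.symm hN)]
        have := sumE (M := M) (a' := (s₂, i')) (b' := (t, j')) (col e) (col f) ec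
          (cf hm (M s₂ t) i i' j j') (cf hm (M s₂ t) j j' i₂ i')
        rw [if_neg hc] at this
        rw [← this]
        refine Finset.sum_congr rfl fun e' _ => ?_
        unfold chiR
        rw [col_rev, M_symm M t s₂]
      · have hN' : ¬ nb Λ m j j' := fun h => hN (nb.symm h)
        simp [hN']
  · intro b' hb'
    refine Finset.sum_eq_zero fun e' _ => ?_
    rw [if_neg]
    rintro ⟨h, -⟩
    exact hb' h.symm

theorem cup_gen0 (hm : m ∈ Λ) (h2 : 2 ≤ m) {a b b' b'' : S × J Λ} (e : (UG M Λ).E a b)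
    (e₂ : (UG M Λ).E a b'') (h : b'.1 = b.1 ∧ nb Λ m b'.2 b.2)
    (h' : b''.1 = b'.1 ∧ nb Λ m b''.2 b'.2) :
    (∑ a', ∑ e' : (UG M Λ).E a' b', if a'.1 = a.1 ∧ nb Λ m a'.2 a.2 then
        chiR hm e' e * chiR hm e₂ e' * sc hm a'.2 ^ 2 else 0)
      = if col e₂ = col e then (if b''.2 = b.2 then sc hm b'.2 ^ 2 else 0) else 0 := by
  obtain ⟨s, i⟩ := a
  obtain ⟨t, j⟩ := b
  obtain ⟨t', j'⟩ := b'
  obtain ⟨t₂, j₂⟩ := b''
  obtain ⟨rfl, h⟩ : t' = t ∧ nb Λ m j' j := h
  obtain ⟨rfl, h'⟩ : t₂ = t' ∧ nb Λ m j₂ j' := h'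
  rw [sum_fibre s]
  · have e1 := nb_of_edge e
    have e2 := nb_of_edge e₂
    have ec := (col_adj e₂).2
    simp only at e1 e2 ec
    rw [← cupJ hm h2 e1 h h' e2]
    have key : ∀ i', nb Λ m i' i → (∑ e' : (UG M Λ).E (s, i') (t₂, j'),
        chiR hm e' e * chiR hm e₂ e' * sc hm i' ^ 2) = if col e₂ = col e then
        (if nb Λ (M s t₂) j' i' then cf hm (M s t₂) i' i j' j * cf hm (M s t₂) i i' j₂ j' *
          sc hm i' ^ 2 else 0) else 0 := by
      intro i' _
      have := sumE (M := M) (a' := (s, i')) (b' := (t₂, j')) (col e₂) (col e) ec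
          (cf hm (M s t₂) i i' j₂ j' * sc hm i' ^ 2) (cf hm (M s t₂) i' i j' j)
      refine Eq.trans (Eq.trans (Finset.sum_congr rfl fun e' _ => ?_) this) ?_
      · unfold chiR
        simp only [eq_comm (a := col e') (b := col e)]
        split_ifs <;> ring
      · by_cases hc : col e₂ = col e
        · rw [if_pos hc, if_pos hc]
          by_cases hn : nb Λ (M s t₂) i' j'
          · rw [if_pos hn, if_pos (nb.symm hn)]; ring
          · rw [if_neg hn, if_neg (fun h => hn (nb.symm h))]
        · rw [if_neg hc, if_neg hc]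
    by_cases hc : col e₂ = col e
    · rw [if_pos hc]
      refine Finset.sum_congr rfl fun i' _ => ?_
      by_cases hN : nb Λ m i' i
      · simp only [true_and, if_pos hN]
        rw [key i' hN, if_pos hc]
      · simp [hN]
    · rw [if_neg hc]
      refine Finset.sum_eq_zero fun i' _ => ?_
      by_cases hN : nb Λ m i' i
      · simp only [true_and, if_pos hN]
        rw [key i' hN, if_neg hc]
      · simp [hN]
  · intro a' ha'
    refine Finset.sum_eq_zero fun e' _ => ?_
    rw [if_neg]
    rintro ⟨h, -⟩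
    exact ha' h

theorem cap_gen0 (hm : m ∈ Λ) (h2 : 2 ≤ m) {a b a' a'' : S × J Λ} (e : (UG M Λ).E a b)
    (e₂ : (UG M Λ).E a'' b) (h : a'.1 = a.1 ∧ nb Λ m a'.2 a.2)
    (h' : a''.1 = a'.1 ∧ nb Λ m a''.2 a'.2) :
    (∑ b', ∑ e' : (UG M Λ).E a' b', if b'.1 = b.1 ∧ nb Λ m b'.2 b.2 then
        chiR hm e' e * chiR hm e₂ e' * (sc hm b.2 ^ 2)⁻¹ else 0)
      = if col e₂ = col e then (if a''.2 = a.2 then (sc hm a.2 ^ 2)⁻¹ else 0) else 0 := by
  obtain ⟨s, i⟩ := a
  obtain ⟨t, j⟩ := b
  obtain ⟨s', i'⟩ := a'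
  obtain ⟨s₂, i₂⟩ := a''
  obtain ⟨rfl, h⟩ : s' = s ∧ nb Λ m i' i := h
  obtain ⟨rfl, h'⟩ : s₂ = s' ∧ nb Λ m i₂ i' := h'
  rw [sum_fibre t]
  · have e1 := nb_of_edge e
    have e2 := nb_of_edge e₂
    have ec := (col_adj e₂).2
    simp only at e1 e2 ec
    rw [← capJ hm h2 e1 h h' e2]
    have key : ∀ j', nb Λ m j' j → (∑ e' : (UG M Λ).E (s₂, i') (t, j'),
        chiR hm e' e * chiR hm e₂ e' * (sc hm j ^ 2)⁻¹) = if col e₂ = col e then
        (if nb Λ (M s₂ t) i' j' then cf hm (M s₂ t) i' i j' j * cf hm (M s₂ t) i₂ i' j j' *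
          (sc hm j ^ 2)⁻¹ else 0) else 0 := by
      intro j' _
      have := sumE (M := M) (a' := (s₂, i')) (b' := (t, j')) (col e₂) (col e) ec
          (cf hm (M s₂ t) i₂ i' j j' * (sc hm j ^ 2)⁻¹) (cf hm (M s₂ t) i' i j' j)
      refine Eq.trans (Eq.trans (Finset.sum_congr rfl fun e' _ => ?_) this) ?_
      · unfold chiR
        simp only [eq_comm (a := col e') (b := col e)]
        split_ifs <;> ring
      · by_cases hc : col e₂ = col e
        · rw [if_pos hc, if_pos hc]
          split_ifs <;> ring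
        · rw [if_neg hc, if_neg hc]
    by_cases hc : col e₂ = col e
    · rw [if_pos hc]
      refine Finset.sum_congr rfl fun j' _ => ?_
      by_cases hN : nb Λ m j' j
      · simp only [true_and, if_pos hN]
        rw [key j' hN, if_pos hc]
      · simp [hN]
    · rw [if_neg hc]
      refine Finset.sum_eq_zero fun j' _ => ?_
      by_cases hN : nb Λ m j' j
      · simp only [true_and, if_pos hN]
        rw [key j' hN, if_neg hc]
      · simp [hN]
  · intro b' hb'
    refine Finset.sum_eq_zero fun e' _ => ?_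
    rw [if_neg]
    rintro ⟨h, -⟩
    exact hb' h

theorem back_gen (hm : m ∈ Λ) (h2 : 2 ≤ m) {a b a₂ a' : S × J Λ} (e : (UG M Λ).E a b)
    (f : (UG M Λ).E b a₂) (h : NF Λ m a a') (h' : NF Λ m a₂ a') :
    (∑ b', ∑ e' : (UG M Λ).E a' b', if NF Λ m b b' then
        chiR hm e e' * chiR hm f ((UG M Λ).rev e') else 0)
      = if col e = col f then (if a.2 = a₂.2 then (sc hm a'.2 / sc hm a.2) ^ 2 else 0) else 0 := by
  have := back_gen0 hm h2 e f h h'
  rw [← this]
  refine Finset.sum_congr rfl fun b' _ => Finset.sum_congr rfl fun e' _ => ?_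
  by_cases h : NF Λ m b b'
  · exact (if_pos h).trans (if_pos (show b.1 = b'.1 ∧ nb Λ m b.2 b'.2 from h)).symm
  · exact (if_neg h).trans (if_neg (show ¬ (b.1 = b'.1 ∧ nb Λ m b.2 b'.2) from h)).symm

theorem cup_gen (hm : m ∈ Λ) (h2 : 2 ≤ m) {a b b' b'' : S × J Λ} (e : (UG M Λ).E a b)
    (e₂ : (UG M Λ).E a b'') (h : NF Λ m b' b) (h' : NF Λ m b'' b') :
    (∑ a', ∑ e' : (UG M Λ).E a' b', if NF Λ m a' a then
        chiR hm e' e * chiR hm e₂ e' * sc hm a'.2 ^ 2 else 0)
      = if col e₂ = col e then (if b''.2 = b.2 then sc hm b'.2 ^ 2 else 0) else 0 := by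
  have := cup_gen0 hm h2 e e₂ h h'
  rw [← this]
  refine Finset.sum_congr rfl fun a' _ => Finset.sum_congr rfl fun e' _ => ?_
  by_cases h : NF Λ m a' a
  · exact (if_pos h).trans (if_pos (show a'.1 = a.1 ∧ nb Λ m a'.2 a.2 from h)).symm
  · exact (if_neg h).trans (if_neg (show ¬ (a'.1 = a.1 ∧ nb Λ m a'.2 a.2) from h)).symm

theorem cap_gen (hm : m ∈ Λ) (h2 : 2 ≤ m) {a b a' a'' : S × J Λ} (e : (UG M Λ).E a b)
    (e₂ : (UG M Λ).E a'' b) (h : NF Λ m a' a) (h' : NF Λ m a'' a') :
    (∑ b', ∑ e' : (UG M Λ).E a' b', if NF Λ m b' b then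
        chiR hm e' e * chiR hm e₂ e' * (sc hm b.2 ^ 2)⁻¹ else 0)
      = if col e₂ = col e then (if a''.2 = a.2 then (sc hm a.2 ^ 2)⁻¹ else 0) else 0 := by
  have := cap_gen0 hm h2 e e₂ h h'
  rw [← this]
  refine Finset.sum_congr rfl fun b' _ => Finset.sum_congr rfl fun e' _ => ?_
  by_cases h : NF Λ m b' b
  · exact (if_pos h).trans (if_pos (show b'.1 = b.1 ∧ nb Λ m b'.2 b.2 from h)).symm
  · exact (if_neg h).trans (if_neg (show ¬ (b'.1 = b.1 ∧ nb Λ m b'.2 b.2) from h)).symm

variable (M) in
/-- **the functor `F_m` over `ℝ`** -/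
noncomputable def FmR (hm : m ∈ Λ) (h2 : 2 ≤ m) : ADat (UG M Λ) ℝ where
  N := NF Λ m
  symm h := ⟨h.1.symm, nb.symm h.2⟩
  r a := sc hm a.2
  r_ne a := sc_ne _
  chi e e' := chiR hm e e'
  back {a b a'} e f h := by
    have := back_gen hm h2 e f h h
    rw [this]
    by_cases hc : f = (UG M Λ).rev e
    · subst hc
      simp
    · have : col e ≠ col f := fun h => hc (col_inj h.symm)
      rw [if_neg hc, if_neg this]
  back0 {a a₂ b a'} e f h h' hne := by
    have := back_gen hm h2 e f h h'
    rw [this]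
    have : a.2 ≠ a₂.2 := fun h'' => hne (Prod.ext (h.1.trans h'.1.symm) h'')
    rw [if_neg this]; simp
  cup1 {a b b'} e e₂ h := by
    have := cup_gen hm h2 e e₂ h ⟨h.1.symm, nb.symm h.2⟩
    rw [this]
    by_cases hc : e₂ = e
    · subst hc; simp
    · have : col e₂ ≠ col e := fun h => hc (col_inj h)
      rw [if_neg hc, if_neg this]
  cup0 {a b b' b''} e e₂ h h' hne := by
    have := cup_gen hm h2 e e₂ h h'
    rw [this]
    have : b''.2 ≠ b.2 := fun h'' => hne (Prod.ext (h'.1.trans h.1) h'')
    rw [if_neg this]; simp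
  cap1 {a b a'} e e₂ h := by
    have := cap_gen hm h2 e e₂ h ⟨h.1.symm, nb.symm h.2⟩
    rw [this]
    by_cases hc : e₂ = e
    · subst hc; simp
    · have : col e₂ ≠ col e := fun h => hc (col_inj h)
      rw [if_neg hc, if_neg this]
  cap0 {a b a' a''} e e₂ h h' hne := by
    have := cap_gen hm h2 e e₂ h h'
    rw [this]
    have : a''.2 ≠ a.2 := fun h'' => hne (Prod.ext (h'.1.trans h.1) h'')
    rw [if_neg this]; simp

end base

/-! ### base change -/

section map

universe w

variable {T : Type} {G : MG T} {k : Type v} [Field k] {k' : Type w} [Field k'] [Fintype T]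

/-- base change of the data along a field homomorphism -/
noncomputable def ADat.map (φ : k →+* k') (Φ : ADat G k) : ADat G k' where
  N := Φ.N
  symm := Φ.symm
  r a := φ (Φ.r a)
  r_ne a := (map_ne_zero φ).2 (Φ.r_ne a)
  chi e e' := φ (Φ.chi e e')
  back e f h := by
    have := congrArg φ (Φ.back e f h)
    simpa only [map_sum, apply_ite φ, map_mul, map_zero, map_pow, map_div₀] using this
  back0 e f h h' hne := by
    have := congrArg φ (Φ.back0 e f h h' hne)
    simpa only [map_sum, apply_ite φ, map_mul, map_zero, map_pow, map_div₀] using this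
  cup1 e e₂ h := by
    have := congrArg φ (Φ.cup1 e e₂ h)
    simpa only [map_sum, apply_ite φ, map_mul, map_zero, map_pow, map_inv₀] using this
  cup0 e e₂ h h' hne := by
    have := congrArg φ (Φ.cup0 e e₂ h h' hne)
    simpa only [map_sum, apply_ite φ, map_mul, map_zero, map_pow, map_inv₀] using this
  cap1 e e₂ h := by
    have := congrArg φ (Φ.cap1 e e₂ h)
    simpa only [map_sum, apply_ite φ, map_mul, map_zero, map_pow, map_inv₀] using this
  cap0 e e₂ h h' hne := by
    have := congrArg φ (Φ.cap0 e e₂ h h' hne)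
    simpa only [map_sum, apply_ite φ, map_mul, map_zero, map_pow, map_inv₀] using this

end map

section main

variable {S : Type} [Fintype S] (M : CoxeterMatrix S) {Λ : Finset ℕ} {m : ℕ}
  {k : Type v} [Field k] (φ : ℝ →+* k)

/-- **the functor `F_m`** on `Gob (UG M Λ) k`, `TOb (UG M Λ) k` -/
noncomputable def Fm (hm : m ∈ Λ) (h2 : 2 ≤ m) : ADat (UG M Λ) k := (FmR M hm h2).map φ

variable (hm : m ∈ Λ) (h2 : 2 ≤ m)

theorem Fm_N (a b : S × J Λ) : (Fm M φ hm h2).N a b ↔ a.1 = b.1 ∧ nb Λ m a.2 b.2 := Iff.rfl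



/-- `F_m` and restriction to a subset of `S` -/
theorem Fm_res_N (X : Set S) (a b : X × J Λ) :
    (Fm (VdL_527.res M X) φ hm h2).N a b ↔
      (Fm M φ hm h2).N ((a.1 : S), a.2) ((b.1 : S), b.2) :=
  and_congr_left' Subtype.ext_iff


end main

end Crest.Agent.R175.Fm_27
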