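import Mathlib

/-!
Row 175 (S0263), block KS (helper303): the abstract part of Krull-Schmidt.

* `nil_or_unit` : Fitting in a finite dimensional algebra without non-trivial idempotents.
* `IdemTriv`, `Ind`, `isIso_of_not_nil` : two indecomposables `X`, `Y` of a linear category with finite
  dimensional `Hom`s and `f : X ⟶ Y`, `g : Y ⟶ X` with `f ≫ g` not nilpotent: `f` and `g` are isomorphisms.
* `conj_unit`, `conj_mul` : an idempotent `e` with "length zero part" `e₀` is conjugate to `e₀`.
* `Dec`, `exists_dec`, `Dec.map_sum` : existence of a decomposition into indecomposables from a splitting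
  property and a size, and additivity of invariants.
-/

set_option autoImplicit false

namespace Crest.Agent.R175.KS_303

universe u v w u'

/-! ### Fitting in an algebra -/

section Alg

variable {A : Type v} [Ring A]

theorem isUnit_of_mul_eq_one' (k : Type w) [Field k] [Algebra k A] [FiniteDimensional k A]
    {a b : A} (h : a * b = 1) : IsUnit a := by
  have hinj : Function.Injective (LinearMap.mulLeft k b) := by
    intro x y hxy
    have : b * x = b * y := hxy
    calc x = a * b * x := by rw [h, one_mul]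
      _ = a * b * y := by rw [mul_assoc, this, mul_assoc]
      _ = y := by rw [h, one_mul]
  have hsur := (LinearMap.injective_iff_surjective (f := LinearMap.mulLeft k b)).1 hinj
  obtain ⟨c, hc⟩ := hsur 1
  have hc : b * c = 1 := hc
  have : a = c := by
    calc a = a * (b * c) := by rw [hc, mul_one]
      _ = c := by rw [← mul_assoc, h, one_mul]
  refine ⟨⟨a, b, h, ?_⟩, rfl⟩
  rw [this, hc]

/-- Fitting: no non-trivial idempotents, then every element is nilpotent or a unit. -/
theorem nil_or_unit (k : Type w) [Field k] [Algebra k A] [FiniteDimensional k A]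
    (h : ∀ e : A, e * e = e → e = 0 ∨ e = 1) (f : A) : IsNilpotent f ∨ IsUnit f := by
  obtain ⟨n, hn, hn0⟩ := ((LinearMap.eventually_isCompl_ker_pow_range_pow
    (LinearMap.mulLeft k f)).and (Filter.eventually_ge_atTop 1)).exists
  have hpow : LinearMap.mulLeft k f ^ n = LinearMap.mulLeft k (f ^ n) := by
    rw [LinearMap.pow_mulLeft]
  rw [hpow] at hn
  have htop : (1 : A) ∈ LinearMap.ker (LinearMap.mulLeft k (f ^ n)) ⊔
      LinearMap.range (LinearMap.mulLeft k (f ^ n)) := by
    rw [hn.sup_eq_top]; exact Submodule.mem_top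
  obtain ⟨x, hx, y, hy, hxy⟩ := Submodule.mem_sup.1 htop
  rw [LinearMap.mem_ker, LinearMap.mulLeft_apply] at hx
  obtain ⟨z, hz⟩ := hy
  rw [LinearMap.mulLeft_apply] at hz
  -- `x` is an idempotent
  have hyx : y * x ∈ LinearMap.ker (LinearMap.mulLeft k (f ^ n)) ⊓
      LinearMap.range (LinearMap.mulLeft k (f ^ n)) := by
    constructor
    · change f ^ n * (y * x) = 0
      have h1 : x * x + y * x = x := by rw [← add_mul, hxy, one_mul]
      have h2 : y * x = x - x * x := by rw [eq_sub_iff_add_eq, add_comm]; exact h1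
      rw [h2, mul_sub, ← mul_assoc, hx, zero_mul, sub_zero]
    · exact ⟨z * x, by rw [LinearMap.mulLeft_apply, ← mul_assoc, hz]⟩
  rw [hn.inf_eq_bot, Submodule.mem_bot] at hyx
  have hxx : x * x = x := by
    have h1 : x * x + y * x = x := by rw [← add_mul, hxy, one_mul]
    rwa [hyx, add_zero] at h1
  rcases h x hxx with h0 | h1
  · right
    rw [h0, zero_add] at hxy
    have : f * (f ^ (n - 1) * z) = 1 := by
      rw [← mul_assoc, ← pow_succ', Nat.sub_add_cancel hn0, hz, hxy]
    exact isUnit_of_mul_eq_one' k this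
  · left
    refine ⟨n, ?_⟩
    rwa [h1, mul_one] at hx



end Alg

/-! ### linear categories -/

section Cat

open CategoryTheory

variable {C : Type u} [Category.{v} C] [Preadditive C]

/-- only trivial idempotents -/
def IdemTriv (X : C) : Prop := ∀ e : X ⟶ X, e ≫ e = e → e = 0 ∨ e = 𝟙 X

/-- indecomposable: not zero and only trivial idempotents -/
def Ind (X : C) : Prop := 𝟙 X ≠ 0 ∧ IdemTriv X


variable {k : Type w} [Field k] [Linear k C]


end Cat

/-! ### decompositions -/

section Dec

variable {Ob : Type u}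

/-- a decomposition of `X` into the list of indecomposables `l`. `Sm X Y Z` : `X ≅ Y ⊕ Z`. -/
inductive Dec (IsZ : Ob → Prop) (In : Ob → Prop) (Sm : Ob → Ob → Ob → Prop) : Ob → List Ob → Prop
  | zero {X : Ob} (h : IsZ X) : Dec IsZ In Sm X []
  | ind {X : Ob} (h : In X) : Dec IsZ In Sm X [X]
  | sum {X Y Z : Ob} {l m : List Ob} (h : Sm X Y Z) (h1 : Dec IsZ In Sm Y l)
      (h2 : Dec IsZ In Sm Z m) : Dec IsZ In Sm X (l ++ m)

variable {IsZ In : Ob → Prop} {Sm : Ob → Ob → Ob → Prop}

theorem Dec.all_ind {X : Ob} {l : List Ob} (h : Dec IsZ In Sm X l) : ∀ Y ∈ l, In Y := by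
  induction h with
  | zero h => intro Y hY; simp at hY
  | ind h => intro Y hY; rw [List.mem_singleton] at hY; exact hY ▸ h
  | sum h h1 h2 ih1 ih2 =>
    intro Y hY
    rcases List.mem_append.1 hY with hY | hY
    · exact ih1 Y hY
    · exact ih2 Y hY

/-- additive invariants. -/
theorem Dec.map_sum {M : Type u'} [AddCommMonoid M] (φ : Ob → M)
    (h0 : ∀ X, IsZ X → φ X = 0) (hs : ∀ X Y Z, Sm X Y Z → φ X = φ Y + φ Z)
    {X : Ob} {l : List Ob} (h : Dec IsZ In Sm X l) : φ X = (l.map φ).sum := by
  induction h with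
  | zero h => simp [h0 _ h]
  | ind h => simp
  | sum h h1 h2 ih1 ih2 => rw [hs _ _ _ h, ih1, ih2, List.map_append, List.sum_append]

/-- existence: every object which is not zero and not indecomposable splits into smaller ones. -/
theorem exists_dec (size : Ob → ℕ)
    (hsp : ∀ X, ¬ IsZ X → ¬ In X → ∃ Y Z, Sm X Y Z ∧ size Y < size X ∧ size Z < size X) (X : Ob) :
    ∃ l, Dec IsZ In Sm X l := by
  induction hn : size X using Nat.strong_induction_on generalizing X with
  | _ n ih =>
    by_cases hz : IsZ X
    · exact ⟨[], Dec.zero hz⟩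
    by_cases hi : In X
    · exact ⟨[X], Dec.ind hi⟩
    obtain ⟨Y, Z, hs, hY, hZ⟩ := hsp X hz hi
    obtain ⟨l, hl⟩ := ih (size Y) (hn ▸ hY) Y rfl
    obtain ⟨m, hm⟩ := ih (size Z) (hn ▸ hZ) Z rfl
    exact ⟨l ++ m, Dec.sum hs hl hm⟩

end Dec

end Crest.Agent.R175.KS_303
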