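import Crest.Agent.R175.PTB_450

-- ▼ part R175/PTC_450
section

/-!
# T-framed objects (row 175, helper450): elimination, extensions, cones, direct sums, shift
-/

set_option autoImplicit false
set_option linter.unusedSectionVars false
set_option linter.unusedVariables false
set_option linter.unusedSimpArgs false

open CategoryTheory Module LinearMap

namespace Crest.Agent.R175.PTA

universe u v

variable {T : Type u} {G : MG T} {k : Type v} [Field k] [Fintype T]

/-- object level Gaussian elimination / perturbation lemma: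
`s` odd, `s s = 0`, `s d s = s`, a retract `r : C ⟶ X`, `q : X ⟶ C` (even) with
`r q = 1`, `r s = 0`, `s q = 0` and `q r + s a + b s = 1`.
The new object is `C` with `d_C = r (d - d s d) q`, and `X ≃ (C, d_C)`. -/
structure ElimData (X : TOb G k) where
  /-- the new object -/
  C : Gob G k
  /-- inclusion -/
  r : C ⟶ X.X
  /-- projection -/
  q : X.X ⟶ C
  /-- contraction -/
  s : X.X ⟶ X.X
  /-- auxiliary -/
  a : X.X ⟶ X.X
  /-- auxiliary -/
  b : X.X ⟶ X.X
  hr : bar r = r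
  hq : bar q = q
  hs : bar s = -s
  rq : r ≫ q = 𝟙 C
  rs : r ≫ s = 0
  sq : s ≫ q = 0
  ss : s ≫ s = 0
  sds : s ≫ X.d ≫ s = s
  one : q ≫ r + s ≫ a + b ≫ s = 𝟙 X.X

namespace ElimData

variable {X : TOb G k} (E : ElimData X)

/-- modified inclusion `r (1 - d s)` -/
def R : E.C ⟶ X.X := E.r - E.r ≫ X.d ≫ E.s

/-- modified projection `(1 - s d) q` -/
def Q : X.X ⟶ E.C := E.q - E.s ≫ X.d ≫ E.q

theorem assoc_ss {Z : Gob G k} (g : X.X ⟶ Z) : E.s ≫ E.s ≫ g = 0 := by
  rw [← Category.assoc, E.ss, Limits.zero_comp]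

theorem assoc_rs {Z : Gob G k} (g : X.X ⟶ Z) : E.r ≫ E.s ≫ g = 0 := by
  rw [← Category.assoc, E.rs, Limits.zero_comp]

theorem assoc_sq {Z : Gob G k} (g : E.C ⟶ Z) : E.s ≫ E.q ≫ g = 0 := by
  rw [← Category.assoc, E.sq, Limits.zero_comp]


theorem assoc_sds {Z : Gob G k} (g : X.X ⟶ Z) : E.s ≫ X.d ≫ E.s ≫ g = E.s ≫ g := by
  have := E.sds
  calc E.s ≫ X.d ≫ E.s ≫ g = (E.s ≫ X.d ≫ E.s) ≫ g := by simp only [Category.assoc]
    _ = _ := by rw [this]

theorem R_Q : E.R ≫ E.Q = 𝟙 E.C := by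
  unfold R Q
  simp only [Preadditive.sub_comp, Preadditive.comp_sub, Category.assoc, E.rq, E.rs, E.sq,
    E.assoc_rs, E.assoc_sq, E.assoc_ss, Limits.comp_zero, sub_zero]

theorem Q_R : E.Q ≫ E.R = 𝟙 X.X - E.s ≫ X.d - X.d ≫ E.s := by
  have e1 : (𝟙 X.X - E.s ≫ X.d) ≫ E.s = 0 := by
    rw [Preadditive.sub_comp, Category.assoc, E.sds, Category.id_comp, sub_self]
  have e2 : E.s ≫ (𝟙 X.X - X.d ≫ E.s) = 0 := by
    rw [Preadditive.comp_sub, E.sds, Category.comp_id, sub_self]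
  have e3 : E.Q = (𝟙 X.X - E.s ≫ X.d) ≫ E.q := by
    unfold Q; rw [Preadditive.sub_comp, Category.id_comp, Category.assoc]
  have e4 : E.R = E.r ≫ (𝟙 X.X - X.d ≫ E.s) := by
    unfold R; rw [Preadditive.comp_sub, Category.comp_id]
  have e5 : E.q ≫ E.r = 𝟙 X.X - E.s ≫ E.a - E.b ≫ E.s := by
    rw [← E.one]; abel
  have e6 : (𝟙 X.X - E.s ≫ X.d) ≫ (𝟙 X.X - X.d ≫ E.s) =
      𝟙 X.X - E.s ≫ X.d - X.d ≫ E.s := by
    rw [Preadditive.sub_comp, Category.id_comp, Preadditive.comp_sub, Category.comp_id,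
      Category.assoc, X.dd_assoc, Limits.comp_zero, sub_zero]
    abel
  rw [← e6]
  generalize 𝟙 X.X - E.s ≫ X.d = U at *
  generalize 𝟙 X.X - X.d ≫ E.s = V at *
  calc E.Q ≫ E.R = U ≫ (E.q ≫ E.r) ≫ V := by
        rw [e3, e4]; simp only [Category.assoc]
    _ = U ≫ V - (U ≫ E.s) ≫ E.a ≫ V - U ≫ E.b ≫ (E.s ≫ V) := by
        rw [e5]
        simp only [Preadditive.sub_comp, Preadditive.comp_sub, Category.assoc,
          Category.id_comp]
    _ = _ := by
        rw [e1, e2, Limits.zero_comp, Limits.comp_zero, Limits.comp_zero, sub_zero, sub_zero]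

/-- the new differential -/
def dC : E.C ⟶ E.C := E.r ≫ (X.d - X.d ≫ E.s ≫ X.d) ≫ E.q

theorem R_d : E.R ≫ X.d = E.dC ≫ E.R := by
  have h1 : E.R ≫ X.d ≫ E.Q ≫ E.R = E.R ≫ X.d := by
    rw [E.Q_R]
    unfold R
    simp only [Preadditive.sub_comp, Preadditive.comp_sub, Category.assoc,
      Category.comp_id, TOb.dd_assoc, E.rs, E.assoc_rs, E.assoc_ss, E.assoc_sds, E.sds,
      Limits.comp_zero, sub_zero]
    abel
  have h2 : E.R ≫ X.d ≫ E.Q = E.dC := by
    unfold R Q dC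
    simp only [Preadditive.sub_comp, Preadditive.comp_sub, Category.assoc, E.assoc_sds,
      TOb.dd_assoc, Limits.comp_zero, sub_zero]
    abel
  rw [← h1, ← h2]
  simp only [Category.assoc]

theorem R_d_Q : E.R ≫ X.d ≫ E.Q = E.dC := by
  rw [← Category.assoc, R_d, Category.assoc, R_Q, Category.comp_id]

theorem d_Q : X.d ≫ E.Q = E.Q ≫ E.dC := by
  have h1 : E.Q ≫ E.R ≫ X.d ≫ E.Q = X.d ≫ E.Q := by
    rw [← Category.assoc, E.Q_R]
    unfold Q
    simp only [Preadditive.sub_comp, Preadditive.comp_sub, Category.assoc,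
      Category.id_comp, TOb.dd_assoc, E.sq, E.assoc_sq, E.assoc_ss, E.assoc_sds, E.sds,
      Limits.comp_zero, sub_zero]
    abel
  rw [← h1, R_d_Q]

theorem bar_R : bar E.R = E.R := by
  unfold R
  rw [bar_sub, bar_comp, bar_comp, E.hr, E.hs, X.bar_d]
  simp

theorem bar_Q : bar E.Q = E.Q := by
  unfold Q
  rw [bar_sub, bar_comp, bar_comp, E.hq, E.hs, X.bar_d]
  simp

theorem bar_dC : bar E.dC = -E.dC := by
  rw [← R_d_Q, bar_comp, bar_comp, bar_R, bar_Q, X.bar_d, Preadditive.neg_comp,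
    Preadditive.comp_neg]

/-- the eliminated object -/
@[reducible] def tob : TOb G k where
  X := E.C
  d := E.dC
  dg := by
    have h := E.bar_dC
    rw [bar] at h
    calc E.dC ≫ gam E.C = gam E.C ≫ (gam E.C ≫ E.dC ≫ gam E.C) := by simp
      _ = _ := by rw [h, Preadditive.comp_neg]
  dd := by
    have h : E.R ≫ X.d ≫ X.d = 0 := by rw [X.dd, Limits.comp_zero]
    have h2 : E.dC ≫ E.dC ≫ E.R = 0 := by
      rw [← R_d, ← Category.assoc, ← R_d, Category.assoc, h]
    calc E.dC ≫ E.dC = (E.dC ≫ E.dC ≫ E.R) ≫ E.Q := by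
          simp only [Category.assoc, E.R_Q, Category.comp_id]
      _ = 0 := by rw [h2, Limits.zero_comp]
  dW t := by simp [dC]

theorem D_R : D E.tob X E.R = 0 := by
  rw [D_apply, E.bar_R]
  change E.R ≫ X.d - E.dC ≫ E.R = 0
  rw [R_d, sub_self]

theorem D_Q : D X E.tob E.Q = 0 := by
  rw [D_apply, E.bar_Q]
  change E.Q ≫ E.dC - X.d ≫ E.Q = 0
  rw [d_Q, sub_self]

/-- the homotopy equivalence -/
def he : HEquiv X E.tob where
  p := E.Q
  q := E.R
  s := -E.s
  r := 0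
  bp := E.bar_Q
  bq := E.bar_R
  Dp := E.D_Q
  Dq := E.D_R
  pq := by
    rw [E.Q_R, D_apply, bar_neg, E.hs, Preadditive.neg_comp, neg_neg]
    abel
  qp := by rw [map_zero, add_zero]; exact E.R_Q

theorem hiso : HIso X E.tob := ⟨E.he⟩

end ElimData

/-- `Y → Z → X`: extension of T-framed objects, split in `Gob`;
`bar i = β i`, `bar p = α p`. -/
structure Ext (Y Z X : TOb G k) (β α : k) where
  /-- inclusion -/
  i : Y.X ⟶ Z.X
  /-- projection -/
  p : Z.X ⟶ X.X
  /-- retraction of `i` -/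
  r : Z.X ⟶ Y.X
  /-- section of `p` -/
  σ : X.X ⟶ Z.X
  hβ : β * β = 1
  hα : α * α = 1
  hi : bar i = β • i
  hp : bar p = α • p
  hr : bar r = β • r
  hσ : bar σ = α • σ
  Di : D Y Z i = 0
  Dp : D Z X p = 0
  ir : i ≫ r = 𝟙 Y.X
  σp : σ ≫ p = 𝟙 X.X
  ip : i ≫ p = 0
  σr : σ ≫ r = 0
  one : r ≫ i + p ≫ σ = 𝟙 Z.X

theorem ne_zero_of_sq {a : k} (h : a * a = 1) : a ≠ 0 := by
  rintro rfl
  rw [zero_mul] at h
  exact zero_ne_one h

namespace Ext

variable {Y Z X : TOb G k} {β α : k} (E : Ext Y Z X β α)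

/-- connecting map `X → Y` -/
def g : X.X ⟶ Y.X := E.σ ≫ Z.d ≫ E.r



theorem d_p : Z.d ≫ E.p = α • (E.p ≫ X.d) := by
  have := E.Dp
  rw [D_apply, E.hp, Linear.comp_smul, sub_eq_zero] at this
  rw [this, smul_smul, E.hα, one_smul]

/-- `σ d = ± d σ + g i` -/
theorem σ_d : E.σ ≫ Z.d = α • (X.d ≫ E.σ) + E.g ≫ E.i := by
  have h1 : E.σ ≫ Z.d = E.σ ≫ Z.d ≫ (E.r ≫ E.i + E.p ≫ E.σ) := by
    rw [E.one, Category.comp_id]
  rw [h1, Preadditive.comp_add, Preadditive.comp_add]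
  have h2 : E.σ ≫ Z.d ≫ E.p ≫ E.σ = α • (X.d ≫ E.σ) := by
    calc E.σ ≫ Z.d ≫ E.p ≫ E.σ = E.σ ≫ (Z.d ≫ E.p) ≫ E.σ := by
          simp only [Category.assoc]
      _ = _ := by
          rw [E.d_p, Linear.smul_comp, Linear.comp_smul, Category.assoc,
            ← Category.assoc E.σ, E.σp, Category.id_comp]
  rw [h2]
  unfold g
  simp only [Category.assoc]
  abel


variable (J : Idl G k)



/-- maps out of `W` -/
def rI (W : Gob G k) : J.I W Y.X →ₗ[k] J.I W Z.X :=
  (Linear.rightComp k W E.i).restrict (fun _ h => J.comp_right _ h)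

/-- maps out of `W` -/
def rP (W : Gob G k) : J.I W Z.X →ₗ[k] J.I W X.X :=
  (Linear.rightComp k W E.p).restrict (fun _ h => J.comp_right _ h)



theorem rI_inj (W : Gob G k) : Function.Injective (E.rI J W) := by
  intro x y hxy
  apply Subtype.ext
  have h : (x : W ⟶ Y.X) ≫ E.i = (y : W ⟶ Y.X) ≫ E.i := congrArg Subtype.val hxy
  have h2 := congrArg (· ≫ E.r) h
  simpa only [Category.assoc, E.ir, Category.comp_id] using h2

theorem rP_surj (W : Gob G k) : Function.Surjective (E.rP J W) := by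
  intro x
  refine ⟨⟨x.1 ≫ E.σ, J.comp_right _ x.2⟩, Subtype.ext ?_⟩
  change (x.1 ≫ E.σ) ≫ E.p = x.1
  rw [Category.assoc, E.σp, Category.comp_id]

theorem r_ex (W : Gob G k) (x : J.I W Z.X) : E.rP J W x = 0 ↔ ∃ y, E.rI J W y = x := by
  constructor
  · intro h
    have h' : x.1 ≫ E.p = 0 := congrArg Subtype.val h
    refine ⟨⟨x.1 ≫ E.r, J.comp_right _ x.2⟩, Subtype.ext ?_⟩
    change (x.1 ≫ E.r) ≫ E.i = x.1
    calc (x.1 ≫ E.r) ≫ E.i = x.1 ≫ (E.r ≫ E.i + E.p ≫ E.σ) := by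
          rw [Preadditive.comp_add, Category.assoc, ← Category.assoc x.1 E.p, h',
            Limits.zero_comp, add_zero]
      _ = _ := by rw [E.one, Category.comp_id]
  · rintro ⟨y, rfl⟩
    apply Subtype.ext
    change (y.1 ≫ E.i) ≫ E.p = 0
    rw [Category.assoc, E.ip, Limits.comp_zero]




theorem rI_D (W : TOb G k) (x : J.I W.X Y.X) :
    J.Dr W Z (E.rI J W.X x) = β • E.rI J W.X (J.Dr W Y x) := by
  apply Subtype.ext
  change D W Z (x.1 ≫ E.i) = β • (D W Y x.1 ≫ E.i)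
  rw [D_comp_rightε _ E.hi E.Di]

theorem rP_D (W : TOb G k) (x : J.I W.X Z.X) :
    J.Dr W X (E.rP J W.X x) = α • E.rP J W.X (J.Dr W Z x) := by
  apply Subtype.ext
  change D W X (x.1 ≫ E.p) = α • (D W Z x.1 ≫ E.p)
  rw [D_comp_rightε _ E.hp E.Dp]







/-- `D (f σ) = f g i` for closed `f : W → X` -/
theorem D_comp_σ {W : TOb G k} {f : W.X ⟶ X.X} (hf : D W X f = 0) :
    D W Z (f ≫ E.σ) = f ≫ E.g ≫ E.i := by
  have h2 : f ≫ X.d = W.d ≫ bar f := by
    rw [D_apply, sub_eq_zero] at hf; exact hf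
  rw [D_apply, bar_comp, Category.assoc, E.σ_d, E.hσ, Preadditive.comp_add,
    Linear.comp_smul, ← Category.assoc f, h2, Linear.comp_smul, Linear.comp_smul]
  simp only [Category.assoc]
  abel

/-- the obstruction to lifting a closed `f : W → X` to `Z` is `f g` -/
theorem lift_iff (W : TOb G k) (f : J.I W.X X.X) (hf : D W X f.1 = 0) :
    (∃ x : J.I W.X Z.X, D W Z x.1 = 0 ∧ x.1 ≫ E.p = f.1) ↔
      ∃ y : J.I W.X Y.X, D W Y y.1 = f.1 ≫ E.g := by
  have h1 := E.D_comp_σ hf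
  constructor
  · rintro ⟨x, hx, hxp⟩
    have h3 : x.1 = (x.1 ≫ E.r) ≫ E.i + f.1 ≫ E.σ := by
      calc x.1 = x.1 ≫ (E.r ≫ E.i + E.p ≫ E.σ) := by rw [E.one, Category.comp_id]
        _ = _ := by
            rw [Preadditive.comp_add, ← Category.assoc, ← Category.assoc x.1 E.p, hxp]
    have h4 : β • (D W Y (x.1 ≫ E.r) ≫ E.i) + f.1 ≫ E.g ≫ E.i = 0 := by
      rw [← h1, ← D_comp_rightε _ E.hi E.Di, ← map_add, ← h3, hx]
    have h5 : β • D W Y (x.1 ≫ E.r) + f.1 ≫ E.g = 0 := by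
      have := congrArg (· ≫ E.r) h4
      simpa only [Preadditive.add_comp, Linear.smul_comp, Category.assoc, E.ir,
        Category.comp_id, Limits.zero_comp] using this
    refine ⟨⟨-(β • (x.1 ≫ E.r)), Submodule.neg_mem _ (Submodule.smul_mem _ _
      (J.comp_right _ x.2))⟩, ?_⟩
    change D W Y (-(β • (x.1 ≫ E.r))) = _
    rw [map_neg, map_smul]
    exact neg_eq_of_add_eq_zero_right h5
  · rintro ⟨y, hy⟩
    refine ⟨⟨-(β • (y.1 ≫ E.i)) + f.1 ≫ E.σ, Submodule.add_mem _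
      (Submodule.neg_mem _ (Submodule.smul_mem _ _ (J.comp_right _ y.2)))
      (J.comp_right _ f.2)⟩, ?_, ?_⟩
    · change D W Z (-(β • (y.1 ≫ E.i)) + f.1 ≫ E.σ) = 0
      rw [map_add, map_neg, map_smul, h1, D_comp_rightε _ E.hi E.Di, smul_smul, E.hβ,
        one_smul, hy, Category.assoc]
      abel
    · change (-(β • (y.1 ≫ E.i)) + f.1 ≫ E.σ) ≫ E.p = f.1
      rw [Preadditive.add_comp, Preadditive.neg_comp, Linear.smul_comp, Category.assoc,
        E.ip, Limits.comp_zero, smul_zero, neg_zero, zero_add, Category.assoc, E.σp,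
        Category.comp_id]


/-- equality if `f g` is a coboundary for all cocycles `f : W → X` -/
theorem h_right_eq (W : TOb G k)
    (hall : ∀ f : J.I W.X X.X, D W X f.1 = 0 →
      ∃ y : J.I W.X Y.X, D W Y y.1 = f.1 ≫ E.g) :
    J.h W Z = J.h W Y + J.h W X := by
  refine DS_450.hd_ses_eq (J.Dr_Dr W Z) (J.Dr_Dr W Y) (J.Dr_Dr W X) (E.rI J W.X)
    (E.rP J W.X) (E.rI_inj J W.X) (E.rP_surj J W.X) (E.r_ex J W.X) β α
    (ne_zero_of_sq E.hβ) (ne_zero_of_sq E.hα) (E.rI_D J W) (E.rP_D J W) ?_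
  intro f hf
  have hf' : D W X f.1 = 0 := congrArg Subtype.val hf
  obtain ⟨x, hx, hxp⟩ := (E.lift_iff J W f hf').2 (hall f hf')
  exact ⟨x, Subtype.ext hx, Subtype.ext hxp⟩




end Ext

end Crest.Agent.R175.PTA
end

-- ▼ part R175/PTD_450

/-!
# T-framed objects (row 175, helper450): shift, direct sum, cone
-/

set_option autoImplicit false
set_option linter.unusedSectionVars false
set_option linter.unusedVariables false
set_option linter.unusedSimpArgs false

open CategoryTheory Module LinearMap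

namespace Crest.Agent.R175.PTA

universe u v

variable {T : Type u} {G : MG T} {k : Type v} [Field k]

/-! ### direct sum in `Gob` -/

/-- direct sum of graded objects -/
@[reducible] def gsum (X Y : Gob G k) : Gob G k where
  V t := X.V t × Y.V t
  W t := X.W t × Y.W t
  gV t := (X.gV t).prodMap (Y.gV t)
  gW t := (X.gW t).prodMap (Y.gW t)
  gV_sq t := by
    apply LinearMap.ext
    rintro ⟨x, y⟩
    exact Prod.ext (LinearMap.congr_fun (X.gV_sq t) x) (LinearMap.congr_fun (Y.gV_sq t) y)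
  gW_sq t := by
    apply LinearMap.ext
    rintro ⟨x, y⟩
    exact Prod.ext (LinearMap.congr_fun (X.gW_sq t) x) (LinearMap.congr_fun (Y.gW_sq t) y)

/-- inclusion -/
def inl (X Y : Gob G k) : X ⟶ gsum X Y :=
  mkH (fun t => LinearMap.inl k (X.V t) (Y.V t)) (fun t => LinearMap.inl k (X.W t) (Y.W t))
    (fun _ _ _ => 0) (fun _ => 0) (fun _ => 0) (fun _ => 0)

/-- inclusion -/
def inr (X Y : Gob G k) : Y ⟶ gsum X Y :=
  mkH (fun t => LinearMap.inr k (X.V t) (Y.V t)) (fun t => LinearMap.inr k (X.W t) (Y.W t))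
    (fun _ _ _ => 0) (fun _ => 0) (fun _ => 0) (fun _ => 0)

/-- projection -/
def fst (X Y : Gob G k) : gsum X Y ⟶ X :=
  mkH (fun t => LinearMap.fst k (X.V t) (Y.V t)) (fun t => LinearMap.fst k (X.W t) (Y.W t))
    (fun _ _ _ => 0) (fun _ => 0) (fun _ => 0) (fun _ => 0)

/-- projection -/
def snd (X Y : Gob G k) : gsum X Y ⟶ Y :=
  mkH (fun t => LinearMap.snd k (X.V t) (Y.V t)) (fun t => LinearMap.snd k (X.W t) (Y.W t))
    (fun _ _ _ => 0) (fun _ => 0) (fun _ => 0) (fun _ => 0)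

section simps
variable (X Y : Gob G k) (t : T) {s : T} (a : G.E s t)
@[simp] theorem c0_inl : c0 (inl X Y) t = LinearMap.inl k (X.V t) (Y.V t) := rfl
@[simp] theorem cW_inl : cW (inl X Y) t = LinearMap.inl k (X.W t) (Y.W t) := rfl
@[simp] theorem c1_inl : c1 (inl X Y) a = 0 := rfl
@[simp] theorem ci_inl : ci (inl X Y) t = 0 := rfl
@[simp] theorem cj_inl : cj (inl X Y) t = 0 := rfl
@[simp] theorem c2_inl : c2 (inl X Y) t = 0 := rfl
@[simp] theorem c0_inr : c0 (inr X Y) t = LinearMap.inr k (X.V t) (Y.V t) := rfl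
@[simp] theorem cW_inr : cW (inr X Y) t = LinearMap.inr k (X.W t) (Y.W t) := rfl
@[simp] theorem c1_inr : c1 (inr X Y) a = 0 := rfl
@[simp] theorem ci_inr : ci (inr X Y) t = 0 := rfl
@[simp] theorem cj_inr : cj (inr X Y) t = 0 := rfl
@[simp] theorem c2_inr : c2 (inr X Y) t = 0 := rfl
@[simp] theorem c0_fst : c0 (fst X Y) t = LinearMap.fst k (X.V t) (Y.V t) := rfl
@[simp] theorem cW_fst : cW (fst X Y) t = LinearMap.fst k (X.W t) (Y.W t) := rfl
@[simp] theorem c1_fst : c1 (fst X Y) a = 0 := rfl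
@[simp] theorem ci_fst : ci (fst X Y) t = 0 := rfl
@[simp] theorem cj_fst : cj (fst X Y) t = 0 := rfl
@[simp] theorem c2_fst : c2 (fst X Y) t = 0 := rfl
@[simp] theorem c0_snd : c0 (snd X Y) t = LinearMap.snd k (X.V t) (Y.V t) := rfl
@[simp] theorem cW_snd : cW (snd X Y) t = LinearMap.snd k (X.W t) (Y.W t) := rfl
@[simp] theorem c1_snd : c1 (snd X Y) a = 0 := rfl
@[simp] theorem ci_snd : ci (snd X Y) t = 0 := rfl
@[simp] theorem cj_snd : cj (snd X Y) t = 0 := rfl
@[simp] theorem c2_snd : c2 (snd X Y) t = 0 := rfl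
end simps

variable [Fintype T]

theorem gVgV {T : Type u} {G : MG T} (X : Gob G k) (t : T) (x : X.V t) :
    X.gV t (X.gV t x) = x := LinearMap.congr_fun (X.gV_sq t) x

theorem gWgW {T : Type u} {G : MG T} (X : Gob G k) (t : T) (x : X.W t) :
    X.gW t (X.gW t x) = x := LinearMap.congr_fun (X.gW_sq t) x

section sumlemmas

variable (X Y : Gob G k)

@[simp] theorem inl_fst : inl X Y ≫ fst X Y = 𝟙 X := by
  apply hm_ext <;> intros <;> simp
@[simp] theorem inl_snd : inl X Y ≫ snd X Y = 0 := by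
  apply hm_ext <;> intros <;> simp
@[simp] theorem inr_fst : inr X Y ≫ fst X Y = 0 := by
  apply hm_ext <;> intros <;> simp
@[simp] theorem inr_snd : inr X Y ≫ snd X Y = 𝟙 Y := by
  apply hm_ext <;> intros <;> simp
theorem sum_one : fst X Y ≫ inl X Y + snd X Y ≫ inr X Y = 𝟙 (gsum X Y) := by
  apply hm_ext
  · intro t
    apply LinearMap.ext
    rintro ⟨x, y⟩
    simp
  · intro t
    apply LinearMap.ext
    rintro ⟨x, y⟩
    simp
  all_goals intros; simp

@[simp] theorem bar_inl : bar (inl X Y) = inl X Y := by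
  apply hm_ext
  · intro t
    apply LinearMap.ext
    intro x
    simp [gVgV]
  · intro t
    apply LinearMap.ext
    intro x
    simp [gWgW]
  all_goals intros; simp

@[simp] theorem bar_inr : bar (inr X Y) = inr X Y := by
  apply hm_ext
  · intro t
    apply LinearMap.ext
    intro x
    simp [gVgV]
  · intro t
    apply LinearMap.ext
    intro x
    simp [gWgW]
  all_goals intros; simp

@[simp] theorem bar_fst : bar (fst X Y) = fst X Y := by
  apply hm_ext
  · intro t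
    apply LinearMap.ext
    rintro ⟨x, y⟩
    simp [gVgV]
  · intro t
    apply LinearMap.ext
    rintro ⟨x, y⟩
    simp [gWgW]
  all_goals intros; simp

@[simp] theorem bar_snd : bar (snd X Y) = snd X Y := by
  apply hm_ext
  · intro t
    apply LinearMap.ext
    rintro ⟨x, y⟩
    simp [gVgV]
  · intro t
    apply LinearMap.ext
    rintro ⟨x, y⟩
    simp [gWgW]
  all_goals intros; simp

variable {X Y} {Z : Gob G k}

@[simp] theorem inl_fst_assoc (f : X ⟶ Z) : inl X Y ≫ fst X Y ≫ f = f := by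
  rw [← Category.assoc, inl_fst, Category.id_comp]
@[simp] theorem inl_snd_assoc (f : Y ⟶ Z) : inl X Y ≫ snd X Y ≫ f = 0 := by
  rw [← Category.assoc, inl_snd, Limits.zero_comp]
@[simp] theorem inr_fst_assoc (f : X ⟶ Z) : inr X Y ≫ fst X Y ≫ f = 0 := by
  rw [← Category.assoc, inr_fst, Limits.zero_comp]
@[simp] theorem inr_snd_assoc (f : Y ⟶ Z) : inr X Y ≫ snd X Y ≫ f = f := by
  rw [← Category.assoc, inr_snd, Category.id_comp]

end sumlemmas

/-- `bar d = -d` implies `d γ = - γ d` -/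
theorem dg_of_bar {X : Gob G k} {d : X ⟶ X} (h : bar d = -d) :
    d ≫ gam X = -(gam X ≫ d) := by
  rw [bar] at h
  calc d ≫ gam X = gam X ≫ (gam X ≫ d ≫ gam X) := by simp
    _ = _ := by rw [h, Preadditive.comp_neg]

/-! ### cone of an odd closed map -/

theorem cone_dd_aux {A B Z : Gob G k} {i1 : A ⟶ Z} {i2 : B ⟶ Z} {p1 : Z ⟶ A} {p2 : Z ⟶ B}
    (h11 : i1 ≫ p1 = 𝟙 A) (h12 : i1 ≫ p2 = 0) (h21 : i2 ≫ p1 = 0) (h22 : i2 ≫ p2 = 𝟙 B)
    {a : A ⟶ A} {b : B ⟶ B} {g : A ⟶ B} (ha : a ≫ a = 0) (hb : b ≫ b = 0)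
    (hg : a ≫ g + g ≫ b = 0) :
    (p1 ≫ a ≫ i1 + p2 ≫ b ≫ i2 + p1 ≫ g ≫ i2) ≫
      (p1 ≫ a ≫ i1 + p2 ≫ b ≫ i2 + p1 ≫ g ≫ i2) = 0 := by
  have e1 : ∀ {W : Gob G k} (f : A ⟶ W), i1 ≫ p1 ≫ f = f := fun f => by
    rw [← Category.assoc, h11, Category.id_comp]
  have e2 : ∀ {W : Gob G k} (f : B ⟶ W), i1 ≫ p2 ≫ f = 0 := fun f => by
    rw [← Category.assoc, h12, Limits.zero_comp]
  have e3 : ∀ {W : Gob G k} (f : A ⟶ W), i2 ≫ p1 ≫ f = 0 := fun f => by
    rw [← Category.assoc, h21, Limits.zero_comp]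
  have e4 : ∀ {W : Gob G k} (f : B ⟶ W), i2 ≫ p2 ≫ f = f := fun f => by
    rw [← Category.assoc, h22, Category.id_comp]
  have e5 : ∀ {W : Gob G k} (f : A ⟶ W), a ≫ a ≫ f = 0 := fun f => by
    rw [← Category.assoc, ha, Limits.zero_comp]
  have e6 : ∀ {W : Gob G k} (f : B ⟶ W), b ≫ b ≫ f = 0 := fun f => by
    rw [← Category.assoc, hb, Limits.zero_comp]
  simp only [Preadditive.add_comp, Preadditive.comp_add, Category.assoc, e1, e2, e3, e4, e5,
    e6, Limits.comp_zero, add_zero, zero_add]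
  have h2 : p1 ≫ (a ≫ g + g ≫ b) ≫ i2 = 0 := by
    rw [hg, Limits.zero_comp, Limits.comp_zero]
  rw [add_comm]
  simpa only [Preadditive.add_comp, Preadditive.comp_add, Category.assoc] using h2

/-- the cone of an odd closed map `g : X → Y` without frame-frame component -/
@[reducible] def cone {X Y : TOb G k} (g : X.X ⟶ Y.X) (hb : bar g = -g)
    (hc : D X Y g = 0) (hW : ∀ t, cW g t = 0) : TOb G k where
  X := gsum X.X Y.X
  d := fst X.X Y.X ≫ X.d ≫ inl X.X Y.X + snd X.X Y.X ≫ Y.d ≫ inr X.X Y.X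
    + fst X.X Y.X ≫ g ≫ inr X.X Y.X
  dd := by
    have h : X.d ≫ g + g ≫ Y.d = 0 := by
      rw [D_apply, hb, Preadditive.comp_neg, sub_neg_eq_add, add_comm] at hc
      exact hc
    exact cone_dd_aux (inl_fst _ _) (inl_snd _ _) (inr_fst _ _) (inr_snd _ _) X.dd Y.dd h
  dg := by
    apply dg_of_bar
    rw [bar_add, bar_add, bar_comp, bar_comp, bar_comp, bar_comp, bar_comp, bar_comp,
      bar_fst, bar_snd, bar_inl, bar_inr, X.bar_d, Y.bar_d, hb]
    simp only [Preadditive.neg_comp, Preadditive.comp_neg]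
    abel
  dW t := by simp [hW t]

section coneLemmas

variable {X Y : TOb G k} (g : X.X ⟶ Y.X) (hb : bar g = -g)
    (hc : D X Y g = 0) (hW : ∀ t, cW g t = 0)

theorem cone_d : (cone g hb hc hW).d = fst X.X Y.X ≫ X.d ≫ inl X.X Y.X
    + snd X.X Y.X ≫ Y.d ≫ inr X.X Y.X + fst X.X Y.X ≫ g ≫ inr X.X Y.X := rfl

/-- the cone as an extension `Y → cone g → X` -/
@[reducible] def coneExt : Ext Y (cone g hb hc hW) X 1 1 where
  i := inr X.X Y.X
  p := fst X.X Y.X
  r := snd X.X Y.X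
  σ := inl X.X Y.X
  hβ := one_mul 1
  hα := one_mul 1
  hi := by rw [bar_inr, one_smul]
  hp := by rw [bar_fst, one_smul]
  hr := by rw [bar_snd, one_smul]
  hσ := by rw [bar_inl, one_smul]
  Di := by
    rw [D_apply, cone_d, bar_inr]
    simp [Preadditive.comp_add]
  Dp := by
    rw [D_apply, cone_d, bar_fst]
    simp [Preadditive.add_comp]
  ir := by simp
  σp := by simp
  ip := by simp
  σr := by simp
  one := by rw [add_comm]; exact sum_one _ _

theorem coneExt_g : (coneExt g hb hc hW).g = g := by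
  change inl X.X Y.X ≫ (fst X.X Y.X ≫ X.d ≫ inl X.X Y.X
    + snd X.X Y.X ≫ Y.d ≫ inr X.X Y.X + fst X.X Y.X ≫ g ≫ inr X.X Y.X) ≫ snd X.X Y.X = g
  simp [Preadditive.comp_add, Preadditive.add_comp]

theorem lam_cone (t : T) : lam (cone g hb hc hW) t = lam X t + lam Y t :=
  Module.finrank_prod









end coneLemmas

/-! ### direct sum -/

section dsum

theorem D_zero' (X Y : TOb G k) : D X Y (0 : X.X ⟶ Y.X) = 0 := map_zero _

/-- direct sum (the cone of `0`) -/
@[reducible] def dsum (X Y : TOb G k) : TOb G k :=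
  cone (X := X) (Y := Y) 0 (by simp) (D_zero' X Y) (fun t => rfl)

/-- the direct sum as an extension -/
@[reducible] def dsumExt (X Y : TOb G k) : Ext Y (dsum X Y) X 1 1 :=
  coneExt (X := X) (Y := Y) 0 (by simp) (D_zero' X Y) (fun t => rfl)

variable (X Y Z : TOb G k)

theorem dsum_d : (dsum X Y).d = fst X.X Y.X ≫ X.d ≫ inl X.X Y.X
    + snd X.X Y.X ≫ Y.d ≫ inr X.X Y.X := by
  rw [cone_d, Limits.zero_comp, Limits.comp_zero, add_zero]

theorem dsumExt_g : (dsumExt X Y).g = 0 := coneExt_g ..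

theorem lam_dsum (t : T) : lam (dsum X Y) t = lam X t + lam Y t := lam_cone ..

theorem h_dsum_right (J : Idl G k) : J.h Z (dsum X Y) = J.h Z X + J.h Z Y := by
  rw [(dsumExt X Y).h_right_eq J Z, add_comm]
  intro f _
  exact ⟨0, by rw [dsumExt_g, Limits.comp_zero]; exact map_zero _⟩


theorem hT_dsum_right : hT Z (dsum X Y) = hT Z X + hT Z Y := h_dsum_right X Y Z (Idl.CsI G k)





end dsum

/-! ### shift of the parity -/

/-- parity shift in `Gob` -/
@[reducible] def gsh {T : Type u} {G : MG T} (X : Gob G k) : Gob G k where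
  V := X.V
  W := X.W
  gV t := -X.gV t
  gW t := -X.gW t
  gV_sq t := by
    apply LinearMap.ext; intro x
    have := LinearMap.congr_fun (X.gV_sq t) x
    simpa using this
  gW_sq t := by
    apply LinearMap.ext; intro x
    have := LinearMap.congr_fun (X.gW_sq t) x
    simpa using this

/-- the odd isomorphism `X → sh X` -/
def toSh {T : Type u} {G : MG T} (X : Gob G k) : X ⟶ gsh X :=
  mkH (fun t => (LinearMap.id : X.V t →ₗ[k] X.V t))
    (fun t => (LinearMap.id : X.W t →ₗ[k] X.W t))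
    (fun _ _ _ => 0) (fun _ => 0) (fun _ => 0) (fun _ => 0)

/-- the odd isomorphism `sh X → X` -/
def ofSh {T : Type u} {G : MG T} (X : Gob G k) : gsh X ⟶ X :=
  mkH (fun t => (LinearMap.id : X.V t →ₗ[k] X.V t))
    (fun t => (LinearMap.id : X.W t →ₗ[k] X.W t))
    (fun _ _ _ => 0) (fun _ => 0) (fun _ => 0) (fun _ => 0)

section shsimps
variable (X : Gob G k) (t : T) {s : T} (a : G.E s t)
theorem c0_toSh : c0 (toSh X) t = (LinearMap.id : X.V t →ₗ[k] X.V t) := rfl
theorem cW_toSh : cW (toSh X) t = (LinearMap.id : X.W t →ₗ[k] X.W t) := rfl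
@[simp] theorem c1_toSh : c1 (toSh X) a = 0 := rfl
@[simp] theorem ci_toSh : ci (toSh X) t = 0 := rfl
@[simp] theorem cj_toSh : cj (toSh X) t = 0 := rfl
@[simp] theorem c2_toSh : c2 (toSh X) t = 0 := rfl
theorem c0_ofSh : c0 (ofSh X) t = (LinearMap.id : X.V t →ₗ[k] X.V t) := rfl
theorem cW_ofSh : cW (ofSh X) t = (LinearMap.id : X.W t →ₗ[k] X.W t) := rfl
@[simp] theorem c1_ofSh : c1 (ofSh X) a = 0 := rfl
@[simp] theorem ci_ofSh : ci (ofSh X) t = 0 := rfl
@[simp] theorem cj_ofSh : cj (ofSh X) t = 0 := rfl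
@[simp] theorem c2_ofSh : c2 (ofSh X) t = 0 := rfl

@[simp] theorem toSh_ofSh : toSh X ≫ ofSh X = 𝟙 X := by
  apply hm_ext
  · intro t; rfl
  · intro t; rfl
  all_goals intros; simp

@[simp] theorem ofSh_toSh : ofSh X ≫ toSh X = 𝟙 (gsh X) := by
  apply hm_ext
  · intro t; rfl
  · intro t; rfl
  all_goals intros; simp

theorem bar_toSh : bar (toSh X) = -toSh X := by
  apply hm_ext
  · intro t
    rw [c0_bar, c0_neg, c0_toSh]
    apply LinearMap.ext; intro x
    simp [gVgV]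
  · intro t
    rw [cW_bar, cW_neg, cW_toSh]
    apply LinearMap.ext; intro x
    simp [gWgW]
  all_goals intros; simp

theorem bar_ofSh : bar (ofSh X) = -ofSh X := by
  apply hm_ext
  · intro t
    rw [c0_bar, c0_neg, c0_ofSh]
    apply LinearMap.ext; intro x
    simp [gVgV]
  · intro t
    rw [cW_bar, cW_neg, cW_ofSh]
    apply LinearMap.ext; intro x
    simp [gWgW]
  all_goals intros; simp

variable {X}

@[simp] theorem toSh_ofSh_assoc {Z : Gob G k} (f : X ⟶ Z) : toSh X ≫ ofSh X ≫ f = f := by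
  rw [← Category.assoc, toSh_ofSh, Category.id_comp]

@[simp] theorem ofSh_toSh_assoc {Z : Gob G k} (f : gsh X ⟶ Z) :
    ofSh X ≫ toSh X ≫ f = f := by
  rw [← Category.assoc, ofSh_toSh, Category.id_comp]

end shsimps

/-- the parity shift: `(γ, d)` is replaced by `(-γ, -d)` -/
@[reducible] def sh (X : TOb G k) : TOb G k where
  X := gsh X.X
  d := -(ofSh X.X ≫ X.d ≫ toSh X.X)
  dd := by simp
  dg := by
    apply dg_of_bar
    rw [bar_neg, bar_comp, bar_comp, bar_ofSh, bar_toSh, X.bar_d]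
    simp
  dW t := by simp

theorem sh_d (X : TOb G k) : (sh X).d = -(ofSh X.X ≫ X.d ≫ toSh X.X) := rfl

theorem D_toSh (X : TOb G k) : D X (sh X) (toSh X.X) = 0 := by
  rw [D_apply, bar_toSh, sh_d]
  simp

theorem D_ofSh (X : TOb G k) : D (sh X) X (ofSh X.X) = 0 := by
  rw [D_apply, bar_ofSh, sh_d]
  simp

/-- the odd homotopy equivalence `X → sh X` -/
def shEquiv (X : TOb G k) : OEquiv (-1 : k) X (sh X) where
  p := toSh X.X
  q := ofSh X.X
  s := 0
  r := 0
  hε := by ring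
  bp := by rw [bar_toSh, neg_one_smul]
  bq := by rw [bar_ofSh, neg_one_smul]
  Dp := D_toSh X
  Dq := D_ofSh X
  pq := by simp
  qp := by simp

@[simp] theorem hT_sh_left (X Z : TOb G k) : hT (sh X) Z = hT X Z :=
  ((shEquiv X).hT_left Z).symm
@[simp] theorem hT_sh_right (X Z : TOb G k) : hT Z (sh X) = hT Z X :=
  ((shEquiv X).hT_right Z).symm
@[simp] theorem hD_sh_left (X Z : TOb G k) : hD (sh X) Z = hD X Z :=
  ((shEquiv X).hD_left Z).symm
@[simp] theorem hD_sh_right (X Z : TOb G k) : hD Z (sh X) = hD Z X :=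
  ((shEquiv X).hD_right Z).symm
@[simp] theorem lam_sh (X : TOb G k) (t : T) : lam (sh X) t = lam X t := rfl
@[simp] theorem dT_sh [DecidableEq T] (X : TOb G k) (t : T) : dT (sh X) t = dT X t :=
  hT_sh_left X _

/-- cone of an even closed map -/
@[reducible] def econe {X Y : TOb G k} (f : X.X ⟶ Y.X) (hb : bar f = f)
    (hc : D X Y f = 0) (hW : ∀ t, cW f t = 0) : TOb G k :=
  cone (X := sh X) (Y := Y) (ofSh X.X ≫ f)
    (by rw [bar_comp, bar_ofSh, hb, Preadditive.neg_comp])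
    (by rw [D_comp_left (D_ofSh X), hc, Limits.comp_zero])
    (fun t => by simp [hW t])

end Crest.Agent.R175.PTA
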