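import Crest.Agent.R175.Fm4_27
import Crest.Agent.R175.PTD_450
import Crest.Agent.R175.KSb_303

/-!
Row 175 (S0263), block F_m on sums, shifts, frames (helper303, ruling 6 of helper131).

For a matrix functor `Φ : FDat G k` (helper27):
* `dsumD`, `SumD.hiso` : `SumD` of `KSb_303` and `dsum` of `PTD_450`.
* `sumD` : `SumD X Y Z → SumD (Φ X) (Φ Y) (Φ Z)`; `hiso_dsum` : `Φ (X ⊕ Y) ~ Φ X ⊕ Φ Y`.
* `hiso_sh` : `Φ (sh X) ~ sh (Φ X)`.
* `hiso_free` : `Φ (free m n) ~ free (N m) (N n)`; `hiso_frm`, `hiso_zero`.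
* `hiso_free_add`, `hiso_free_perm` : free objects and direct sums.
* `hT_frm_right` : `hT X (Φ (frm a)) = ∑ b, if Φ.N a b then hT X (frm b) else 0`.
-/

set_option autoImplicit false
set_option linter.unusedSectionVars false

open CategoryTheory
open scoped Classical

namespace Crest.Agent.R175.FmS_303

open Crest.Agent.R175.PTA Crest.Agent.R175.KSb_303

universe u v

/-! ### sums -/

section sums

variable {T : Type u} {G : MG T} {k : Type v} [Field k] [Fintype T]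

/-- the maps of the direct sum of 450 -/
def dsumD (Y Z : TOb G k) : SumD (dsum Y Z) Y Z where
  i1 := inl Y.X Z.X
  p1 := fst Y.X Z.X
  i2 := inr Y.X Z.X
  p2 := snd Y.X Z.X
  hi1 := mem_Z0'.2 ⟨bar_inl _ _, by rw [dsum_d]; simp [Preadditive.comp_add]⟩
  hp1 := mem_Z0'.2 ⟨bar_fst _ _, by rw [dsum_d]; simp [Preadditive.add_comp]⟩
  hi2 := mem_Z0'.2 ⟨bar_inr _ _, by rw [dsum_d]; simp [Preadditive.comp_add]⟩
  hp2 := mem_Z0'.2 ⟨bar_snd _ _, by rw [dsum_d]; simp [Preadditive.add_comp]⟩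
  i1p1 := inl_fst _ _
  i2p2 := inr_snd _ _
  sum := sum_one _ _

/-- two direct sums of the same objects are isomorphic -/
theorem hiso_of_sumD {X X' Y Z : TOb G k} (S : SumD X Y Z) (S' : SumD X' Y Z) : HIso X X' := by
  have hp : S.p1 ≫ S'.i1 + S.p2 ≫ S'.i2 ∈ Z0 X X' :=
    Submodule.add_mem _ (comp_mem S.hp1 S'.hi1) (comp_mem S.hp2 S'.hi2)
  have hq : S'.p1 ≫ S.i1 + S'.p2 ≫ S.i2 ∈ Z0 X' X :=
    Submodule.add_mem _ (comp_mem S'.hp1 S.hi1) (comp_mem S'.hp2 S.hi2)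
  have key : ∀ {X X' : TOb G k} (S : SumD X Y Z) (S' : SumD X' Y Z),
      (S.p1 ≫ S'.i1 + S.p2 ≫ S'.i2) ≫ (S'.p1 ≫ S.i1 + S'.p2 ≫ S.i2) = 𝟙 X.X := by
    intro X X' S S'
    have e1 : S'.i1 ≫ S'.p1 ≫ S.i1 = S.i1 := by rw [← Category.assoc, S'.i1p1, Category.id_comp]
    have e2 : S'.i1 ≫ S'.p2 ≫ S.i2 = 0 := by rw [← Category.assoc, S'.i1p2, Limits.zero_comp]
    have e3 : S'.i2 ≫ S'.p1 ≫ S.i1 = 0 := by rw [← Category.assoc, S'.i2p1, Limits.zero_comp]
    have e4 : S'.i2 ≫ S'.p2 ≫ S.i2 = S.i2 := by rw [← Category.assoc, S'.i2p2, Category.id_comp]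
    simp only [Preadditive.add_comp, Preadditive.comp_add, Category.assoc, e1, e2, e3, e4,
      Limits.comp_zero, add_zero, zero_add]
    exact S.sum
  exact ⟨HEquiv.ofIso _ _ hp.1 hq.1 hp.2 hq.2 (key S S') (key S' S)⟩

/-- `X ≅ Y ⊕ Z` gives a homotopy equivalence with the direct sum of 450 -/
theorem hiso_dsum_of_sumD {X Y Z : TOb G k} (S : SumD X Y Z) : HIso X (dsum Y Z) :=
  hiso_of_sumD S (dsumD Y Z)


end sums

/-! ### free objects -/

section free

variable {T : Type u} {G : MG T} {k : Type v} [Field k] [Fintype T]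

/-- an even object with zero differential is free -/
theorem hiso_free_of (X : TOb G k) (hd : X.d = 0) (hV : ∀ t, X.X.gV t = LinearMap.id)
    (hW : ∀ t, X.X.gW t = LinearMap.id) (m n : T → ℕ) (hm : ∀ t, Module.finrank k (X.X.V t) = m t)
    (hn : ∀ t, Module.finrank k (X.X.W t) = n t) : HIso X (free G k m n) := by
  have eV : ∀ t, Nonempty (X.X.V t ≃ₗ[k] (Fin (m t) → k)) := fun t =>
    ⟨LinearEquiv.ofFinrankEq _ _ (by rw [hm t]; simp)⟩
  have eW : ∀ t, Nonempty (X.X.W t ≃ₗ[k] (Fin (n t) → k)) := fun t =>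
    ⟨LinearEquiv.ofFinrankEq _ _ (by rw [hn t]; simp)⟩
  let a := fun t => (eV t).some
  let b := fun t => (eW t).some
  let p : X.X ⟶ freeG G k m n :=
    mkH (Y := freeG G k m n) (fun t => (a t).toLinearMap) (fun t => (b t).toLinearMap)
      (fun _ _ _ => 0) (fun _ => 0) (fun _ => 0) (fun _ => 0)
  let q : freeG G k m n ⟶ X.X :=
    mkH (X := freeG G k m n) (fun t => (a t).symm.toLinearMap) (fun t => (b t).symm.toLinearMap)
      (fun _ _ _ => 0) (fun _ => 0) (fun _ => 0) (fun _ => 0)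
  have c0p : ∀ t, c0 p t = (a t).toLinearMap := fun t => rfl
  have cWp : ∀ t, cW p t = (b t).toLinearMap := fun t => rfl
  have c1p : ∀ {s t : T} (e : G.E s t), c1 p e = 0 := fun e => rfl
  have cip : ∀ t, ci p t = 0 := fun t => rfl
  have cjp : ∀ t, cj p t = 0 := fun t => rfl
  have c2p : ∀ t, c2 p t = 0 := fun t => rfl
  have c0q : ∀ t, c0 q t = (a t).symm.toLinearMap := fun t => rfl
  have cWq : ∀ t, cW q t = (b t).symm.toLinearMap := fun t => rfl
  have c1q : ∀ {s t : T} (e : G.E s t), c1 q e = 0 := fun e => rfl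
  have ciq : ∀ t, ci q t = 0 := fun t => rfl
  have cjq : ∀ t, cj q t = 0 := fun t => rfl
  have c2q : ∀ t, c2 q t = 0 := fun t => rfl
  have gVf : ∀ t, (freeG G k m n).gV t = LinearMap.id := fun t => rfl
  have gWf : ∀ t, (freeG G k m n).gW t = LinearMap.id := fun t => rfl
  have bp : bar p = p := by
    apply hm_ext
    · intro t; rw [c0_bar, gVf, hV, LinearMap.comp_id, LinearMap.id_comp]
    · intro t; rw [cW_bar, gWf, hW, LinearMap.comp_id, LinearMap.id_comp]
    · intro s t e; rw [c1_bar, c1p, LinearMap.zero_comp, LinearMap.comp_zero]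
    · intro t; rw [ci_bar, cip, LinearMap.zero_comp, LinearMap.comp_zero]
    · intro t; rw [cj_bar, cjp, LinearMap.zero_comp, LinearMap.comp_zero]
    · intro t; rw [c2_bar, c2p, LinearMap.zero_comp, LinearMap.comp_zero]
  have bq : bar q = q := by
    apply hm_ext
    · intro t; rw [c0_bar, gVf, hV, LinearMap.comp_id, LinearMap.id_comp]
    · intro t; rw [cW_bar, gWf, hW, LinearMap.comp_id, LinearMap.id_comp]
    · intro s t e; rw [c1_bar, c1q, LinearMap.zero_comp, LinearMap.comp_zero]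
    · intro t; rw [ci_bar, ciq, LinearMap.zero_comp, LinearMap.comp_zero]
    · intro t; rw [cj_bar, cjq, LinearMap.zero_comp, LinearMap.comp_zero]
    · intro t; rw [c2_bar, c2q, LinearMap.zero_comp, LinearMap.comp_zero]
  have hfd : (free G k m n).d = 0 := rfl
  have pq : p ≫ q = 𝟙 X.X := by
    apply hm_ext
    · intro t
      rw [c0_comp, c0p, c0q, c0_id]
      exact LinearMap.ext fun x => (a t).symm_apply_apply x
    · intro t
      rw [cW_comp, cWp, cWq, cW_id]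
      exact LinearMap.ext fun x => (b t).symm_apply_apply x
    · intro s t e; rw [c1_comp, c1p, c1q, LinearMap.zero_comp, LinearMap.comp_zero, add_zero]; rfl
    · intro t; rw [ci_comp, cip, ciq, LinearMap.zero_comp, LinearMap.comp_zero, add_zero]; rfl
    · intro t; rw [cj_comp, cjp, cjq, LinearMap.zero_comp, LinearMap.comp_zero, add_zero]; rfl
    · intro t
      simp only [c2_comp, c2p, c2q, c1p, c1q, cip, ciq, cjp, cjq, LinearMap.zero_comp,
        LinearMap.comp_zero, Finset.sum_const_zero, add_zero]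
      rfl
  have qp : q ≫ p = 𝟙 (freeG G k m n) := by
    apply hm_ext
    · intro t
      rw [c0_comp, c0p, c0q]
      exact LinearMap.ext fun x => (a t).apply_symm_apply x
    · intro t
      rw [cW_comp, cWp, cWq]
      exact LinearMap.ext fun x => (b t).apply_symm_apply x
    · intro s t e; rw [c1_comp, c1p, c1q, LinearMap.zero_comp, LinearMap.comp_zero, add_zero]; rfl
    · intro t; rw [ci_comp, cip, ciq, LinearMap.zero_comp, LinearMap.comp_zero, add_zero]; rfl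
    · intro t; rw [cj_comp, cjp, cjq, LinearMap.zero_comp, LinearMap.comp_zero, add_zero]; rfl
    · intro t
      simp only [c2_comp, c2p, c2q, c1p, c1q, cip, ciq, cjp, cjq, LinearMap.zero_comp,
        LinearMap.comp_zero, Finset.sum_const_zero, add_zero]
      rfl
  refine ⟨HEquiv.ofIso (X := X) (Y := free G k m n) p q bp bq ?_ ?_ pq qp⟩
  · rw [D_apply, hd, hfd, Limits.zero_comp, Limits.comp_zero, sub_zero]
  · rw [D_apply, hd, hfd, Limits.zero_comp, Limits.comp_zero, sub_zero]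

/-- direct sums of free objects -/
theorem hiso_free_add (m n m' n' : T → ℕ) :
    HIso (dsum (free G k m n) (free G k m' n')) (free G k (m + m') (n + n')) := by
  apply hiso_free_of
  · have h1 : (free G k m n).d = 0 := rfl
    have h2 : (free G k m' n').d = 0 := rfl
    rw [dsum_d, h1, h2, Limits.zero_comp, Limits.comp_zero, Limits.zero_comp, Limits.comp_zero,
      add_zero]
  · intro t
    apply LinearMap.ext
    rintro ⟨x, y⟩
    rfl
  · intro t
    apply LinearMap.ext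
    rintro ⟨x, y⟩
    rfl
  · intro t
    change Module.finrank k ((Fin (m t) → k) × (Fin (m' t) → k)) = m t + m' t
    simp
  · intro t
    change Module.finrank k ((Fin (n t) → k) × (Fin (n' t) → k)) = n t + n' t
    simp






end free

/-! ### matrix functors -/

section functor

variable {T : Type} {G : MG T} {k : Type v} [Field k] [Fintype T]

open Crest.Agent.R175.Fm_27

variable (Φ : FDat G k)

theorem hom_mem_Z0 {X Y : TOb G k} {f : X.X ⟶ Y.X} (hf : f ∈ Z0 X Y) :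
    Φ.hom f ∈ Z0 (Φ.tob X) (Φ.tob Y) :=
  ⟨by rw [← Φ.hom_bar, hf.1], by rw [← Φ.hom_D, hf.2, Φ.hom_zero]⟩

/-- `Φ` preserves direct sums -/
noncomputable def sumD {X Y Z : TOb G k} (S : SumD X Y Z) :
    SumD (Φ.tob X) (Φ.tob Y) (Φ.tob Z) where
  i1 := Φ.hom S.i1
  p1 := Φ.hom S.p1
  i2 := Φ.hom S.i2
  p2 := Φ.hom S.p2
  hi1 := hom_mem_Z0 Φ S.hi1
  hp1 := hom_mem_Z0 Φ S.hp1
  hi2 := hom_mem_Z0 Φ S.hi2
  hp2 := hom_mem_Z0 Φ S.hp2
  i1p1 := by rw [← Φ.hom_comp, S.i1p1, Φ.hom_id]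
  i2p2 := by rw [← Φ.hom_comp, S.i2p2, Φ.hom_id]
  sum := by rw [← Φ.hom_comp, ← Φ.hom_comp, ← Φ.hom_add, S.sum, Φ.hom_id]

theorem sm {X Y Z : TOb G k} (h : Sm X Y Z) : Sm (Φ.tob X) (Φ.tob Y) (Φ.tob Z) :=
  h.map (sumD Φ)

/-- **`Φ (Y ⊕ Z) ~ Φ Y ⊕ Φ Z`** -/
theorem hiso_dsum (Y Z : TOb G k) : HIso (Φ.tob (dsum Y Z)) (dsum (Φ.tob Y) (Φ.tob Z)) :=
  hiso_dsum_of_sumD (sumD Φ (dsumD Y Z))

/-- **`Φ (sh X) ~ sh (Φ X)`** -/
theorem hiso_sh (X : TOb G k) : HIso (Φ.tob (sh X)) (sh (Φ.tob X)) := by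
  have a1 : D (Φ.tob (sh X)) (Φ.tob X) (Φ.hom (ofSh X.X)) = 0 := by
    rw [← Φ.hom_D, D_ofSh, Φ.hom_zero]
  have a2 : D (Φ.tob X) (Φ.tob (sh X)) (Φ.hom (toSh X.X)) = 0 := by
    rw [← Φ.hom_D, D_toSh, Φ.hom_zero]
  refine ⟨HEquiv.ofIso (Φ.hom (ofSh X.X) ≫ toSh (Φ.ob X.X)) (ofSh (Φ.ob X.X) ≫ Φ.hom (toSh X.X))
    ?_ ?_ ?_ ?_ ?_ ?_⟩
  · rw [bar_comp, ← Φ.hom_bar, bar_ofSh, bar_toSh, Φ.hom_neg, Preadditive.neg_comp,
      Preadditive.comp_neg, neg_neg]
  · rw [bar_comp, ← Φ.hom_bar, bar_ofSh, bar_toSh, Φ.hom_neg, Preadditive.neg_comp,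
      Preadditive.comp_neg, neg_neg]
  · have := D_comp (X := Φ.tob (sh X)) (Y := Φ.tob X) (Z := sh (Φ.tob X)) (Φ.hom (ofSh X.X))
      (toSh (Φ.ob X.X))
    rw [this, a1, Limits.zero_comp, add_zero]
    have h2 : D (Φ.tob X) (sh (Φ.tob X)) (toSh (Φ.ob X.X)) = 0 := D_toSh (Φ.tob X)
    rw [h2, Limits.comp_zero]
  · have := D_comp (X := sh (Φ.tob X)) (Y := Φ.tob X) (Z := Φ.tob (sh X)) (ofSh (Φ.ob X.X))
      (Φ.hom (toSh X.X))
    rw [this, a2, Limits.comp_zero, zero_add]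
    have h2 : D (sh (Φ.tob X)) (Φ.tob X) (ofSh (Φ.ob X.X)) = 0 := D_ofSh (Φ.tob X)
    rw [h2, Limits.zero_comp]
  · rw [Category.assoc, toSh_ofSh_assoc, ← Φ.hom_comp, ofSh_toSh, Φ.hom_id]
  · rw [Category.assoc, ← Category.assoc (Φ.hom (toSh X.X)), ← Φ.hom_comp, toSh_ofSh, Φ.hom_id,
      Category.id_comp, ofSh_toSh]

/-- the neighbour sum -/
noncomputable def nbs (m : T → ℕ) (a' : T) : ℕ := ∑ a, if Φ.N a a' then m a else 0

/-- **`Φ (free m n) ~ free (N m) (N n)`** -/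
theorem hiso_free (m n : T → ℕ) : HIso (Φ.tob (free G k m n)) (free G k (nbs Φ m) (nbs Φ n)) := by
  apply hiso_free_of
  · exact Φ.hom_zero
  · intro a'
    exact dg_id (k := k) (X := fun a : Φ.Nb a' => (Fin (m a.1) → k))
  · intro a'
    exact dg_id (k := k) (X := fun a : Φ.Nb a' => (Fin (n a.1) → k))
  · intro a'
    change Module.finrank k (∀ a : Φ.Nb a', Fin (m a.1) → k) = _
    rw [Module.finrank_pi_fintype, nbs, ← Φ.sum_Nb]
    exact Finset.sum_congr rfl fun a _ => by simp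
  · intro a'
    change Module.finrank k (∀ a : Φ.Nb a', Fin (n a.1) → k) = _
    rw [Module.finrank_pi_fintype, nbs, ← Φ.sum_Nb]
    exact Finset.sum_congr rfl fun a _ => by simp

theorem nbs_zero : nbs Φ 0 = 0 := by
  funext a'; simp [nbs]

theorem nbs_single [DecidableEq T] (a : T) :
    nbs Φ (Pi.single a 1) = fun b => if Φ.N a b then 1 else 0 := by
  funext b
  unfold nbs
  rw [Finset.sum_eq_single a]
  · by_cases h : Φ.N a b <;> simp [h]
  · intro c _ hc
    rw [Pi.single_eq_of_ne hc, ite_self]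
  · simp

/-- `Φ 0 ~ 0` -/
theorem hiso_zero : HIso (Φ.tob (free G k 0 0)) (free G k 0 0) := by
  have := hiso_free Φ (k := k) 0 0
  rwa [nbs_zero] at this

/-- **`Φ (frm a)` is the sum of the frames at the neighbours** -/
theorem hiso_frm [DecidableEq T] (a : T) :
    HIso (Φ.tob (frm G k a)) (free G k 0 (fun b => if Φ.N a b then 1 else 0)) := by
  have := hiso_free Φ (k := k) 0 (Pi.single a 1)
  rwa [nbs_zero, nbs_single] at this



end functor

end Crest.Agent.R175.FmS_303
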