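import Crest.Agent.R175.Num_774
import Crest.Agent.R175.Unf2_109

-- ▼ part R175/CatNum_427
section

/-!
Row 175 (S0263).  `CatD M` = the contract of the category side: exactly what `T`-framed objects have
to deliver; `CatD.toNum : CatD M → Num M` (proof of (K) = section 2 of post #2751).

Everything is stated for objects `X : Ob` of the WHOLE graph `S × J` (classes up to isomorphism or
homotopy equivalence); `hT T X Y` is `h_T (X|T, Y|T)` (restriction to `T × J`), so that no `T`-level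
objects appear in the contract.
-/

set_option autoImplicit false
set_option linter.unusedSectionVars false
set_option linter.deprecated false

namespace Crest.Agent.R175.CatNum_427

open Crest.GroupTheory Crest.Agent.R175.Num_774

universe u v

open Classical in
/-- indicator function of `T` -/
noncomputable def ind {S : Type*} (T : Set S) (s : S) : ℝ := if s ∈ T then 1 else 0

theorem ind_mem {S : Type*} {T : Set S} {s : S} (h : s ∈ T) : ind T s = 1 := by simp [ind, h]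

theorem ind_not {S : Type*} {T : Set S} {s : S} (h : s ∉ T) : ind T s = 0 := by simp [ind, h]

/-- `lam` of the restriction `X|T`: `W_(t,j)` plus one frame for every edge leaving `T` -/
noncomputable def lamT {S J Ob : Type*} [Fintype S] [Fintype J] (mu : S → J → S → J → ℝ)
    (d lam : Ob → S → J → ℝ) (T : Set S) (X : Ob) (t : S) (j : J) : ℝ :=
  lam X t j + ∑ u, ind Tᶜ u * ∑ k, mu t j u k * d X u k

/-- `(C_T h)_s` -/
noncomputable def CT {S : Type*} [Fintype S] (M : CoxeterMatrix S) (T : Set S) (h : S → ℝ)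
    (s : S) : ℝ := ∑ u, ind T u * (C M s u * h u)

open Classical in
/-- The category side. -/
structure CatD {S : Type u} [Fintype S] (M : CoxeterMatrix S) where
  /-- index set of the unfolding (one point when all labels are `2, 3, ∞`) -/
  J : Type
  [fJ : Fintype J]
  j0 : J
  th : J → ℝ
  th_pos : ∀ j, 0 < th j
  th_zero : th j0 = 1
  /-- number of edges from `(s,i)` to `(t,j)` -/
  mu : S → J → S → J → ℝ
  mu_symm : ∀ s i t j, mu s i t j = mu t j s i
  /-- KEY: `Σ_j mu th_j = a_st th_i` -/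
  mu_th : ∀ s t i, s ≠ t → ∑ j, mu s i t j * th j = - C M s t * th i
  /-- objects of the whole graph up to homotopy equivalence -/
  Ob : Type v
  [act : MulAction (ArtinGroup M) Ob]
  /-- `dim V_(s,j)` of the minimal model -/
  d : Ob → S → J → ℝ
  /-- `dim W_(s,j)` -/
  lam : Ob → S → J → ℝ
  /-- the frame `x_(s,j)` -/
  fr : S → J → Ob
  /-- `h_T (X|T, Y|T)` -/
  hT : Set S → Ob → Ob → ℝ
  d_nonneg : ∀ X s j, 0 ≤ d X s j
  lam_nonneg : ∀ X s j, 0 ≤ lam X s j
  lam_act : ∀ s X, lam (artinGen M s • X) = lam X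
  d_act : ∀ s X t, t ≠ s → d (artinGen M s • X) t = d X t
  fr_act : ∀ s t j, t ≠ s → artinGen M s • fr t j = fr t j
  fr_d : ∀ t i s j, d (fr t i) s j = 0
  fr_lam : ∀ t i s j, lam (fr t i) s j = if s = t ∧ j = i then 1 else 0
  hT_act : ∀ T : Set S, ∀ s ∈ T, ∀ X Y, hT T (artinGen M s • X) (artinGen M s • Y) = hT T X Y
  hT_symm : ∀ T X Y, hT T X Y = hT T Y X
  hT_fr : ∀ T : Set S, ∀ t ∈ T, ∀ j X, hT T (fr t j) X = d X t j
  /-- (MF): remove the whole fibre `{t} × J` -/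
  MF : ∀ T : Set S, ∀ t ∈ T, ∀ X Y,
    hT (T \ {t}) X Y + ∑ j, (d X t j * lamT mu d lam T Y t j + lamT mu d lam T X t j * d Y t j
      - 2 * (d X t j * d Y t j)) ≤ hT T X Y
  /-- the families `(Y_j)_{j ∈ J}` with `F_m Y_j = ⨁_{j' ~ j} Y_j'` -/
  Fam : Set (J → Ob)
  fam_fr : ∀ s, fr s ∈ Fam
  fam_act : ∀ s, ∀ Y ∈ Fam, (fun j => artinGen M s • Y j) ∈ Fam
  fam_act' : ∀ s, ∀ Y ∈ Fam, (fun j => (artinGen M s)⁻¹ • Y j) ∈ Fam
  /-- Perron-Frobenius for `d` -/
  PFd : ∀ Y ∈ Fam, ∀ s j, ∑ i, th i * d (Y i) s j = th j * ∑ i, th i * d (Y i) s j0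
  /-- Perron-Frobenius for `lam` -/
  PFl : ∀ Y ∈ Fam, ∀ s j, ∑ i, th i * lam (Y i) s j = th j * ∑ i, th i * lam (Y i) s j0
  /-- (P_T) -/
  PT : ∀ T : Set S, PD M T → ∀ Y ∈ Fam, ∀ h : S → ℝ, (∀ s ∈ T, 0 ≤ h s) →
    (∀ s ∈ T, CT M T h s ≤ ∑ i, th i * lamT mu d lam T (Y i) s j0) →
    (∀ r ∈ A M T, ∀ s ∈ T, h s ≤ ∑ i, th i * d (r⁻¹ • Y i) s j0) →
    ∀ X, ∑ s, ind T s * ∑ j, th j * h s * lamT mu d lam T X s j ≤ ∑ i, th i * hT T X (Y i)
  /-- (Z) + STAB -/
  zst : ∀ T : Set S, PD M T → ∀ t ∈ T, ∀ r ∈ A M T, (∀ i j, d (r • fr t j) t i = 0) →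
    r ∈ A M (T \ {t})

attribute [instance] CatD.fJ CatD.act

namespace CatD

variable {S : Type u} [Fintype S] {M : CoxeterMatrix S} (D : CatD.{u, v} M)

/-- `d_t (Y)` of a family -/
noncomputable def dF (Y : D.J → D.Ob) (t : S) : ℝ := ∑ i, D.th i * D.d (Y i) t D.j0

/-- `lam_t (Y)` of a family -/
noncomputable def lF (Y : D.J → D.Ob) (t : S) : ℝ := ∑ i, D.th i * D.lam (Y i) t D.j0

theorem act_ind (p : ArtinGroup M → Prop) {T : Set S} (h1 : p 1)
    (hm : ∀ s ∈ T, ∀ r, p r → p (r * artinGen M s))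
    (hi : ∀ s ∈ T, ∀ r, p r → p (r * (artinGen M s)⁻¹)) {r : ArtinGroup M} (hr : r ∈ A M T) :
    p r := by
  unfold A stdParabolic at hr
  induction hr using Subgroup.closure_induction_right with
  | one => exact h1
  | mul_right x y hx hy ih =>
    obtain ⟨s, hs, rfl⟩ := hy
    exact hm s hs _ ih
  | mul_inv_cancel x y hx hy ih =>
    obtain ⟨s, hs, rfl⟩ := hy
    exact hi s hs _ ih

theorem mem_univ' (r : ArtinGroup M) : r ∈ A M (Set.univ : Set S) := by
  have h : (A M (Set.univ : Set S)) = ⊤ := by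
    unfold A stdParabolic
    rw [Set.image_univ]
    exact PresentedGroup.closure_range_of _
  rw [h]; trivial

theorem lam_act_all (r : ArtinGroup M) (X : D.Ob) : D.lam (r • X) = D.lam X := by
  revert X
  refine act_ind (fun r => ∀ X, D.lam (r • X) = D.lam X) (by simp) ?_ ?_ (mem_univ' r)
  · intro s _ r ih X
    rw [mul_smul, ih, D.lam_act]
  · intro s _ r ih X
    rw [mul_smul, ih]
    have := D.lam_act s ((artinGen M s)⁻¹ • X)
    rw [smul_inv_smul] at this
    exact this.symm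

theorem d_act_all {t : S} {r : ArtinGroup M} (hr : r ∈ A M ({t}ᶜ : Set S)) (X : D.Ob) :
    D.d (r • X) t = D.d X t := by
  revert X
  refine act_ind (fun r => ∀ X, D.d (r • X) t = D.d X t) (by simp) ?_ ?_ hr
  · intro s hs r ih X
    rw [mul_smul, ih, D.d_act s X t (Ne.symm hs)]
  · intro s hs r ih X
    rw [mul_smul, ih]
    have := D.d_act s ((artinGen M s)⁻¹ • X) t (Ne.symm hs)
    rw [smul_inv_smul] at this
    exact this.symm

theorem fr_act_all {t : S} {r : ArtinGroup M} (hr : r ∈ A M ({t}ᶜ : Set S)) (j : D.J) :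
    r • D.fr t j = D.fr t j := by
  refine act_ind (fun r => r • D.fr t j = D.fr t j) (by simp) ?_ ?_ hr
  · intro s hs r ih
    rw [mul_smul, D.fr_act s t j (Ne.symm hs), ih]
  · intro s hs r ih
    rw [mul_smul]
    have : (artinGen M s)⁻¹ • D.fr t j = D.fr t j := by
      rw [inv_smul_eq_iff, D.fr_act s t j (Ne.symm hs)]
    rw [this, ih]

theorem hT_act_all {T : Set S} {r : ArtinGroup M} (hr : r ∈ A M T) (X Y : D.Ob) :
    D.hT T (r • X) (r • Y) = D.hT T X Y := by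
  revert X Y
  refine act_ind (fun r => ∀ X Y, D.hT T (r • X) (r • Y) = D.hT T X Y) (by simp) ?_ ?_ hr
  · intro s hs r ih X Y
    rw [mul_smul, mul_smul, ih, D.hT_act T s hs]
  · intro s hs r ih X Y
    rw [mul_smul, mul_smul, ih]
    have := D.hT_act T s hs ((artinGen M s)⁻¹ • X) ((artinGen M s)⁻¹ • Y)
    rw [smul_inv_smul, smul_inv_smul] at this
    exact this.symm

theorem fam_act_all (r : ArtinGroup M) {Y : D.J → D.Ob} (hY : Y ∈ D.Fam) :
    (fun j => r • Y j) ∈ D.Fam := by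
  revert Y
  refine act_ind (fun r => ∀ {Y : D.J → D.Ob}, Y ∈ D.Fam → (fun j => r • Y j) ∈ D.Fam)
    (by intro Y hY; simpa using hY) ?_ ?_ (mem_univ' r)
  · intro s _ r ih Y hY
    simp only [mul_smul]
    exact ih (D.fam_act s Y hY)
  · intro s _ r ih Y hY
    simp only [mul_smul]
    exact ih (D.fam_act' s Y hY)

theorem dF_nonneg (Y : D.J → D.Ob) (t : S) : 0 ≤ D.dF Y t :=
  Finset.sum_nonneg fun i _ => mul_nonneg (D.th_pos i).le (D.d_nonneg _ _ _)

theorem lF_nonneg (Y : D.J → D.Ob) (t : S) : 0 ≤ D.lF Y t :=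
  Finset.sum_nonneg fun i _ => mul_nonneg (D.th_pos i).le (D.lam_nonneg _ _ _)

theorem PFd' {Y : D.J → D.Ob} (hY : Y ∈ D.Fam) (s : S) (j : D.J) :
    ∑ i, D.th i * D.d (Y i) s j = D.th j * D.dF Y s := D.PFd Y hY s j

theorem PFl' {Y : D.J → D.Ob} (hY : Y ∈ D.Fam) (s : S) (j : D.J) :
    ∑ i, D.th i * D.lam (Y i) s j = D.th j * D.lF Y s := D.PFl Y hY s j

/-- `g s t r = h (E_s, r E_t)` -/
noncomputable def g (s t : S) (r : ArtinGroup M) : ℝ := D.dF (fun j => r • D.fr t j) s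

theorem fr_fam (r : ArtinGroup M) (t : S) : (fun j => r • D.fr t j) ∈ D.Fam :=
  D.fam_act_all r (D.fam_fr t)

theorem d_eq_h (X : D.Ob) (t : S) (j : D.J) : D.d X t j = D.hT Set.univ (D.fr t j) X :=
  (D.hT_fr Set.univ t (Set.mem_univ t) j X).symm

/-- `h (x_(s,i), r x_(t,j)) = h (x_(t,j), r⁻¹ x_(s,i))` -/
theorem d_swap (s t : S) (i j : D.J) (r : ArtinGroup M) :
    D.d (r • D.fr t j) s i = D.d (r⁻¹ • D.fr s i) t j := by
  rw [D.d_eq_h, D.d_eq_h, D.hT_symm, ← D.hT_act_all (mem_univ' (S := S) r⁻¹), inv_smul_smul]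

theorem sum_d_fr (s t : S) (i : D.J) (r : ArtinGroup M) :
    ∑ j, D.th j * D.d (r • D.fr t j) s i = D.th i * D.g s t r :=
  D.PFd' (D.fr_fam r t) s i

theorem g_symm (s t : S) (r : ArtinGroup M) : D.g s t r = D.g t s r⁻¹ := by
  have h1 : ∑ i, D.th i * ∑ j, D.th j * D.d (r • D.fr t j) s i
      = (∑ i, D.th i * D.th i) * D.g s t r := by
    rw [Finset.sum_mul]
    exact Finset.sum_congr rfl fun i _ => by rw [D.sum_d_fr, mul_assoc]
  have h2 : ∑ j, D.th j * ∑ i, D.th i * D.d (r⁻¹ • D.fr s i) t j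
      = (∑ j, D.th j * D.th j) * D.g t s r⁻¹ := by
    rw [Finset.sum_mul]
    exact Finset.sum_congr rfl fun i _ => by rw [D.sum_d_fr, mul_assoc]
  have h3 : ∑ i, D.th i * ∑ j, D.th j * D.d (r • D.fr t j) s i
      = ∑ j, D.th j * ∑ i, D.th i * D.d (r⁻¹ • D.fr s i) t j := by
    simp only [Finset.mul_sum]
    rw [Finset.sum_comm]
    refine Finset.sum_congr rfl fun j _ => Finset.sum_congr rfl fun i _ => ?_
    rw [D.d_swap s t i j r]
    ring
  have h4 : 0 < ∑ i, D.th i * D.th i :=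
    Finset.sum_pos (fun i _ => mul_pos (D.th_pos i) (D.th_pos i)) ⟨D.j0, Finset.mem_univ _⟩
  rw [h1, h2] at h3
  exact mul_left_cancel₀ h4.ne' h3

theorem g_nonneg (s t : S) (r : ArtinGroup M) : 0 ≤ D.g s t r := D.dF_nonneg _ _

theorem g_left (s t : S) (r a : ArtinGroup M) (ha : a ∈ A M ({s}ᶜ : Set S)) :
    D.g s t (a * r) = D.g s t r := by
  unfold g dF
  refine Finset.sum_congr rfl fun j _ => ?_
  simp only [mul_smul, D.d_act_all ha]

theorem g_right (s t : S) (r b : ArtinGroup M) (hb : b ∈ A M ({t}ᶜ : Set S)) :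
    D.g s t (r * b) = D.g s t r := by
  unfold g dF
  refine Finset.sum_congr rfl fun j _ => ?_
  simp only [mul_smul, D.fr_act_all hb]

/-- `lam_t` of a restricted family -/
theorem sum_lamT {Y : D.J → D.Ob} (hY : Y ∈ D.Fam) {T : Set S} {t : S} (ht : t ∈ T) (j : D.J) :
    ∑ i, D.th i * lamT D.mu D.d D.lam T (Y i) t j
      = D.th j * (D.lF Y t - ∑ u, C M t u * (ext T (fun _ => 0) (D.dF Y) u)) := by
  classical
  unfold lamT
  simp only [mul_add, Finset.sum_add_distrib, D.PFl' hY, mul_sub]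
  rw [sub_eq_add_neg]
  congr 1
  rw [← mul_neg, ← Finset.sum_neg_distrib, Finset.mul_sum]
  have h0 : ∀ i, D.th i * ∑ u, ind Tᶜ u * ∑ k, D.mu t j u k * D.d (Y i) u k
      = ∑ u, D.th i * (ind Tᶜ u * ∑ k, D.mu t j u k * D.d (Y i) u k) := fun i => Finset.mul_sum _ _ _
  rw [Finset.sum_congr rfl (fun i _ => h0 i), Finset.sum_comm]
  refine Finset.sum_congr rfl fun u _ => ?_
  by_cases hu : u ∈ T
  · rw [ext_mem hu]
    simp [ind_not (T := Tᶜ) (fun h : u ∈ Tᶜ => h hu)]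
  · have hut : t ≠ u := fun h => hu (h ▸ ht)
    rw [ext_not hu, ind_mem (T := Tᶜ) hu]
    simp only [one_mul]
    have h1 : ∀ i, D.th i * ∑ k, D.mu t j u k * D.d (Y i) u k
        = ∑ k, D.mu t j u k * (D.th i * D.d (Y i) u k) := by
      intro i
      rw [Finset.mul_sum]
      exact Finset.sum_congr rfl fun k _ => by ring
    simp only [h1]
    rw [Finset.sum_comm]
    have h2 : ∀ k, ∑ i, D.mu t j u k * (D.th i * D.d (Y i) u k)
        = (D.mu t j u k * D.th k) * D.dF Y u := by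
      intro k
      rw [← Finset.mul_sum, D.PFd' hY]
      ring
    simp only [h2]
    rw [← Finset.sum_mul, D.mu_th t u j hut]
    ring

/-- the numbers of a family -/
noncomputable def pre (Y : D.J → D.Ob) : Pre M :=
  (fun t r => D.dF (fun j => r⁻¹ • Y j) t, D.lF Y)

theorem pre_one (Y : D.J → D.Ob) (t : S) : (D.pre Y).1 t 1 = D.dF Y t := by
  simp [pre]

theorem pre_snd (Y : D.J → D.Ob) : (D.pre Y).2 = D.lF Y := rfl

/-- `Σ_i th_i h_T (r x_(t,0), Y_i) = d_t (r⁻¹ Y)` -/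
theorem sum_hT {T : Set S} {t : S} (ht : t ∈ T) {r : ArtinGroup M} (hr : r ∈ A M T)
    (Y : D.J → D.Ob) :
    ∑ i, D.th i * D.hT T (r • D.fr t D.j0) (Y i) = D.dF (fun i => r⁻¹ • Y i) t := by
  unfold dF
  refine Finset.sum_congr rfl fun i _ => ?_
  have h1 := D.hT_act_all hr (D.fr t D.j0) (r⁻¹ • Y i)
  rw [smul_inv_smul] at h1
  rw [h1, D.hT_fr T t ht]

/-- `d_u (r x_(t,j)) = 0` for `u ∉ T` -/
theorem d_out {T : Set S} {u t : S} (hu : u ∉ T) {r : ArtinGroup M} (hr : r ∈ A M T)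
    (j k : D.J) : D.d (r • D.fr t j) u k = 0 := by
  rw [D.d_act_all (A_compl M hu hr), D.fr_d]

theorem sum_d_g {t t' : S} (r : ArtinGroup M) :
    ∑ k, D.th k * D.d (r • D.fr t' D.j0) t k = D.g t t' r := by
  rw [D.g_symm]
  unfold g dF
  exact Finset.sum_congr rfl fun k _ => by rw [D.d_swap]

/-- **(K)** -/
theorem K {T : Set S} (hT : PD M T) {t : S} (ht : t ∈ T) {Y : D.J → D.Ob} (hY : Y ∈ D.Fam)
    {h : S → ℝ} (h0 : ∀ s ∈ T, 0 ≤ h s) (hht : h t = D.dF Y t)
    (hd : ∀ s ∈ T, s ≠ t → ∀ r ∈ A M (T \ {t}), h s ≤ D.dF (fun i => r⁻¹ • Y i) s)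
    (hs : ∀ s ∈ T, s ≠ t → 0 ≤ slk T (D.pre Y) h s) {t' : S} (ht' : t' ∈ T)
    {r' : ArtinGroup M} (hr' : r' ∈ A M T) :
    h t' + slk T (D.pre Y) h t * D.g t t' r' ≤ D.dF (fun i => r'⁻¹ • Y i) t' := by
  classical
  set X : D.Ob := r' • D.fr t' D.j0 with hX
  set Dl : ℝ := D.g t t' r' with hDl
  have hDl' : ∑ k, D.th k * D.d X t k = Dl := D.sum_d_g r'
  -- the lam of `X`
  have hlX : D.lam X = D.lam (D.fr t' D.j0) := D.lam_act_all r' _
  have hlT : ∀ j, lamT D.mu D.d D.lam T X t j = if t = t' ∧ j = D.j0 then 1 else 0 := by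
    intro j
    unfold lamT
    rw [hlX, D.fr_lam]
    rw [Finset.sum_eq_zero, add_zero]
    intro u _
    by_cases hu : u ∈ T
    · rw [ind_not (T := Tᶜ) (fun h : u ∈ Tᶜ => h hu), zero_mul]
    · rw [Finset.sum_eq_zero (fun k _ => by rw [hX, D.d_out hu hr', mul_zero]), mul_zero]
  have hlT' : ∀ s ∈ T \ {t}, ∑ j, D.th j * lamT D.mu D.d D.lam (T \ {t}) X s j
      = (if s = t' then 1 else 0) - C M t s * Dl := by
    intro s hs
    have hst : t ≠ s := fun h => hs.2 h.symm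
    have h1 : ∀ j, lamT D.mu D.d D.lam (T \ {t}) X s j
        = (if s = t' ∧ j = D.j0 then 1 else 0) + ∑ k, D.mu s j t k * D.d X t k := by
      intro j
      unfold lamT
      rw [hlX, D.fr_lam]
      congr 1
      rw [Finset.sum_eq_single t]
      · rw [ind_mem (T := (T \ {t})ᶜ) (by simp), one_mul]
      · intro u _ hut
        by_cases hu : u ∈ T
        · rw [ind_not (T := (T \ {t})ᶜ) (fun h : u ∈ (T \ {t})ᶜ => h ⟨hu, hut⟩), zero_mul]
        · rw [Finset.sum_eq_zero (fun k _ => by rw [hX, D.d_out hu hr', mul_zero]), mul_zero]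
      · intro h; exact absurd (Finset.mem_univ _) h
    simp only [h1, mul_add, Finset.sum_add_distrib]
    have h2 : ∑ j, D.th j * (if s = t' ∧ j = D.j0 then (1 : ℝ) else 0) = if s = t' then 1 else 0 := by
      by_cases h : s = t'
      · simp [h, D.th_zero]
      · simp [h]
    have h3 : ∑ j, D.th j * ∑ k, D.mu s j t k * D.d X t k = - C M t s * Dl := by
      simp only [Finset.mul_sum]
      rw [Finset.sum_comm]
      have h4 : ∀ k, ∑ j, D.th j * (D.mu s j t k * D.d X t k)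
          = - C M t s * (D.th k * D.d X t k) := by
        intro k
        have h5 := D.mu_th t s k hst
        calc ∑ j, D.th j * (D.mu s j t k * D.d X t k)
            = (∑ j, D.mu t k s j * D.th j) * D.d X t k := by
              rw [Finset.sum_mul]
              exact Finset.sum_congr rfl fun j _ => by rw [D.mu_symm s j t k]; ring
          _ = _ := by rw [h5]; ring
      simp only [h4]
      rw [← Finset.mul_sum, hDl']
    rw [h2, h3]
    ring
  -- (MF), summed
  have hMF : ∑ i, D.th i * D.hT (T \ {t}) X (Y i)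
      + ∑ i, D.th i * ∑ j, (D.d X t j * lamT D.mu D.d D.lam T (Y i) t j
        + lamT D.mu D.d D.lam T X t j * D.d (Y i) t j - 2 * (D.d X t j * D.d (Y i) t j))
      ≤ ∑ i, D.th i * D.hT T X (Y i) := by
    rw [← Finset.sum_add_distrib]
    refine Finset.sum_le_sum fun i _ => ?_
    rw [← mul_add]
    exact mul_le_mul_of_nonneg_left (D.MF T t ht X (Y i)) (D.th_pos i).le
  rw [D.sum_hT ht' hr' Y] at hMF
  set LT : ℝ := D.lF Y t - ∑ u, C M t u * (ext T (fun _ => 0) (D.dF Y) u) with hLT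
  have hmid : ∑ i, D.th i * ∑ j, (D.d X t j * lamT D.mu D.d D.lam T (Y i) t j
        + lamT D.mu D.d D.lam T X t j * D.d (Y i) t j - 2 * (D.d X t j * D.d (Y i) t j))
      = Dl * LT + (if t = t' then h t else 0) - 2 * (Dl * h t) := by
    have e1 : ∑ i, D.th i * ∑ j, (D.d X t j * lamT D.mu D.d D.lam T (Y i) t j
        + lamT D.mu D.d D.lam T X t j * D.d (Y i) t j - 2 * (D.d X t j * D.d (Y i) t j))
        = ∑ j, (D.d X t j * (∑ i, D.th i * lamT D.mu D.d D.lam T (Y i) t j)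
          + lamT D.mu D.d D.lam T X t j * (∑ i, D.th i * D.d (Y i) t j)
          - 2 * (D.d X t j * (∑ i, D.th i * D.d (Y i) t j))) := by
      simp only [Finset.mul_sum, ← Finset.sum_add_distrib, ← Finset.sum_sub_distrib]
      rw [Finset.sum_comm]
      refine Finset.sum_congr rfl fun j _ => Finset.sum_congr rfl fun i _ => ?_
      ring
    rw [e1]
    have e2 : ∀ j, (D.d X t j * (∑ i, D.th i * lamT D.mu D.d D.lam T (Y i) t j)
          + lamT D.mu D.d D.lam T X t j * (∑ i, D.th i * D.d (Y i) t j)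
          - 2 * (D.d X t j * (∑ i, D.th i * D.d (Y i) t j)))
        = (D.th j * D.d X t j) * LT + (if t = t' ∧ j = D.j0 then D.th j * h t else 0)
          - 2 * ((D.th j * D.d X t j) * h t) := by
      intro j
      rw [D.sum_lamT hY ht, D.PFd' hY, hlT, ← hht, ← hLT]
      split_ifs <;> ring
    simp only [e2]
    rw [Finset.sum_sub_distrib, Finset.sum_add_distrib, ← Finset.sum_mul, hDl', ← Finset.mul_sum,
      ← Finset.sum_mul, hDl']
    congr 2
    by_cases h : t = t'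
    · simp [h, D.th_zero]
    · simp [h]
  -- (P_{T - t})
  have hPD : PD M (T \ {t}) := fun x hx hx0 =>
    hT x (fun s hs => hx s (fun h => hs h.1)) hx0
  have hsl : ∀ s, s ∈ T → slk T (D.pre Y) h s
      = (D.lF Y s - ∑ u, C M s u * (ext (T \ {t}) (fun _ => 0) (D.dF Y) u))
        - CT M (T \ {t}) h s := by
    intro s _
    unfold slk CT
    rw [pre_snd, sub_sub, ← Finset.sum_add_distrib]
    congr 1
    refine Finset.sum_congr rfl fun u _ => ?_
    have e : (fun u => (D.pre Y).1 u 1) = D.dF Y := funext fun u => D.pre_one Y u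
    rw [e]
    by_cases hut : u = t
    · subst hut
      rw [ext_mem ht, ext_not (by simp), ind_not (T := T \ {u}) (by simp), hht]
      ring
    · by_cases hu : u ∈ T
      · rw [ext_mem hu, ext_mem (T := T \ {t}) ⟨hu, hut⟩, ind_mem (T := T \ {t}) ⟨hu, hut⟩]
        ring
      · rw [ext_not hu, ext_not (fun h => hu h.1), ind_not (T := T \ {t}) (fun h => hu h.1)]
        ring
  have hPT := D.PT (T \ {t}) hPD Y hY h (fun s hs => h0 s hs.1)
    (fun s hs => by
      rw [D.sum_lamT hY hs, D.th_zero, one_mul]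
      have h1 := hs
      have h2 := hsl s hs.1
      have h3 := (‹∀ s ∈ T, s ≠ t → 0 ≤ slk T (D.pre Y) h s›) s hs.1 hs.2
      rw [h2] at h3
      linarith)
    (fun r hr s hs => hd s hs.1 hs.2 r hr) X
  have hL : ∑ s, ind (T \ {t}) s * ∑ j, D.th j * h s * lamT D.mu D.d D.lam (T \ {t}) X s j
      = (if t' = t then 0 else h t') - Dl * CT M (T \ {t}) h t := by
    have e1 : ∀ s, ind (T \ {t}) s * ∑ j, D.th j * h s * lamT D.mu D.d D.lam (T \ {t}) X s j
        = (if s = t' then ind (T \ {t}) s * h s else 0)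
          - Dl * (ind (T \ {t}) s * (C M t s * h s)) := by
      intro s
      by_cases hs1 : s ∈ T \ {t}
      · simp only [ind_mem hs1, one_mul]
        have : ∑ j, D.th j * h s * lamT D.mu D.d D.lam (T \ {t}) X s j
            = h s * ∑ j, D.th j * lamT D.mu D.d D.lam (T \ {t}) X s j := by
          rw [Finset.mul_sum]
          exact Finset.sum_congr rfl fun j _ => by ring
        rw [this, hlT' s hs1]
        split_ifs <;> ring
      · simp only [ind_not hs1, zero_mul, mul_zero, sub_zero]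
        split_ifs <;> rfl
    simp only [e1]
    rw [Finset.sum_sub_distrib, ← Finset.mul_sum]
    unfold CT
    congr 1
    rw [Finset.sum_ite_eq' Finset.univ t' (fun s => ind (T \ {t}) s * h s)]
    simp only [Finset.mem_univ, if_true]
    by_cases h' : t' = t
    · rw [if_pos h', h', ind_not (T := T \ {t}) (by simp), zero_mul]
    · rw [if_neg h', ind_mem (T := T \ {t}) ⟨ht', h'⟩, one_mul]
  rw [hL] at hPT
  rw [hmid] at hMF
  have hfin : slk T (D.pre Y) h t = LT - 2 * h t - CT M (T \ {t}) h t := by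
    rw [hsl t ht, hLT]
    have : ∑ u, C M t u * (ext (T \ {t}) (fun _ => 0) (D.dF Y) u)
        = ∑ u, C M t u * (ext T (fun _ => 0) (D.dF Y) u) + 2 * h t := by
      have e : ∀ u, C M t u * (ext (T \ {t}) (fun _ => 0) (D.dF Y) u)
          = C M t u * (ext T (fun _ => 0) (D.dF Y) u) + if u = t then 2 * h t else 0 := by
        intro u
        by_cases hut : u = t
        · subst hut
          rw [ext_mem ht, ext_not (by simp), C_self, hht]
          simp
        · rw [if_neg hut, add_zero]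
          by_cases hu : u ∈ T
          · rw [ext_mem hu, ext_mem (T := T \ {t}) ⟨hu, hut⟩]
          · rw [ext_not hu, ext_not (fun h => hu h.1)]
      simp only [e]
      rw [Finset.sum_add_distrib]
      simp
    rw [this]
    ring
  rw [hfin]
  by_cases h' : t = t'
  · subst h'
    simp only [if_true] at hMF hPT
    nlinarith [hMF, hPT]
  · have h'' : ¬ t' = t := fun h => h' h.symm
    simp only [if_neg h', if_neg h''] at hMF hPT
    nlinarith [hMF, hPT]

/-- **the numbers of the category side** -/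
noncomputable def toNum : Num M where
  g := D.g
  Ob := {X | ∃ Y ∈ D.Fam, X = D.pre Y}
  g_nonneg := D.g_nonneg
  g_left := fun s t r a ha => D.g_left s t r a ha
  g_right := fun s t r b hb => D.g_right s t r b hb
  d_nonneg := by
    rintro _ ⟨Y, _, rfl⟩ t r
    exact D.dF_nonneg _ _
  lam_nonneg := by
    rintro _ ⟨Y, _, rfl⟩ t
    exact D.lF_nonneg _ _
  d_inv := by
    rintro _ ⟨Y, _, rfl⟩ t r b hb
    show D.dF (fun j => (r * b)⁻¹ • Y j) t = D.dF (fun j => r⁻¹ • Y j) t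
    unfold dF
    refine Finset.sum_congr rfl fun j _ => ?_
    simp only [mul_inv_rev, mul_smul, D.d_act_all ((A M ({t}ᶜ : Set S)).inv_mem hb)]
  shift_mem := by
    rintro _ ⟨Y, hY, rfl⟩ r
    refine ⟨fun j => r⁻¹ • Y j, D.fam_act_all r⁻¹ hY, ?_⟩
    refine Prod.ext ?_ ?_
    · funext t x
      show D.dF (fun j => (r * x)⁻¹ • Y j) t = D.dF (fun j => x⁻¹ • r⁻¹ • Y j) t
      simp only [mul_inv_rev, mul_smul]
    · show D.lF Y = D.lF (fun j => r⁻¹ • Y j)
      funext t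
      unfold lF
      simp only [D.lam_act_all]
  single := by
    intro s
    refine ⟨D.pre (D.fr s), ⟨D.fr s, D.fam_fr s, rfl⟩, ?_, ?_⟩
    · intro t r
      show D.g t s r⁻¹ = D.g s t r
      rw [D.g_symm t s r⁻¹, inv_inv]
    · show 0 < D.lF (D.fr s) s
      unfold lF
      refine lt_of_lt_of_le ?_ (Finset.single_le_sum (f := fun i => D.th i * D.lam (D.fr s i) s D.j0)
        (fun i _ => mul_nonneg (D.th_pos i).le (D.lam_nonneg _ _ _)) (Finset.mem_univ D.j0))
      simp [D.fr_lam, D.th_zero]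
  K := by
    rintro T hT t ht _ ⟨Y, hY, rfl⟩ h h0 hht hd hs t' ht' r' hr'
    rw [D.pre_one] at hht
    exact D.K hT ht hY h0 hht (fun s hs1 hs2 r hr => hd s hs1 hs2 r hr) hs ht' hr'
  Z := by
    intro T hT t ht r hr h
    refine D.zst T hT t ht r hr ?_
    intro i j
    have h1 := D.sum_d_fr t t i r
    rw [h, mul_zero] at h1
    have h2 := (Finset.sum_eq_zero_iff_of_nonneg
      (fun j _ => mul_nonneg (D.th_pos j).le (D.d_nonneg _ _ _))).1 h1 j (Finset.mem_univ _)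
    exact (mul_eq_zero.1 h2).resolve_left (D.th_pos j).ne'

end CatD

end Crest.Agent.R175.CatNum_427
end

-- ▼ part R175/Lev_788

/-!
Row 175 (S0263), helper788: `CatD M` from the classes of objects over the faces `res M T`.

`Lev Λ M` (a "level") = what the category of framed objects over the unfolded graph of `M` delivers,
in terms of isomorphism classes; `LRes L T L'` = restriction of classes from `M` to `res M T`.
`Sys Λ M` = a level for every face, with restrictions; `Sys.catD : Sys Λ M → CatD M`.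
-/

set_option autoImplicit false
set_option linter.unusedSectionVars false
set_option linter.unusedVariables false

namespace Crest.Agent.R175.Lev_788

open Crest.GroupTheory Crest.Agent.R175.Num_774 Crest.Agent.R175.CatNum_427
open Crest.Agent.R175.Unf_109 Crest.Agent.R175.VdL_527 Crest.Agent.R175.Pos_418

universe v

open Classical in
/-- the neighbours of `i` in direction `m` -/
noncomputable def nbs (Λ : Finset ℕ) (m : ℕ) (i : J Λ) : Finset (J Λ) :=
  Finset.univ.filter fun j => nb Λ m i j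

theorem mem_nbs {Λ : Finset ℕ} {m : ℕ} {i j : J Λ} : j ∈ nbs Λ m i ↔ nb Λ m i j := by
  simp [nbs]

theorem mem_nbs_comm {Λ : Finset ℕ} {m : ℕ} {i j : J Λ} : j ∈ nbs Λ m i ↔ i ∈ nbs Λ m j := by
  rw [mem_nbs, mem_nbs, nb_comm]

/-- the base point of `J Λ` -/
def jz {Λ : Finset ℕ} (h4 : ∀ m ∈ Λ, 4 ≤ m) : J Λ := fun m => ⟨0, by have := h4 m.1 m.2; omega⟩

theorem wt_jz {Λ : Finset ℕ} (h4 : ∀ m ∈ Λ, 4 ≤ m) : wt Λ (jz h4) = 1 := by
  unfold wt
  refine Finset.prod_eq_one fun m _ => ?_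
  have := h4 m.1 m.2
  exact dd_zero (by omega)

/-- Perron-Frobenius for `J Λ` -/
def PFs (Λ : Finset ℕ) (h4 : ∀ m ∈ Λ, 4 ≤ m) : Prop :=
  ∀ v : J Λ → ℝ, (∀ m ∈ Λ, ∀ i, ∑ j ∈ nbs Λ m i, v j = 2 * Real.cos (Real.pi / m) * v i) →
    ∀ i, v i = wt Λ i * v (jz h4)

theorem wt_nbs {Λ : Finset ℕ} (h4 : ∀ m ∈ Λ, 4 ≤ m) {m : ℕ} (hm : m ∈ Λ) (i : J Λ) :
    ∑ j ∈ nbs Λ m i, wt Λ j = 2 * Real.cos (Real.pi / m) * wt Λ i := by
  classical
  rw [← wt_sum h4 (Or.inl hm) i]
  unfold nbs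
  rw [Finset.sum_filter]
  refine Finset.sum_congr rfl fun j _ => ?_
  have hm0 : m ≠ 0 := by have := h4 m hm; omega
  unfold mu
  split_ifs with h
  · simp
  · simp

/-- exchange of neighbour sums -/
theorem sum_nbs_comm {Λ : Finset ℕ} {m : ℕ} (f : J Λ → J Λ → ℝ) :
    ∑ i, ∑ j ∈ nbs Λ m i, f i j = ∑ j, ∑ i ∈ nbs Λ m j, f i j := by
  classical
  rw [Finset.sum_comm' (t' := Finset.univ) (s' := fun j => nbs Λ m j)]
  intro i j
  simp [mem_nbs_comm (i := i) (j := j)]

/-- number of edges of the unfolded graph -/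
noncomputable def muS {S : Type} (M : CoxeterMatrix S) (Λ : Finset ℕ) (s : S) (i : J Λ) (t : S)
    (j : J Λ) : ℝ := by
  classical exact if s = t then 0 else mu Λ (M s t) i j

theorem muS_symm {S : Type} (M : CoxeterMatrix S) (Λ : Finset ℕ) (s : S) (i : J Λ) (t : S)
    (j : J Λ) : muS M Λ s i t j = muS M Λ t j s i := by
  unfold muS
  by_cases h : s = t
  · rw [if_pos h, if_pos h.symm]
  · rw [if_neg h, if_neg (Ne.symm h), M.symmetric t s]
    exact mu_comm _ _ _ _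


theorem muS_wt {S : Type} {M : CoxeterMatrix S} {Λ : Finset ℕ} (hΛ : Good M Λ) (s t : S)
    (i : J Λ) (h : s ≠ t) : ∑ j, muS M Λ s i t j * wt Λ j = - C M s t * wt Λ i := by
  have h1 : ∀ j, muS M Λ s i t j = mu Λ (M s t) i j := fun j => by simp [muS, h]
  simp only [h1]
  rw [wt_sum hΛ.four (hΛ.cases h) i, C]
  ring

/-- one level: classes of objects over the unfolded graph of `M`. -/
structure Lev (Λ : Finset ℕ) {S : Type} (M : CoxeterMatrix S) where
  /-- isomorphism classes -/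
  Ob : Type v
  [acm : AddCommMonoid Ob]
  [act : DistribMulAction (ArtinGroup M) Ob]
  /-- `dim H_T (X, Y)` -/
  h : Ob → Ob → ℕ
  /-- the number of frames -/
  lam : Ob → S → J Λ → ℕ
  /-- the frames -/
  fr : S → J Λ → Ob
  /-- the functors `F_m` -/
  F : ℕ → Ob → Ob
  h_add : ∀ X Y Z, h X (Y + Z) = h X Y + h X Z
  h_zero : ∀ X, h X 0 = 0
  h_symm : ∀ X Y, h X Y = h Y X
  h_act : ∀ s X Y, h (artinGen M s • X) (artinGen M s • Y) = h X Y
  lam_act : ∀ s X, lam (artinGen M s • X) = lam X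
  lam_add : ∀ X Y, lam (X + Y) = lam X + lam Y
  lam_zero : lam 0 = 0
  fr_act : ∀ s t j, t ≠ s → artinGen M s • fr t j = fr t j
  fr_fr : ∀ s i t j, h (fr s i) (fr t j) = 0
  fr_lam : ∀ t i s j, lam (fr t i) s j = open Classical in if s = t ∧ j = i then 1 else 0
  F_act : ∀ m ∈ Λ, ∀ s X, F m (artinGen M s • X) = artinGen M s • F m X
  F_fr : ∀ m ∈ Λ, ∀ t i, F m (fr t i) = ∑ j ∈ nbs Λ m i, fr t j
  F_adj : ∀ m ∈ Λ, ∀ X Y, h (F m X) Y = h X (F m Y)
  F_lam : ∀ m ∈ Λ, ∀ X t j, lam (F m X) t j = ∑ i ∈ nbs Λ m j, lam X t i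

attribute [instance] Lev.acm Lev.act

namespace Lev

variable {Λ : Finset ℕ} {S : Type} {M : CoxeterMatrix S} (L : Lev.{v} Λ M)

/-- `d_(t,j)` -/
def d (X : L.Ob) (t : S) (j : J Λ) : ℕ := L.h (L.fr t j) X

/-- `(Y_j)` is an `F`-family -/
def IsFam (Y : J Λ → L.Ob) : Prop := ∀ m ∈ Λ, ∀ i, L.F m (Y i) = ∑ j ∈ nbs Λ m i, Y j

/-- **(P_T)** for the whole level -/
def PT [Fintype S] (h4 : ∀ m ∈ Λ, 4 ≤ m) : Prop :=
  ∀ Y : J Λ → L.Ob, L.IsFam Y → ∀ h : S → ℝ, (∀ s, 0 ≤ h s) →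
    (∀ s, mv (Cr M) h s ≤ ∑ i, wt Λ i * (L.lam (Y i) s (jz h4) : ℝ)) →
    (∀ r : ArtinGroup M, ∀ s, h s ≤ ∑ i, wt Λ i * (L.d (r • Y i) s (jz h4) : ℝ)) →
    ∀ X, ∑ s, ∑ j, wt Λ j * h s * (L.lam X s j : ℝ) ≤ ∑ i, wt Λ i * (L.h X (Y i) : ℝ)

/-- **STAB** for the whole level -/
def Stb : Prop :=
  ∀ t : S, ∀ r : ArtinGroup M, (∀ i j, L.d (r • L.fr t j) t i = 0) → r ∈ A M ({t}ᶜ : Set S)

theorem h_sum {ι : Type*} (s : Finset ι) (f : ι → L.Ob) (X : L.Ob) :
    L.h X (∑ i ∈ s, f i) = ∑ i ∈ s, L.h X (f i) := by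
  classical
  induction s using Finset.induction_on with
  | empty => simp [L.h_zero]
  | insert a s ha ih => rw [Finset.sum_insert ha, Finset.sum_insert ha, L.h_add, ih]

theorem h_sum_left {ι : Type*} (s : Finset ι) (f : ι → L.Ob) (X : L.Ob) :
    L.h (∑ i ∈ s, f i) X = ∑ i ∈ s, L.h (f i) X := by
  rw [L.h_symm, L.h_sum]
  exact Finset.sum_congr rfl fun i _ => L.h_symm _ _

theorem lam_sum {ι : Type*} (s : Finset ι) (f : ι → L.Ob) (t : S) (j : J Λ) :
    L.lam (∑ i ∈ s, f i) t j = ∑ i ∈ s, L.lam (f i) t j := by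
  classical
  induction s using Finset.induction_on with
  | empty => simp [L.lam_zero]
  | insert a s ha ih =>
    rw [Finset.sum_insert ha, Finset.sum_insert ha, L.lam_add]
    simp [ih]

theorem d_act {s t : S} (hts : t ≠ s) (X : L.Ob) (j : J Λ) :
    L.d (artinGen M s • X) t j = L.d X t j := by
  unfold d
  rw [← L.fr_act s t j hts, L.h_act, L.fr_act s t j hts]

/-- families are stable under the generators -/
theorem fam_act {Y : J Λ → L.Ob} (hY : L.IsFam Y) (s : S) :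
    L.IsFam (fun j => artinGen M s • Y j) := by
  intro m hm i
  rw [L.F_act m hm, hY m hm i, Finset.smul_sum]

theorem F_act' {m : ℕ} (hm : m ∈ Λ) (s : S) (X : L.Ob) :
    L.F m ((artinGen M s)⁻¹ • X) = (artinGen M s)⁻¹ • L.F m X := by
  rw [eq_inv_smul_iff, ← L.F_act m hm, smul_inv_smul]

theorem fam_act' {Y : J Λ → L.Ob} (hY : L.IsFam Y) (s : S) :
    L.IsFam (fun j => (artinGen M s)⁻¹ • Y j) := by
  intro m hm i
  rw [L.F_act' hm, hY m hm i, Finset.smul_sum]

theorem fam_fr (s : S) : L.IsFam (L.fr s) := fun m hm i => L.F_fr m hm s i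

/-- weighted sum of numbers along an `F`-family -/
theorem sum_fam {Y : J Λ → L.Ob} (hY : L.IsFam Y) (h4 : ∀ m ∈ Λ, 4 ≤ m) {m : ℕ} (hm : m ∈ Λ)
    (X : L.Ob) : ∑ i, wt Λ i * (L.h (L.F m X) (Y i) : ℝ)
      = 2 * Real.cos (Real.pi / m) * ∑ i, wt Λ i * (L.h X (Y i) : ℝ) := by
  have h1 : ∀ i, (L.h (L.F m X) (Y i) : ℝ) = ∑ j ∈ nbs Λ m i, (L.h X (Y j) : ℝ) := by
    intro i
    rw [L.F_adj m hm, hY m hm i, L.h_sum]
    push_cast
    rfl
  simp only [h1, Finset.mul_sum]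
  rw [sum_nbs_comm (f := fun i j => wt Λ i * (L.h X (Y j) : ℝ))]
  refine Finset.sum_congr rfl fun j _ => ?_
  rw [← Finset.sum_mul, wt_nbs h4 hm]
  ring

/-- Perron-Frobenius for `d` -/
theorem pfd (h4 : ∀ m ∈ Λ, 4 ≤ m) (hPF : PFs Λ h4) {Y : J Λ → L.Ob} (hY : L.IsFam Y) (s : S)
    (j : J Λ) : ∑ i, wt Λ i * (L.d (Y i) s j : ℝ)
      = wt Λ j * ∑ i, wt Λ i * (L.d (Y i) s (jz h4) : ℝ) := by
  refine hPF (fun j => ∑ i, wt Λ i * (L.d (Y i) s j : ℝ)) ?_ j
  intro m hm k
  have h1 := L.sum_fam hY h4 hm (L.fr s k)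
  rw [L.F_fr m hm] at h1
  simp only [L.h_sum_left] at h1
  push_cast at h1
  unfold d
  rw [← h1, Finset.sum_comm]
  exact Finset.sum_congr rfl fun i _ => by rw [Finset.mul_sum]

/-- Perron-Frobenius for `lam` -/
theorem pfl (h4 : ∀ m ∈ Λ, 4 ≤ m) (hPF : PFs Λ h4) {Y : J Λ → L.Ob} (hY : L.IsFam Y) (s : S)
    (j : J Λ) : ∑ i, wt Λ i * (L.lam (Y i) s j : ℝ)
      = wt Λ j * ∑ i, wt Λ i * (L.lam (Y i) s (jz h4) : ℝ) := by
  refine hPF (fun j => ∑ i, wt Λ i * (L.lam (Y i) s j : ℝ)) ?_ j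
  intro m hm k
  have h1 : ∀ i, ∑ l ∈ nbs Λ m k, (L.lam (Y i) s l : ℝ) = ∑ l ∈ nbs Λ m i, (L.lam (Y l) s k : ℝ) := by
    intro i
    have h2 := L.F_lam m hm (Y i) s k
    rw [hY m hm i, L.lam_sum] at h2
    exact_mod_cast h2.symm
  calc ∑ l ∈ nbs Λ m k, ∑ i, wt Λ i * (L.lam (Y i) s l : ℝ)
      = ∑ i, wt Λ i * ∑ l ∈ nbs Λ m k, (L.lam (Y i) s l : ℝ) := by
        rw [Finset.sum_comm]
        exact Finset.sum_congr rfl fun i _ => by rw [Finset.mul_sum]
    _ = ∑ i, ∑ l ∈ nbs Λ m i, wt Λ i * (L.lam (Y l) s k : ℝ) := by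
        refine Finset.sum_congr rfl fun i _ => ?_
        rw [h1 i, Finset.mul_sum]
    _ = ∑ l, ∑ i ∈ nbs Λ m l, wt Λ i * (L.lam (Y l) s k : ℝ) :=
        sum_nbs_comm (f := fun i l => wt Λ i * (L.lam (Y l) s k : ℝ))
    _ = _ := by
        rw [Finset.mul_sum]
        refine Finset.sum_congr rfl fun l _ => ?_
        rw [← Finset.sum_mul, wt_nbs h4 hm]
        ring

end Lev

/-- restriction of classes from `M` to the face `T` -/
structure LRes {Λ : Finset ℕ} {S : Type} [Fintype S] {M : CoxeterMatrix S} (L : Lev.{v} Λ M)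
    (T : Set S) (L' : Lev.{v} Λ (res M T)) where
  /-- restriction -/
  r : L.Ob →+ L'.Ob
  r_act : ∀ (t : T) (X : L.Ob), r (artinGen M (t : S) • X) = artinGen (res M T) t • r X
  r_fr : ∀ (t : T) (j : J Λ), r (L.fr t j) = L'.fr t j
  r_d : ∀ (t : T) (j : J Λ) (X : L.Ob), L'.h (L'.fr t j) (r X) = L.h (L.fr t j) X
  r_lam : ∀ (t : T) (j : J Λ) (X : L.Ob), (L'.lam (r X) t j : ℝ)
    = lamT (muS M Λ) (fun X s j => (L.d X s j : ℝ)) (fun X s j => (L.lam X s j : ℝ)) T X t j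
  r_F : ∀ m ∈ Λ, ∀ X, r (L.F m X) = L'.F m (r X)

/-- a level for every face -/
structure Sys (Λ : Finset ℕ) {S : Type} [Fintype S] (M : CoxeterMatrix S) (h4 : ∀ m ∈ Λ, 4 ≤ m)
    where
  L : Lev.{v} Λ M
  LT : ∀ T : Set S, Lev.{v} Λ (res M T)
  R : ∀ T : Set S, LRes L T (LT T)
  MF : ∀ (T : Set S), ∀ t ∈ T, ∀ X Y : L.Ob,
    ((LT (T \ {t})).h ((R _).r X) ((R _).r Y) : ℝ)
      + ∑ j, ((L.d X t j : ℝ) * lamT (muS M Λ) (fun X s j => (L.d X s j : ℝ))
            (fun X s j => (L.lam X s j : ℝ)) T Y t j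
          + lamT (muS M Λ) (fun X s j => (L.d X s j : ℝ)) (fun X s j => (L.lam X s j : ℝ)) T X t j
            * (L.d Y t j : ℝ)
          - 2 * ((L.d X t j : ℝ) * (L.d Y t j : ℝ)))
      ≤ ((LT T).h ((R T).r X) ((R T).r Y) : ℝ)
  PT : ∀ (T : Set S) [Fintype T], PD M T → (LT T).PT h4
  Stb : ∀ (T : Set S), PD M T → (LT T).Stb

namespace Sys

variable {Λ : Finset ℕ} {S : Type} [Fintype S] {M : CoxeterMatrix S} {h4 : ∀ m ∈ Λ, 4 ≤ m}
  (Z : Sys.{v} Λ M h4)

/-- the action of the whole group of a face -/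
theorem r_act_incl (T : Set S) (r : ArtinGroup (res M T)) (X : Z.L.Ob) :
    (Z.R T).r (incl M T r • X) = r • (Z.R T).r X := by
  revert X
  have hr : r ∈ A (res M T) (Set.univ : Set T) := by
    have h : (A (res M T) (Set.univ : Set T)) = ⊤ := by
      unfold A stdParabolic
      rw [Set.image_univ]
      exact PresentedGroup.closure_range_of _
    rw [h]; trivial
  have _i : Fintype T := Fintype.ofFinite T
  refine CatD.act_ind (fun r => ∀ X : Z.L.Ob, (Z.R T).r (incl M T r • X) = r • (Z.R T).r X)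
    (by intro X; simp) ?_ ?_ hr
  · intro s _ r ih X
    rw [map_mul, incl_gen, mul_smul, ih, (Z.R T).r_act, mul_smul]
  · intro s _ r ih X
    rw [map_mul, map_inv, incl_gen, mul_smul, ih, mul_smul]
    congr 1
    rw [eq_inv_smul_iff, ← (Z.R T).r_act, smul_inv_smul]

theorem exists_incl {T : Set S} {r : ArtinGroup M} (hr : r ∈ A M T) :
    ∃ r' : ArtinGroup (res M T), incl M T r' = r := by
  have h1 : r ∈ (incl M T).range := by rw [range_incl]; exact hr
  exact h1

theorem ind_sum {T : Set S} [Fintype T] (f : S → ℝ) : ∑ u, ind T u * f u = ∑ u : T, f u := by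
  classical
  have h1 : ∀ u, ind T u * f u = if u ∈ T then f u else 0 := by
    intro u
    by_cases h : u ∈ T
    · rw [ind_mem h, if_pos h, one_mul]
    · rw [ind_not h, if_neg h, zero_mul]
  simp only [h1]
  rw [← Finset.sum_filter]
  exact Finset.sum_subtype _ (fun x => by simp) _

/-- **the category side of `M`** -/
noncomputable def catD (hΛ : Good M Λ) (hPF : PFs Λ h4) : CatD.{0, v} M where
  J := J Λ
  j0 := jz h4
  th := wt Λ
  th_pos := wt_pos Λ
  th_zero := wt_jz h4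
  mu := muS M Λ
  mu_symm := muS_symm M Λ
  mu_th := fun s t i h => muS_wt hΛ s t i h
  Ob := Z.L.Ob
  d := fun X s j => (Z.L.d X s j : ℝ)
  lam := fun X s j => (Z.L.lam X s j : ℝ)
  fr := Z.L.fr
  hT := fun T X Y => ((Z.LT T).h ((Z.R T).r X) ((Z.R T).r Y) : ℝ)
  d_nonneg := fun X s j => Nat.cast_nonneg _
  lam_nonneg := fun X s j => Nat.cast_nonneg _
  lam_act := fun s X => by rw [Z.L.lam_act]
  d_act := fun s X t h => by
    funext j
    rw [Z.L.d_act h]
  fr_act := Z.L.fr_act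
  fr_d := fun t i s j => by
    show ((Z.L.h (Z.L.fr s j) (Z.L.fr t i) : ℕ) : ℝ) = 0
    rw [Z.L.fr_fr, Nat.cast_zero]
  fr_lam := fun t i s j => by
    rw [Z.L.fr_lam]
    split_ifs <;> simp
  hT_act := fun T s hs X Y => by
    rw [(Z.R T).r_act ⟨s, hs⟩, (Z.R T).r_act ⟨s, hs⟩, (Z.LT T).h_act]
  hT_symm := fun T X Y => by rw [(Z.LT T).h_symm]
  hT_fr := fun T t ht j X => by
    rw [(Z.R T).r_fr ⟨t, ht⟩, (Z.R T).r_d ⟨t, ht⟩]
    rfl
  MF := fun T t ht X Y => Z.MF T t ht X Y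
  Fam := {Y | Z.L.IsFam Y}
  fam_fr := Z.L.fam_fr
  fam_act := fun s Y hY => Z.L.fam_act hY s
  fam_act' := fun s Y hY => Z.L.fam_act' hY s
  PFd := fun Y hY s j => Z.L.pfd h4 hPF hY s j
  PFl := fun Y hY s j => Z.L.pfl h4 hPF hY s j
  PT := by
    intro T hT Y hY h h0 hlam hd X
    let _i : Fintype T := Fintype.ofFinite T
    have hfam : (Z.LT T).IsFam (fun i => (Z.R T).r (Y i)) := by
      intro m hm i
      rw [← (Z.R T).r_F m hm, hY m hm i, map_sum]
    have key := Z.PT T hT (fun i => (Z.R T).r (Y i)) hfam (fun s => h s)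
      (fun s => h0 s s.2) ?_ ?_ ((Z.R T).r X)
    · rw [ind_sum (T := T) (f := fun s => ∑ j, wt Λ j * h s * lamT (muS M Λ)
        (fun X s j => (Z.L.d X s j : ℝ)) (fun X s j => (Z.L.lam X s j : ℝ)) T X s j)]
      refine le_trans (le_of_eq ?_) key
      refine Finset.sum_congr rfl fun s _ => Finset.sum_congr rfl fun j _ => ?_
      rw [(Z.R T).r_lam]
    · intro s
      have h1 := hlam s s.2
      have h2 : CT M T h s = mv (Cr (res M T)) (fun s : T => h s) s := by
        unfold CT mv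
        rw [ind_sum (T := T) (f := fun u => C M s u * h u)]
        rfl
      rw [h2] at h1
      refine h1.trans (le_of_eq ?_)
      refine Finset.sum_congr rfl fun i _ => ?_
      rw [(Z.R T).r_lam]
    · intro r s
      have h1 := hd (incl M T r⁻¹) (by
        have : incl M T r⁻¹ ∈ (incl M T).range := ⟨_, rfl⟩
        rwa [range_incl] at this) s s.2
      refine h1.trans (le_of_eq ?_)
      refine Finset.sum_congr rfl fun i _ => ?_
      unfold Lev.d
      rw [← (Z.R T).r_d, ← map_inv, inv_inv, Z.r_act_incl]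
  zst := by
    intro T hT t ht r hr h
    obtain ⟨r', rfl⟩ := exists_incl hr
    have h1 := Z.Stb T hT ⟨t, ht⟩ r' (fun i j => by
      have h2 := h i j
      have h3 : Z.L.d (incl M T r' • Z.L.fr t j) t i = 0 := by exact_mod_cast h2
      unfold Lev.d at h3 ⊢
      rw [← (Z.R T).r_fr ⟨t, ht⟩ j, ← Z.r_act_incl, (Z.R T).r_d]
      exact h3)
    have h2 := Subgroup.mem_map_of_mem (incl M T) h1
    rw [A, map_incl_std] at h2
    refine A_mono M ?_ h2
    rintro _ ⟨x, hx, rfl⟩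
    refine ⟨x.2, fun hxt => hx ?_⟩
    exact Subtype.ext hxt

end Sys

end Crest.Agent.R175.Lev_788
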