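import Crest.Agent.R175.Cls_133
import Crest.Agent.R175.FmS_303
import Crest.Agent.R175.Lev_788
import Crest.Agent.R175.Fm7_27

-- ▼ part R175/FmCls_303
section

/-!
Row 175 (S0263): matrix functors `Φ : FDat G k` (helper27) on the classes of `Cls_133` (helper303).

* `mk_free_add`, `mk_free_frames` : `⟦free 0 n⟧ = ∑ t, n t • frC t`.
* `FC Φ : Cls G k →+ Cls G k`, `FC_mk : FC Φ ⟦X⟧ = ⟦Φ.tob X⟧` (rfl).
* `FC_fr`, `FC_fr_of` : `FC Φ (frC a) = ∑ b ~ a, frC b`.
* for `Ψ : ADat G k`: `hC_FC` (adjunction), `lamC_FC`, `dC_FC`.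
* `shC` : parity shift on classes, `FC_shC`, `hC_shC_left/right`, `lamC_shC`.
-/

set_option autoImplicit false
set_option linter.unusedSectionVars false

open CategoryTheory

namespace Crest.Agent.R175.FmCls_303

open Crest.Agent.R175.PTA Crest.Agent.R175.Cls_133 Crest.Agent.R175.Fm_27
open Crest.Agent.R175.FmS_303

universe u v

/-! ### free objects as classes -/

section free

variable {T : Type u} {G : MG T} {k : Type v} [Field k] [Fintype T]

theorem mk_free_add (m n m' n' : T → ℕ) :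
    (⟦free G k (m + m') (n + n')⟧ : Cls G k) = ⟦free G k m n⟧ + ⟦free G k m' n'⟧ :=
  (Quotient.sound (hiso_free_add m n m' n')).symm

theorem mk_free_smul (c : ℕ) (m n : T → ℕ) :
    (⟦free G k (c • m) (c • n)⟧ : Cls G k) = c • ⟦free G k m n⟧ := by
  induction c with
  | zero => rw [zero_smul, zero_smul, zero_smul, mk_zero]
  | succ c ih => rw [succ_nsmul, succ_nsmul, succ_nsmul, mk_free_add, ih]

theorem mk_free_sum {ι : Type*} (s : Finset ι) (f g : ι → T → ℕ) :
    (⟦free G k (∑ x ∈ s, f x) (∑ x ∈ s, g x)⟧ : Cls G k) = ∑ x ∈ s, ⟦free G k (f x) (g x)⟧ := by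
  classical
  induction s using Finset.induction_on with
  | empty => rw [Finset.sum_empty, Finset.sum_empty, Finset.sum_empty, mk_zero]
  | insert a s ha ih => rw [Finset.sum_insert ha, Finset.sum_insert ha, Finset.sum_insert ha,
      mk_free_add, ih]

/-- `free 0 n` is a sum of frames -/
theorem mk_free_frames [DecidableEq T] (n : T → ℕ) :
    (⟦free G k 0 n⟧ : Cls G k) = ∑ t, n t • frC G k t := by
  have h1 : n = ∑ b, n b • (Pi.single b 1 : T → ℕ) := by
    funext t
    rw [Finset.sum_apply]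
    simp [Pi.single_apply]
  have h2 : (0 : T → ℕ) = ∑ b : T, n b • (0 : T → ℕ) := by simp
  conv_lhs => rw [h1, h2]
  rw [mk_free_sum]
  exact Finset.sum_congr rfl fun b _ => mk_free_smul _ _ _

/-- a set of frames -/
theorem mk_free_set [DecidableEq T] (s : Finset T) (n : T → ℕ) (hn : ∀ b ∈ s, n b = 1)
    (hn' : ∀ b, b ∉ s → n b = 0) : (⟦free G k 0 n⟧ : Cls G k) = ∑ b ∈ s, frC G k b := by
  rw [mk_free_frames, ← Finset.sum_subset (Finset.subset_univ s) fun b _ hb => by
    rw [hn' b hb, zero_smul]]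
  exact Finset.sum_congr rfl fun b hb => by rw [hn b hb, one_smul]

end free

/-! ### the parity shift -/

section shift

variable {T : Type u} {G : MG T} {k : Type v} [Field k] [Fintype T]

/-- the shift of a homotopy equivalence -/
theorem hiso_sh_map {X Y : TOb G k} (h : HIso X Y) : HIso (sh X) (sh Y) := by
  obtain ⟨e⟩ := h
  have key : ∀ {X Y : TOb G k} (p : X.X ⟶ Y.X), D (sh X) (sh Y) (ofSh X.X ≫ p ≫ toSh Y.X)
      = - (ofSh X.X ≫ D X Y p ≫ toSh Y.X) := by
    intro X Y p
    have h1 := D_comp (X := sh X) (Y := X) (Z := sh Y) (ofSh X.X) (p ≫ toSh Y.X)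
    have h2 := D_comp (X := X) (Y := Y) (Z := sh Y) p (toSh Y.X)
    rw [h1, h2, D_ofSh, D_toSh, Limits.zero_comp, Limits.comp_zero, bar_toSh]
    simp
  refine ⟨?_⟩
  exact
    { p := ofSh X.X ≫ e.p ≫ toSh Y.X
      q := ofSh Y.X ≫ e.q ≫ toSh X.X
      s := -(ofSh X.X ≫ e.s ≫ toSh X.X)
      r := -(ofSh Y.X ≫ e.r ≫ toSh Y.X)
      bp := by rw [bar_comp, bar_comp, bar_ofSh, bar_toSh, e.bp]; simp
      bq := by rw [bar_comp, bar_comp, bar_ofSh, bar_toSh, e.bq]; simp
      Dp := by rw [key, e.Dp]; simp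
      Dq := by rw [key, e.Dq]; simp
      pq := by
        rw [map_neg, key, neg_neg, Category.assoc, Category.assoc, toSh_ofSh_assoc,
          ← Category.assoc e.p, e.pq, Preadditive.add_comp, Preadditive.comp_add,
          Category.id_comp, ofSh_toSh]
      qp := by
        rw [map_neg, key, neg_neg, Category.assoc, Category.assoc, toSh_ofSh_assoc,
          ← Category.assoc e.q, e.qp, Preadditive.add_comp, Preadditive.comp_add,
          Category.id_comp, ofSh_toSh] }

/-- the shift on classes -/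
def shC : Cls G k → Cls G k := Quotient.map sh fun _ _ h => hiso_sh_map h

theorem shC_mk (X : TOb G k) : shC (⟦X⟧ : Cls G k) = ⟦sh X⟧ := rfl



end shift

/-! ### matrix functors on classes -/

section functor

variable {T : Type} {G : MG T} {k : Type v} [Field k] [Fintype T]

open Classical in
/-- a matrix functor on classes -/
noncomputable def FC (Φ : FDat G k) : Cls G k →+ Cls G k where
  toFun := Quotient.map Φ.tob fun _ _ h => Φ.hIso h
  map_zero' := Quotient.sound (FmS_303.hiso_zero Φ)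
  map_add' x y := by
    induction x using Quotient.inductionOn
    induction y using Quotient.inductionOn
    exact Quotient.sound (FmS_303.hiso_dsum Φ _ _)

open Classical in
theorem FC_mk (Φ : FDat G k) (X : TOb G k) : FC Φ (⟦X⟧ : Cls G k) = ⟦Φ.tob X⟧ := rfl

open Classical in
/-- **`F (x_a) = ∑_{b ~ a} x_b`**, the neighbours given as a finset -/
theorem FC_fr_of (Φ : FDat G k) [DecidableEq T] (a : T) (s : Finset T)
    (hs : ∀ b, b ∈ s ↔ Φ.N a b) : FC Φ (frC G k a) = ∑ b ∈ s, frC G k b := by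
  rw [frC_def, FC_mk, Quotient.sound (hiso_frm Φ a)]
  exact mk_free_set s _ (fun b hb => if_pos ((hs b).1 hb)) (fun b hb => if_neg fun h => hb ((hs b).2 h))


/-- **adjunction on classes** -/
theorem hC_FC (Ψ : ADat G k) (x y : Cls G k) : hC (FC Ψ.toFDat x) y = hC x (FC Ψ.toFDat y) := by
  induction x using Quotient.inductionOn
  induction y using Quotient.inductionOn
  exact Ψ.hT_FT _ _

open Classical in
/-- frames of `F x` -/
theorem lamC_FC (Ψ : ADat G k) (x : Cls G k) (b : T) :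
    lamC (FC Ψ.toFDat x) b = ∑ a, if Ψ.N a b then lamC x a else 0 := by
  induction x using Quotient.inductionOn
  exact Ψ.lam_FT _ _

/-- frames of `F x`, the neighbours given as a finset -/
theorem lamC_FC_of (Ψ : ADat G k) (x : Cls G k) (b : T) (s : Finset T)
    (hs : ∀ a, a ∈ s ↔ Ψ.N a b) : lamC (FC Ψ.toFDat x) b = ∑ a ∈ s, lamC x a := by
  classical
  rw [lamC_FC, ← Finset.sum_filter]
  exact Finset.sum_congr (by ext a; simp [hs]) fun _ _ => rfl



end functor

end Crest.Agent.R175.FmCls_303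
end

-- ▼ part R175/LevC_788

/-!
Row 175 (S0263), helper788: the concrete level `lev A : Lev Λ M` over `Cls (UG M Λ) ℂ` from an action
`A : ActI M Λ` of the Artin group on the classes.
-/

set_option autoImplicit false
set_option linter.unusedSectionVars false
set_option linter.unusedVariables false

open CategoryTheory
open scoped Classical

namespace Crest.Agent.R175.LevC_788

open Crest.GroupTheory Crest.Agent.R175.PTA Crest.Agent.R175.Cls_133 Crest.Agent.R175.UG_27
open Crest.Agent.R175.Unf_109 Crest.Agent.R175.Fm_27 Crest.Agent.R175.FmCls_303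
open Crest.Agent.R175.Lev_788

variable {S : Type} [Fintype S]

/-- the functor `F_m` on classes -/
noncomputable def FmC (M : CoxeterMatrix S) {Λ : Finset ℕ} (h4 : ∀ m ∈ Λ, 4 ≤ m) {m : ℕ}
    (hm : m ∈ Λ) : Cls (UG M Λ) ℂ →+ Cls (UG M Λ) ℂ :=
  FC (Fm M (algebraMap ℝ ℂ) hm ((by norm_num : 2 ≤ 4).trans (h4 m hm))).toFDat

/-- the neighbours of `(t, i)` -/
noncomputable def nb2 (Λ : Finset ℕ) (m : ℕ) (t : S) (i : J Λ) : Finset (S × J Λ) :=
  (nbs Λ m i).map ⟨fun j => (t, j), fun _ _ h => (Prod.ext_iff.1 h).2⟩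

theorem mem_nb2 {Λ : Finset ℕ} {m : ℕ} {t : S} {i : J Λ} (b : S × J Λ) :
    b ∈ nb2 Λ m t i ↔ t = b.1 ∧ nb Λ m i b.2 := by
  unfold nb2
  rw [Finset.mem_map]
  constructor
  · rintro ⟨j, hj, rfl⟩
    exact ⟨rfl, mem_nbs.1 hj⟩
  · rintro ⟨h1, h2⟩
    refine ⟨b.2, mem_nbs.2 h2, ?_⟩
    subst h1
    rfl

theorem sum_nb2 {Λ : Finset ℕ} {m : ℕ} {t : S} {i : J Λ} {N : Type*} [AddCommMonoid N]
    (f : S × J Λ → N) : ∑ b ∈ nb2 Λ m t i, f b = ∑ j ∈ nbs Λ m i, f (t, j) := by
  unfold nb2
  rw [Finset.sum_map]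
  rfl

/-- the action on the classes at one level -/
structure ActI (M : CoxeterMatrix S) {Λ : Finset ℕ} (h4 : ∀ m ∈ Λ, 4 ≤ m) where
  [act : DistribMulAction (ArtinGroup M) (Cls (UG M Λ) ℂ)]
  h_act : ∀ (s : S) (x y : Cls (UG M Λ) ℂ), hC (artinGen M s • x) (artinGen M s • y) = hC x y
  lam_act : ∀ (s : S) (x : Cls (UG M Λ) ℂ) (a), lamC (artinGen M s • x) a = lamC x a
  fr_act : ∀ (s t : S) (j : J Λ), t ≠ s → artinGen M s • frC (UG M Λ) ℂ (t, j) = frC (UG M Λ) ℂ (t, j)
  F_act : ∀ (m : ℕ) (hm : m ∈ Λ) (s : S) (x : Cls (UG M Λ) ℂ),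
    FmC M h4 hm (artinGen M s • x) = artinGen M s • FmC M h4 hm x

variable {M : CoxeterMatrix S} {Λ : Finset ℕ} {h4 : ∀ m ∈ Λ, 4 ≤ m}

/-- **the level** -/
noncomputable def lev (A : ActI M h4) : Lev.{1} Λ M where
  Ob := Cls (UG M Λ) ℂ
  acm := inferInstance
  act := A.act
  h := hC
  lam := fun x s j => lamC x (s, j)
  fr := fun s j => frC (UG M Λ) ℂ (s, j)
  F := fun m x => if hm : m ∈ Λ then FmC M h4 hm x else x
  h_add := fun x y z => hC_add_right x y z
  h_zero := fun x => hC_zero_right x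
  h_symm := fun x y => hC_symm x y
  h_act := A.h_act
  lam_act := fun s x => by
    funext t j
    exact A.lam_act s x (t, j)
  lam_add := fun x y => by
    funext t j
    exact lamC_add x y (t, j)
  lam_zero := by
    funext t j
    exact lamC_zero (t, j)
  fr_act := fun s t j h => A.fr_act s t j h
  fr_fr := fun s i t j => hC_fr _ _
  fr_lam := fun t i s j => by
    rw [lamC_fr]
    simp only [Prod.mk.injEq]
  F_act := fun m hm s x => by
    simp only [dif_pos hm]
    exact A.F_act m hm s x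
  F_fr := fun m hm t i => by
    rw [dif_pos hm]
    unfold FmC
    rw [FC_fr_of _ (t, i) (nb2 Λ m t i) (fun b => by rw [mem_nb2]; rfl), sum_nb2]
  F_adj := fun m hm x y => by
    simp only [dif_pos hm]
    exact hC_FC _ x y
  F_lam := fun m hm x t j => by
    rw [dif_pos hm]
    unfold FmC
    rw [lamC_FC_of _ x (t, j) (nb2 Λ m t j) (fun b => by
      rw [mem_nb2]
      exact ⟨fun h => ⟨h.1.symm, h.2.symm⟩, fun h => ⟨h.1.symm, h.2.symm⟩⟩), sum_nb2]

end Crest.Agent.R175.LevC_788
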