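import Crest.Agent.R175.PTB_534
import Crest.Agent.R175.Unfr_988

/-!
Row 175: `hT (frm t) X = hT X (frm t) = hd (c0 X.d t)` for every T-framed object.
-/

set_option autoImplicit false
set_option linter.unusedSectionVars false
set_option linter.unusedVariables false

open CategoryTheory

namespace Crest.Agent.R175.Res_988

open Crest.Agent.R175.PTA Crest.Agent.R175.Unfr_988

universe u v

variable {T : Type u} {G : MG T} {k : Type v} [Field k] [Fintype T] [DecidableEq T]

theorem frm_W_subsingleton {s t : T} (h : s ≠ t) : Subsingleton ((frm G k t).X.W s) := by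
  change Subsingleton (Fin ((Pi.single t 1 : T → ℕ) s) → k)
  rw [Pi.single_eq_of_ne h]
  infer_instance

/-- the generator of the frame -/
def one (t : T) : (frm G k t).X.W t := fun _ => (1 : k)

theorem frm_W_smul_one (t : T) (w : (frm G k t).X.W t) : ∃ c : k, w = c • one t := by
  have hs : Subsingleton (Fin ((Pi.single t 1 : T → ℕ) t)) := by
    rw [Pi.single_eq_same]; infer_instance
  have hn : Nonempty (Fin ((Pi.single t 1 : T → ℕ) t)) := by
    rw [Pi.single_eq_same]; infer_instance
  obtain ⟨i⟩ := hn
  refine ⟨w i, ?_⟩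
  funext j
  rw [Subsingleton.elim j i]
  change w i = w i * (1 : k)
  rw [mul_one]

/-- evaluation at the generator -/
noncomputable def frmL (Y : Gob G k) (t : T) : Cs (frm G k t).X Y ≃ₗ[k] Y.V t :=
  LinearMap.linearEquivOfInjective
    ({ toFun := fun f => ci f.1 t (one t)
       map_add' := fun f g => rfl
       map_smul' := fun c f => rfl } : Cs (frm G k t).X Y →ₗ[k] Y.V t)
    (by
      rw [injective_iff_map_eq_zero]
      intro f hf
      apply Cs_frm_ext_left
      intro s
      refine LinearMap.ext fun w => ?_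
      by_cases h : s = t
      · subst h
        obtain ⟨c, rfl⟩ := frm_W_smul_one s w
        rw [map_smul, map_smul]
        have hf' : ci f.1 s (one s) = 0 := hf
        rw [hf', smul_zero]
        simp
      · have : Subsingleton ((frm G k t).X.W s) := frm_W_subsingleton h
        rw [Subsingleton.elim w 0, map_zero, map_zero])
    (by rw [(CsFrmEquivLeft Y t).finrank_eq, finrank_pi_frm_left])

theorem frmL_apply (Y : Gob G k) (t : T) (f : Cs (frm G k t).X Y) :
    frmL Y t f = ci f.1 t (one t) := rfl

/-- `hT (frm t) X = hd (c0 d t)` -/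
theorem hT_frm_left_hd (X : TOb G k) (t : T) : hT (frm G k t) X = hd (c0 X.d t) := by
  refine hd_congr _ _ (frmL X.X t) fun f => ?_
  rw [frmL_apply, frmL_apply]
  change ci (f.1 ≫ X.d - (0 : (frm G k t).X ⟶ (frm G k t).X) ≫ bar f.1) t (one t) = _
  have hf : cW f.1 t = 0 := f.2 t
  simp [hf]

/-- the coordinate of the frame -/
noncomputable def coord (t : T) : (frm G k t).X.W t →ₗ[k] k :=
  LinearMap.proj (R := k) (φ := fun _ : Fin ((Pi.single t 1 : T → ℕ) t) => k)
    (Fin.cast (Pi.single_eq_same t 1 : (Pi.single t 1 : T → ℕ) t = 1).symm 0)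

theorem coord_injective (t : T) : Function.Injective (coord (G := G) (k := k) t) := by
  have hs : Subsingleton (Fin ((Pi.single t 1 : T → ℕ) t)) := by
    rw [Pi.single_eq_same]; infer_instance
  intro x y h
  funext j
  rw [Subsingleton.elim j (Fin.cast
    (Pi.single_eq_same t 1 : (Pi.single t 1 : T → ℕ) t = 1).symm 0)]
  exact h

/-- the coordinate of the frame of the length 1 part -/
noncomputable def frmR (X : Gob G k) (t : T) : Cs X (frm G k t).X ≃ₗ[k] Module.Dual k (X.V t) :=
  LinearMap.linearEquivOfInjective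
    ({ toFun := fun f => coord t ∘ₗ cj f.1 t
       map_add' := fun f g => by
         refine LinearMap.ext fun x => ?_
         exact (coord t).map_add _ _
       map_smul' := fun c f => by
         refine LinearMap.ext fun x => ?_
         exact (coord t).map_smul _ _ } : Cs X (frm G k t).X →ₗ[k] Module.Dual k (X.V t))
    (by
      rw [injective_iff_map_eq_zero]
      intro f hf
      apply Cs_frm_ext
      intro s
      refine LinearMap.ext fun w => ?_
      by_cases h : s = t
      · subst h
        apply coord_injective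
        have h1 := LinearMap.congr_fun hf w
        refine h1.trans ?_
        exact (map_zero (coord s)).symm
      · have : Subsingleton ((frm G k t).X.W s) := frm_W_subsingleton h
        exact Subsingleton.elim _ _)
    (by rw [(CsFrmEquiv X t).finrank_eq, finrank_pi_frm, Subspace.dual_finrank_eq])

theorem frmR_apply (X : Gob G k) (t : T) (f : Cs X (frm G k t).X) :
    frmR X t f = coord t ∘ₗ cj f.1 t := rfl

/-- `hT X (frm t) = hd (c0 d t)` -/
theorem hT_frm_right_hd (X : TOb G k) (t : T) : hT X (frm G k t) = hd (c0 X.d t) := by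
  have hd0 : ∀ x, c0 X.d t (c0 X.d t x) = 0 := fun x => by
    have := congrArg (fun f => c0 f t) X.dd
    exact LinearMap.congr_fun this x
  have hdg : ∀ x, c0 X.d t (X.X.gV t x) = -(X.X.gV t (c0 X.d t x)) := fun x => by
    have := congrArg (fun f => c0 f t) X.dg
    have h1 : X.X.gV t (c0 X.d t x) = -(c0 X.d t (X.X.gV t x)) := LinearMap.congr_fun this x
    rw [h1, neg_neg]
  let D' : Module.Dual k (X.X.V t) →ₗ[k] Module.Dual k (X.X.V t) :=
    (-(X.X.gV t ∘ₗ c0 X.d t)).dualMap
  have hD' : ∀ φ x, D' φ x = -(φ (X.X.gV t (c0 X.d t x))) := fun φ x => by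
    change φ ((-(X.X.gV t ∘ₗ c0 X.d t)) x) = _
    rw [LinearMap.neg_apply, map_neg, LinearMap.comp_apply]
  have h1 : hT X (frm G k t) = hd D' := by
    refine hd_congr _ _ (frmR X.X t) fun f => ?_
    rw [frmR_apply, frmR_apply]
    have hf : cW f.1 t = 0 := f.2 t
    have h2 : cj ((DC X (frm G k t) f).1) t = -(cj f.1 t ∘ₗ X.X.gV t ∘ₗ c0 X.d t) := by
      change cj (f.1 ≫ (0 : (frm G k t).X ⟶ (frm G k t).X) - X.d ≫ bar f.1) t = _
      rw [cj_sub, cj_comp, cj_comp, cW_bar, hf, cj_bar]
      simp only [cj_zero, LinearMap.zero_comp, LinearMap.comp_zero, cW_zero, add_zero, zero_sub]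
      rfl
    rw [h2]
    refine LinearMap.ext fun x => ?_
    rw [hD']
    exact map_neg (coord t) _
  have hDD : ∀ φ, D' (D' φ) = 0 := fun φ => by
    refine LinearMap.ext fun x => ?_
    rw [hD', hD', hdg, hd0]
    simp
  have h2 := hd_add_two_range hDD
  have h3 := hd_add_two_range hd0
  have h4 : Module.finrank k (LinearMap.range D') =
      Module.finrank k (LinearMap.range (c0 X.d t)) := by
    rw [LinearMap.finrank_range_dualMap_eq_finrank_range, LinearMap.range_neg]
    have h5 : LinearMap.range (X.X.gV t ∘ₗ c0 X.d t) =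
        (LinearMap.range (c0 X.d t)).map (X.X.gV t) := LinearMap.range_comp _ _
    rw [h5]
    have hinj : Function.Injective (X.X.gV t) := by
      intro x y h
      have := congrArg (X.X.gV t) h
      have e : ∀ z, X.X.gV t (X.X.gV t z) = z := fun z => LinearMap.congr_fun (X.X.gV_sq t) z
      rwa [e, e] at this
    exact (LinearEquiv.finrank_eq (Submodule.equivMapOfInjective (X.X.gV t) hinj _)).symm
  rw [Subspace.dual_finrank_eq] at h2
  omega

theorem dT_hd (X : TOb G k) (t : T) : dT X t = hd (c0 X.d t) := hT_frm_right_hd X t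



end Crest.Agent.R175.Res_988
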