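import Crest.Agent.R175.PTB_534
import Crest.Agent.R175.TU_788
import Crest.Agent.R175.FrmHd_988

-- ▼ part R175/TUh_988

/-!
Row 175: over `TU_788.TU`, `TU_788.TV`: functoriality, `TV (TU X) ≅ X`, `TU (TV X) ≅ X`,
**`hT (TU X) (TU Y) = hT X Y`**, `lam`, `dT` outside of `U`, frames outside of `U`.
-/

set_option autoImplicit false
set_option linter.unusedSectionVars false

open CategoryTheory

namespace Crest.Agent.R175.TUh_988

open Crest.Agent.R175.PTA Crest.Agent.R175.TwG_253 Crest.Agent.R175.TU_788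
open Crest.Agent.R175.TwA_253 (Tw Sum2 Sph Tm Tm')
open Crest.Agent.R175.TwS_83 (SI)

universe v

noncomputable section

variable {T : Type v} {G : MG T} {k : Type v} [Field k] [Fintype T]

/-! ### the dictionary between `Tw (Gob G k)` and `TOb G k` -/

section dict

variable {A B : Tw (Gob G k)} (hp : FmU_83.Pu A.e) (hd : ∀ t, cW A.d t = 0)
    (hp' : FmU_83.Pu B.e) (hd' : ∀ t, cW B.d t = 0)

theorem bar_ofTw (f : A.X ⟶ B.X) :
    bar (X := (ofTw A hp hd).X) (Y := (ofTw B hp' hd').X) f = TwA_253.bar A B f := by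
  unfold bar
  rw [gam_rg A hp, gam_rg B hp']
  rfl

theorem D_ofTw (f : A.X ⟶ B.X) :
    D (ofTw A hp hd) (ofTw B hp' hd') f = TwA_253.D A B f := by
  have h := bar_ofTw hp hd hp' hd' f
  exact congrArg (fun z : A.X ⟶ B.X => f ≫ B.d - A.d ≫ z) h

/-- `toTw (ofTw A) ≅ A` by the identity -/
def siTw : SI (toTw (ofTw A hp hd)) A where
  f := 𝟙 A.X
  g := 𝟙 A.X
  fg := Category.id_comp (𝟙 A.X)
  gf := Category.id_comp (𝟙 A.X)
  fe := by
    have h1 : 𝟙 A.X ≫ A.e = A.e ≫ 𝟙 A.X := by rw [Category.id_comp, Category.comp_id]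
    have h2 : (toTw (ofTw A hp hd)).e = A.e := gam_rg A hp
    rw [h2]
    exact h1
  fd := by
    have h1 : 𝟙 A.X ≫ A.d = A.d ≫ 𝟙 A.X := by rw [Category.id_comp, Category.comp_id]
    exact h1

end dict

/-! ### the abstract inverse twist respects strict isomorphisms -/

section abs

variable {C : Type*} [Category C] [Preadditive C] {F : Sph C}

theorem Tm'_zero {X Y : Tw C} (S : Sum2 X.X (F.Q X.X)) (S' : Sum2 Y.X (F.Q Y.X)) :
    Tm' F X Y S S' 0 = 0 := by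
  have := TwA_253.Tm'_add (S := S) (S' := S') (0 : X.X ⟶ Y.X) 0
  rw [add_zero] at this
  exact left_eq_add.1 this

theorem Tm_zero {X Y : Tw C} (S : Sum2 (F.Q X.X) X.X) (S' : Sum2 (F.Q Y.X) Y.X) :
    Tm F X Y S S' 0 = 0 := by
  have := TwA_253.Tm_add (S := S) (S' := S') (0 : X.X ⟶ Y.X) 0
  rw [add_zero] at this
  exact left_eq_add.1 this


/-- `T` respects homotopy equivalences -/
theorem T_heq {X Y : Tw C} (h : TwA_253.HEq X Y) (S : Sum2 (F.Q X.X) X.X)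
    (S' : Sum2 (F.Q Y.X) Y.X) : TwA_253.HEq (TwA_253.T F X S) (TwA_253.T F Y S') := by
  obtain ⟨f, g, s, r, b1, b2, d1, d2, e1, e2⟩ := h
  refine ⟨Tm F X Y S S' f, Tm F Y X S' S g, Tm F X X S S s, Tm F Y Y S' S' r, ?_, ?_, ?_, ?_,
    ?_, ?_⟩
  · rw [TwA_253.bar_Tm, b1]
  · rw [TwA_253.bar_Tm, b2]
  · rw [TwA_253.D_Tm, d1, Tm_zero]
  · rw [TwA_253.D_Tm, d2, Tm_zero]
  · rw [← TwA_253.Tm_comp, e1, TwA_253.D_Tm, TwA_253.Tm_add, TwA_253.Tm_id]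
  · rw [← TwA_253.Tm_comp, e2, TwA_253.D_Tm, TwA_253.Tm_add, TwA_253.Tm_id]

/-- `T'` respects homotopy equivalences -/
theorem T'_heq {X Y : Tw C} (h : TwA_253.HEq X Y) (S : Sum2 X.X (F.Q X.X))
    (S' : Sum2 Y.X (F.Q Y.X)) : TwA_253.HEq (TwA_253.T' F X S) (TwA_253.T' F Y S') := by
  obtain ⟨f, g, s, r, b1, b2, d1, d2, e1, e2⟩ := h
  refine ⟨Tm' F X Y S S' f, Tm' F Y X S' S g, Tm' F X X S S s, Tm' F Y Y S' S' r, ?_, ?_, ?_, ?_,
    ?_, ?_⟩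
  · rw [TwA_253.bar_Tm', b1]
  · rw [TwA_253.bar_Tm', b2]
  · rw [TwA_253.D_Tm', d1, Tm'_zero]
  · rw [TwA_253.D_Tm', d2, Tm'_zero]
  · rw [← TwA_253.Tm'_comp, e1, TwA_253.D_Tm', TwA_253.Tm'_add, TwA_253.Tm'_id]
  · rw [← TwA_253.Tm'_comp, e2, TwA_253.D_Tm', TwA_253.Tm'_add, TwA_253.Tm'_id]

/-- `T' T X ≃ X` -/
theorem T'T_heq (X : Tw C) (S : Sum2 (F.Q X.X) X.X)
    (R : Sum2 (TwA_253.T F X S).X (F.Q (TwA_253.T F X S).X)) :
    TwA_253.HEq (TwA_253.T' F (TwA_253.T F X S) R) X := by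
  refine ⟨TwA_253.pr F X S R, TwA_253.io F X S R, -TwA_253.ht F X S R, 0, TwA_253.bar_pr,
    TwA_253.bar_io, TwA_253.D_pr, TwA_253.D_io, ?_, ?_⟩
  · rw [TwA_253.D_neg, TwA_253.D_ht]; abel
  · rw [TwA_253.io_pr]
    simp [TwA_253.D, TwA_253.bar]

/-- `T T' X ≃ X` -/
theorem TT'_heq (X : Tw C) (S : Sum2 X.X (F.Q X.X))
    (R : Sum2 (F.Q (TwA_253.T' F X S).X) (TwA_253.T' F X S).X) :
    TwA_253.HEq (TwA_253.T F (TwA_253.T' F X S) R) X := by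
  refine ⟨TwA_253.pr' F X S R, TwA_253.io' F X S R, -TwA_253.ht' F X S R, 0, TwA_253.bar_pr',
    TwA_253.bar_io', TwA_253.D_pr', TwA_253.D_io', ?_, ?_⟩
  · rw [TwA_253.D_neg, TwA_253.D_ht']; abel
  · rw [TwA_253.io_pr']
    simp [TwA_253.D, TwA_253.bar]

end abs

theorem heq_of_hiso {X Y : TOb G k} (h : HIso X Y) : TwA_253.HEq (toTw X) (toTw Y) := by
  obtain ⟨e⟩ := h
  exact ⟨e.p, e.q, e.s, e.r, e.bp, e.bq, e.Dp, e.Dq, e.pq, e.qp⟩

theorem hiso_of_heq' {X Y : TOb G k} (h : TwA_253.HEq (toTw X) (toTw Y)) : HIso X Y := by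
  obtain ⟨f, g, s, r, b1, b2, d1, d2, e1, e2⟩ := h
  exact ⟨⟨f, g, s, r, b1, b2, d1, d2, e1, e2⟩⟩

theorem heq_toTw_ofTw {A : Tw (Gob G k)} (hp : FmU_83.Pu A.e) (hd : ∀ t, cW A.d t = 0) :
    TwA_253.HEq (toTw (ofTw A hp hd)) A := (siTw hp hd).heq

variable (U : T → Prop) (hU : ∀ s t, U s → U t → IsEmpty (G.E s t))

/-- `TU` respects homotopy equivalences -/
theorem TU_hiso {X Y : TOb G k} (h : HIso X Y) : HIso (TU U hU X) (TU U hU Y) :=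
  hiso_of_heq (T_heq (heq_of_hiso h) _ _)

/-- `TV` respects homotopy equivalences -/
theorem TV_hiso {X Y : TOb G k} (h : HIso X Y) : HIso (TV U hU X) (TV U hU Y) :=
  hiso_of_heq (T'_heq (heq_of_hiso h) _ _)

theorem heq_TU (X : TOb G k) : TwA_253.HEq (toTw (TU U hU X)) (tw U hU X) :=
  heq_toTw_ofTw (pu_tw U hU X) (cW_tw U hU X)

theorem heq_TV (X : TOb G k) : TwA_253.HEq (toTw (TV U hU X)) (tw' U hU X) :=
  heq_toTw_ofTw (pu_tw' U hU X) (cW_tw' U hU X)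

theorem gen3 (F : Sph (Gob G k)) (X : TOb G k) (S : Sum2 (F.Q (toTw X).X) (toTw X).X)
    (Y : Tw (Gob G k)) (hY : TwA_253.HEq Y (TwA_253.T F (toTw X) S)) (R : Sum2 Y.X (F.Q Y.X)) :
    TwA_253.HEq (TwA_253.T' F Y R) (toTw X) :=
  (T'_heq hY R (sm _ _)).trans (T'T_heq (toTw X) S _)

theorem gen4 (F : Sph (Gob G k)) (X : TOb G k) (S : Sum2 (toTw X).X (F.Q (toTw X).X))
    (Y : Tw (Gob G k)) (hY : TwA_253.HEq Y (TwA_253.T' F (toTw X) S)) (R : Sum2 (F.Q Y.X) Y.X) :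
    TwA_253.HEq (TwA_253.T F Y R) (toTw X) :=
  (T_heq hY R (sm _ _)).trans (TT'_heq (toTw X) S _)

theorem TV_of (X Y : TOb G k) (h : TwA_253.HEq (toTw Y) (tw U hU X)) : HIso (TV U hU Y) X :=
  hiso_of_heq' ((heq_TV U hU Y).trans (gen3 (sphG U hU) X (sm _ _) (toTw Y) h (sm _ _)))

theorem TU_of (X Y : TOb G k) (h : TwA_253.HEq (toTw Y) (tw' U hU X)) : HIso (TU U hU Y) X :=
  hiso_of_heq' ((heq_TU U hU Y).trans (gen4 (sphG U hU) X (sm _ _) (toTw Y) h (sm _ _)))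

/-- **`TV (TU X) ≅ X`** -/
theorem TV_TU (X : TOb G k) : HIso (TV U hU (TU U hU X)) X :=
  TV_of U hU X (TU U hU X) (heq_TU U hU X)

/-- **`TU (TV X) ≅ X`** -/
theorem TU_TV (X : TOb G k) : HIso (TU U hU (TV U hU X)) X :=
  TU_of U hU X (TV U hU X) (heq_TV U hU X)



end

end Crest.Agent.R175.TUh_988
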