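import Crest.Agent.R175.TwF_253

/-!
# Twists, abstract part 5 (row 175, helper253): `T`, `T'` respect homotopy equivalence and are
mutually inverse up to homotopy; `T` splits off the Hom complexes.
-/

set_option autoImplicit false

universe v u

namespace Crest.Agent.R175.TwA_253

open CategoryTheory Preadditive

variable {C : Type u} [Category.{v} C] [Preadditive C] {F : Sph C} {X Y Z : Tw C}

section zero

theorem Tm_zero {S : Sum2 (F.Q X.X) X.X} {S' : Sum2 (F.Q Y.X) Y.X} :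
    Tm F X Y S S' 0 = 0 := by
  have h := Tm_add (S := S) (S' := S') (0 : X.X ⟶ Y.X) 0
  rw [add_zero] at h
  exact left_eq_add.1 h

theorem Tm'_zero {S : Sum2 X.X (F.Q X.X)} {S' : Sum2 Y.X (F.Q Y.X)} :
    Tm' F X Y S S' 0 = 0 := by
  have h := Tm'_add (S := S) (S' := S') (0 : X.X ⟶ Y.X) 0
  rw [add_zero] at h
  exact left_eq_add.1 h


end zero





section split

variable (F X Y) (S : Sum2 (F.Q X.X) X.X) (R : Sum2 (T F X S).X (F.Q (T F X S).X))
  (S' : Sum2 (F.Q Y.X) Y.X) (R' : Sum2 (T F Y S').X (F.Q (T F Y S').X))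

/-- the retraction `Hom(T X, T Y) → Hom(X, Y)` -/
def Rt (g : (T F X S).X ⟶ (T F Y S').X) : X.X ⟶ Y.X :=
  io F X S R ≫ Tm' F (T F X S) (T F Y S') R R' g ≫ pr F Y S' R'

theorem Rt_Tm (f : X.X ⟶ Y.X) : Rt F X Y S R S' R' (Tm F X Y S S' f) = f := by
  unfold Rt
  rw [← Category.assoc, io_nat, Category.assoc, io_pr, Category.comp_id]

theorem D_Rt (g : (T F X S).X ⟶ (T F Y S').X) :
    D X Y (Rt F X Y S R S' R' g) = Rt F X Y S R S' R' (D (T F X S) (T F Y S') g) := by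
  unfold Rt
  rw [D_sandwich bar_pr D_io D_pr, D_Tm']

end split

section split'

variable (F X Y) (S : Sum2 X.X (F.Q X.X)) (R : Sum2 (F.Q (T' F X S).X) (T' F X S).X)
  (S' : Sum2 Y.X (F.Q Y.X)) (R' : Sum2 (F.Q (T' F Y S').X) (T' F Y S').X)

/-- the retraction `Hom(T' X, T' Y) → Hom(X, Y)` -/
def Rt' (g : (T' F X S).X ⟶ (T' F Y S').X) : X.X ⟶ Y.X :=
  io' F X S R ≫ Tm F (T' F X S) (T' F Y S') R R' g ≫ pr' F Y S' R'

theorem Rt_Tm' (f : X.X ⟶ Y.X) : Rt' F X Y S R S' R' (Tm' F X Y S S' f) = f := by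
  unfold Rt'
  rw [← Category.assoc, io_nat', Category.assoc, io_pr', Category.comp_id]

theorem D_Rt' (g : (T' F X S).X ⟶ (T' F Y S').X) :
    D X Y (Rt' F X Y S R S' R' g) = Rt' F X Y S R S' R' (D (T' F X S) (T' F Y S') g) := by
  unfold Rt'
  rw [D_sandwich bar_pr' D_io' D_pr', D_Tm]

end split'

end Crest.Agent.R175.TwA_253
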