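import Crest.Agent.R175.PTA_534

/-!
# Small facts on T-framed objects (task 513)

* `hd_eq`, `hd_zero_map`, `hd_of_finrank_zero`
* `hT_frm_right : hT X (frm G k t) = hd (c0 X.d t)`, `hT_frm_left`, `dT_eq`; for minimal objects
  `hT_frm_right_F`, `hT_frm_left_F`, `dT_F` : `= finrank (V t)`; `hT_frm_frm : hT (frm s) (frm t) = 0`
* `hT_self_pos`, `subsingleton_V_of_hT`, `subsingleton_of_hD` : a minimal object with trivial frames
  and `hT U U = 0` is zero
* `isIso_of_bijective` : a morphism of `Gob` with bijective `c0`, `cW` is an isomorphism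
* `HEquiv.lam_eq` (any `TOb`), `HEquiv.isIso` (minimal objects: a homotopy equivalence is an
  isomorphism), `HEquiv.eV`, `HEquiv.eW` with the compatibilities, `HEquiv.ofIso`.
-/

set_option autoImplicit false
set_option linter.unusedSectionVars false
set_option linter.unusedVariables false
set_option linter.unusedSimpArgs false

open CategoryTheory

namespace Crest.Agent.R175.Unfr_83

open Crest.Agent.R175.PTA

universe u v w

/-! ### `hd` -/

section hd

variable {k : Type v} [Field k] {K : Type w} [AddCommGroup K] [Module k K]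

theorem hd_eq [FiniteDimensional k K] (D : K →ₗ[k] K) :
    hd D = Module.finrank k K - 2 * Module.finrank k (LinearMap.range D) := by
  have := LinearMap.finrank_range_add_finrank_ker D
  unfold hd
  omega

theorem hd_zero_map : hd (0 : K →ₗ[k] K) = Module.finrank k K := by
  unfold hd
  rw [LinearMap.ker_zero, LinearMap.range_zero, finrank_top, finrank_bot, Nat.sub_zero]





end hd

/-! ### frames -/

section frames

variable {T : Type u} {G : MG T} {k : Type v} [Field k] [Fintype T] [DecidableEq T]

instance subV (t s : T) : Subsingleton ((frm G k t).X.V s) :=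
  inferInstanceAs (Subsingleton (Fin 0 → k))

theorem subW {t s : T} (h : s ≠ t) : Subsingleton ((frm G k t).X.W s) := by
  have h1 : (Pi.single t 1 : T → ℕ) s = 0 := Pi.single_eq_of_ne h 1
  have : IsEmpty (Fin ((Pi.single t 1 : T → ℕ) s)) := by rw [h1]; infer_instance
  exact inferInstanceAs (Subsingleton (Fin ((Pi.single t 1 : T → ℕ) s) → k))

/-- `W t = k` for the frame at `t` -/
noncomputable def evW (t : T) : (frm G k t).X.W t ≃ₗ[k] k :=
  letI : Unique (Fin ((Pi.single t 1 : T → ℕ) t)) :=
    Equiv.unique (finCongr (Pi.single_eq_same t 1))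
  LinearEquiv.funUnique (Fin ((Pi.single t 1 : T → ℕ) t)) k k

theorem gW_frm (t s : T) : (frm G k t).X.gW s = LinearMap.id := rfl
theorem d_frm (t : T) : (frm G k t).d = 0 := rfl


/-- `Cs X x_t = Hom(V t, k)` -/
noncomputable def eR (X : Gob G k) (t : T) :
    Cs X (frm G k t).X ≃ₗ[k] Module.Dual k (X.V t) :=
  LinearEquiv.ofBijective
    { toFun := fun f => (evW (G := G) (k := k) t).toLinearMap ∘ₗ cj f.1 t
      map_add' := fun f g => by simp [LinearMap.comp_add]
      map_smul' := fun c f => by simp [LinearMap.comp_smul] }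
    (by
      constructor
      · intro f g hfg
        apply Subtype.ext
        apply hm_ext
        · intro r; ext x; exact Subsingleton.elim _ _
        · intro r; rw [f.2 r, g.2 r]
        · intro r r' a; ext x; exact Subsingleton.elim _ _
        · intro r; ext x; exact Subsingleton.elim _ _
        · intro r
          by_cases h : r = t
          · subst h
            ext x
            have := LinearMap.congr_fun hfg x
            exact (evW (G := G) (k := k) r).injective this
          · have := subW (G := G) (k := k) h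
            ext x; exact Subsingleton.elim _ _
        · intro r; ext x; exact Subsingleton.elim _ _
      · intro ψ
        refine ⟨⟨mkH (fun _ => 0) (fun _ => 0) (fun _ _ _ => 0) (fun _ => 0)
          (Function.update 0 t ((evW (G := G) (k := k) t).symm.toLinearMap ∘ₗ ψ))
          (fun _ => 0), fun _ => rfl⟩, ?_⟩
        ext x
        simp)

@[simp] theorem eR_apply (X : Gob G k) (t : T) (f : Cs X (frm G k t).X) (x : X.V t) :
    eR X t f x = evW (G := G) (k := k) t (cj f.1 t x) := rfl

/-- `Cs x_t X = V t` -/
noncomputable def eL (X : Gob G k) (t : T) :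
    Cs (frm G k t).X X ≃ₗ[k] X.V t :=
  LinearEquiv.ofBijective
    { toFun := fun f => ci f.1 t ((evW (G := G) (k := k) t).symm 1)
      map_add' := fun f g => by simp
      map_smul' := fun c f => by simp }
    (by
      constructor
      · intro f g hfg
        apply Subtype.ext
        apply hm_ext
        · intro r; ext x; rw [Subsingleton.elim x 0, map_zero, map_zero]
        · intro r; rw [f.2 r, g.2 r]
        · intro r r' a; ext x; rw [Subsingleton.elim x 0, map_zero, map_zero]
        · intro r
          by_cases h : r = t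
          · subst h
            ext x
            have h1 : x = (evW (G := G) (k := k) r x) • (evW (G := G) (k := k) r).symm 1 := by
              apply (evW (G := G) (k := k) r).injective
              simp
            rw [h1, map_smul, map_smul]
            exact congrArg _ hfg
          · have := subW (G := G) (k := k) h
            ext x; rw [Subsingleton.elim x 0, map_zero, map_zero]
        · intro r; ext x; rw [Subsingleton.elim x 0, map_zero, map_zero]
        · intro r; ext x; rw [Subsingleton.elim x 0, map_zero, map_zero]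
      · intro y
        refine ⟨⟨mkH (fun _ => 0) (fun _ => 0) (fun _ _ _ => 0)
          (Function.update 0 t
            ((LinearMap.toSpanSingleton k _ y) ∘ₗ (evW (G := G) (k := k) t).toLinearMap))
          (fun _ => 0) (fun _ => 0), mem_Cs.2 fun _ => rfl⟩, ?_⟩
        change (Function.update (0 : ∀ s, (frm G k t).X.W s →ₗ[k] X.V s) t
            ((LinearMap.toSpanSingleton k _ y) ∘ₗ (evW (G := G) (k := k) t).toLinearMap)) t
            ((evW (G := G) (k := k) t).symm 1) = y
        rw [Function.update_self]
        simp)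

@[simp] theorem eL_apply (X : Gob G k) (t : T) (f : Cs (frm G k t).X X) :
    eL X t f = ci f.1 t ((evW (G := G) (k := k) t).symm 1) := rfl

theorem rank_gV_comp (X : Gob G k) (t : T) (f : X.V t →ₗ[k] X.V t) :
    Module.finrank k (LinearMap.range (X.gV t ∘ₗ f)) =
      Module.finrank k (LinearMap.range f) := by
  have hg : Function.Injective (X.gV t) := by
    intro x y h
    have h1 := congrArg (X.gV t) h
    have h2 := LinearMap.congr_fun (X.gV_sq t)
    simp only [LinearMap.comp_apply, LinearMap.id_apply] at h2
    rwa [h2, h2] at h1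
  rw [LinearMap.range_comp]
  exact (Submodule.equivMapOfInjective _ hg _).finrank_eq.symm

/-- number of projectives at `t` : homology of the length 0 part of `d` -/
theorem hT_frm_right (X : TOb G k) (t : T) : hT X (frm G k t) = hd (c0 X.d t) := by
  have h1 : hT X (frm G k t) =
      hd (-(X.X.gV t ∘ₗ c0 X.d t).dualMap : Module.Dual k (X.X.V t) →ₗ[k] _) := by
    apply hd_congr _ _ (eR X.X t)
    intro f
    ext x
    simp [D_apply, d_frm, gW_frm, f.2 t]
  rw [h1, hd_eq, hd_eq, LinearMap.range_neg,
    LinearMap.finrank_range_dualMap_eq_finrank_range, rank_gV_comp, Subspace.dual_finrank_eq]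



theorem hT_frm_right_F (X : FObj G k) (t : T) :
    hT X.toTOb (frm G k t) = Module.finrank k (X.X.V t) := by
  rw [hT_frm_right]
  exact hd_zero_map


theorem dT_F (X : FObj G k) (t : T) : dT X.toTOb t = Module.finrank k (X.X.V t) :=
  hT_frm_right_F X t

end frames

/-! ### length 0 parts -/

section len0

variable {T : Type u} {G : MG T} {k : Type v} [Field k] [Fintype T]

@[simp] theorem cW_D {X Y : TOb G k} (f : X.X ⟶ Y.X) (t : T) : cW (D X Y f) t = 0 := by
  simp [D_apply]

theorem c0_D_F (X Y : FObj G k) (f : X.X ⟶ Y.X) (t : T) :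
    c0 (D X.toTOb Y.toTOb f) t = 0 := by
  change c0 (f ≫ Y.dm - X.dm ≫ bar f) t = 0
  simp




end len0

/-! ### isomorphisms -/

section iso

variable {T : Type u} {G : MG T} {k : Type v} [Field k] [Fintype T]

/-- a morphism without length 0 part is nilpotent -/
theorem nil3 {X Y Z W : Gob G k} (f : X ⟶ Y) (g : Y ⟶ Z) (h : Z ⟶ W)
    (f0 : ∀ t, c0 f t = 0) (fW : ∀ t, cW f t = 0) (g0 : ∀ t, c0 g t = 0) (gW : ∀ t, cW g t = 0)
    (h0 : ∀ t, c0 h t = 0) (hW : ∀ t, cW h t = 0) : f ≫ g ≫ h = 0 := by
  apply hm_ext <;> intros <;> simp [f0, fW, g0, gW, h0, hW]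

theorem isIso_one_add {X : Gob G k} (n : X ⟶ X) (h0 : ∀ t, c0 n t = 0)
    (hW : ∀ t, cW n t = 0) : IsIso (𝟙 X + n) := by
  have h3 : n ≫ n ≫ n = 0 := nil3 n n n h0 hW h0 hW h0 hW
  refine ⟨𝟙 X - n + n ≫ n, ?_, ?_⟩
  · simp only [Preadditive.add_comp, Preadditive.comp_add, Preadditive.comp_sub,
      Category.id_comp, Category.comp_id, h3]
    abel
  · have h3' : (n ≫ n) ≫ n = 0 := by rw [Category.assoc]; exact h3
    simp only [Preadditive.add_comp, Preadditive.comp_add, Preadditive.sub_comp,
      Category.id_comp, Category.comp_id, h3']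
    abel

theorem isIso_of_bijective {X Y : Gob G k} (f : X ⟶ Y)
    (h0 : ∀ t, Function.Bijective (c0 f t)) (hW : ∀ t, Function.Bijective (cW f t)) :
    IsIso f := by
  let e0 : ∀ t, X.V t ≃ₗ[k] Y.V t := fun t => LinearEquiv.ofBijective (c0 f t) (h0 t)
  let eW : ∀ t, X.W t ≃ₗ[k] Y.W t := fun t => LinearEquiv.ofBijective (cW f t) (hW t)
  let m : X ⟶ Y := mkH (fun t => (e0 t).toLinearMap) (fun t => (eW t).toLinearMap)
    (fun _ _ _ => 0) (fun _ => 0) (fun _ => 0) (fun _ => 0)
  let m' : Y ⟶ X := mkH (fun t => (e0 t).symm.toLinearMap) (fun t => (eW t).symm.toLinearMap)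
    (fun _ _ _ => 0) (fun _ => 0) (fun _ => 0) (fun _ => 0)
  have hmm' : m ≫ m' = 𝟙 X := by
    apply hm_ext <;> intros <;> simp [m, m']
  have hm'm : m' ≫ m = 𝟙 Y := by
    apply hm_ext <;> intros <;> simp [m, m']
  have e0f : ∀ t, (e0 t).toLinearMap = c0 f t := fun t => by ext x; rfl
  have eWf : ∀ t, (eW t).toLinearMap = cW f t := fun t => by ext x; rfl
  have hm : IsIso m := ⟨m', hmm', hm'm⟩
  have hn : IsIso (𝟙 X + (f - m) ≫ m') := by
    apply isIso_one_add
    · intro t
      simp [m, e0f]
    · intro t
      simp [m, eWf]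
  have hf : f = (𝟙 X + (f - m) ≫ m') ≫ m := by
    rw [Preadditive.add_comp, Category.assoc, hm'm, Category.id_comp, Category.comp_id]
    abel
  rw [hf]
  infer_instance


end iso

/-! ### homotopy equivalences -/

section heq

variable {T : Type u} {G : MG T} {k : Type v} [Field k] [Fintype T]

variable {X Y : TOb G k}

theorem cW_pq (h : HEquiv X Y) (t : T) : cW h.q t ∘ₗ cW h.p t = LinearMap.id := by
  have := congrArg (fun f => cW f t) h.pq
  simpa using this

theorem cW_qp (h : HEquiv X Y) (t : T) : cW h.p t ∘ₗ cW h.q t = LinearMap.id := by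
  have := congrArg (fun f => cW f t) h.qp
  simpa using this

/-- the frames are invariant under homotopy equivalence (any objects) -/
def eW (h : HEquiv X Y) (t : T) : X.X.W t ≃ₗ[k] Y.X.W t :=
  LinearEquiv.ofLinearMap (cW h.p t) (cW h.q t) (cW_qp h t) (cW_pq h t)

@[simp] theorem eW_apply (h : HEquiv X Y) (t : T) (x : X.X.W t) : eW h t x = cW h.p t x := rfl




end heq

section heqF

variable {T : Type u} {G : MG T} {k : Type v} [Field k] [Fintype T]

variable {X Y : FObj G k}

theorem c0_pq (h : HEquiv X.toTOb Y.toTOb) (t : T) :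
    c0 h.q t ∘ₗ c0 h.p t = LinearMap.id := by
  have h1 : c0 (h.p ≫ h.q) t = c0 (𝟙 X.X + D X.toTOb X.toTOb h.s) t := by rw [h.pq]
  exact h1.trans ((congrArg (fun g => LinearMap.id + g) (c0_D_F X X h.s t)).trans (add_zero _))

theorem c0_qp (h : HEquiv X.toTOb Y.toTOb) (t : T) :
    c0 h.p t ∘ₗ c0 h.q t = LinearMap.id := by
  have h1 : c0 (h.q ≫ h.p) t = c0 (𝟙 Y.X + D Y.toTOb Y.toTOb h.r) t := by rw [h.qp]
  exact h1.trans ((congrArg (fun g => LinearMap.id + g) (c0_D_F Y Y h.r t)).trans (add_zero _))

/-- the multiplicity spaces of homotopy equivalent minimal objects are isomorphic -/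
def eV (h : HEquiv X.toTOb Y.toTOb) (t : T) : X.X.V t ≃ₗ[k] Y.X.V t :=
  LinearEquiv.ofLinearMap (c0 h.p t) (c0 h.q t) (c0_qp h t) (c0_pq h t)

@[simp] theorem eV_apply (h : HEquiv X.toTOb Y.toTOb) (t : T) (x : X.X.V t) :
    eV h t x = c0 h.p t x := rfl





/-! components of a closed even map of minimal objects -/

section closed

variable {f : X.X ⟶ Y.X} (bf : bar f = f) (Df : D X.toTOb Y.toTOb f = 0)

include bf



include Df





end closed

end heqF

end Crest.Agent.R175.Unfr_83
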