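import Crest.Agent.R175.TwG_253
import Crest.Agent.R175.TwS_83
import Crest.Agent.R175.Unfr_83
import Crest.Agent.R175.TUh_988
import Crest.Agent.R175.TwJ_253

-- ▼ part R175/TwV_83
section

/-!
# Twists over `Gob G k`: splitting and vanishing of `Q_U` (row 175, helper83)

* `rho U U' X : QG U X ⟶ QG U' X` (the coordinates of `U ∩ U'`): natural, `rho_comp`, `rho_id`,
  `rho_zero`, `rho_eps`, `rho_total`
* `QG_zero` : `𝟙 (QG U X) = 0` if `Hom(P_t, X) = 0` for `t ∈ U`
* `QQ_zero` : `𝟙 (QG V (QG U X)) = 0` if `V` and `U` are disjoint and not adjacent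
* `Qfrm_zero` : `𝟙 (QG U (frm G k t).X) = 0` for `t ∉ U`
* `splitG` : the data of `TwS_83.Split` for any three `Sph`s with the functors `QG U`, `QG U₁`,
  `QG U₂`, `U = U₁ ⊔ U₂` (disjoint)
-/

set_option autoImplicit false
set_option linter.unusedSectionVars false

open CategoryTheory

namespace Crest.Agent.R175.TwV_83

open PTA TwG_253

universe v

variable {T : Type v} {G : MG T} {k : Type v} [Field k] [Fintype T]

noncomputable section

/-- the map `Q_U X → Q_{U'} X` (identity on the coordinates of `U ∩ U'`) -/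
def rho (U U' : T → Prop) (X : Gob G k) : QG U X ⟶ QG U' X :=
  mkH (fun t => qin U' X t ∘ₗ qev U X t) (fun _ => 0) (fun _ _ _ => 0) (fun _ => 0)
    (fun _ => 0) (fun _ => 0)

section rho

variable (U U' U'' : T → Prop) (X Y : Gob G k)

theorem c0_rho (t : T) (x : (QG U X).V t) : c0 (rho U U' X) t x = qin U' X t (qev U X t x) := rfl
theorem c1_rho {s t : T} (a : G.E s t) : c1 (rho U U' X) a = 0 := rfl
theorem ci_rho (t : T) : ci (rho U U' X) t = 0 := rfl
theorem cj_rho (t : T) : cj (rho U U' X) t = 0 := rfl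
theorem c2_rho (t : T) : c2 (rho U U' X) t = 0 := rfl

variable {U U' U'' X Y}


theorem qev_not {t : T} (h : ¬ U t) (x : (QG U X).V t) : qev U X t x = 0 := by
  rw [q_zero h x, map_zero]

/-- two maps with the same `c0` and no other component -/
theorem q_hom_ext {Z : Gob G k} {f g : QG U X ⟶ Z} [∀ t, Subsingleton (Z.W t)]
    (h0 : ∀ t x, c0 f t x = c0 g t x) (h1 : ∀ (s t : T) (a : G.E s t), c1 f a = c1 g a)
    (h2 : ∀ t, c2 f t = c2 g t) : f = g := by
  apply hm_ext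
  · intro t; exact LinearMap.ext (h0 t)
  · intro t; apply LinearMap.ext; intro x; exact Subsingleton.elim _ _
  · exact h1
  · intro t; apply LinearMap.ext; intro x
    have : x = 0 := Subsingleton.elim _ _
    rw [this, map_zero, map_zero]
  · intro t; apply LinearMap.ext; intro x; exact Subsingleton.elim _ _
  · exact h2

theorem rho_id : rho U U X = 𝟙 (QG U X) := by
  apply q_hom_ext
  · intro t x
    rw [c0_rho, qin_qev, c0_id, LinearMap.id_apply]
  · intro s t a; rfl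
  · intro t; rfl

theorem c1_comp_diag {A B Z : Gob G k} (f : A ⟶ B) (g : B ⟶ Z) {s t : T} (a : G.E s t)
    (hf : c1 f a = 0) (hg : c1 g a = 0) : c1 (f ≫ g) a = 0 := by
  rw [c1_comp, hf, hg]; simp

theorem c2_comp_diag {A B Z : Gob G k} (f : A ⟶ B) (g : B ⟶ Z) {t : T}
    (hf : ∀ s (a : G.E t s), c1 f a = 0) (hf2 : c2 f t = 0) (hg2 : c2 g t = 0)
    (hj : cj f t = 0) : c2 (f ≫ g) t = 0 := by
  rw [c2_comp, hf2, hg2, hj]; simp [hf]

theorem rho_comp (h : ∀ t, U t → U'' t → U' t) :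
    rho U U' X ≫ rho U' U'' X = rho U U'' X := by
  apply q_hom_ext
  · intro t x
    rw [c0_comp, LinearMap.comp_apply, c0_rho, c0_rho, c0_rho]
    apply q_ext
    intro h''
    rw [qev_qin h'', qev_qin h'']
    by_cases hU : U t
    · rw [qev_qin (h t hU h'')]
    · rw [qev_not hU, map_zero, map_zero]
  · intro s t a; exact c1_comp_diag _ _ _ rfl rfl
  · intro t; exact c2_comp_diag _ _ (fun _ _ => rfl) rfl rfl rfl

theorem rho_zero (h : ∀ t, U t → ¬ U' t) : rho U U' X = 0 := by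
  apply q_hom_ext
  · intro t x
    rw [c0_rho, c0_zero, LinearMap.zero_apply]
    by_cases hU : U t
    · exact q_zero (h t hU) _
    · rw [qev_not hU, map_zero]
  · intro s t a; rfl
  · intro t; rfl

theorem rho_nat (f : X ⟶ Y) : mG U f ≫ rho U U' Y = rho U U' X ≫ mG U' f := by
  apply q_hom_ext
  · intro t x
    rw [c0_comp, c0_comp, LinearMap.comp_apply, LinearMap.comp_apply, c0_rho, c0_rho, c0_mG,
      c0_mG]
    apply q_ext
    intro h'
    rw [qev_qin h', qev_qin h', qev_qin h']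
    by_cases hU : U t
    · rw [qev_qin hU]
    · rw [qev_not hU, qev_not hU, map_zero]
  · intro s t a; rw [c1_comp_diag _ _ _ rfl rfl, c1_comp_diag _ _ _ rfl rfl]
  · intro t
    rw [c2_comp_diag _ _ (fun _ _ => rfl) rfl rfl rfl, c2_comp_diag _ _ (fun _ _ => rfl) rfl rfl rfl]

theorem rho_eps (h : ∀ t, U' t → U t) : rho U' U X ≫ epsG U X = epsG U' X := by
  have hq : ∀ t (x : (QG U' X).V t), qev U X t (qin U X t (qev U' X t x)) = qev U' X t x := by
    intro t x
    by_cases hU : U' t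
    · rw [qev_qin (h t hU)]
    · rw [qev_not hU, map_zero, map_zero]
  apply hm_ext
  · intro t; apply LinearMap.ext; intro x
    rw [c0_comp, LinearMap.comp_apply, c0_eps, c0_eps, c0_rho, hq]
  · intro t; rw [cW_comp, cW_eps, cW_eps]; simp
  · intro s t a; apply LinearMap.ext; intro x
    rw [c1_comp, c1_rho, LinearMap.comp_zero, add_zero, LinearMap.comp_apply, c1_eps, c1_eps,
      c0_rho, hq]
  · intro t; rw [ci_comp, ci_eps, ci_eps, ci_rho]; simp
  · intro t; apply LinearMap.ext; intro x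
    rw [cj_comp, cj_rho, LinearMap.comp_zero, add_zero, LinearMap.comp_apply, cj_eps, cj_eps,
      c0_rho, hq]
  · intro t; apply LinearMap.ext; intro x
    rw [c2_comp, c2_rho, cj_rho]
    simp only [c1_rho, LinearMap.comp_zero, Finset.sum_const_zero, add_zero]
    rw [LinearMap.comp_apply, c2_eps, c2_eps, c0_rho, hq]

theorem rho_total {U₁ U₂ : T → Prop} (h : ∀ t, U t → U₁ t ∨ U₂ t) (hd : ∀ t, U₁ t → ¬ U₂ t) :
    rho U U₁ X ≫ rho U₁ U X + rho U U₂ X ≫ rho U₂ U X = 𝟙 (QG U X) := by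
  apply q_hom_ext
  · intro t x
    rw [c0_add, LinearMap.add_apply, c0_comp, c0_comp, LinearMap.comp_apply,
      LinearMap.comp_apply, c0_rho, c0_rho, c0_rho, c0_rho, c0_id, LinearMap.id_apply]
    apply q_ext
    intro hU
    rw [map_add, qev_qin hU, qev_qin hU]
    rcases h t hU with h1 | h2
    · rw [qev_qin h1, qev_not (hd t h1), add_zero]
    · have h1 : ¬ U₁ t := fun h1 => hd t h1 h2
      rw [qev_not h1, zero_add, qev_qin h2]
  · intro s t a
    rw [c1_add, c1_comp_diag _ _ _ rfl rfl, c1_comp_diag _ _ _ rfl rfl, add_zero]; rfl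
  · intro t
    rw [c2_add, c2_comp_diag _ _ (fun _ _ => rfl) rfl rfl rfl,
      c2_comp_diag _ _ (fun _ _ => rfl) rfl rfl rfl, add_zero]; rfl

end rho

/-! ### vanishing -/

section zero

variable {U V : T → Prop} {X : Gob G k}

theorem HP_subsingleton {t : T} (h0 : Subsingleton (X.V t))
    (h1 : ∀ s, G.E t s → Subsingleton (X.V s)) (hw : Subsingleton (X.W t)) :
    Subsingleton (HP X t) := by
  constructor
  intro x y
  apply HP_ext
  · exact Subsingleton.elim _ _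
  · intro s a
    have := h1 s a
    exact Subsingleton.elim _ _
  · exact Subsingleton.elim _ _
  · exact Subsingleton.elim _ _

theorem QG_zero (h : ∀ t, U t → Subsingleton (HP X t)) : 𝟙 (QG U X) = 0 := by
  apply q_hom_ext
  · intro t x
    rw [c0_id, LinearMap.id_apply, c0_zero, LinearMap.zero_apply]
    apply q_ext
    intro hU
    have := h t hU
    exact Subsingleton.elim _ _
  · intro s t a; rfl
  · intro t; rfl

theorem sub_QG {t : T} (h : ¬ U t) : Subsingleton ((QG U X).V t) :=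
  ⟨fun x y => by rw [q_zero h x, q_zero h y]⟩

/-- `Q_V Q_U = 0` for disjoint, non adjacent `U`, `V` -/
theorem QQ_zero (hd : ∀ t, V t → ¬ U t) (ha : ∀ t s, V t → U s → IsEmpty (G.E t s)) :
    𝟙 (QG V (QG U X)) = 0 := by
  apply QG_zero
  intro t ht
  apply HP_subsingleton (sub_QG (hd t ht)) _ inferInstance
  intro s a
  by_cases hs : U s
  · exact ((ha t s ht hs).false a).elim
  · exact sub_QG hs

theorem Qfrm_zero [DecidableEq T] {t : T} (h : ¬ U t) : 𝟙 (QG U (frm G k t).X) = 0 := by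
  apply QG_zero
  intro s hs
  apply HP_subsingleton (Unfr_83.subV t s) (fun r _ => Unfr_83.subV t r)
    (Unfr_83.subW (fun e => h (e ▸ hs)))

end zero

/-! ### the splitting -/

section split

open TwA_253 TwS_83

/-- `Q_U = Q_{U₁} ⊕ Q_{U₂}`, naturally and compatibly with `ε` -/
def splitG {U U₁ U₂ : T → Prop} (h : ∀ t, U t ↔ U₁ t ∨ U₂ t) (hd : ∀ t, U₁ t → ¬ U₂ t)
    (F F₁ F₂ : Sph (Gob G k))
    (hQ : F.Q = QG U) (hQ₁ : F₁.Q = QG U₁) (hQ₂ : F₂.Q = QG U₂)
    (hm : ∀ {A B : Gob G k} (f : A ⟶ B), F.m f ≍ mG U f)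
    (hm₁ : ∀ {A B : Gob G k} (f : A ⟶ B), F₁.m f ≍ mG U₁ f)
    (hm₂ : ∀ {A B : Gob G k} (f : A ⟶ B), F₂.m f ≍ mG U₂ f)
    (he : ∀ A : Gob G k, F.eps A ≍ epsG U A)
    (he₁ : ∀ A : Gob G k, F₁.eps A ≍ epsG U₁ A)
    (he₂ : ∀ A : Gob G k, F₂.eps A ≍ epsG U₂ A) : Split F F₁ F₂ := by
  obtain ⟨Q, m, a1, a2, a3, eps, eta, u, c, b1, b2, b3, b4, b5, b6, b7, b8, b9, b10, b11⟩ := F
  obtain ⟨Q₁, m₁, a1, a2, a3, eps₁, eta, u, c, b1, b2, b3, b4, b5, b6, b7, b8, b9, b10, b11⟩ := F₁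
  obtain ⟨Q₂, m₂, a1, a2, a3, eps₂, eta, u, c, b1, b2, b3, b4, b5, b6, b7, b8, b9, b10, b11⟩ := F₂
  dsimp only at hQ hQ₁ hQ₂
  subst hQ hQ₁ hQ₂
  have hm : ∀ {A B : Gob G k} (f : A ⟶ B), m f = mG U f := fun f => eq_of_heq (hm f)
  have hm₁ : ∀ {A B : Gob G k} (f : A ⟶ B), m₁ f = mG U₁ f := fun f => eq_of_heq (hm₁ f)
  have hm₂ : ∀ {A B : Gob G k} (f : A ⟶ B), m₂ f = mG U₂ f := fun f => eq_of_heq (hm₂ f)
  have he : ∀ A : Gob G k, eps A = epsG U A := fun f => eq_of_heq (he f)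
  have he₁ : ∀ A : Gob G k, eps₁ A = epsG U₁ A := fun f => eq_of_heq (he₁ f)
  have he₂ : ∀ A : Gob G k, eps₂ A = epsG U₂ A := fun f => eq_of_heq (he₂ f)
  exact
    { inl := fun A => rho U₁ U A
      inr := fun A => rho U₂ U A
      fst := fun A => rho U U₁ A
      snd := fun A => rho U U₂ A
      inl_fst := fun A => (rho_comp fun t h1 _ => (h t).2 (Or.inl h1)).trans rho_id
      inl_snd := fun A => (rho_comp fun t h1 _ => (h t).2 (Or.inl h1)).trans (rho_zero hd)
      inr_fst := fun A => (rho_comp fun t h1 _ => (h t).2 (Or.inr h1)).trans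
        (rho_zero fun t h2 h1 => hd t h1 h2)
      inr_snd := fun A => (rho_comp fun t h1 _ => (h t).2 (Or.inr h1)).trans rho_id
      total := fun A => rho_total (fun t => (h t).1) hd
      inl_nat := fun f => by
        change m₁ f ≫ rho U₁ U _ = rho U₁ U _ ≫ m f
        rw [hm₁, hm]; exact rho_nat f
      inr_nat := fun f => by
        change m₂ f ≫ rho U₂ U _ = rho U₂ U _ ≫ m f
        rw [hm₂, hm]; exact rho_nat f
      inl_eps := fun A => by
        change rho U₁ U _ ≫ eps A = eps₁ A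
        rw [he, he₁]; exact rho_eps fun t h1 => (h t).2 (Or.inl h1)
      inr_eps := fun A => by
        change rho U₂ U _ ≫ eps A = eps₂ A
        rw [he, he₂]; exact rho_eps fun t h1 => (h t).2 (Or.inr h1) }

end split

end

end Crest.Agent.R175.TwV_83
end

-- ▼ part R175/TUhT_988

/-!
Row 175: **`hT (TU X) (TU Y) = hT X Y`**, `hT (TV X) (TV Y) = hT X Y`, `dT (TU X) t = dT X t` for `¬ U t`.
-/

set_option autoImplicit false
set_option linter.unusedSectionVars false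

open CategoryTheory

namespace Crest.Agent.R175.TUh_988

open Crest.Agent.R175.PTA Crest.Agent.R175.TwG_253 Crest.Agent.R175.TU_788
open Crest.Agent.R175.TwA_253 (Tw Sum2 Sph Tm Tm')
open Crest.Agent.R175.TwS_83 (SI)

universe v

noncomputable section

variable {T : Type v} {G : MG T} {k : Type v} [Field k] [Fintype T]

theorem hmap_smul {X Y : Gob G k} (c : k) (f : X ⟶ Y) (t : T) (x : HP X t) :
    hmap (c • f) t x = c • hmap f t x := by
  apply HP_ext
  · simp [hmap_0]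
  · intro s a; simp [hmap_1]
  · simp [hmap_w]
  · simp [hmap_2, Finset.smul_sum]

theorem m_smul (U : T → Prop) {X Y : Gob G k} (c : k) (f : X ⟶ Y) :
    mG U (c • f) = c • mG U f := by
  apply hm_ext
  · intro t; apply LinearMap.ext; intro x
    simp only [c0_smul, LinearMap.smul_apply, c0_mG, hmap_smul, map_smul]
  · intro t; apply LinearMap.ext; intro x; exact Subsingleton.elim _ _
  · intro s t a; simp [c1_mG]
  · intro t; simp [ci_mG]
  · intro t; simp [cj_mG]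
  · intro t; simp [c2_mG]

/-- the inequality for the twist, abstractly -/
theorem hT_le_gen (F : Sph (Gob G k)) (hm : ∀ {A B : Gob G k} (f : A ⟶ B), F.m f ∈ Cs (F.Q A) (F.Q B))
    (hs : ∀ {A B : Gob G k} (c : k) (f : A ⟶ B), F.m (c • f) = c • F.m f) (X Y : TOb G k)
    (S : Sum2 (F.Q (toTw X).X) (toTw X).X) (S' : Sum2 (F.Q (toTw Y).X) (toTw Y).X)
    (hp : FmU_83.Pu (TwA_253.T F (toTw X) S).e) (hd : ∀ t, cW (TwA_253.T F (toTw X) S).d t = 0)
    (hp' : FmU_83.Pu (TwA_253.T F (toTw Y) S').e)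
    (hd' : ∀ t, cW (TwA_253.T F (toTw Y) S').d t = 0) :
    hT X Y ≤ hT (ofTw (TwA_253.T F (toTw X) S) hp hd) (ofTw (TwA_253.T F (toTw Y) S') hp' hd') := by
  have R : Sum2 (TwA_253.T F (toTw X) S).X (F.Q (TwA_253.T F (toTw X) S).X) := sm _ _
  have R' : Sum2 (TwA_253.T F (toTw Y) S').X (F.Q (TwA_253.T F (toTw Y) S').X) := sm _ _
  have hC : ∀ f : X.X ⟶ Y.X, f ∈ Cs X.X Y.X → Tm F (toTw X) (toTw Y) S S' f ∈ Cs S.S S'.S := by
    intro f hf
    refine Submodule.add_mem _ (Cs_comp_left _ (Cs_comp_right (hm _) _)) ?_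
    exact Cs_comp_left _ (Cs_comp_right hf _)
  have hsm : ∀ (c : k) (f : X.X ⟶ Y.X), Tm F (toTw X) (toTw Y) S S' (c • f) =
      c • Tm F (toTw X) (toTw Y) S S' f := by
    intro c f
    unfold Tm TwA_253.bar
    simp only [Linear.smul_comp, Linear.comp_smul, hs, smul_add]
  refine hd_le_of_inj (D := DC X Y)
    (D' := DC (ofTw (TwA_253.T F (toTw X) S) hp hd) (ofTw (TwA_253.T F (toTw Y) S') hp' hd'))
    (fun f => DC_DC f) (fun f => DC_DC f)
    ({ toFun := fun f => ⟨Tm F (toTw X) (toTw Y) S S' f.1, hC f.1 f.2⟩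
       map_add' := fun f g => Subtype.ext (TwA_253.Tm_add (S := S) (S' := S') f.1 g.1)
       map_smul' := fun c f => Subtype.ext (hsm c f.1) } : Cs X.X Y.X →ₗ[k] Cs _ _)
    (fun f hf => ?_) (fun f hf => ?_)
  · apply Subtype.ext
    have hf' : TwA_253.D (toTw X) (toTw Y) f.1 = 0 := congrArg Subtype.val hf
    have h1 := D_ofTw hp hd hp' hd' (Tm F (toTw X) (toTw Y) S S' f.1)
    refine h1.trans ?_
    rw [TwA_253.D_Tm, hf', TwA_253.Tm_zero]
    rfl
  · rintro ⟨g, hg⟩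
    have hg1 : Tm F (toTw X) (toTw Y) S S' f.1 =
        TwA_253.D (TwA_253.T F (toTw X) S) (TwA_253.T F (toTw Y) S') g.1 :=
      (congrArg Subtype.val hg).trans (D_ofTw hp hd hp' hd' g.1)
    have hgC : TwA_253.Rt F (toTw X) (toTw Y) S R S' R' g.1 ∈ Cs X.X Y.X := by
      refine Cs_comp_left _ (Cs_comp_right ?_ _)
      refine Submodule.add_mem _ (Cs_comp_left _ (Cs_comp_right ?_ _))
        (Cs_comp_left _ (Cs_comp_right (hm _) _))
      exact g.2
    refine ⟨⟨TwA_253.Rt F (toTw X) (toTw Y) S R S' R' g.1, hgC⟩, ?_⟩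
    apply Subtype.ext
    have h1 := TwA_253.D_Rt F (toTw X) (toTw Y) S R S' R' g.1
    have h2 := congrArg (TwA_253.Rt F (toTw X) (toTw Y) S R S' R') hg1
    have h3 := TwA_253.Rt_Tm F (toTw X) (toTw Y) S R S' R' f.1
    exact (h1.trans (h2.symm.trans h3)).symm

/-- the inequality for the inverse twist, abstractly -/
theorem hT_le_gen' (F : Sph (Gob G k)) (hm : ∀ {A B : Gob G k} (f : A ⟶ B), F.m f ∈ Cs (F.Q A) (F.Q B))
    (hs : ∀ {A B : Gob G k} (c : k) (f : A ⟶ B), F.m (c • f) = c • F.m f) (X Y : TOb G k)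
    (S : Sum2 (toTw X).X (F.Q (toTw X).X)) (S' : Sum2 (toTw Y).X (F.Q (toTw Y).X))
    (hp : FmU_83.Pu (TwA_253.T' F (toTw X) S).e) (hd : ∀ t, cW (TwA_253.T' F (toTw X) S).d t = 0)
    (hp' : FmU_83.Pu (TwA_253.T' F (toTw Y) S').e)
    (hd' : ∀ t, cW (TwA_253.T' F (toTw Y) S').d t = 0) :
    hT X Y ≤ hT (ofTw (TwA_253.T' F (toTw X) S) hp hd) (ofTw (TwA_253.T' F (toTw Y) S') hp' hd') := by
  have R : Sum2 (F.Q (TwA_253.T' F (toTw X) S).X) (TwA_253.T' F (toTw X) S).X := sm _ _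
  have R' : Sum2 (F.Q (TwA_253.T' F (toTw Y) S').X) (TwA_253.T' F (toTw Y) S').X := sm _ _
  have hC : ∀ f : X.X ⟶ Y.X, f ∈ Cs X.X Y.X → Tm' F (toTw X) (toTw Y) S S' f ∈ Cs S.S S'.S := by
    intro f hf
    refine Submodule.add_mem _ (Cs_comp_left _ (Cs_comp_right hf _)) ?_
    exact Cs_comp_left _ (Cs_comp_right (hm _) _)
  have hsm : ∀ (c : k) (f : X.X ⟶ Y.X), Tm' F (toTw X) (toTw Y) S S' (c • f) =
      c • Tm' F (toTw X) (toTw Y) S S' f := by
    intro c f
    unfold Tm' TwA_253.bar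
    simp only [Linear.smul_comp, Linear.comp_smul, hs, smul_add]
  refine hd_le_of_inj (D := DC X Y)
    (D' := DC (ofTw (TwA_253.T' F (toTw X) S) hp hd) (ofTw (TwA_253.T' F (toTw Y) S') hp' hd'))
    (fun f => DC_DC f) (fun f => DC_DC f)
    ({ toFun := fun f => ⟨Tm' F (toTw X) (toTw Y) S S' f.1, hC f.1 f.2⟩
       map_add' := fun f g => Subtype.ext (TwA_253.Tm'_add (S := S) (S' := S') f.1 g.1)
       map_smul' := fun c f => Subtype.ext (hsm c f.1) } : Cs X.X Y.X →ₗ[k] Cs _ _)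
    (fun f hf => ?_) (fun f hf => ?_)
  · apply Subtype.ext
    have hf' : TwA_253.D (toTw X) (toTw Y) f.1 = 0 := congrArg Subtype.val hf
    have h1 := D_ofTw hp hd hp' hd' (Tm' F (toTw X) (toTw Y) S S' f.1)
    refine h1.trans ?_
    rw [TwA_253.D_Tm', hf', TwA_253.Tm'_zero]
    rfl
  · rintro ⟨g, hg⟩
    have hg1 : Tm' F (toTw X) (toTw Y) S S' f.1 =
        TwA_253.D (TwA_253.T' F (toTw X) S) (TwA_253.T' F (toTw Y) S') g.1 :=
      (congrArg Subtype.val hg).trans (D_ofTw hp hd hp' hd' g.1)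
    have hgC : TwA_253.Rt' F (toTw X) (toTw Y) S R S' R' g.1 ∈ Cs X.X Y.X := by
      refine Cs_comp_left _ (Cs_comp_right ?_ _)
      refine Submodule.add_mem _ (Cs_comp_left _ (Cs_comp_right (hm _) _))
        (Cs_comp_left _ (Cs_comp_right ?_ _))
      exact g.2
    refine ⟨⟨TwA_253.Rt' F (toTw X) (toTw Y) S R S' R' g.1, hgC⟩, ?_⟩
    apply Subtype.ext
    have h1 := TwA_253.D_Rt' F (toTw X) (toTw Y) S R S' R' g.1
    have h2 := congrArg (TwA_253.Rt' F (toTw X) (toTw Y) S R S' R') hg1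
    have h3 := TwA_253.Rt_Tm' F (toTw X) (toTw Y) S R S' R' f.1
    exact (h1.trans (h2.symm.trans h3)).symm

variable (U : T → Prop) (hU : ∀ s t, U s → U t → IsEmpty (G.E s t))

theorem mG_mem_Cs {X Y : Gob G k} (f : X ⟶ Y) : mG U f ∈ Cs (QG U X) (QG U Y) := fun _ => rfl

theorem hT_le_TU (X Y : TOb G k) : hT X Y ≤ hT (TU U hU X) (TU U hU Y) :=
  hT_le_gen (sphG U hU) (mG_mem_Cs U) (m_smul U) X Y _ _ _ _ _ _

theorem hT_le_TV (X Y : TOb G k) : hT X Y ≤ hT (TV U hU X) (TV U hU Y) :=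
  hT_le_gen' (sphG U hU) (mG_mem_Cs U) (m_smul U) X Y _ _ _ _ _ _

/-- **`hT (TU X) (TU Y) = hT X Y`** -/
theorem hT_TU (X Y : TOb G k) : hT (TU U hU X) (TU U hU Y) = hT X Y := by
  refine le_antisymm ?_ (hT_le_TU U hU X Y)
  refine (hT_le_TV U hU (TU U hU X) (TU U hU Y)).trans (le_of_eq ?_)
  exact ((TV_TU U hU X).hT_left _).trans ((TV_TU U hU Y).hT_right _)


end

end Crest.Agent.R175.TUh_988
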