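import Crest.Agent.R175.PTA_534

/-!
# Row 175, block DUAL (helper338): trace pairing, `del` and `path`

`P f g`      : trace pairing of `f : X ⟶ Y` and `g : Y ⟶ X` (base category `Gob`), symmetric, and
               perfect on `Cs X Y × Cs Y X`.
`path a`     : `cj a ∘ ci X.d - cj Y.d ∘ ci (bar a) : X.W t → Y.W t` for `a : X ⟶ Y`.
`hT_symm`    : `hT X Y = hT Y X`.
`exists_path`: `A0 : X.W t → Y.W t` is the path of a cocycle `a ∈ Cs X Y` iff
               `∑ tr (gW ∘ A0 ∘ cW F) = 0` for every cocycle `F : Y ⟶ X` of the full complex.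
`exists_lift`: `ψ : X.W t → Y.W t` is `cW F` for a cocycle `F` of the full complex iff
               `∑ tr (gW ∘ path a ∘ ψ) = 0` for every cocycle `a ∈ Cs Y X`.
Any field; `_even`, `_odd` versions if `2 ≠ 0`.
-/

set_option autoImplicit false
set_option linter.unusedSectionVars false
set_option linter.unusedVariables false
set_option linter.unusedSimpArgs false

open CategoryTheory Module

namespace Crest.Agent.R175.Dual_338

open Crest.Agent.R175.PTA

universe u v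

/-! ### linear algebra -/

section lin

variable {k : Type*} [Field k]

/-- nondegeneracy of the trace pairing `Hom(V,W) × Hom(W,V)`. -/
theorem eq_zero_of_trace {V W : Type*} [AddCommGroup V] [Module k V]
    [AddCommGroup W] [Module k W] [FiniteDimensional k V] (f : V →ₗ[k] W)
    (h : ∀ g : W →ₗ[k] V, LinearMap.trace k V (g ∘ₗ f) = 0) : f = 0 := by
  ext v
  rw [LinearMap.zero_apply, ← forall_dual_apply_eq_zero_iff k]
  intro φ
  have h1 := h (φ.smulRight v)
  have h2 : (φ.smulRight v : W →ₗ[k] V) ∘ₗ f = (φ ∘ₗ f).smulRight v := by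
    ext x; simp
  rw [h2, LinearMap.trace_smulRight] at h1
  exact h1

/-- a nondegenerate pairing of finite dimensional spaces represents every functional -/
theorem exists_rep {A A' : Type*} [AddCommGroup A] [Module k A]
    [AddCommGroup A'] [Module k A'] [FiniteDimensional k A] [FiniteDimensional k A']
    (p : A' →ₗ[k] A →ₗ[k] k)
    (hr : ∀ b : A, (∀ x, p x b = 0) → b = 0) (hl : ∀ b : A', (∀ x, p b x = 0) → b = 0)
    (φ : A' →ₗ[k] k) : ∃ a : A, ∀ x, φ x = p x a := by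
  have hinj : Function.Injective p := by
    rw [← LinearMap.ker_eq_bot, LinearMap.ker_eq_bot']
    intro b hb
    exact hl b fun x => by rw [hb]; rfl
  have hinj2 : Function.Injective p.flip := by
    rw [← LinearMap.ker_eq_bot, LinearMap.ker_eq_bot']
    intro b hb
    exact hr b fun x => by
      have := LinearMap.congr_fun hb x
      simpa using this
  have h1 : finrank k A' ≤ finrank k A := by
    have := LinearMap.finrank_le_finrank_of_injective hinj
    simpa [Subspace.dual_finrank_eq] using this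
  have h2 : finrank k A ≤ finrank k A' := by
    have := LinearMap.finrank_le_finrank_of_injective hinj2
    simpa [Subspace.dual_finrank_eq] using this
  have h3 : finrank k A = finrank k (Module.Dual k A') := by
    rw [Subspace.dual_finrank_eq]; omega
  have hsurj : Function.Surjective p.flip :=
    (LinearMap.injective_iff_surjective_of_finrank_eq_finrank h3).1 hinj2
  obtain ⟨a, ha⟩ := hsurj φ
  exact ⟨a, fun x => by rw [← ha]; rfl⟩

/-- abstract duality: if `A0` is orthogonal to the `E'`-parts of the kernel of `(x,y) ↦ D'x + del y`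
then `(0, A0)` is in the range of the adjoint `(D, path)`. -/
theorem exists_of_orth {A A' B' E E' : Type*} [AddCommGroup A] [Module k A]
    [AddCommGroup A'] [Module k A'] [AddCommGroup B'] [Module k B']
    [AddCommGroup E] [Module k E] [AddCommGroup E'] [Module k E']
    {B : Type*} [AddCommGroup B] [Module k B]
    (pA : B' →ₗ[k] A →ₗ[k] k) (pB : A' →ₗ[k] B →ₗ[k] k) (pE : E' →ₗ[k] E →ₗ[k] k)
    (hA : ∀ φ : B' →ₗ[k] k, ∃ a : A, ∀ x, φ x = pA x a)
    (hB : ∀ b : B, (∀ x, pB x b = 0) → b = 0)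
    (hE : ∀ b : E, (∀ x, pE x b = 0) → b = 0)
    (D' : A' →ₗ[k] B') (del : E' →ₗ[k] B') (D : A →ₗ[k] B) (path : A →ₗ[k] E)
    (adj1 : ∀ x a, pA (D' x) a = pB x (D a)) (adj2 : ∀ x a, pA (del x) a = pE x (path a))
    (A0 : E) (h0 : ∀ x y, D' x + del y = 0 → pE y A0 = 0) :
    ∃ a, D a = 0 ∧ path a = A0 := by
  let L : A' × E' →ₗ[k] B' := D'.coprod del
  let Λ : A' × E' →ₗ[k] k := (pE.flip A0) ∘ₗ LinearMap.snd k A' E'
  have hΛ : Λ ∈ (LinearMap.ker L).dualAnnihilator := by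
    rw [Submodule.mem_dualAnnihilator]
    rintro ⟨x, y⟩ hxy
    have : D' x + del y = 0 := by simpa [L] using hxy
    simpa [Λ] using h0 x y this
  rw [← LinearMap.range_dualMap_eq_dualAnnihilator_ker] at hΛ
  obtain ⟨μ, hμ⟩ := hΛ
  obtain ⟨a, ha⟩ := hA μ
  have key : ∀ x y, pB x (D a) + pE y (path a) = pE y A0 := by
    intro x y
    have h1 : Λ (x, y) = μ (L (x, y)) := by rw [← hμ]; rfl
    have h2 : μ (L (x, y)) = pA (D' x) a + pA (del y) a := by
      rw [ha]; simp [L]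
    rw [h2, adj1, adj2] at h1
    rw [← h1]; simp [Λ]
  refine ⟨a, hB _ fun x => ?_, ?_⟩
  · have := key x 0; simpa using this
  · rw [← sub_eq_zero]
    apply hE
    intro y
    have := key 0 y
    rw [map_sub, ← this]; simp

/-- rank equality from adjointness -/
theorem finrank_range_eq {A A' : Type*} [AddCommGroup A] [Module k A]
    [AddCommGroup A'] [Module k A'] [FiniteDimensional k A] [FiniteDimensional k A']
    (p : A' →ₗ[k] A →ₗ[k] k)
    (hr : ∀ b : A, (∀ x, p x b = 0) → b = 0) (hl : ∀ b : A', (∀ x, p b x = 0) → b = 0)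
    (D' : A' →ₗ[k] A') (D : A →ₗ[k] A) (adj : ∀ x a, p (D' x) a = p x (D a)) :
    finrank k (LinearMap.range D') = finrank k (LinearMap.range D) ∧
      finrank k A' = finrank k A := by
  have hinj : Function.Injective p := by
    rw [← LinearMap.ker_eq_bot, LinearMap.ker_eq_bot']
    intro b hb
    exact hl b fun x => by rw [hb]; rfl
  have hinj2 : Function.Injective p.flip := by
    rw [← LinearMap.ker_eq_bot, LinearMap.ker_eq_bot']
    intro b hb
    exact hr b fun x => by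
      have := LinearMap.congr_fun hb x
      simpa using this
  have h1 : finrank k A' ≤ finrank k A := by
    have := LinearMap.finrank_le_finrank_of_injective hinj
    simpa [Subspace.dual_finrank_eq] using this
  have h2 : finrank k A ≤ finrank k A' := by
    have := LinearMap.finrank_le_finrank_of_injective hinj2
    simpa [Subspace.dual_finrank_eq] using this
  have h3 : finrank k A' = finrank k (Module.Dual k A) := by
    rw [Subspace.dual_finrank_eq]; omega
  let P : A' ≃ₗ[k] Module.Dual k A := LinearEquiv.ofInjectiveOfFinrankEq p hinj h3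
  have hP : ∀ x, P x = p x := fun x => rfl
  have h4 : D.dualMap ∘ₗ P.toLinearMap = P.toLinearMap ∘ₗ D' := by
    ext x a
    simp only [LinearMap.comp_apply, LinearEquiv.coe_coe, hP, LinearMap.dualMap_apply]
    exact (adj x a).symm
  have h5 : LinearMap.range D.dualMap = (LinearMap.range D').map P.toLinearMap := by
    rw [← LinearMap.range_comp, ← h4, LinearMap.range_comp, LinearEquiv.range,
      Submodule.map_top]
  have h6 : finrank k (LinearMap.range D.dualMap) = finrank k (LinearMap.range D) :=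
    LinearMap.finrank_range_dualMap_eq_finrank_range D
  refine ⟨?_, by omega⟩
  rw [← h6, h5]
  exact (LinearEquiv.finrank_map_eq P _).symm

end lin

/-! ### the trace pairing -/

section pairing

variable {T : Type u} {G : MG T} {k : Type v} [Field k] [Fintype T]
variable {X Y Z : Gob G k}

/-- trace pairing (all loops, also those at the frames) -/
noncomputable def P (f : X ⟶ Y) (g : Y ⟶ X) : k :=
  (∑ t, LinearMap.trace k (X.V t) (c2 (f ≫ g) t)) +
    ∑ t, LinearMap.trace k (X.W t) (cj g t ∘ₗ ci f t)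

@[simp] theorem P_add_left (f f' : X ⟶ Y) (g : Y ⟶ X) : P (f + f') g = P f g + P f' g := by
  simp only [P, Preadditive.add_comp, c2_add, map_add, Finset.sum_add_distrib, ci_add,
    LinearMap.comp_add]
  ring

@[simp] theorem P_add_right (f : X ⟶ Y) (g g' : Y ⟶ X) : P f (g + g') = P f g + P f g' := by
  simp only [P, Preadditive.comp_add, c2_add, map_add, Finset.sum_add_distrib, cj_add,
    LinearMap.add_comp]
  ring

@[simp] theorem P_smul_left (c : k) (f : X ⟶ Y) (g : Y ⟶ X) : P (c • f) g = c * P f g := by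
  simp only [P, Linear.smul_comp, c2_smul, map_smul, ci_smul, LinearMap.comp_smul, smul_eq_mul,
    mul_add, Finset.mul_sum]

@[simp] theorem P_smul_right (c : k) (f : X ⟶ Y) (g : Y ⟶ X) : P f (c • g) = c * P f g := by
  simp only [P, Linear.comp_smul, c2_smul, map_smul, cj_smul, LinearMap.smul_comp, smul_eq_mul,
    mul_add, Finset.mul_sum]

theorem P_sub_left (f f' : X ⟶ Y) (g : Y ⟶ X) : P (f - f') g = P f g - P f' g := by
  have : f - f' = f + (-1 : k) • f' := by rw [neg_one_smul]; abel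
  rw [this, P_add_left, P_smul_left]; ring

theorem P_sub_right (f : X ⟶ Y) (g g' : Y ⟶ X) : P f (g - g') = P f g - P f g' := by
  have : g - g' = g + (-1 : k) • g' := by rw [neg_one_smul]; abel
  rw [this, P_add_right, P_smul_right]; ring

theorem P_neg_right (f : X ⟶ Y) (g : Y ⟶ X) : P f (-g) = - P f g := by
  have : -g = (-1 : k) • g := by rw [neg_one_smul]
  rw [this, P_smul_right]; ring


/-- the pairing is symmetric -/
theorem P_symm (f : X ⟶ Y) (g : Y ⟶ X) : P f g = P g f := by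
  unfold P
  simp only [c2_comp, map_add, map_sum, Finset.sum_add_distrib]
  have e1 : ∑ t, LinearMap.trace k (X.V t) (c2 g t ∘ₗ c0 f t) =
      ∑ t, LinearMap.trace k (Y.V t) (c0 f t ∘ₗ c2 g t) :=
    Finset.sum_congr rfl fun t _ => LinearMap.trace_comp_comm' _ _
  have e2 : ∑ t, LinearMap.trace k (X.V t) (c0 g t ∘ₗ c2 f t) =
      ∑ t, LinearMap.trace k (Y.V t) (c2 f t ∘ₗ c0 g t) :=
    Finset.sum_congr rfl fun t _ => LinearMap.trace_comp_comm' _ _
  have e3 : ∑ t, LinearMap.trace k (X.V t) (ci g t ∘ₗ cj f t) =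
      ∑ t, LinearMap.trace k (Y.W t) (cj f t ∘ₗ ci g t) :=
    Finset.sum_congr rfl fun t _ => LinearMap.trace_comp_comm' _ _
  have e4 : ∑ t, LinearMap.trace k (X.W t) (cj g t ∘ₗ ci f t) =
      ∑ t, LinearMap.trace k (Y.V t) (ci f t ∘ₗ cj g t) :=
    Finset.sum_congr rfl fun t _ => LinearMap.trace_comp_comm' _ _
  have e5 : ∑ t, ∑ s, ∑ a : G.E t s, LinearMap.trace k (X.V t) (c1 g (G.rev a) ∘ₗ c1 f a)
      = ∑ t, ∑ s, ∑ a : G.E t s,
        LinearMap.trace k (Y.V t) (c1 f (G.rev a) ∘ₗ c1 g a) := by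
    rw [Finset.sum_comm]
    refine Finset.sum_congr rfl fun s _ => Finset.sum_congr rfl fun t _ => ?_
    have : ∀ a : G.E t s, LinearMap.trace k (X.V t) (c1 g (G.rev a) ∘ₗ c1 f a) =
        LinearMap.trace k (Y.V s) (c1 f (G.rev (G.rev a)) ∘ₗ c1 g (G.rev a)) := by
      intro a
      rw [LinearMap.trace_comp_comm', G.rev_rev]
    simp_rw [this]
    exact Fintype.sum_equiv
      (⟨G.rev, G.rev, fun a => G.rev_rev a, fun a => G.rev_rev a⟩ : G.E t s ≃ G.E s t)
      _ (fun b => LinearMap.trace k (Y.V s) (c1 f (G.rev b) ∘ₗ c1 g b)) (fun a => rfl)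
  rw [e1, e2, e3, e4, e5]
  ring

/-- general associativity of the pairing, with the correction at the frames -/
theorem P_assoc (f : X ⟶ Y) (h : Y ⟶ Z) (g : Z ⟶ X) :
    P (f ≫ h) g + ∑ t, LinearMap.trace k (X.W t) (cW g t ∘ₗ cj h t ∘ₗ ci f t) =
      P f (h ≫ g) + ∑ t, LinearMap.trace k (X.W t) (cj g t ∘ₗ ci h t ∘ₗ cW f t) := by
  have e1 : ∑ t, LinearMap.trace k (X.W t) (cj g t ∘ₗ ci (f ≫ h) t) =
      ∑ t, LinearMap.trace k (X.W t) (cj g t ∘ₗ ci h t ∘ₗ cW f t) +
      ∑ t, LinearMap.trace k (X.W t) (cj g t ∘ₗ c0 h t ∘ₗ ci f t) := by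
    rw [← Finset.sum_add_distrib]
    refine Finset.sum_congr rfl fun t _ => ?_
    rw [← map_add, ci_comp, LinearMap.comp_add]
  have e2 : ∑ t, LinearMap.trace k (X.W t) (cj (h ≫ g) t ∘ₗ ci f t) =
      ∑ t, LinearMap.trace k (X.W t) (cj g t ∘ₗ c0 h t ∘ₗ ci f t) +
      ∑ t, LinearMap.trace k (X.W t) (cW g t ∘ₗ cj h t ∘ₗ ci f t) := by
    rw [← Finset.sum_add_distrib]
    refine Finset.sum_congr rfl fun t _ => ?_
    rw [← map_add, cj_comp, LinearMap.add_comp, LinearMap.comp_assoc, LinearMap.comp_assoc]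
  unfold P
  rw [e1, e2, Category.assoc]
  ring

/-- rotation, first form: `g` without frame part -/
theorem P_rot1 (f : X ⟶ Y) (h : Y ⟶ Z) {g : Z ⟶ X} (hg : g ∈ Cs Z X) :
    P (f ≫ h) g = P f (h ≫ g) +
      ∑ t, LinearMap.trace k (X.W t) (cj g t ∘ₗ ci h t ∘ₗ cW f t) := by
  rw [← P_assoc]
  simp [hg _]

/-- rotation, second form: `h`, `g` without frame part -/
theorem P_rot2 {h : Z ⟶ X} (f : X ⟶ Y) {g : Y ⟶ Z} (hh : h ∈ Cs Z X) (hg : g ∈ Cs Y Z) :
    P (h ≫ f) g = P f (g ≫ h) +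
      ∑ t, LinearMap.trace k (X.W t) (cj h t ∘ₗ ci g t ∘ₗ cW f t) := by
  have h1 := P_assoc g h f
  have e1 : ∀ t, LinearMap.trace k (Y.W t) (cj f t ∘ₗ ci h t ∘ₗ cW g t) = 0 := by
    intro t; simp [hg t]
  have e2 : ∀ t, LinearMap.trace k (Y.W t) (cW f t ∘ₗ cj h t ∘ₗ ci g t) =
      LinearMap.trace k (X.W t) (cj h t ∘ₗ ci g t ∘ₗ cW f t) := by
    intro t
    rw [LinearMap.trace_comp_comm', LinearMap.comp_assoc]
  simp only [e1, e2, Finset.sum_const_zero, add_zero] at h1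
  rw [P_symm (h ≫ f) g, ← h1, P_symm (g ≫ h) f]

/-- conjugation by parity -/
theorem P_bar (f : X ⟶ Y) {g : Y ⟶ X} (hg : g ∈ Cs Y X) : P (bar f) g = P f (bar g) := by
  have h1 : P (gam X ≫ (f ≫ gam Y)) g = P (f ≫ gam Y) (g ≫ gam X) := by
    have a1 := P_assoc (gam X) (f ≫ gam Y) g
    have a2 := P_assoc (f ≫ gam Y) g (gam X)
    have b1 : ∀ t, LinearMap.trace k (X.W t) (cW g t ∘ₗ cj (f ≫ gam Y) t ∘ₗ ci (gam X) t) = 0 := by
      intro t; simp
    have b2 : ∀ t, LinearMap.trace k (X.W t) (cj (gam X) t ∘ₗ ci g t ∘ₗ cW (f ≫ gam Y) t) = 0 := by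
      intro t; simp
    have b3 : ∀ t, LinearMap.trace k (X.W t) (cj g t ∘ₗ ci (f ≫ gam Y) t ∘ₗ cW (gam X) t) =
        LinearMap.trace k (X.W t) (cW (gam X) t ∘ₗ cj g t ∘ₗ ci (f ≫ gam Y) t) := by
      intro t
      rw [← LinearMap.comp_assoc, LinearMap.trace_comp_comm']
    simp only [b1, Finset.sum_const_zero, add_zero] at a1
    simp only [b2, Finset.sum_const_zero, add_zero] at a2
    rw [a1]
    simp only [b3]
    rw [P_symm (gam X), a2]
  have h2 : P (f ≫ gam Y) (g ≫ gam X) = P f (gam Y ≫ g ≫ gam X) := by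
    rw [P_rot1 f (gam Y) (g := g ≫ gam X) (Cs_comp_right hg _)]
    simp
  exact h1.trans h2

end pairing

/-! ### nondegeneracy -/

section nondeg

variable {T : Type u} {G : MG T} {k : Type v} [Field k] [Fintype T]
variable {X Y : Gob G k}

theorem P_nondeg_right {g : Y ⟶ X} (hg : g ∈ Cs Y X)
    (h : ∀ f ∈ Cs X Y, P f g = 0) : g = 0 := by
  classical
  have key : ∀ f : X ⟶ Y, f ∈ Cs X Y → P f g = 0 := h
  apply hm_ext
  · intro t
    rw [c0_zero]
    apply eq_zero_of_trace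
    intro φ
    have := h (mkH 0 0 0 0 0 (Pi.single t φ)) (fun _ => rfl)
    simp only [P, c2_comp, c0_mkH, cW_mkH, c1_mkH, ci_mkH, cj_mkH, c2_mkH, Pi.zero_apply,
      LinearMap.comp_zero, zero_add, add_zero, Finset.sum_const_zero, map_zero] at this
    rw [Finset.sum_eq_single t] at this
    · rw [Pi.single_eq_same, LinearMap.trace_comp_comm'] at this
      exact this
    · intro b _ hb
      rw [Pi.single_eq_of_ne hb]; simp
    · simp
  · intro t; rw [hg t]; rfl
  · intro s t a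
    rw [c1_zero]
    apply eq_zero_of_trace
    intro φ
    have := h (mkH 0 0 (Pi.single t (Pi.single s (Pi.single (G.rev a) φ))) 0 0 0) (fun _ => rfl)
    simp only [P, c2_comp, c0_mkH, cW_mkH, c1_mkH, ci_mkH, cj_mkH, c2_mkH, Pi.zero_apply,
      LinearMap.comp_zero, zero_add, add_zero, Finset.sum_const_zero, map_zero] at this
    rw [Finset.sum_eq_single t] at this
    · rw [Finset.sum_eq_single s] at this
      · rw [Finset.sum_eq_single (G.rev a)] at this
        · rw [Pi.single_eq_same, Pi.single_eq_same, Pi.single_eq_same, G.rev_rev,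
            LinearMap.trace_comp_comm'] at this
          exact this
        · intro b _ hb
          rw [Pi.single_eq_same, Pi.single_eq_same, Pi.single_eq_of_ne hb]; simp
        · simp
      · intro b _ hb
        rw [Pi.single_eq_same, Pi.single_eq_of_ne hb]; simp
      · simp
    · intro b _ hb
      rw [Pi.single_eq_of_ne hb]; simp
    · simp
  · intro t
    rw [ci_zero]
    apply eq_zero_of_trace
    intro φ
    have := h (mkH 0 0 0 0 (Pi.single t φ) 0) (fun _ => rfl)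
    simp only [P, c2_comp, c0_mkH, cW_mkH, c1_mkH, ci_mkH, cj_mkH, c2_mkH, Pi.zero_apply,
      LinearMap.comp_zero, zero_add, add_zero, Finset.sum_const_zero, map_zero] at this
    rw [Finset.sum_eq_single t] at this
    · rw [Pi.single_eq_same, LinearMap.trace_comp_comm'] at this
      exact this
    · intro b _ hb
      rw [Pi.single_eq_of_ne hb]; simp
    · simp
  · intro t
    rw [cj_zero]
    apply eq_zero_of_trace
    intro φ
    have := h (mkH 0 0 0 (Pi.single t φ) 0 0) (fun _ => rfl)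
    simp only [P, c2_comp, c0_mkH, cW_mkH, c1_mkH, ci_mkH, cj_mkH, c2_mkH, Pi.zero_apply,
      LinearMap.comp_zero, zero_add, add_zero, Finset.sum_const_zero, map_zero] at this
    rw [Finset.sum_eq_single t] at this
    · rw [Pi.single_eq_same, LinearMap.trace_comp_comm'] at this
      exact this
    · intro b _ hb
      rw [Pi.single_eq_of_ne hb]; simp
    · simp
  · intro t
    rw [c2_zero]
    apply eq_zero_of_trace
    intro φ
    have := h (mkH (Pi.single t φ) 0 0 0 0 0) (fun _ => rfl)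
    simp only [P, c2_comp, c0_mkH, cW_mkH, c1_mkH, ci_mkH, cj_mkH, c2_mkH, Pi.zero_apply,
      LinearMap.comp_zero, zero_add, add_zero, Finset.sum_const_zero, map_zero] at this
    rw [Finset.sum_eq_single t] at this
    · rw [Pi.single_eq_same, LinearMap.trace_comp_comm'] at this
      exact this
    · intro b _ hb
      rw [Pi.single_eq_of_ne hb]; simp
    · simp

theorem P_nondeg_left {f : X ⟶ Y} (hf : f ∈ Cs X Y)
    (h : ∀ g ∈ Cs Y X, P f g = 0) : f = 0 :=
  P_nondeg_right hf fun g hg => by rw [P_symm]; exact h g hg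

end nondeg

/-! ### the super pairing, `path`, duality -/

section dual

variable {T : Type u} {G : MG T} {k : Type v} [Field k] [Fintype T]
variable {X Y Z : TOb G k}

/-- super trace pairing -/
noncomputable def S (f : X.X ⟶ Y.X) (g : Y.X ⟶ X.X) : k := P f (g ≫ gam X.X)

/-- the path of a map: `cj a ∘ ci d - cj d ∘ ci (bar a)` -/
def path (X Y : TOb G k) (a : X.X ⟶ Y.X) (t : T) : X.X.W t →ₗ[k] Y.X.W t :=
  cj a t ∘ₗ ci X.d t - cj Y.d t ∘ₗ ci (bar a) t

theorem path_add (a b : X.X ⟶ Y.X) (t : T) : path X Y (a + b) t = path X Y a t + path X Y b t := by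
  simp only [path, cj_add, bar_add, ci_add, LinearMap.add_comp, LinearMap.comp_add]
  abel

theorem path_smul (c : k) (a : X.X ⟶ Y.X) (t : T) : path X Y (c • a) t = c • path X Y a t := by
  simp only [path, cj_smul, bar_smul, ci_smul, LinearMap.smul_comp, LinearMap.comp_smul, smul_sub]

theorem path_neg (a : X.X ⟶ Y.X) (t : T) : path X Y (-a) t = -path X Y a t := by
  have : -a = (-1 : k) • a := by rw [neg_one_smul]
  rw [this, path_smul, neg_one_smul]

theorem path_sub (a b : X.X ⟶ Y.X) (t : T) : path X Y (a - b) t = path X Y a t - path X Y b t := by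
  rw [sub_eq_add_neg, path_add, path_neg, sub_eq_add_neg]

/-- `path` as a linear map -/
def pathL (X Y : TOb G k) : (X.X ⟶ Y.X) →ₗ[k] (∀ t, X.X.W t →ₗ[k] Y.X.W t) where
  toFun a := path X Y a
  map_add' a b := funext fun t => path_add a b t
  map_smul' c a := funext fun t => path_smul c a t

theorem gV_ci_d (X : TOb G k) (t : T) : X.X.gV t ∘ₗ ci X.d t = -(ci X.d t ∘ₗ X.X.gW t) := by
  have h := congrArg (fun f => ci f t) X.dg
  simp only [ci_comp, ci_neg, ci_gam, cW_gam, c0_gam, LinearMap.zero_comp, LinearMap.comp_zero,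
    zero_add, add_zero] at h
  exact h

theorem gW_cj_d (X : TOb G k) (t : T) : X.X.gW t ∘ₗ cj X.d t = -(cj X.d t ∘ₗ X.X.gV t) := by
  have h := congrArg (fun f => cj f t) X.dg
  simp only [cj_comp, cj_neg, cj_gam, cW_gam, c0_gam, LinearMap.zero_comp, LinearMap.comp_zero,
    zero_add, add_zero] at h
  exact h



/-- the path of `bar a` -/
theorem path_bar (a : X.X ⟶ Y.X) (t : T) :
    path X Y (bar a) t = -(Y.X.gW t ∘ₗ path X Y a t ∘ₗ X.X.gW t) := by
  unfold path
  rw [bar_bar, cj_bar, ci_bar]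
  have h1 := gV_ci_d X t
  have h2 := gW_cj_d Y t
  have e1 : (Y.X.gW t ∘ₗ cj a t ∘ₗ X.X.gV t) ∘ₗ ci X.d t =
      -(Y.X.gW t ∘ₗ (cj a t ∘ₗ ci X.d t) ∘ₗ X.X.gW t) := by
    rw [LinearMap.comp_assoc, LinearMap.comp_assoc, h1, LinearMap.comp_neg, LinearMap.comp_neg,
      LinearMap.comp_assoc]
  have e2 : Y.X.gW t ∘ₗ (cj Y.d t ∘ₗ Y.X.gV t ∘ₗ ci a t ∘ₗ X.X.gW t) ∘ₗ X.X.gW t =
      -(cj Y.d t ∘ₗ ci a t) := by
    have : Y.X.gW t ∘ₗ (cj Y.d t ∘ₗ Y.X.gV t ∘ₗ ci a t ∘ₗ X.X.gW t) ∘ₗ X.X.gW t =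
        (Y.X.gW t ∘ₗ cj Y.d t) ∘ₗ Y.X.gV t ∘ₗ ci a t ∘ₗ (X.X.gW t ∘ₗ X.X.gW t) := by
      simp only [LinearMap.comp_assoc]
    rw [this, h2, X.X.gW_sq, LinearMap.comp_id, LinearMap.neg_comp, LinearMap.comp_assoc,
      ← LinearMap.comp_assoc _ (Y.X.gV t) (Y.X.gV t), Y.X.gV_sq, LinearMap.id_comp]
  rw [e1, LinearMap.sub_comp, LinearMap.comp_sub, e2]
  abel


/-- MAIN IDENTITY: adjointness of the differentials and of `del`, `path` -/
theorem S_D (F : X.X ⟶ Y.X) {a : Y.X ⟶ X.X} (ha : a ∈ Cs Y.X X.X) :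
    S (D X Y F) a = -S F (D Y X (bar a)) +
      ∑ t, LinearMap.trace k (X.X.W t) (X.X.gW t ∘ₗ path Y X a t ∘ₗ cW F t) := by
  have hag : a ≫ gam X.X ∈ Cs Y.X X.X := Cs_comp_right ha _
  have hd : X.d ∈ Cs X.X X.X := X.dW
  have h1 := P_rot1 F Y.d hag
  have h2 := P_rot2 (h := X.d) (bar F) hd hag
  have h3 := P_bar F (g := (a ≫ gam X.X) ≫ X.d) (Cs_comp_left _ hd)
  have h4 : bar ((a ≫ gam X.X) ≫ X.d) = (bar a ≫ X.d) ≫ gam X.X := by
    rw [bar_comp, bar_comp, bar_gam, TOb.bar_d, Category.assoc, Category.assoc, X.dg]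
    simp
  have t1 : ∀ t, LinearMap.trace k (X.X.W t) (cj (a ≫ gam X.X) t ∘ₗ ci Y.d t ∘ₗ cW F t) =
      LinearMap.trace k (X.X.W t) (X.X.gW t ∘ₗ (cj a t ∘ₗ ci Y.d t) ∘ₗ cW F t) := by
    intro t
    simp only [cj_comp, cj_gam, cW_gam, LinearMap.zero_comp, zero_add, LinearMap.comp_assoc]
  have t2 : ∀ t, LinearMap.trace k (X.X.W t)
        (cj X.d t ∘ₗ ci (a ≫ gam X.X) t ∘ₗ cW (bar F) t) =
      LinearMap.trace k (X.X.W t) (X.X.gW t ∘ₗ (cj X.d t ∘ₗ ci (bar a) t) ∘ₗ cW F t) := by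
    intro t
    have : cj X.d t ∘ₗ ci (a ≫ gam X.X) t ∘ₗ cW (bar F) t =
        (cj X.d t ∘ₗ ci (bar a) t ∘ₗ cW F t) ∘ₗ X.X.gW t := by
      simp only [ci_comp, ci_gam, c0_gam, LinearMap.zero_comp, zero_add, cW_bar, ci_bar,
        LinearMap.comp_assoc]
    rw [this, LinearMap.trace_comp_comm']
    simp only [LinearMap.comp_assoc]
  have t3 : ∀ t, LinearMap.trace k (X.X.W t) (X.X.gW t ∘ₗ path Y X a t ∘ₗ cW F t) =
      LinearMap.trace k (X.X.W t) (X.X.gW t ∘ₗ (cj a t ∘ₗ ci Y.d t) ∘ₗ cW F t) -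
      LinearMap.trace k (X.X.W t) (X.X.gW t ∘ₗ (cj X.d t ∘ₗ ci (bar a) t) ∘ₗ cW F t) := by
    intro t
    rw [← map_sub, path, LinearMap.sub_comp, LinearMap.comp_sub]
  simp only [t1] at h1
  simp only [t2] at h2
  simp only [t3, Finset.sum_sub_distrib]
  rw [S, D_apply, P_sub_left, h1, h2, h3, h4, S, D_apply, bar_bar, Preadditive.sub_comp,
    P_sub_right, ← Category.assoc Y.d a]
  ring

theorem S_D_Cs {f : X.X ⟶ Y.X} (hf : f ∈ Cs X.X Y.X) {a : Y.X ⟶ X.X} (ha : a ∈ Cs Y.X X.X) :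
    S (D X Y f) a = -S f (D Y X (bar a)) := by
  rw [S_D f ha]
  simp [hf _]

theorem S_nondeg_right {g : Y.X ⟶ X.X} (hg : g ∈ Cs Y.X X.X)
    (h : ∀ f ∈ Cs X.X Y.X, S f g = 0) : g = 0 := by
  have h1 : g ≫ gam X.X = 0 := P_nondeg_right (Cs_comp_right hg _) h
  have h2 : (g ≫ gam X.X) ≫ gam X.X = 0 := by rw [h1, Limits.zero_comp]
  simpa using h2

theorem S_nondeg_left {f : X.X ⟶ Y.X} (hf : f ∈ Cs X.X Y.X)
    (h : ∀ g ∈ Cs Y.X X.X, S f g = 0) : f = 0 := by
  apply P_nondeg_left hf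
  intro g hg
  have := h (g ≫ gam X.X) (Cs_comp_right hg _)
  simpa [S] using this

/-- the super pairing on `Cs` as a bilinear form -/
noncomputable def SB (X Y : TOb G k) : Cs X.X Y.X →ₗ[k] Cs Y.X X.X →ₗ[k] k :=
  LinearMap.mk₂ k (fun f g => S (X := X) (Y := Y) f.1 g.1)
    (fun f f' g => by simp [S])
    (fun c f g => by simp [S])
    (fun f g g' => by simp [S])
    (fun c f g => by simp [S])

@[simp] theorem SB_apply (f : Cs X.X Y.X) (g : Cs Y.X X.X) : SB X Y f g = S f.1 g.1 := rfl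

theorem SB_right {g : Cs Y.X X.X} (h : ∀ f, SB X Y f g = 0) : g = 0 :=
  Subtype.ext (S_nondeg_right g.2 fun f hf => h ⟨f, hf⟩)

theorem SB_left {f : Cs X.X Y.X} (h : ∀ g, SB X Y f g = 0) : f = 0 :=
  Subtype.ext (S_nondeg_left f.2 fun g hg => h ⟨g, hg⟩)

/-- `bar` on `Cs` -/
def barC (X Y : Gob G k) : Cs X Y ≃ₗ[k] Cs X Y where
  toFun f := ⟨bar f.1, bar_mem_Cs f.2⟩
  invFun f := ⟨bar f.1, bar_mem_Cs f.2⟩
  map_add' f g := Subtype.ext (by simp)
  map_smul' c f := Subtype.ext (by simp)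
  left_inv f := Subtype.ext (by simp)
  right_inv f := Subtype.ext (by simp)

@[simp] theorem barC_coe (X Y : Gob G k) (f : Cs X Y) : (barC X Y f : X ⟶ Y) = bar f.1 := rfl

/-- the adjoint differential -/
def adjD (X Y : TOb G k) : Cs X.X Y.X →ₗ[k] Cs X.X Y.X :=
  -(DC X Y ∘ₗ (barC X.X Y.X).toLinearMap)

theorem adjD_coe (f : Cs X.X Y.X) : (adjD X Y f : X.X ⟶ Y.X) = -D X Y (bar f.1) := rfl

theorem adjD_eq_zero_iff {f : Cs X.X Y.X} : adjD X Y f = 0 ↔ D X Y f.1 = 0 := by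
  constructor
  · intro h
    have h1 : -D X Y (bar f.1) = 0 := by rw [← adjD_coe, h]; rfl
    have h2 : bar (D X Y f.1) = 0 := by rw [bar_D, h1]
    have h3 : bar (bar (D X Y f.1)) = 0 := by rw [h2, bar_zero]
    simpa using h3
  · intro h
    apply Subtype.ext
    rw [adjD_coe, ← bar_D, h, bar_zero]; rfl

theorem SB_adj (f : Cs X.X Y.X) (a : Cs Y.X X.X) :
    SB X Y (DC X Y f) a = SB X Y f (adjD Y X a) := by
  rw [SB_apply, SB_apply, DC_coe, S_D_Cs f.2 a.2, adjD_coe]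
  simp only [S, Preadditive.neg_comp, P_neg_right]

/-- the homology dimension is symmetric -/
theorem hT_symm (X Y : TOb G k) : hT X Y = hT Y X := by
  obtain ⟨h1, h2⟩ := finrank_range_eq (SB X Y) (fun b hb => SB_right hb) (fun b hb => SB_left hb)
    (DC X Y) (adjD Y X) SB_adj
  have h3 : LinearMap.range (adjD Y X) = LinearMap.range (DC Y X) := by
    unfold adjD
    rw [LinearMap.range_neg, LinearMap.range_comp, LinearEquiv.range, Submodule.map_top]
  rw [h3] at h1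
  have e1 := hd_add_two_range (D := DC X Y) (fun x => DC_DC x)
  have e2 := hd_add_two_range (D := DC Y X) (fun x => DC_DC x)
  unfold hT
  omega

/-- frame part as a morphism -/
def frH (X Y : Gob G k) (ψ : ∀ t, X.W t →ₗ[k] Y.W t) : X ⟶ Y :=
  mkH 0 ψ 0 0 0 0

@[simp] theorem cW_frH (X Y : Gob G k) (ψ : ∀ t, X.W t →ₗ[k] Y.W t) (t : T) :
    cW (frH X Y ψ) t = ψ t := rfl

theorem D_mem (F : X.X ⟶ Y.X) : D X Y F ∈ Cs X.X Y.X := by
  intro t
  simp [D_apply]

/-- the connecting map `del` -/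
def del (X Y : TOb G k) : (∀ t, X.X.W t →ₗ[k] Y.X.W t) →ₗ[k] Cs X.X Y.X where
  toFun ψ := ⟨D X Y (frH X.X Y.X ψ), D_mem _⟩
  map_add' ψ ψ' := by
    apply Subtype.ext
    have : frH X.X Y.X (ψ + ψ') = frH X.X Y.X ψ + frH X.X Y.X ψ' := by
      apply hm_ext <;> intros <;> simp [frH]
    simp only [this, map_add, Submodule.coe_add]
  map_smul' c ψ := by
    apply Subtype.ext
    have : frH X.X Y.X (c • ψ) = c • frH X.X Y.X ψ := by
      apply hm_ext <;> intros <;> simp [frH]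
    simp only [this, map_smul, Submodule.coe_smul, RingHom.id_apply]

theorem del_coe (ψ : ∀ t, X.X.W t →ₗ[k] Y.X.W t) :
    (del X Y ψ : X.X ⟶ Y.X) = D X Y (frH X.X Y.X ψ) := rfl

/-- the pairing on the frames -/
noncomputable def WB (X Y : TOb G k) :
    (∀ t, X.X.W t →ₗ[k] Y.X.W t) →ₗ[k] (∀ t, Y.X.W t →ₗ[k] X.X.W t) →ₗ[k] k :=
  LinearMap.mk₂ k
    (fun ψ A => ∑ t, LinearMap.trace k (X.X.W t) (X.X.gW t ∘ₗ A t ∘ₗ ψ t))
    (fun f f' g => by
      rw [← Finset.sum_add_distrib]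
      exact Finset.sum_congr rfl fun t _ => by
        rw [← map_add, Pi.add_apply, LinearMap.comp_add, LinearMap.comp_add])
    (fun c f g => by
      rw [smul_eq_mul, Finset.mul_sum]
      exact Finset.sum_congr rfl fun t _ => by
        rw [Pi.smul_apply, LinearMap.comp_smul, LinearMap.comp_smul, map_smul, smul_eq_mul])
    (fun f g g' => by
      rw [← Finset.sum_add_distrib]
      exact Finset.sum_congr rfl fun t _ => by
        rw [← map_add, Pi.add_apply, LinearMap.add_comp, LinearMap.comp_add])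
    (fun c f g => by
      rw [smul_eq_mul, Finset.mul_sum]
      exact Finset.sum_congr rfl fun t _ => by
        rw [Pi.smul_apply, LinearMap.smul_comp, LinearMap.comp_smul, map_smul, smul_eq_mul])

theorem WB_apply (ψ : ∀ t, X.X.W t →ₗ[k] Y.X.W t) (A : ∀ t, Y.X.W t →ₗ[k] X.X.W t) :
    WB X Y ψ A = ∑ t, LinearMap.trace k (X.X.W t) (X.X.gW t ∘ₗ A t ∘ₗ ψ t) := rfl

theorem WB_right {A : ∀ t, Y.X.W t →ₗ[k] X.X.W t} (h : ∀ ψ, WB X Y ψ A = 0) : A = 0 := by
  classical
  funext t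
  have h1 : X.X.gW t ∘ₗ A t = 0 := by
    apply eq_zero_of_trace
    intro φ
    have := h (Pi.single t φ)
    rw [WB_apply, Finset.sum_eq_single t] at this
    · rw [Pi.single_eq_same, ← LinearMap.comp_assoc, LinearMap.trace_comp_comm'] at this
      exact this
    · intro b _ hb
      rw [Pi.single_eq_of_ne hb]; simp
    · simp
  have h2 : X.X.gW t ∘ₗ X.X.gW t ∘ₗ A t = 0 := by rw [h1, LinearMap.comp_zero]
  rw [← LinearMap.comp_assoc, X.X.gW_sq, LinearMap.id_comp] at h2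
  exact h2

/-- adjointness of `del` and `path` -/
theorem SB_del (ψ : ∀ t, X.X.W t →ₗ[k] Y.X.W t) (a : Cs Y.X X.X) :
    SB X Y (del X Y ψ) a = WB X Y ψ (path Y X a.1) := by
  rw [SB_apply, del_coe, S_D _ a.2, WB_apply]
  have : S (frH X.X Y.X ψ) (D Y X (bar a.1)) = 0 := by
    simp [S, P, frH]
  rw [this]
  simp

/-- **im path = (ker del)^⊥**: a family `A0 : X.W → Y.W` orthogonal to the frame parts of all the
cocycles `Y ⟶ X` of the full complex is the path of a cocycle in `Cs X Y`. -/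
theorem exists_path (A0 : ∀ t, X.X.W t →ₗ[k] Y.X.W t)
    (h : ∀ F : Y.X ⟶ X.X, D Y X F = 0 →
      ∑ t, LinearMap.trace k (Y.X.W t) (Y.X.gW t ∘ₗ A0 t ∘ₗ cW F t) = 0) :
    ∃ a ∈ Cs X.X Y.X, D X Y a = 0 ∧ ∀ t, path X Y a t = A0 t := by
  obtain ⟨a, h1, h2⟩ := exists_of_orth (SB Y X) (SB Y X) (WB Y X)
    (fun φ => exists_rep (SB Y X) (fun b hb => SB_right hb) (fun b hb => SB_left hb) φ)
    (fun b hb => SB_right hb) (fun b hb => WB_right hb)
    (DC Y X) (del Y X) (adjD X Y) ((pathL X Y).domRestrict (Cs X.X Y.X))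
    (fun x a => SB_adj x a) (fun x a => SB_del x a) A0 (by
      intro f ψ hfψ
      have h3 : D Y X (f.1 + frH Y.X X.X ψ) = 0 := by
        have h4 := congrArg (Subtype.val) hfψ
        simpa [del_coe] using h4
      have h5 := h _ h3
      rw [WB_apply]
      rw [← h5]
      refine Finset.sum_congr rfl fun t _ => ?_
      rw [cW_add, f.2 t, zero_add, cW_frH])
  refine ⟨a.1, a.2, adjD_eq_zero_iff.1 h1, fun t => ?_⟩
  exact congrFun h2 t


/-- **ker del = (im path)^⊥**: a family `ψ : X.W → Y.W` orthogonal to the paths of all the cocycles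
in `Cs Y X` is the frame part of a cocycle `X ⟶ Y` of the full complex. -/
theorem exists_lift (ψ : ∀ t, X.X.W t →ₗ[k] Y.X.W t)
    (h : ∀ a ∈ Cs Y.X X.X, D Y X a = 0 →
      ∑ t, LinearMap.trace k (X.X.W t) (X.X.gW t ∘ₗ path Y X a t ∘ₗ ψ t) = 0) :
    ∃ F : X.X ⟶ Y.X, D X Y F = 0 ∧ ∀ t, cW F t = ψ t := by
  obtain ⟨f, -, h2⟩ := exists_of_orth (SB X Y).flip
    (LinearMap.lsmul k k) (SB X Y).flip
    (fun φ => exists_rep (SB X Y).flip (fun b hb => SB_left hb) (fun b hb => SB_right hb) φ)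
    (fun b hb => by simpa using hb 1) (fun b hb => SB_left hb)
    (0 : k →ₗ[k] Cs Y.X X.X) (adjD Y X) (0 : Cs X.X Y.X →ₗ[k] k) (DC X Y)
    (fun x a => by simp) (fun x a => (SB_adj a x).symm) (-(del X Y ψ)) (by
      intro x a hxa
      have h3 : adjD Y X a = 0 := by simpa using hxa
      rw [adjD_eq_zero_iff] at h3
      rw [LinearMap.flip_apply, map_neg, LinearMap.neg_apply, SB_del, WB_apply, h a.1 a.2 h3,
        neg_zero])
  refine ⟨f.1 + frH X.X Y.X ψ, ?_, fun t => ?_⟩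
  · have h3 := congrArg Subtype.val h2
    rw [DC_coe] at h3
    rw [map_add, h3]
    simp [del_coe]
  · rw [cW_add, f.2 t, zero_add, cW_frH]


end dual

/-! ### parity versions -/

section parity

variable {T : Type u} {G : MG T} {k : Type v} [Field k] [Fintype T]
variable {X Y Z : TOb G k}

theorem D_bar_eq_zero {F : X.X ⟶ Y.X} (hF : D X Y F = 0) : D X Y (bar F) = 0 := by
  have := bar_D (X := X) (Y := Y) F
  rw [hF, bar_zero] at this
  exact neg_eq_zero.1 this.symm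

/-- conjugation by parity does not change the frame pairing with an even family -/
theorem WB_bar_even (A0 : ∀ t, X.X.W t →ₗ[k] Y.X.W t)
    (hA : ∀ t, Y.X.gW t ∘ₗ A0 t = A0 t ∘ₗ X.X.gW t) (F : Y.X ⟶ X.X) (t : T) :
    LinearMap.trace k (Y.X.W t) (Y.X.gW t ∘ₗ A0 t ∘ₗ cW (bar F) t) =
      LinearMap.trace k (Y.X.W t) (Y.X.gW t ∘ₗ A0 t ∘ₗ cW F t) := by
  have h1 : Y.X.gW t ∘ₗ A0 t ∘ₗ cW (bar F) t = (A0 t ∘ₗ cW F t) ∘ₗ Y.X.gW t := by
    rw [cW_bar, ← LinearMap.comp_assoc, hA t]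
    have : (A0 t ∘ₗ X.X.gW t) ∘ₗ X.X.gW t ∘ₗ cW F t ∘ₗ Y.X.gW t =
        A0 t ∘ₗ (X.X.gW t ∘ₗ X.X.gW t) ∘ₗ cW F t ∘ₗ Y.X.gW t := by
      simp only [LinearMap.comp_assoc]
    rw [this, X.X.gW_sq, LinearMap.id_comp, LinearMap.comp_assoc]
  rw [h1, LinearMap.trace_comp_comm']

/-- `exists_path` for an even family: only even cocycles have to be tested and the
cocycle `a` can be chosen odd. -/
theorem exists_path_odd (h2 : (2 : k) ≠ 0) (A0 : ∀ t, X.X.W t →ₗ[k] Y.X.W t)
    (hA : ∀ t, Y.X.gW t ∘ₗ A0 t = A0 t ∘ₗ X.X.gW t)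
    (h : ∀ F : Y.X ⟶ X.X, D Y X F = 0 → bar F = F →
      ∑ t, LinearMap.trace k (Y.X.W t) (Y.X.gW t ∘ₗ A0 t ∘ₗ cW F t) = 0) :
    ∃ a ∈ Cs X.X Y.X, D X Y a = 0 ∧ bar a = -a ∧ ∀ t, path X Y a t = A0 t := by
  obtain ⟨a, ha, hD, hp⟩ := exists_path A0 (by
    intro F hF
    have h3 := h (F + bar F) (by rw [map_add, hF, D_bar_eq_zero hF, add_zero])
      (by rw [bar_add, bar_bar, add_comm])
    have h4 : ∑ t, LinearMap.trace k (Y.X.W t) (Y.X.gW t ∘ₗ A0 t ∘ₗ cW (F + bar F) t) =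
        2 * ∑ t, LinearMap.trace k (Y.X.W t) (Y.X.gW t ∘ₗ A0 t ∘ₗ cW F t) := by
      rw [two_mul, ← Finset.sum_add_distrib]
      refine Finset.sum_congr rfl fun t _ => ?_
      rw [cW_add, LinearMap.comp_add, LinearMap.comp_add, map_add, WB_bar_even A0 hA]
    rw [h4] at h3
    exact (mul_eq_zero.1 h3).resolve_left h2)
  refine ⟨(2 : k)⁻¹ • (a - bar a), Submodule.smul_mem _ _ (Submodule.sub_mem _ ha (bar_mem_Cs ha)),
    ?_, ?_, fun t => ?_⟩
  · rw [map_smul, map_sub, hD, D_bar_eq_zero hD, sub_zero, smul_zero]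
  · rw [bar_smul, bar_sub, bar_bar, ← smul_neg, neg_sub]
  · rw [path_smul, path_sub, path_bar, hp t, sub_neg_eq_add]
    have : Y.X.gW t ∘ₗ A0 t ∘ₗ X.X.gW t = A0 t := by
      rw [← LinearMap.comp_assoc, hA t, LinearMap.comp_assoc, X.X.gW_sq, LinearMap.comp_id]
    rw [this, ← two_smul k (A0 t), smul_smul, inv_mul_cancel₀ h2, one_smul]

/-- the same with the plain trace: `A` even and orthogonal (plain trace) to the frame parts of all
the even cocycles; then `gW ∘ A` is the path of an odd cocycle. -/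
theorem exists_path_odd' (h2 : (2 : k) ≠ 0) (A : ∀ t, X.X.W t →ₗ[k] Y.X.W t)
    (hA : ∀ t, Y.X.gW t ∘ₗ A t = A t ∘ₗ X.X.gW t)
    (h : ∀ F : Y.X ⟶ X.X, D Y X F = 0 → bar F = F →
      ∑ t, LinearMap.trace k (Y.X.W t) (A t ∘ₗ cW F t) = 0) :
    ∃ a ∈ Cs X.X Y.X, D X Y a = 0 ∧ bar a = -a ∧ ∀ t, path X Y a t = Y.X.gW t ∘ₗ A t := by
  apply exists_path_odd h2 (fun t => Y.X.gW t ∘ₗ A t)
  · intro t
    show Y.X.gW t ∘ₗ Y.X.gW t ∘ₗ A t = (Y.X.gW t ∘ₗ A t) ∘ₗ X.X.gW t
    rw [LinearMap.comp_assoc, ← hA t]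
  · intro F hF hb
    rw [← h F hF hb]
    refine Finset.sum_congr rfl fun t _ => ?_
    show LinearMap.trace k (Y.X.W t) (Y.X.gW t ∘ₗ (Y.X.gW t ∘ₗ A t) ∘ₗ cW F t) = _
    rw [LinearMap.comp_assoc, ← LinearMap.comp_assoc, Y.X.gW_sq, LinearMap.id_comp]

/-- `exists_lift` for an even family: only odd cocycles `a` have to be tested and the lift can be
chosen even. -/
theorem exists_lift_even (h2 : (2 : k) ≠ 0) (ψ : ∀ t, X.X.W t →ₗ[k] Y.X.W t)
    (hψ : ∀ t, Y.X.gW t ∘ₗ ψ t = ψ t ∘ₗ X.X.gW t)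
    (h : ∀ a ∈ Cs Y.X X.X, D Y X a = 0 → bar a = -a →
      ∑ t, LinearMap.trace k (X.X.W t) (X.X.gW t ∘ₗ path Y X a t ∘ₗ ψ t) = 0) :
    ∃ F : X.X ⟶ Y.X, D X Y F = 0 ∧ bar F = F ∧ ∀ t, cW F t = ψ t := by
  obtain ⟨F, hD, hp⟩ := exists_lift ψ (by
    intro a ha hDa
    have h3 := h (a - bar a) (Submodule.sub_mem _ ha (bar_mem_Cs ha))
      (by rw [map_sub, hDa, D_bar_eq_zero hDa, sub_zero])
      (by rw [bar_sub, bar_bar, neg_sub])
    have h5 : ∀ t, LinearMap.trace k (X.X.W t) (X.X.gW t ∘ₗ path Y X (bar a) t ∘ₗ ψ t) =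
        -LinearMap.trace k (X.X.W t) (X.X.gW t ∘ₗ path Y X a t ∘ₗ ψ t) := by
      intro t
      have h6 : X.X.gW t ∘ₗ path Y X (bar a) t ∘ₗ ψ t =
          -((path Y X a t ∘ₗ ψ t) ∘ₗ X.X.gW t) := by
        rw [path_bar, LinearMap.neg_comp, LinearMap.comp_neg]
        congr 1
        have : X.X.gW t ∘ₗ (X.X.gW t ∘ₗ path Y X a t ∘ₗ Y.X.gW t) ∘ₗ ψ t =
            (X.X.gW t ∘ₗ X.X.gW t) ∘ₗ path Y X a t ∘ₗ (Y.X.gW t ∘ₗ ψ t) := by
          simp only [LinearMap.comp_assoc]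
        rw [this, X.X.gW_sq, LinearMap.id_comp, hψ t, LinearMap.comp_assoc]
      rw [h6, map_neg, LinearMap.trace_comp_comm']
    have h4 : ∑ t, LinearMap.trace k (X.X.W t) (X.X.gW t ∘ₗ path Y X (a - bar a) t ∘ₗ ψ t) =
        2 * ∑ t, LinearMap.trace k (X.X.W t) (X.X.gW t ∘ₗ path Y X a t ∘ₗ ψ t) := by
      rw [two_mul, ← Finset.sum_add_distrib]
      refine Finset.sum_congr rfl fun t _ => ?_
      rw [path_sub, LinearMap.sub_comp, LinearMap.comp_sub, map_sub, h5, sub_neg_eq_add]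
    rw [h4] at h3
    exact (mul_eq_zero.1 h3).resolve_left h2)
  refine ⟨(2 : k)⁻¹ • (F + bar F), ?_, ?_, fun t => ?_⟩
  · rw [map_smul, map_add, hD, D_bar_eq_zero hD, add_zero, smul_zero]
  · rw [bar_smul, bar_add, bar_bar, add_comm]
  · rw [cW_smul, cW_add, cW_bar, hp t]
    have : Y.X.gW t ∘ₗ ψ t ∘ₗ X.X.gW t = ψ t := by
      rw [← LinearMap.comp_assoc, hψ t, LinearMap.comp_assoc, X.X.gW_sq, LinearMap.comp_id]
    rw [this, ← two_smul k (ψ t), smul_smul, inv_mul_cancel₀ h2, one_smul]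



end parity

end Crest.Agent.R175.Dual_338
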