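import Crest.Agent.R175.PTD_450
import Crest.Agent.R175.Dual_338
import Crest.Agent.R175.Unfr_988

/-!
# Classes of T-framed objects up to homotopy equivalence (row 175, helper133)

`hset G k`   : `HIso` as a setoid on `TOb G k`;  `Cls G k` the quotient.
`AddCommMonoid (Cls G k)` with `⟦X⟧ + ⟦Y⟧ = ⟦dsum X Y⟧` and `0 = ⟦free G k 0 0⟧` (both `rfl`).
`hC`, `lamC`, `frC` : `hT`, `lam`, `frm` on classes.
`ds f g`, `dsC`  : direct sum of morphisms / of homotopy equivalences.
-/

set_option autoImplicit false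
set_option linter.unusedSectionVars false
set_option linter.unusedVariables false
set_option linter.unusedSimpArgs false

open CategoryTheory
open Crest.Agent.R175.PTA

namespace Crest.Agent.R175.Cls_133

universe u v

section ds

variable {T : Type u} {G : MG T} {k : Type v} [Field k] [Fintype T]

section gob

variable {X Y X' Y' X'' Y'' : Gob G k}

/-- the direct sum of two morphisms -/
def ds (f : X ⟶ X') (g : Y ⟶ Y') : gsum X Y ⟶ gsum X' Y' :=
  fst X Y ≫ f ≫ inl X' Y' + snd X Y ≫ g ≫ inr X' Y'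

theorem inl_ds (f : X ⟶ X') (g : Y ⟶ Y') : inl X Y ≫ ds f g = f ≫ inl X' Y' := by
  simp [ds, Preadditive.comp_add]

theorem inr_ds (f : X ⟶ X') (g : Y ⟶ Y') : inr X Y ≫ ds f g = g ≫ inr X' Y' := by
  simp [ds, Preadditive.comp_add]

theorem ds_fst (f : X ⟶ X') (g : Y ⟶ Y') : ds f g ≫ fst X' Y' = fst X Y ≫ f := by
  simp [ds, Preadditive.add_comp]

theorem ds_snd (f : X ⟶ X') (g : Y ⟶ Y') : ds f g ≫ snd X' Y' = snd X Y ≫ g := by
  simp [ds, Preadditive.add_comp]

theorem ds_comp (f : X ⟶ X') (g : Y ⟶ Y') (f' : X' ⟶ X'') (g' : Y' ⟶ Y'') :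
    ds f g ≫ ds f' g' = ds (f ≫ f') (g ≫ g') := by
  simp [ds, Preadditive.comp_add, Preadditive.add_comp]

theorem ds_add (f f' : X ⟶ X') (g g' : Y ⟶ Y') : ds (f + f') (g + g') = ds f g + ds f' g' := by
  simp only [ds, Preadditive.comp_add, Preadditive.add_comp]
  abel

theorem ds_sub (f f' : X ⟶ X') (g g' : Y ⟶ Y') : ds (f - f') (g - g') = ds f g - ds f' g' := by
  simp only [ds, Preadditive.comp_sub, Preadditive.sub_comp]
  abel

theorem ds_one : ds (𝟙 X) (𝟙 Y) = 𝟙 (gsum X Y) := by
  simp only [ds, Category.id_comp]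
  exact sum_one X Y

theorem ds_zero : ds (0 : X ⟶ X') (0 : Y ⟶ Y') = 0 := by
  simp [ds]

theorem bar_ds (f : X ⟶ X') (g : Y ⟶ Y') : bar (ds f g) = ds (bar f) (bar g) := by
  simp [ds]

end gob

variable {X Y Z X' Y' : TOb G k}

theorem dsum_d' : (dsum X Y).d = ds X.d Y.d := dsum_d X Y

theorem D_ds (f : X.X ⟶ X'.X) (g : Y.X ⟶ Y'.X) :
    D (dsum X Y) (dsum X' Y') (ds f g) = ds (D X X' f) (D Y Y' g) := by
  rw [D_apply, D_apply, D_apply, dsum_d', dsum_d', bar_ds, ds_comp, ds_comp, ds_sub]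

theorem D_inl : D X (dsum X Y) (inl X.X Y.X) = 0 := by
  rw [D_apply, dsum_d', inl_ds, bar_inl, sub_self]

theorem D_inr : D Y (dsum X Y) (inr X.X Y.X) = 0 := by
  rw [D_apply, dsum_d', inr_ds, bar_inr, sub_self]

theorem D_fst : D (dsum X Y) X (fst X.X Y.X) = 0 := by
  rw [D_apply, dsum_d', bar_fst, ds_fst, sub_self]

theorem D_snd : D (dsum X Y) Y (snd X.X Y.X) = 0 := by
  rw [D_apply, dsum_d', bar_snd, ds_snd, sub_self]

/-- the direct sum of two homotopy equivalences -/
def dsE (e : HEquiv X X') (e' : HEquiv Y Y') : HEquiv (dsum X Y) (dsum X' Y') where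
  p := ds e.p e'.p
  q := ds e.q e'.q
  s := ds e.s e'.s
  r := ds e.r e'.r
  bp := by rw [bar_ds, e.bp, e'.bp]
  bq := by rw [bar_ds, e.bq, e'.bq]
  Dp := by rw [D_ds, e.Dp, e'.Dp, ds_zero]
  Dq := by rw [D_ds, e.Dq, e'.Dq, ds_zero]
  pq := by rw [ds_comp, e.pq, e'.pq, ds_add, D_ds, ds_one]
  qp := by rw [ds_comp, e.qp, e'.qp, ds_add, D_ds, ds_one]

theorem HIso.dsum (h : HIso X X') (h' : HIso Y Y') : HIso (dsum X Y) (dsum X' Y') :=
  h.elim fun e => h'.elim fun e' => ⟨dsE e e'⟩

/-- commutativity -/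
def commE (X Y : TOb G k) : HEquiv (dsum X Y) (dsum Y X) :=
  HEquiv.ofIso (fst X.X Y.X ≫ inr Y.X X.X + snd X.X Y.X ≫ inl Y.X X.X)
    (fst Y.X X.X ≫ inr X.X Y.X + snd Y.X X.X ≫ inl X.X Y.X)
    (by simp) (by simp)
    (by
      rw [map_add, D_comp_left D_fst, D_comp_left D_snd, D_inr, D_inl]
      simp)
    (by
      rw [map_add, D_comp_left D_fst, D_comp_left D_snd, D_inr, D_inl]
      simp)
    (by
      simp only [Preadditive.comp_add, Preadditive.add_comp, Category.assoc, inr_fst_assoc,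
        inl_fst_assoc, inr_snd_assoc, inl_snd_assoc, Limits.comp_zero, add_zero, zero_add]
      rw [add_comm]
      rw [← sum_one X.X Y.X])
    (by
      simp only [Preadditive.comp_add, Preadditive.add_comp, Category.assoc, inr_fst_assoc,
        inl_fst_assoc, inr_snd_assoc, inl_snd_assoc, Limits.comp_zero, add_zero, zero_add]
      rw [add_comm]
      rw [← sum_one Y.X X.X])

/-- associativity -/
def assocE (X Y Z : TOb G k) : HEquiv (dsum (dsum X Y) Z) (dsum X (dsum Y Z)) :=
  HEquiv.ofIso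
    (fst (gsum X.X Y.X) Z.X ≫ fst X.X Y.X ≫ inl X.X (gsum Y.X Z.X)
      + fst (gsum X.X Y.X) Z.X ≫ snd X.X Y.X ≫ inl Y.X Z.X ≫ inr X.X (gsum Y.X Z.X)
      + snd (gsum X.X Y.X) Z.X ≫ inr Y.X Z.X ≫ inr X.X (gsum Y.X Z.X))
    (fst X.X (gsum Y.X Z.X) ≫ inl X.X Y.X ≫ inl (gsum X.X Y.X) Z.X
      + snd X.X (gsum Y.X Z.X) ≫ fst Y.X Z.X ≫ inr X.X Y.X ≫ inl (gsum X.X Y.X) Z.X
      + snd X.X (gsum Y.X Z.X) ≫ snd Y.X Z.X ≫ inr (gsum X.X Y.X) Z.X)
    (by simp) (by simp)
    (by
      have h1 := D_fst (X := dsum X Y) (Y := Z)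
      have h2 := D_snd (X := dsum X Y) (Y := Z)
      have h3 := D_fst (X := X) (Y := Y)
      have h4 := D_snd (X := X) (Y := Y)
      have h5 := D_inl (X := X) (Y := dsum Y Z)
      have h6 := D_inr (X := X) (Y := dsum Y Z)
      have h7 := D_inl (X := Y) (Y := Z)
      have h8 := D_inr (X := Y) (Y := Z)
      rw [map_add, map_add, D_comp_left h1, D_comp_left h3, h5, D_comp_left h1, D_comp_left h4,
        D_comp_left h7, h6, D_comp_left h2, D_comp_left h8, h6]
      simp)
    (by
      have h1 := D_fst (X := X) (Y := dsum Y Z)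
      have h2 := D_snd (X := X) (Y := dsum Y Z)
      have h3 := D_fst (X := Y) (Y := Z)
      have h4 := D_snd (X := Y) (Y := Z)
      have h5 := D_inl (X := dsum X Y) (Y := Z)
      have h6 := D_inr (X := dsum X Y) (Y := Z)
      have h7 := D_inl (X := X) (Y := Y)
      have h8 := D_inr (X := X) (Y := Y)
      rw [map_add, map_add, D_comp_left h1, D_comp_left h7, h5, D_comp_left h2, D_comp_left h3,
        D_comp_left h8, h5, D_comp_left h2, D_comp_left h4, h6]
      simp)
    (by
      have e1 := sum_one (gsum X.X Y.X) Z.X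
      have e2 := sum_one X.X Y.X
      simp only [Preadditive.comp_add, Preadditive.add_comp, Category.assoc, inr_fst_assoc,
        inl_fst_assoc, inr_snd_assoc, inl_snd_assoc, Limits.comp_zero, add_zero, zero_add]
      have e3 : fst (gsum X.X Y.X) Z.X ≫ fst X.X Y.X ≫ inl X.X Y.X ≫ inl (gsum X.X Y.X) Z.X +
          fst (gsum X.X Y.X) Z.X ≫ snd X.X Y.X ≫ inr X.X Y.X ≫ inl (gsum X.X Y.X) Z.X =
          fst (gsum X.X Y.X) Z.X ≫ inl (gsum X.X Y.X) Z.X := by
        have := congrArg (fun f => fst (gsum X.X Y.X) Z.X ≫ f ≫ inl (gsum X.X Y.X) Z.X) e2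
        simpa only [Preadditive.comp_add, Preadditive.add_comp, Category.assoc,
          Category.id_comp] using this
      rw [← e1, ← e3])
    (by
      have e1 := sum_one X.X (gsum Y.X Z.X)
      have e2 := sum_one Y.X Z.X
      simp only [Preadditive.comp_add, Preadditive.add_comp, Category.assoc, inr_fst_assoc,
        inl_fst_assoc, inr_snd_assoc, inl_snd_assoc, Limits.comp_zero, add_zero, zero_add]
      have e3 : snd X.X (gsum Y.X Z.X) ≫ fst Y.X Z.X ≫ inl Y.X Z.X ≫ inr X.X (gsum Y.X Z.X) +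
          snd X.X (gsum Y.X Z.X) ≫ snd Y.X Z.X ≫ inr Y.X Z.X ≫ inr X.X (gsum Y.X Z.X) =
          snd X.X (gsum Y.X Z.X) ≫ inr X.X (gsum Y.X Z.X) := by
        have := congrArg (fun f => snd X.X (gsum Y.X Z.X) ≫ f ≫ inr X.X (gsum Y.X Z.X)) e2
        simpa only [Preadditive.comp_add, Preadditive.add_comp, Category.assoc,
          Category.id_comp] using this
      rw [← e1, ← e3]
      abel)

instance zeroV (t : T) : Subsingleton ((freeG G k 0 0).V t) := by
  change Subsingleton (Fin 0 → k)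
  infer_instance

instance zeroW (t : T) : Subsingleton ((freeG G k 0 0).W t) := by
  change Subsingleton (Fin 0 → k)
  infer_instance

theorem zero_hom (X : Gob G k) (f : X ⟶ freeG G k 0 0) : f = 0 := by
  apply hm_ext <;> intros <;> apply LinearMap.ext <;> intro x <;> apply Subsingleton.elim

/-- the zero object -/
def zeroE (X : TOb G k) : HEquiv (dsum X (free G k 0 0)) X :=
  HEquiv.ofIso (fst X.X (freeG G k 0 0)) (inl X.X (freeG G k 0 0)) (bar_fst _ _) (bar_inl _ _)
    (D_fst (X := X) (Y := free G k 0 0)) (D_inl (X := X) (Y := free G k 0 0))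
    (by
      have h := sum_one X.X (freeG G k 0 0)
      rw [zero_hom _ (snd X.X (freeG G k 0 0)), Limits.zero_comp, add_zero] at h
      exact h)
    (inl_fst _ _)

end ds

/-! ### the quotient -/

section cls

variable {T : Type u} (G : MG T) (k : Type v) [Field k] [Fintype T]

/-- homotopy equivalence -/
instance hset : Setoid (TOb G k) where
  r := HIso
  iseqv := ⟨HIso.refl, HIso.symm, HIso.trans⟩

/-- classes of T-framed objects -/
abbrev Cls := Quotient (hset G k)

variable {G k}

theorem mk_eq {X Y : TOb G k} : (⟦X⟧ : Cls G k) = ⟦Y⟧ ↔ HIso X Y := Quotient.eq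

instance : Zero (Cls G k) := ⟨⟦free G k 0 0⟧⟩

instance : Add (Cls G k) :=
  ⟨Quotient.map₂ dsum fun _ _ h _ _ h' => HIso.dsum h h'⟩

theorem mk_add (X Y : TOb G k) : (⟦X⟧ : Cls G k) + ⟦Y⟧ = ⟦dsum X Y⟧ := rfl

theorem mk_zero : (0 : Cls G k) = ⟦free G k 0 0⟧ := rfl

theorem add_comm' (x y : Cls G k) : x + y = y + x := by
  induction x using Quotient.inductionOn
  induction y using Quotient.inductionOn
  exact Quotient.sound ⟨commE _ _⟩

theorem add_assoc' (x y z : Cls G k) : x + y + z = x + (y + z) := by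
  induction x using Quotient.inductionOn
  induction y using Quotient.inductionOn
  induction z using Quotient.inductionOn
  exact Quotient.sound ⟨assocE _ _ _⟩

theorem add_zero' (x : Cls G k) : x + 0 = x := by
  induction x using Quotient.inductionOn
  exact Quotient.sound ⟨zeroE _⟩

instance : AddCommMonoid (Cls G k) where
  add_assoc := add_assoc'
  zero_add x := by rw [add_comm', add_zero']
  add_zero := add_zero'
  add_comm := add_comm'
  nsmul := nsmulRec

/-- `hT` on classes -/
noncomputable def hC : Cls G k → Cls G k → ℕ :=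
  Quotient.lift₂ hT fun X Y X' Y' h h' => (h.hT_left Y).trans (h'.hT_right X')

@[simp] theorem hC_mk (X Y : TOb G k) : hC (⟦X⟧ : Cls G k) ⟦Y⟧ = hT X Y := rfl

theorem hC_add_right (z x y : Cls G k) : hC z (x + y) = hC z x + hC z y := by
  induction x using Quotient.inductionOn
  induction y using Quotient.inductionOn
  induction z using Quotient.inductionOn
  exact hT_dsum_right _ _ _


theorem hC_zero_right (x : Cls G k) : hC x 0 = 0 := by
  have h := hC_add_right x 0 0
  rw [add_zero] at h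
  omega


theorem hC_symm (x y : Cls G k) : hC x y = hC y x := by
  induction x using Quotient.inductionOn
  induction y using Quotient.inductionOn
  exact Dual_338.hT_symm _ _

theorem hC_sum_right {ι : Type*} (s : Finset ι) (x : Cls G k) (f : ι → Cls G k) :
    hC x (∑ i ∈ s, f i) = ∑ i ∈ s, hC x (f i) := by
  classical
  induction s using Finset.induction_on with
  | empty => simp [hC_zero_right]
  | insert a s ha ih => rw [Finset.sum_insert ha, Finset.sum_insert ha, hC_add_right, ih]


/-- `lam` on classes -/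
noncomputable def lamC : Cls G k → T → ℕ :=
  Quotient.lift lam fun X Y h => funext fun t => HIso.lam_eq h t

@[simp] theorem lamC_mk (X : TOb G k) (t : T) : lamC (⟦X⟧ : Cls G k) t = lam X t := rfl

theorem lamC_add (x y : Cls G k) (t : T) : lamC (x + y) t = lamC x t + lamC y t := by
  induction x using Quotient.inductionOn
  induction y using Quotient.inductionOn
  exact lam_dsum _ _ _

theorem lamC_zero (t : T) : lamC (0 : Cls G k) t = 0 := by
  have h := lamC_add (0 : Cls G k) 0 t
  rw [add_zero] at h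
  omega


variable [DecidableEq T]

variable (G k) in
/-- the frame at `t` as a class -/
def frC (t : T) : Cls G k := ⟦frm G k t⟧

theorem frC_def (t : T) : frC G k t = ⟦frm G k t⟧ := rfl

theorem hC_fr (s t : T) : hC (frC G k s) (frC G k t) = 0 := Unfr_988.hT_frm_frm s t

theorem lamC_fr (s t : T) : lamC (frC G k t) s = if s = t then 1 else 0 := by
  rw [frC_def, lamC_mk, Unfr_988.lam_frm, Pi.single_apply]


theorem hC_fr_left (X : TOb G k) (t : T) : hC (frC G k t) (⟦X⟧ : Cls G k) = dT X t := by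
  rw [hC_symm]; rfl

end cls

end Crest.Agent.R175.Cls_133
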