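import Crest.Agent.R175.PTA_534
import Crest.Agent.R175.PTB_534
import Crest.Agent.R175.Unfr_988
import Crest.Agent.R175.Cls_133
import Crest.Agent.R175.PTM_450

-- ▼ part R175/Grad1_128
section

/-!
Row 175 (S0263), block GRAD (helper128): LEMMA 175-131-1 (1) and the gauge, on minimal objects.

`X : FObj G k` minimal, `2 ≠ 0`, `hT X X = 0`.  Then there is an even family `F t : V t → V t` which
commutes with `B`, `F i = 0`, `j F = 0` and `F e - e F - e ∈ Sx X`, the space of the length-2 parts
of the commutators of the even length-1 maps with `(B, i, j)` (`exists_F`); `Sx X` is stable under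
`ad F` (`adF_mem`); for `s ∈ Sx X` the objects with `e` and `e - s` are isomorphic by an even closed
map `1 + g`, `g` of length 1 (`gauge`).
-/

set_option autoImplicit false
set_option linter.unusedSectionVars false

open CategoryTheory

namespace Crest.Agent.R175.Grad1_128

open Crest.Agent.R175.PTA

universe u v

variable {T : Type u} {k : Type v} [Field k] [Fintype T] {G : MG T}

/-- families of endomorphisms of the `V t`. -/
abbrev Fam (X : Gob G k) : Type (max u v) := ∀ t, X.V t →ₗ[k] X.V t

/-- the length-1 part of the differential. -/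
def d1 (X : FObj G k) : X.X ⟶ X.X :=
  mkH (fun _ => 0) (fun _ => 0) (fun _ _ a => X.B a) X.i X.j (fun _ => 0)

/-- a family in the length-2 slot. -/
def l2 {X : Gob G k} (e : Fam X) : X ⟶ X :=
  mkH (fun _ => 0) (fun _ => 0) (fun _ _ _ => 0) (fun _ => 0) (fun _ => 0) e

/-- a family in the length-0 slot. -/
def l0 {X : Gob G k} (F : Fam X) : X ⟶ X :=
  mkH F (fun _ => 0) (fun _ _ _ => 0) (fun _ => 0) (fun _ => 0) (fun _ => 0)


/-- even maps of length 1. -/
def L1 (X : Gob G k) : Submodule k (X ⟶ X) where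
  carrier := {g | bar g = g ∧ (∀ t, c0 g t = 0) ∧ (∀ t, cW g t = 0) ∧ ∀ t, c2 g t = 0}
  add_mem' := by
    rintro f g ⟨hf, hf0, hfW, hf2⟩ ⟨hg, hg0, hgW, hg2⟩
    refine ⟨by rw [bar_add, hf, hg], fun t => ?_, fun t => ?_, fun t => ?_⟩
    · rw [c0_add, hf0, hg0, add_zero]
    · rw [cW_add, hfW, hgW, add_zero]
    · rw [c2_add, hf2, hg2, add_zero]
  zero_mem' := ⟨bar_zero, fun _ => rfl, fun _ => rfl, fun _ => rfl⟩
  smul_mem' := by
    rintro c f ⟨hf, hf0, hfW, hf2⟩
    refine ⟨by rw [bar_smul, hf], fun t => ?_, fun t => ?_, fun t => ?_⟩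
    · rw [c0_smul, hf0, smul_zero]
    · rw [cW_smul, hfW, smul_zero]
    · rw [c2_smul, hf2, smul_zero]





/-- the length-0 part of `D f` vanishes for minimal objects. -/
theorem c0_D (X Y : FObj G k) (f : X.X ⟶ Y.X) (t : T) : c0 (D X.toTOb Y.toTOb f) t = 0 := by
  rw [D_apply]; simp

/-- if `h_T(X,X) = 0` every cocycle with separate frames is a coboundary. -/
theorem exact_of_hT {X Y : TOb G k} (h : hT X Y = 0) {f : X.X ⟶ Y.X} (hf : f ∈ Cs X.X Y.X)
    (hD : D X Y f = 0) : ∃ g ∈ Cs X.X Y.X, D X Y g = f := by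
  have h1 : LinearMap.range (DC X Y) ≤ LinearMap.ker (DC X Y) := range_le_ker DC_DC
  have h2 : LinearMap.range (DC X Y) = LinearMap.ker (DC X Y) := by
    refine Submodule.eq_of_le_of_finrank_le h1 ?_
    have h3 : hd (DC X Y) = 0 := h
    rw [hd] at h3
    omega
  have h4 : (⟨f, hf⟩ : Cs X.X Y.X) ∈ LinearMap.ker (DC X Y) := by
    rw [LinearMap.mem_ker]
    exact Subtype.ext hD
  rw [← h2] at h4
  obtain ⟨g, hg⟩ := h4
  exact ⟨g.1, g.2, congrArg Subtype.val hg⟩












end Crest.Agent.R175.Grad1_128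
end

-- ▼ part R175/Z1_788
section

/-!
Row 175 (S0263), helper788: a rigid object with a single (even) frame at `t` and `V t = 0` is the
frame object `x_t`.
-/

set_option autoImplicit false
set_option linter.unusedSectionVars false

open CategoryTheory

namespace Crest.Agent.R175.Z1_788

open Crest.Agent.R175.PTA

universe u v

variable {T : Type u} {k : Type v} [Field k] [Fintype T] [DecidableEq T] {G : MG T}

/-- the identity of `V` as a morphism -/
def idV (X : Gob G k) : X ⟶ X :=
  mkH (fun _ => LinearMap.id) (fun _ => 0) (fun _ _ _ => 0) (fun _ => 0) (fun _ => 0) (fun _ => 0)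

/-- if the frames are not connected with `V`, a rigid minimal object has `V = 0` -/
theorem V_zero_of_rigid (X : FObj G k) (hi : ∀ t, X.i t = 0) (hj : ∀ t, X.j t = 0)
    (h : hT X.toTOb X.toTOb = 0) (t : T) : Subsingleton (X.X.V t) := by
  have hc : idV X.X ∈ Cs X.X X.X := fun t => rfl
  have hb : bar (idV X.X) = idV X.X := by
    apply hm_ext <;> intros <;> simp [idV]
  have hd : D X.toTOb X.toTOb (idV X.X) = 0 := by
    rw [D_apply, hb]
    apply hm_ext <;> intros <;> simp [idV, hi, hj]
  obtain ⟨g, -, hg⟩ := Grad1_128.exact_of_hT (X := X.toTOb) (Y := X.toTOb) h hc hd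
  have h1 : c0 (D X.toTOb X.toTOb g) t = c0 (idV X.X) t := by rw [hg]
  rw [Unfr_988.c0_D (fun _ => rfl) (fun _ => rfl)] at h1
  refine ⟨fun x y => ?_⟩
  have hx : ∀ x : X.X.V t, x = 0 := fun x => by
    have := LinearMap.congr_fun h1 x
    simpa [idV] using this.symm
  rw [hx x, hx y]

theorem ext_W {X Y : Gob G k} (hX : ∀ s, Subsingleton (X.V s)) (hY : ∀ s, Subsingleton (Y.V s))
    {f g : X ⟶ Y} (h : ∀ s, cW f s = cW g s) : f = g := by
  apply hm_ext
  · intro s; apply LinearMap.ext; intro x
    have := hY s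
    exact Subsingleton.elim _ _
  · exact h
  · intro s t a; apply LinearMap.ext; intro x
    have := hY t
    exact Subsingleton.elim _ _
  · intro s; apply LinearMap.ext; intro x
    have := hY s
    exact Subsingleton.elim _ _
  · intro s; apply LinearMap.ext; intro x
    have := hX s
    rw [Subsingleton.elim x 0, map_zero, map_zero]
  · intro s; apply LinearMap.ext; intro x
    have := hY s
    exact Subsingleton.elim _ _

/-- **(Z1)** -/
theorem z1 (X : FObj G k) {t : T} (hW : ∀ s, lam X.toTOb s = (Pi.single t 1 : T → ℕ) s)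
    (hg : X.X.gW t = LinearMap.id) (hV : Subsingleton (X.X.V t))
    (h : hT X.toTOb X.toTOb = 0) : HIso X.toTOb (frm G k t) := by
  have hW0 : ∀ s, s ≠ t → Subsingleton (X.X.W s) := by
    intro s hs
    have h1 : Module.finrank k (X.X.W s) = 0 := by
      have := hW s
      rw [Pi.single_eq_of_ne hs] at this
      exact this
    exact Module.finrank_zero_iff.1 h1
  have hi : ∀ s, X.i s = 0 := by
    intro s
    by_cases hs : s = t
    · subst hs
      ext x
      exact Subsingleton.elim _ _
    · have := hW0 s hs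
      ext x
      rw [Subsingleton.elim x 0]; simp
  have hj : ∀ s, X.j s = 0 := by
    intro s
    by_cases hs : s = t
    · subst hs
      ext x
      rw [Subsingleton.elim x 0]; simp
    · have := hW0 s hs
      ext x
      exact Subsingleton.elim _ _
  have hV0 : ∀ s, Subsingleton (X.X.V s) := V_zero_of_rigid X hi hj h
  have hV1 : ∀ s, Subsingleton ((frm G k t).X.V s) := fun s => by
    show Subsingleton (Fin ((0 : T → ℕ) s) → k)
    have : IsEmpty (Fin ((0 : T → ℕ) s)) := by simp; infer_instance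
    infer_instance
  have he : ∀ s, Module.finrank k (X.X.W s) = Module.finrank k ((frm G k t).X.W s) := by
    intro s
    have h1 := hW s
    rw [← Unfr_988.lam_frm (G := G) (k := k) t s] at h1
    exact h1
  let φ : ∀ s, X.X.W s ≃ₗ[k] (frm G k t).X.W s := fun s => LinearEquiv.ofFinrankEq _ _ (he s)
  have hgW : ∀ s, X.X.gW s = LinearMap.id := by
    intro s
    by_cases hs : s = t
    · subst hs; exact hg
    · have := hW0 s hs
      ext x
      exact Subsingleton.elim _ _
  have hgW' : ∀ s, (frm G k t).X.gW s = LinearMap.id := fun s => rfl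
  let p : X.X ⟶ (frm G k t).X := mkH (fun _ => 0) (fun s => (φ s).toLinearMap) (fun _ _ _ => 0)
    (fun _ => 0) (fun _ => 0) (fun _ => 0)
  let q : (frm G k t).X ⟶ X.X := mkH (fun _ => 0) (fun s => (φ s).symm.toLinearMap)
    (fun _ _ _ => 0) (fun _ => 0) (fun _ => 0) (fun _ => 0)
  refine ⟨HEquiv.ofIso (X := X.toTOb) (Y := frm G k t) p q ?_ ?_ ?_ ?_ ?_ ?_⟩
  · refine ext_W hV0 hV1 fun s => ?_
    rw [cW_bar, hgW, hgW']
    rfl
  · refine ext_W hV1 hV0 fun s => ?_
    rw [cW_bar, hgW, hgW']
    rfl
  · refine ext_W hV0 hV1 fun s => ?_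
    rw [PTA.cW_D]; rfl
  · refine ext_W hV1 hV0 fun s => ?_
    rw [PTA.cW_D]; rfl
  · refine ext_W hV0 hV0 fun s => ?_
    show (φ s).symm.toLinearMap ∘ₗ (φ s).toLinearMap = LinearMap.id
    ext x; simp
  · refine ext_W hV1 hV1 fun s => ?_
    show (φ s).toLinearMap ∘ₗ (φ s).symm.toLinearMap = LinearMap.id
    apply LinearMap.ext; intro x; simp

/-- the parity of the frames is invariant -/
theorem gW_id {X Y : TOb G k} (e : HEquiv X Y) (t : T) (h : X.X.gW t = LinearMap.id) :
    Y.X.gW t = LinearMap.id := by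
  have h1 : cW (bar e.p) t = cW e.p t := by rw [e.bp]
  rw [cW_bar, h, LinearMap.comp_id] at h1
  have h2 := e.symm.cW_pq t
  change cW e.p t ∘ₗ cW e.q t = LinearMap.id at h2
  calc Y.X.gW t = Y.X.gW t ∘ₗ (cW e.p t ∘ₗ cW e.q t) := by rw [h2, LinearMap.comp_id]
    _ = (Y.X.gW t ∘ₗ cW e.p t) ∘ₗ cW e.q t := rfl
    _ = LinearMap.id := by rw [h1, h2]

theorem gW_id_of_HIso {X Y : TOb G k} (e : HIso X Y) (t : T) (h : X.X.gW t = LinearMap.id) :
    Y.X.gW t = LinearMap.id := e.elim fun e => gW_id e t h

/-- **(Z1)** for objects which are not minimal -/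
theorem z1_tob (hmin : ∀ X : TOb G k, ∃ F : FObj G k, HIso X F.toTOb) (X : TOb G k) {t : T}
    (hW : ∀ s, lam X s = (Pi.single t 1 : T → ℕ) s) (hg : X.X.gW t = LinearMap.id)
    (hV : hT X (frm G k t) = 0) (h : hT X X = 0) : HIso X (frm G k t) := by
  obtain ⟨F, hF⟩ := hmin X
  refine hF.trans (z1 F ?_ ?_ ?_ ?_)
  · intro s
    rw [← hW s, hF.lam_eq s]
  · exact gW_id_of_HIso hF t hg
  · rw [hF.hT_left, Unfr_988.hT_frm_right] at hV
    exact Module.finrank_zero_iff.1 hV
  · rw [← hF.hT_left, ← hF.hT_right, h]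

end Crest.Agent.R175.Z1_788
end

-- ▼ part R175/EvW_788

/-!
Row 175 (S0263), helper788: the parity of the frames on classes, (Z1) on classes.

`EvC x` : the parity involution is `1` on the frames.  `z1C` : a rigid class with one (even) frame at
`t` and `d_t = 0` is the frame.
-/

set_option autoImplicit false
set_option linter.unusedSectionVars false

open CategoryTheory
open Crest.Agent.R175.PTA Crest.Agent.R175.Cls_133

namespace Crest.Agent.R175.EvW_788

universe u v

variable {T : Type u} {G : MG T} {k : Type v} [Field k] [Fintype T]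

/-- the parity involution is `1` on the frames -/
def EvT (X : TOb G k) : Prop := ∀ t, X.X.gW t = LinearMap.id

theorem evT_iff {X Y : TOb G k} (h : HIso X Y) : EvT X ↔ EvT Y := by
  classical
  exact ⟨fun hX t => Z1_788.gW_id_of_HIso h t (hX t), fun hY t => Z1_788.gW_id_of_HIso h.symm t (hY t)⟩

/-- the parity involution is `1` on the frames (classes) -/
def EvC : Cls G k → Prop := Quotient.lift EvT fun _ _ h => propext (evT_iff h)

@[simp] theorem evC_mk (X : TOb G k) : EvC (⟦X⟧ : Cls G k) ↔ EvT X := Iff.rfl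

variable [DecidableEq T]

theorem evC_frC (t : T) : EvC (frC G k t) := fun _ => rfl

/-- **(Z1)** for classes -/
theorem z1C (h2 : (2 : k) ≠ 0) {x : Cls G k} {t : T} (hl : ∀ s, lamC x s = if s = t then 1 else 0)
    (he : EvC x) (hd : hC (frC G k t) x = 0) (h : hC x x = 0) : x = frC G k t := by
  induction x using Quotient.inductionOn with
  | h X =>
    refine Quotient.sound (Z1_788.z1_tob (exists_min h2) X (t := t) ?_ (he t) ?_ h)
    · intro s
      have := hl s
      rw [lamC_mk] at this
      rw [this, Pi.single_apply]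
    · rw [hC_symm] at hd
      exact hd

end Crest.Agent.R175.EvW_788
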