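import Crest.Agent.R175.FmT_83
import Crest.Agent.R175.TwI_253
import Crest.Agent.R175.Fm4_27

/-!
# `F_m T_U ≅ T_U F_m`, concrete part (row 175, helper83)

Over `TwG_253` (`QG U`, `epsG`), `Fm4_27` (`ADat` : self-adjoint matrix functor).
* `com g t : A.V t → Hom(P_t, X)` the coordinates of `g : A ⟶ X`; `com_comp`, `lift`, `lift_eps`,
  `eq_of_eps` (universal property of `ε : Q_U X → X`)
* `kap : F Q_U X ≅ Q_U F X`, natural, compatible with `ε` (`U` stable under `N`)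
* `twComm Φ U hU hN : TwComm (addF Φ) (sphG U hU) (sphG U hU)`; with `TwComm.si` this is
  `F (T_U X) ≅ T_U (F X)` strictly.
-/

set_option autoImplicit false
set_option linter.unusedSectionVars false
set_option linter.unusedVariables false

open CategoryTheory

namespace Crest.Agent.R175.FmU_83

open PTA TwG_253 Fm_27

noncomputable section

/-! ### universal property of `ε` -/

section univ

universe v

variable {T : Type v} {G : MG T} {k : Type v} [Field k] [Fintype T]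

/-- the coordinates of `g : A ⟶ X` -/
def com {A X : Gob G k} (g : A ⟶ X) (t : T) : A.V t →ₗ[k] HP X t :=
  LinearMap.prod (c0 g t) (LinearMap.prod (LinearMap.pi fun _ => LinearMap.pi fun a => c1 g a)
    (LinearMap.prod (cj g t) (c2 g t)))

section com
variable {A B X Y : Gob G k} (g : A ⟶ X) (t : T) (x : A.V t)

theorem com_0 : (com g t x).1 = c0 g t x := rfl
theorem com_1 (s : T) (a : G.E t s) : (com g t x).2.1 s a = c1 g a x := rfl
theorem com_w : (com g t x).2.2.1 = cj g t x := rfl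
theorem com_2 : (com g t x).2.2.2 = c2 g t x := rfl


/-- maps out of an object without frames are determined by `com` -/
theorem ext_com {f g : A ⟶ X} (hW : ∀ t, Subsingleton (A.W t))
    (h : ∀ t x, com f t x = com g t x) : f = g := by
  have z : ∀ t (x : A.W t), x = 0 := fun t x => (hW t).elim _ _
  apply hm_ext
  · intro t; apply LinearMap.ext; intro x
    exact congrArg (fun p => p.1) (h t x)
  · intro t; apply LinearMap.ext; intro x; rw [z t x, map_zero, map_zero]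
  · intro s t a; apply LinearMap.ext; intro x
    exact congrArg (fun p => p.2.1 t a) (h s x)
  · intro t; apply LinearMap.ext; intro x; rw [z t x, map_zero, map_zero]
  · intro t; apply LinearMap.ext; intro x
    exact congrArg (fun p => p.2.2.1) (h t x)
  · intro t; apply LinearMap.ext; intro x
    exact congrArg (fun p => p.2.2.2) (h t x)

/-- no component except `c0` (and `cW`) -/
structure Pu (g : A ⟶ X) : Prop where
  p1 : ∀ (s t : T) (a : G.E s t), c1 g a = 0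
  pi : ∀ t, ci g t = 0
  pj : ∀ t, cj g t = 0
  p2 : ∀ t, c2 g t = 0

theorem Pu.comp {f : A ⟶ X} {g : X ⟶ Y} (hf : Pu f) (hg : Pu g) : Pu (f ≫ g) where
  p1 s t a := by rw [c1_comp, hf.p1, hg.p1]; simp
  pi t := by rw [ci_comp, hf.pi, hg.pi]; simp
  pj t := by rw [cj_comp, hf.pj, hg.pj]; simp
  p2 t := by rw [c2_comp, hf.p2, hg.p2, hf.pj]; simp [hf.p1]

theorem Pu.id : Pu (𝟙 A) where
  p1 _ _ _ := rfl
  pi _ := rfl
  pj _ := rfl
  p2 _ := rfl

theorem pu_mG (U : T → Prop) (f : A ⟶ X) : Pu (mG U f) where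
  p1 _ _ _ := rfl
  pi _ := rfl
  pj _ := rfl
  p2 _ := rfl

theorem com_pu {h : B ⟶ A} (hh : Pu h) (t : T) (x : B.V t) :
    com (h ≫ g) t x = com g t (c0 h t x) := by
  apply HP_ext
  · rw [com_0, com_0, c0_comp]; rfl
  · intro s a
    rw [com_1, com_1, c1_comp, hh.p1]; simp
  · rw [com_w, com_w, cj_comp, hh.pj]; simp
  · rw [com_2, com_2, c2_comp, hh.p2, hh.pj]; simp [hh.p1]

theorem com_eps (U : T → Prop) (t : T) (x : (QG U X).V t) : com (epsG U X) t x = qev U X t x := by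
  apply HP_ext
  · rfl
  · intro s a; rfl
  · rfl
  · rfl

end com

variable (U : T → Prop) {A X Y : Gob G k}

/-- the lift of `g : A ⟶ X` to `Q_U X` -/
def lift (g : A ⟶ X) : A ⟶ QG U X :=
  mkH (fun t => qin U X t ∘ₗ com g t) (fun _ => 0) (fun _ _ _ => 0) (fun _ => 0) (fun _ => 0)
    (fun _ => 0)

theorem pu_lift (g : A ⟶ X) : Pu (lift U g) where
  p1 _ _ _ := rfl
  pi _ := rfl
  pj _ := rfl
  p2 _ := rfl

theorem c0_lift (g : A ⟶ X) (t : T) (x : A.V t) : c0 (lift U g) t x = qin U X t (com g t x) := rfl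

variable {U}

theorem lift_eps (g : A ⟶ X) (hW : ∀ t, Subsingleton (A.W t))
    (hV : ∀ t, ¬ U t → Subsingleton (A.V t)) : lift U g ≫ epsG U X = g := by
  apply ext_com hW
  intro t x
  rw [com_pu _ (pu_lift U g), com_eps, c0_lift]
  by_cases h : U t
  · rw [qev_qin h]
  · have : x = 0 := (hV t h).elim _ _
    rw [this, map_zero, map_zero, map_zero]

theorem eq_of_eps {g₁ g₂ : A ⟶ QG U X} (p₁ : Pu g₁) (p₂ : Pu g₂)
    (h : g₁ ≫ epsG U X = g₂ ≫ epsG U X) : g₁ = g₂ := by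
  apply hm_ext
  · intro t; apply LinearMap.ext; intro x
    apply q_ext
    intro _
    have h1 : com (g₁ ≫ epsG U X) t x = com (g₂ ≫ epsG U X) t x := by rw [h]
    rw [com_pu _ p₁, com_pu _ p₂, com_eps, com_eps] at h1
    exact h1
  · intro t; apply LinearMap.ext; intro x; exact Subsingleton.elim _ _
  · intro s t a; rw [p₁.p1, p₂.p1]
  · intro t; rw [p₁.pi, p₂.pi]
  · intro t; rw [p₁.pj, p₂.pj]
  · intro t; rw [p₁.p2, p₂.p2]

end univ

/-! ### the functor `F` -/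

section F

variable {T : Type} {G : MG T} {k : Type} [Field k] [Fintype T] (Φ : ADat G k)

theorem pu_hom {A X : Gob G k} {g : A ⟶ X} (h : Pu g) : Pu (Φ.hom g) where
  p1 s t a := by
    rw [FDat.c1_hom, ← mat_zero]
    congr 1; funext b a; simp [h.p1]
  pi t := by
    rw [FDat.ci_hom, ← dg_zero]
    congr 1; funext a; simp [h.pi]
  pj t := by
    rw [FDat.cj_hom, ← dg_zero]
    congr 1; funext a; simp [h.pj]
  p2 t := by
    rw [FDat.c2_hom, ← dg_zero]
    congr 1; funext a; simp [h.p2]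

theorem pu_cup (X : Gob G k) : Pu (Φ.cup X) where
  p1 _ _ _ := rfl
  pi _ := rfl
  pj _ := rfl
  p2 _ := rfl

theorem pu_cap (X : Gob G k) : Pu (Φ.cap X) where
  p1 _ _ _ := rfl
  pi _ := rfl
  pj _ := rfl
  p2 _ := rfl

theorem pu_adj {A X : Gob G k} {g : Φ.F A ⟶ X} (h : Pu g) : Pu (Φ.adj A X g) :=
  (pu_cup Φ A).comp (pu_hom Φ h)

theorem pu_adj_symm {A X : Gob G k} {g : A ⟶ Φ.F X} (h : Pu g) : Pu ((Φ.adj A X).symm g) :=
  (pu_hom Φ h).comp (pu_cap Φ X)

theorem adj_comp_hom {A X Y : Gob G k} (g : Φ.F A ⟶ X) (h : X ⟶ Y) :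
    Φ.adj A X g ≫ Φ.hom h = Φ.adj A Y (g ≫ h) := by
  rw [Φ.adj_apply, Φ.adj_apply, Φ.hom_comp, Category.assoc]

theorem adj_symm_comp {A X Y : Gob G k} (g : A ⟶ Φ.F X) (h : X ⟶ Y) :
    (Φ.adj A X).symm g ≫ h = (Φ.adj A Y).symm (g ≫ Φ.hom h) := by
  rw [Φ.adj_symm_apply, Φ.adj_symm_apply, Φ.hom_comp, Category.assoc, Category.assoc, Φ.cap_nat]

theorem W_F {A : Gob G k} (h : ∀ t, Subsingleton (A.W t)) (t : T) :
    Subsingleton ((Φ.F A).W t) :=
  inferInstanceAs (Subsingleton (∀ a : Φ.Nb t, A.W a.1))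

theorem V_F {A : Gob G k} {U : T → Prop} (hN : ∀ a b, Φ.N a b → U a → U b)
    (h : ∀ t, ¬ U t → Subsingleton (A.V t)) (t : T) (ht : ¬ U t) :
    Subsingleton ((Φ.F A).V t) := by
  have : ∀ a : Φ.Nb t, Subsingleton (A.V a.1) := fun a => h a.1 fun hU => ht (hN _ _ a.2 hU)
  exact inferInstanceAs (Subsingleton (∀ a : Φ.Nb t, A.V a.1))

variable (U : T → Prop)

/-- `F Q_U X → Q_U F X` -/
def kap (X : Gob G k) : Φ.F (QG U X) ⟶ QG U (Φ.F X) := lift U (Φ.hom (epsG U X))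

/-- the inverse -/
def kapi (X : Gob G k) : QG U (Φ.F X) ⟶ Φ.F (QG U X) :=
  Φ.adj _ _ (lift U ((Φ.adj _ _).symm (epsG U (Φ.F X))))

theorem pu_kap (X : Gob G k) : Pu (kap Φ U X) := pu_lift U _
theorem pu_kapi (X : Gob G k) : Pu (kapi Φ U X) := pu_adj Φ (pu_lift U _)

variable {U}

theorem W_Q (X : Gob G k) (t : T) : Subsingleton ((QG U X).W t) := inferInstance

theorem V_Q (X : Gob G k) (t : T) (h : ¬ U t) : Subsingleton ((QG U X).V t) :=
  ⟨fun x y => by rw [q_zero h x, q_zero h y]⟩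

variable (hN : ∀ a b, Φ.N a b → U a → U b)

include hN

theorem kap_eps (X : Gob G k) : kap Φ U X ≫ epsG U (Φ.F X) = Φ.hom (epsG U X) :=
  lift_eps _ (W_F Φ (W_Q X)) (V_F Φ hN (V_Q X))

theorem kapi_eps (X : Gob G k) : kapi Φ U X ≫ Φ.hom (epsG U X) = epsG U (Φ.F X) := by
  rw [kapi, adj_comp_hom, lift_eps _ (W_F Φ (W_Q _)) (V_F Φ hN (V_Q _)),
    LinearEquiv.apply_symm_apply]

theorem kapi_kap (X : Gob G k) : kapi Φ U X ≫ kap Φ U X = 𝟙 _ := by
  apply eq_of_eps ((pu_kapi Φ U X).comp (pu_kap Φ U X)) Pu.id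
  rw [Category.assoc, kap_eps Φ hN, kapi_eps Φ hN, Category.id_comp]

theorem kap_kapi (X : Gob G k) : kap Φ U X ≫ kapi Φ U X = 𝟙 _ := by
  apply (Φ.adj (Φ.F (QG U X)) (QG U X)).symm.injective
  apply eq_of_eps (pu_adj_symm Φ ((pu_kap Φ U X).comp (pu_kapi Φ U X))) (pu_adj_symm Φ Pu.id)
  rw [adj_symm_comp, adj_symm_comp, Category.assoc, kapi_eps Φ hN, kap_eps Φ hN,
    Category.id_comp]

theorem kap_nat {X Y : Gob G k} (f : X ⟶ Y) :
    Φ.hom (mG U f) ≫ kap Φ U Y = kap Φ U X ≫ mG U (Φ.hom f) := by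
  apply eq_of_eps ((pu_hom Φ (pu_mG U f)).comp (pu_kap Φ U Y))
    ((pu_kap Φ U X).comp (pu_mG U (Φ.hom f)))
  rw [Category.assoc, Category.assoc, kap_eps Φ hN, eps_nat, ← Category.assoc, kap_eps Φ hN,
    ← Φ.hom_comp, ← Φ.hom_comp, eps_nat]

end F

section final

open TwA_253 FmT_83

variable {T : Type} {G : MG T} {k : Type} [Field k] [Fintype T]

/-- `F_m` as an additive functor -/
def addF (Φ : ADat G k) : AddF (Gob G k) (Gob G k) where
  o := Φ.F
  h f := Φ.hom f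
  h_id := Φ.hom_id
  h_comp := Φ.hom_comp
  h_add := Φ.hom_add

/-- **`F_m` commutes with `Q_U`** for `U` stable under `N` -/
def twComm (Φ : ADat G k) (U : T → Prop) (hU : ∀ s t, U s → U t → IsEmpty (G.E s t))
    (hN : ∀ a b, Φ.N a b → U a → U b) : TwComm (addF Φ) (sphG U hU) (sphG U hU) where
  κ := kap Φ U
  l := kapi Φ U
  κ_l := kap_kapi Φ hN
  l_κ := kapi_kap Φ hN
  κ_nat := kap_nat Φ hN
  κ_eps := kap_eps Φ hN

end final

end

end Crest.Agent.R175.FmU_83
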