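import Crest.Agent.R175.TwS_83
import Mathlib.CategoryTheory.Preadditive.AdditiveFunctor

/-!
# Twists and additive functors, abstract part (row 175, S0263-RES, helper428)

`mapTw R X` : image of a differential object under an additive functor `R : C ⥤ C'`.
`Cmp R F F'` : comparison `R (F.Q A) ≅ F'.Q (R A)` compatible with `m` and `eps`.
`Cmp.siT` : `R (T_F X) ≅ T_{F'} (R X)` strictly.
-/

universe v u v' u'

namespace Crest.Agent.R175.Res3_428

open CategoryTheory Preadditive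
open Crest.Agent.R175.TwA_253 Crest.Agent.R175.TwS_83

variable {C : Type u} [Category.{v} C] [Preadditive C]
variable {C' : Type u'} [Category.{v'} C'] [Preadditive C']

/-- image of a differential object -/
abbrev mapTw (R : C ⥤ C') [R.Additive] (X : Tw C) : Tw C' where
  X := R.obj X.X
  e := R.map X.e
  d := R.map X.d
  ee := by rw [← R.map_comp, X.ee, R.map_id]
  dd := by rw [← R.map_comp, X.dd, R.map_zero]
  de := by rw [← R.map_comp, X.de, R.map_neg, R.map_comp]


theorem mapTw_bar (R : C ⥤ C') [R.Additive] {X Y : Tw C} (f : X.X ⟶ Y.X) :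
    R.map (bar X Y f) = bar (mapTw R X) (mapTw R Y) (R.map f) := by
  simp [bar]

theorem mapTw_D (R : C ⥤ C') [R.Additive] {X Y : Tw C} (f : X.X ⟶ Y.X) :
    R.map (D X Y f) = D (mapTw R X) (mapTw R Y) (R.map f) := by
  simp [D, bar]

theorem mapTw_heq (R : C ⥤ C') [R.Additive] {X Y : Tw C} (H : TwA_253.HEq X Y) :
    TwA_253.HEq (mapTw R X) (mapTw R Y) := by
  obtain ⟨f, g, h, h', a, b, c, d, e, e'⟩ := H
  refine ⟨R.map f, R.map g, R.map h, R.map h', ?_, ?_, ?_, ?_, ?_, ?_⟩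
  · rw [← mapTw_bar, a]
  · rw [← mapTw_bar, b]
  · rw [← mapTw_D, c, R.map_zero]
  · rw [← mapTw_D, d, R.map_zero]
  · rw [← mapTw_D, ← R.map_comp, e, R.map_add, R.map_id]
  · rw [← mapTw_D, ← R.map_comp, e', R.map_add, R.map_id]

/-- comparison of the functors `Q` along `R` -/
structure Cmp (R : C ⥤ C') [R.Additive] (F : Sph C) (F' : Sph C') where
  α : ∀ A : C, R.obj (F.Q A) ⟶ F'.Q (R.obj A)
  β : ∀ A : C, F'.Q (R.obj A) ⟶ R.obj (F.Q A)
  αβ : ∀ A : C, α A ≫ β A = 𝟙 _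
  βα : ∀ A : C, β A ≫ α A = 𝟙 _
  nat : ∀ {A B : C} (f : A ⟶ B), R.map (F.m f) ≫ α B = α A ≫ F'.m (R.map f)
  eps : ∀ A : C, α A ≫ F'.eps (R.obj A) = R.map (F.eps A)

attribute [reassoc (attr := simp)] Cmp.αβ Cmp.βα
attribute [reassoc] Cmp.nat Cmp.eps

namespace Cmp

variable {R : C ⥤ C'} [R.Additive] {F : Sph C} {F' : Sph C'} (K : Cmp R F F')

/-- `R (T_F X) ≅ T_{F'} (R X)` -/
def siT (X : Tw C) (S : Sum2 (F.Q X.X) X.X) (S' : Sum2 (F'.Q (R.obj X.X)) (R.obj X.X)) :
    SI (mapTw R (T F X S)) (T F' (mapTw R X) S') where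
  f := R.map S.fst ≫ K.α X.X ≫ S'.inl + R.map S.snd ≫ S'.inr
  g := S'.fst ≫ K.β X.X ≫ R.map S.inl + S'.snd ≫ R.map S.inr
  fg := by
    have h : R.map (S.fst ≫ S.inl + S.snd ≫ S.inr) = 𝟙 _ := by rw [S.total, R.map_id]
    rw [R.map_add, R.map_comp, R.map_comp] at h
    simp only [add_comp, comp_add, Category.assoc, Sum2.inl_fst_assoc, Sum2.inl_snd_assoc,
      Sum2.inr_fst_assoc, Sum2.inr_snd_assoc, Limits.zero_comp, Limits.comp_zero, add_zero,
      zero_add, αβ_assoc]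
    exact h
  gf := by
    have h1 : R.map S.inl ≫ R.map S.fst = 𝟙 _ := by rw [← R.map_comp, S.inl_fst, R.map_id]
    have h2 : R.map S.inl ≫ R.map S.snd = 0 := by rw [← R.map_comp, S.inl_snd, R.map_zero]
    have h3 : R.map S.inr ≫ R.map S.fst = 0 := by rw [← R.map_comp, S.inr_fst, R.map_zero]
    have h4 : R.map S.inr ≫ R.map S.snd = 𝟙 _ := by rw [← R.map_comp, S.inr_snd, R.map_id]
    simp only [add_comp, comp_add, Category.assoc, reassoc_of% h1, reassoc_of% h2,
      reassoc_of% h3, reassoc_of% h4, Limits.zero_comp, Limits.comp_zero, add_zero,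
      zero_add, βα_assoc]
    exact S'.total
  fe := by
    have h1 : R.map S.inl ≫ R.map S.fst = 𝟙 _ := by rw [← R.map_comp, S.inl_fst, R.map_id]
    have h2 : R.map S.inl ≫ R.map S.snd = 0 := by rw [← R.map_comp, S.inl_snd, R.map_zero]
    have h3 : R.map S.inr ≫ R.map S.fst = 0 := by rw [← R.map_comp, S.inr_fst, R.map_zero]
    have h4 : R.map S.inr ≫ R.map S.snd = 𝟙 _ := by rw [← R.map_comp, S.inr_snd, R.map_id]
    simp only [R.map_add, R.map_neg, R.map_comp, add_comp, comp_add, neg_comp, comp_neg,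
      Category.assoc, reassoc_of% h1, reassoc_of% h2, reassoc_of% h3, reassoc_of% h4,
      Sum2.inl_fst_assoc, Sum2.inl_snd_assoc, Sum2.inr_fst_assoc, Sum2.inr_snd_assoc,
      Limits.zero_comp, Limits.comp_zero, add_zero, zero_add, neg_zero, K.nat_assoc]
  fd := by
    have h1 : R.map S.inl ≫ R.map S.fst = 𝟙 _ := by rw [← R.map_comp, S.inl_fst, R.map_id]
    have h2 : R.map S.inl ≫ R.map S.snd = 0 := by rw [← R.map_comp, S.inl_snd, R.map_zero]
    have h3 : R.map S.inr ≫ R.map S.fst = 0 := by rw [← R.map_comp, S.inr_fst, R.map_zero]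
    have h4 : R.map S.inr ≫ R.map S.snd = 𝟙 _ := by rw [← R.map_comp, S.inr_snd, R.map_id]
    simp only [R.map_add, R.map_neg, R.map_comp, add_comp, comp_add, neg_comp, comp_neg,
      Category.assoc, reassoc_of% h1, reassoc_of% h2, reassoc_of% h3, reassoc_of% h4,
      Sum2.inl_fst_assoc, Sum2.inl_snd_assoc, Sum2.inr_fst_assoc, Sum2.inr_snd_assoc,
      Limits.zero_comp, Limits.comp_zero, add_zero, zero_add, neg_zero, K.nat_assoc, K.eps_assoc]
    abel

end Cmp

end Crest.Agent.R175.Res3_428
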