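import Crest.Agent.R175.TU_788
import Crest.Agent.R175.AddF_61

/-!
# The twists `TU U hU`, `TV U hU` are additive functors on `TOb G k` (row 175, helper61)

* `D_ofTw`, `bar_ofTw`: `D` and `bar` between objects `ofTw`;
* `fU U hU : AddF (TU U hU)`, `fV U hU : AddF (TV U hU)`;
* corollaries: `TU_hiso`, `TU_dsum`, `TU_zero`, and the same for `TV`.
-/

set_option autoImplicit false
set_option linter.unusedSectionVars false

open CategoryTheory

namespace Crest.Agent.R175.TUadd_61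

open Crest.Agent.R175.PTA Crest.Agent.R175.TwG_253 Crest.Agent.R175.TU_788
open Crest.Agent.R175.TwA_253 (Tw Sum2 Sph)

universe v

noncomputable section

variable {T : Type v} {G : MG T} {k : Type v} [Field k] [Fintype T]

theorem bar_ofTw {A B : Tw (Gob G k)} (hp : FmU_83.Pu A.e) (hd : ∀ t, cW A.d t = 0)
    (hp' : FmU_83.Pu B.e) (hd' : ∀ t, cW B.d t = 0) (f : A.X ⟶ B.X) :
    bar (X := (ofTw A hp hd).X) (Y := (ofTw B hp' hd').X) f = TwA_253.bar A B f := by
  unfold bar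
  rw [gam_rg A hp, gam_rg B hp']
  rfl

theorem D_ofTw {A B : Tw (Gob G k)} (hp : FmU_83.Pu A.e) (hd : ∀ t, cW A.d t = 0)
    (hp' : FmU_83.Pu B.e) (hd' : ∀ t, cW B.d t = 0) (f : A.X ⟶ B.X) :
    D (ofTw A hp hd) (ofTw B hp' hd') f = TwA_253.D A B f := by
  refine (D_apply (X := ofTw A hp hd) (Y := ofTw B hp' hd') f).trans ?_
  exact congrArg (fun g : A.X ⟶ B.X => (f ≫ B.d - A.d ≫ g : A.X ⟶ B.X))
    (bar_ofTw hp hd hp' hd' f)


theorem D_toTw {X Y : TOb G k} (f : X.X ⟶ Y.X) : TwA_253.D (toTw X) (toTw Y) f = D X Y f := by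
  rw [D_apply]; rfl

section gen

variable (F : Sph (Gob G k)) (S : ∀ X : TOb G k, Sum2 (F.Q X.X) X.X)
  (S' : ∀ X : TOb G k, Sum2 X.X (F.Q X.X))

/-- the twist for an abstract spherical functor is an additive functor -/
def addT (hp : ∀ X : TOb G k, FmU_83.Pu (TwA_253.T F (toTw X) (S X)).e)
    (hd : ∀ (X : TOb G k) (t : T), cW (TwA_253.T F (toTw X) (S X)).d t = 0) :
    AddF_61.AddF (fun X : TOb G k => ofTw (TwA_253.T F (toTw X) (S X)) (hp X) (hd X)) where
  m {X Y} f := TwA_253.Tm F (toTw X) (toTw Y) (S X) (S Y) f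
  m_id X := TwA_253.Tm_id (F := F) (X := toTw X) (S := S X)
  m_comp {X Y Z} f g := TwA_253.Tm_comp (F := F) (X := toTw X) (Y := toTw Y) (Z := toTw Z)
    (S := S X) (S' := S Y) (S'' := S Z) f g
  m_add {X Y} f g := TwA_253.Tm_add (F := F) (X := toTw X) (Y := toTw Y)
    (S := S X) (S' := S Y) f g
  m_bar {X Y} f := (bar_ofTw _ _ _ _ _).trans (TwA_253.bar_Tm (F := F) (X := toTw X)
    (Y := toTw Y) (S := S X) (S' := S Y) f)
  m_D {X Y} f := (D_ofTw _ _ _ _ _).trans ((TwA_253.D_Tm (F := F) (X := toTw X)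
    (Y := toTw Y) (S := S X) (S' := S Y) f).trans
    (congrArg (TwA_253.Tm F (toTw X) (toTw Y) (S X) (S Y)) (D_toTw f)))

/-- the inverse twist for an abstract spherical functor is an additive functor -/
def addT' (hp : ∀ X : TOb G k, FmU_83.Pu (TwA_253.T' F (toTw X) (S' X)).e)
    (hd : ∀ (X : TOb G k) (t : T), cW (TwA_253.T' F (toTw X) (S' X)).d t = 0) :
    AddF_61.AddF (fun X : TOb G k => ofTw (TwA_253.T' F (toTw X) (S' X)) (hp X) (hd X)) where
  m {X Y} f := TwA_253.Tm' F (toTw X) (toTw Y) (S' X) (S' Y) f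
  m_id X := TwA_253.Tm'_id (F := F) (X := toTw X) (S := S' X)
  m_comp {X Y Z} f g := TwA_253.Tm'_comp (F := F) (X := toTw X) (Y := toTw Y) (Z := toTw Z)
    (S := S' X) (S' := S' Y) (S'' := S' Z) f g
  m_add {X Y} f g := TwA_253.Tm'_add (F := F) (X := toTw X) (Y := toTw Y)
    (S := S' X) (S' := S' Y) f g
  m_bar {X Y} f := (bar_ofTw _ _ _ _ _).trans (TwA_253.bar_Tm' (F := F) (X := toTw X)
    (Y := toTw Y) (S := S' X) (S' := S' Y) f)
  m_D {X Y} f := (D_ofTw _ _ _ _ _).trans ((TwA_253.D_Tm' (F := F) (X := toTw X)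
    (Y := toTw Y) (S := S' X) (S' := S' Y) f).trans
    (congrArg (TwA_253.Tm' F (toTw X) (toTw Y) (S' X) (S' Y)) (D_toTw f)))

end gen

variable (U : T → Prop) (hU : ∀ s t, U s → U t → IsEmpty (G.E s t))

/-- the twist is an additive functor -/
def fU : AddF_61.AddF (TU (k := k) U hU) :=
  addT (sphG U hU) (fun _ => sm _ _) (pu_tw U hU) (cW_tw U hU)

/-- the inverse twist is an additive functor -/
def fV : AddF_61.AddF (TV (k := k) U hU) :=
  addT' (sphG U hU) (fun _ => sm _ _) (pu_tw' U hU) (cW_tw' U hU)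

variable {U}

theorem TU_hiso {X Y : TOb G k} (h : HIso X Y) : HIso (TU U hU X) (TU U hU Y) := (fU U hU).hiso h

theorem TV_hiso {X Y : TOb G k} (h : HIso X Y) : HIso (TV U hU X) (TV U hU Y) := (fV U hU).hiso h

theorem TU_dsum (X Y : TOb G k) :
    HIso (TU U hU (dsum X Y)) (dsum (TU U hU X) (TU U hU Y)) := (fU U hU).hiso_dsum X Y




end

end Crest.Agent.R175.TUadd_61
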