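import Mathlib.CategoryTheory.Preadditive.AdditiveFunctor
import Mathlib.Tactic.Abel

-- ▼ part R175/TwA_253
section

/-!
# Twists, abstract part (row 175, helper253)

Differential objects with a parity involution in a preadditive category, the twist
`T X = cone (ε : Q X → X)` and its inverse `T' X = cocone (η : X → Q X)` for a functor `Q`
with the natural transformations of `Q = P ⊗ Hom(P, -)`, `P` spherical.
-/

universe v u

namespace Crest.Agent.R175.TwA_253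

open CategoryTheory

variable {C : Type u} [Category.{v} C] [Preadditive C]

/-- differential object with a parity involution -/
structure Tw (C : Type u) [Category.{v} C] [Preadditive C] where
  X : C
  e : X ⟶ X
  d : X ⟶ X
  ee : e ≫ e = 𝟙 X
  dd : d ≫ d = 0
  de : d ≫ e = -(e ≫ d)

attribute [reassoc (attr := simp)] Tw.ee Tw.dd

variable {X Y Z : Tw C}

/-- conjugation by the parity involutions -/
def bar (X Y : Tw C) (f : X.X ⟶ Y.X) : X.X ⟶ Y.X := X.e ≫ f ≫ Y.e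

/-- the differential of the Hom complex -/
def D (X Y : Tw C) (f : X.X ⟶ Y.X) : X.X ⟶ Y.X := f ≫ Y.d - X.d ≫ bar X Y f

theorem bar_bar (f : X.X ⟶ Y.X) : bar X Y (bar X Y f) = f := by
  simp [bar]

theorem bar_comp (f : X.X ⟶ Y.X) (g : Y.X ⟶ Z.X) :
    bar X Z (f ≫ g) = bar X Y f ≫ bar Y Z g := by
  simp [bar]

theorem bar_id : bar X X (𝟙 _) = 𝟙 _ := by simp [bar]

theorem bar_add (f g : X.X ⟶ Y.X) : bar X Y (f + g) = bar X Y f + bar X Y g := by
  simp [bar]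

theorem bar_sub (f g : X.X ⟶ Y.X) : bar X Y (f - g) = bar X Y f - bar X Y g := by
  simp [bar]

theorem bar_neg (f : X.X ⟶ Y.X) : bar X Y (-f) = - bar X Y f := by
  simp [bar]

theorem bar_d : bar X X X.d = - X.d := by
  simp [bar, Tw.de]


theorem D_comp (f : X.X ⟶ Y.X) (g : Y.X ⟶ Z.X) :
    D X Z (f ≫ g) = f ≫ D Y Z g + D X Y f ≫ bar Y Z g := by
  unfold D
  rw [bar_comp]
  simp [Preadditive.comp_sub, Preadditive.sub_comp]

theorem D_id : D X X (𝟙 _) = 0 := by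
  unfold D; rw [bar_id]; simp

theorem D_add (f g : X.X ⟶ Y.X) : D X Y (f + g) = D X Y f + D X Y g := by
  unfold D; rw [bar_add, Preadditive.add_comp, Preadditive.comp_add]; abel

theorem D_neg (f : X.X ⟶ Y.X) : D X Y (-f) = - D X Y f := by
  unfold D; rw [bar_neg, Preadditive.neg_comp, Preadditive.comp_neg]; abel


/-- even homotopy equivalence -/
def HEq (X Y : Tw C) : Prop :=
  ∃ (f : X.X ⟶ Y.X) (g : Y.X ⟶ X.X) (h : X.X ⟶ X.X) (h' : Y.X ⟶ Y.X),
    bar X Y f = f ∧ bar Y X g = g ∧ D X Y f = 0 ∧ D Y X g = 0 ∧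
    f ≫ g = 𝟙 _ + D X X h ∧ g ≫ f = 𝟙 _ + D Y Y h'

theorem HEq.refl (X : Tw C) : HEq X X :=
  ⟨𝟙 _, 𝟙 _, 0, 0, bar_id, bar_id, D_id, D_id, by simp [D, bar], by simp [D, bar]⟩

theorem HEq.symm (H : HEq X Y) : HEq Y X := by
  obtain ⟨f, g, h, h', a, b, c, d, e, e'⟩ := H
  exact ⟨g, f, h', h, b, a, d, c, e', e⟩

theorem D_sandwich {X' Y' : Tw C} {f : X.X ⟶ X'.X} {g : Y'.X ⟶ Y.X} {h : X'.X ⟶ Y'.X}
    (b : bar Y' Y g = g) (c : D X X' f = 0) (d : D Y' Y g = 0) :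
    D X Y (f ≫ h ≫ g) = f ≫ D X' Y' h ≫ g := by
  rw [D_comp, D_comp, c, d, b]
  simp

theorem HEq.trans (H : HEq X Y) (H' : HEq Y Z) : HEq X Z := by
  obtain ⟨f, g, h, h', a, b, c, d, e, e'⟩ := H
  obtain ⟨f₁, g₁, h₁, h₁', a₁, b₁, c₁, d₁, e₁, e₁'⟩ := H'
  refine ⟨f ≫ f₁, g₁ ≫ g, h + f ≫ h₁ ≫ g, h₁' + g₁ ≫ h' ≫ f₁, ?_, ?_, ?_, ?_, ?_, ?_⟩
  · rw [bar_comp, a, a₁]
  · rw [bar_comp, b, b₁]
  · rw [D_comp, c, c₁]; simp
  · rw [D_comp, d, d₁]; simp
  · rw [D_add, D_sandwich b c d, Category.assoc, ← Category.assoc f₁, e₁]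
    simp only [Preadditive.add_comp, Preadditive.comp_add, Category.id_comp]
    rw [e]; abel
  · rw [D_add, D_sandwich a₁ d₁ c₁, Category.assoc, ← Category.assoc g, e']
    simp only [Preadditive.add_comp, Preadditive.comp_add, Category.id_comp]
    rw [e₁']; abel

end Crest.Agent.R175.TwA_253
end

-- ▼ part R175/TwB_253
section

/-!
# Twists, abstract part 2 (row 175, helper253): spherical functors, `T`, `T'`, `T' T ≃ 1`
-/

universe v u

namespace Crest.Agent.R175.TwA_253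

open CategoryTheory

/-- a direct sum of two objects (explicit data) -/
structure Sum2 {C : Type u} [Category.{v} C] [Preadditive C] (A B : C) where
  S : C
  inl : A ⟶ S
  inr : B ⟶ S
  fst : S ⟶ A
  snd : S ⟶ B
  inl_fst : inl ≫ fst = 𝟙 A
  inl_snd : inl ≫ snd = 0
  inr_fst : inr ≫ fst = 0
  inr_snd : inr ≫ snd = 𝟙 B
  total : fst ≫ inl + snd ≫ inr = 𝟙 S

attribute [reassoc (attr := simp)] Sum2.inl_fst Sum2.inl_snd Sum2.inr_fst Sum2.inr_snd

/-- the functor `Q = P ⊗ Hom(P, -)`, `P` spherical, and its natural transformations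
(`m f = Q(f)`; `ε = eps`, `η = eta`, `u : v ↦ 1 ⊗ v`, `c` = trace). -/
structure Sph (C : Type u) [Category.{v} C] [Preadditive C] where
  Q : C → C
  m : ∀ {A B : C}, (A ⟶ B) → (Q A ⟶ Q B)
  m_id : ∀ A : C, m (𝟙 A) = 𝟙 (Q A)
  m_comp : ∀ {A B E : C} (f : A ⟶ B) (g : B ⟶ E), m (f ≫ g) = m f ≫ m g
  m_add : ∀ {A B : C} (f g : A ⟶ B), m (f + g) = m f + m g
  eps : ∀ A : C, Q A ⟶ A
  eta : ∀ A : C, A ⟶ Q A
  u : ∀ A : C, Q A ⟶ Q (Q A)
  c : ∀ A : C, Q (Q A) ⟶ Q A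
  eps_nat : ∀ {A B : C} (f : A ⟶ B), m f ≫ eps B = eps A ≫ f
  eta_nat : ∀ {A B : C} (f : A ⟶ B), f ≫ eta B = eta A ≫ m f
  u_nat : ∀ {A B : C} (f : A ⟶ B), m f ≫ u B = u A ≫ m (m f)
  c_nat : ∀ {A B : C} (f : A ⟶ B), m (m f) ≫ c B = c A ≫ m f
  u_eps1 : ∀ A : C, u A ≫ m (eps A) = 𝟙 (Q A)
  u_eps2 : ∀ A : C, u A ≫ eps (Q A) = 𝟙 (Q A)
  eta_c1 : ∀ A : C, eta (Q A) ≫ c A = 𝟙 (Q A)
  eta_c2 : ∀ A : C, m (eta A) ≫ c A = 𝟙 (Q A)
  u_c : ∀ A : C, u A ≫ c A = 0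
  id1 : ∀ A : C, c A ≫ eta (Q A) + m (eps A) ≫ u A =
    𝟙 (Q (Q A)) + c A ≫ eps A ≫ eta A ≫ u A
  id2 : ∀ A : C, c A ≫ m (eta A) + eps (Q A) ≫ u A =
    𝟙 (Q (Q A)) + c A ≫ eps A ≫ eta A ≫ u A

attribute [reassoc (attr := simp)] Sph.u_eps1 Sph.u_eps2 Sph.eta_c1 Sph.eta_c2 Sph.u_c
attribute [simp] Sph.m_id
attribute [reassoc] Sph.m_comp Sph.eps_nat Sph.eta_nat Sph.u_nat Sph.c_nat

variable {C : Type u} [Category.{v} C] [Preadditive C] (F : Sph C)

@[simp] theorem Sph.m_zero (A B : C) : F.m (0 : A ⟶ B) = 0 := by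
  have h := F.m_add (0 : A ⟶ B) 0
  rw [add_zero] at h
  exact left_eq_add.1 h

theorem Sph.m_neg {A B : C} (f : A ⟶ B) : F.m (-f) = - F.m f := by
  have h := F.m_add f (-f)
  rw [add_neg_cancel, F.m_zero] at h
  exact (neg_eq_of_add_eq_zero_right h.symm).symm

theorem Sph.m_sub {A B : C} (f g : A ⟶ B) : F.m (f - g) = F.m f - F.m g := by
  rw [sub_eq_add_neg, F.m_add, F.m_neg, sub_eq_add_neg]

theorem Sph.eta_nat' {A B : C} (f : A ⟶ B) : F.eta A ≫ F.m f = f ≫ F.eta B :=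
  (F.eta_nat f).symm

theorem Sph.u_nat' {A B : C} (f : A ⟶ B) : F.u A ≫ F.m (F.m f) = F.m f ≫ F.u B :=
  (F.u_nat f).symm

attribute [reassoc] Sph.eta_nat' Sph.u_nat'

variable {F}

/-- The twist: `T X = cone (ε : Q X → X)`. -/
abbrev T (F : Sph C) (X : Tw C) (S : Sum2 (F.Q X.X) X.X) : Tw C where
  X := S.S
  e := -(S.fst ≫ F.m X.e ≫ S.inl) + S.snd ≫ X.e ≫ S.inr
  d := -(S.fst ≫ F.m X.d ≫ S.inl) + S.fst ≫ F.eps X.X ≫ S.inr + S.snd ≫ X.d ≫ S.inr
  ee := by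
    simp only [Preadditive.add_comp, Preadditive.comp_add, Preadditive.neg_comp,
      Preadditive.comp_neg, Category.assoc, Sum2.inl_fst_assoc, Sum2.inl_snd_assoc,
      Sum2.inr_fst_assoc, Sum2.inr_snd_assoc, Limits.zero_comp, Limits.comp_zero,
      Tw.ee_assoc]
    rw [← F.m_comp_assoc, X.ee, F.m_id, Category.id_comp]
    simpa using S.total
  dd := by
    simp only [Preadditive.add_comp, Preadditive.comp_add, Preadditive.neg_comp,
      Preadditive.comp_neg, Category.assoc, Sum2.inl_fst_assoc, Sum2.inl_snd_assoc,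
      Sum2.inr_fst_assoc, Sum2.inr_snd_assoc, Limits.zero_comp, Limits.comp_zero,
      Tw.dd_assoc, F.eps_nat_assoc]
    rw [← F.m_comp_assoc, X.dd, F.m_zero]
    simp
  de := by
    simp only [Preadditive.add_comp, Preadditive.comp_add, Preadditive.neg_comp,
      Preadditive.comp_neg, Category.assoc, Sum2.inl_fst_assoc, Sum2.inl_snd_assoc,
      Sum2.inr_fst_assoc, Sum2.inr_snd_assoc, Limits.zero_comp, Limits.comp_zero,
      F.eps_nat_assoc]
    rw [← F.m_comp_assoc, ← F.m_comp_assoc, X.de, reassoc_of% X.de, F.m_neg]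
    simp only [Preadditive.neg_comp, Preadditive.comp_neg, Category.assoc]
    abel

/-- The inverse twist: `T' X = cocone (η : X → Q X)`. -/
abbrev T' (F : Sph C) (X : Tw C) (S : Sum2 X.X (F.Q X.X)) : Tw C where
  X := S.S
  e := S.fst ≫ X.e ≫ S.inl - S.snd ≫ F.m X.e ≫ S.inr
  d := S.fst ≫ X.d ≫ S.inl + S.fst ≫ F.eta X.X ≫ S.inr - S.snd ≫ F.m X.d ≫ S.inr
  ee := by
    simp only [Preadditive.sub_comp,
      Preadditive.comp_sub, Category.assoc, Sum2.inl_fst_assoc, Sum2.inl_snd_assoc,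
      Sum2.inr_fst_assoc, Sum2.inr_snd_assoc, Limits.zero_comp, Limits.comp_zero,
      Tw.ee_assoc]
    rw [← F.m_comp_assoc, X.ee, F.m_id, Category.id_comp]
    simpa using S.total
  dd := by
    simp only [Preadditive.add_comp, Preadditive.comp_add, Preadditive.sub_comp,
      Preadditive.comp_sub, Category.assoc, Sum2.inl_fst_assoc, Sum2.inl_snd_assoc,
      Sum2.inr_fst_assoc, Sum2.inr_snd_assoc, Limits.zero_comp, Limits.comp_zero,
      Tw.dd_assoc, F.eta_nat'_assoc]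
    rw [← F.m_comp_assoc, X.dd, F.m_zero]
    simp
  de := by
    simp only [Preadditive.add_comp, Preadditive.comp_add, Preadditive.sub_comp,
      Preadditive.comp_sub, Category.assoc, Sum2.inl_fst_assoc, Sum2.inl_snd_assoc,
      Sum2.inr_fst_assoc, Sum2.inr_snd_assoc, Limits.zero_comp, Limits.comp_zero,
      F.eta_nat'_assoc]
    rw [← F.m_comp_assoc, ← F.m_comp_assoc, X.de, reassoc_of% X.de, F.m_neg]
    simp only [Preadditive.neg_comp, Preadditive.comp_neg, Category.assoc]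
    abel

end Crest.Agent.R175.TwA_253
end

-- ▼ part R175/TwE_253
section

/-!
# Twists, abstract part 3 (row 175, helper253): functoriality of `T`, `T'`
-/

universe v u

namespace Crest.Agent.R175.TwA_253

open CategoryTheory Preadditive

variable {C : Type u} [Category.{v} C] [Preadditive C] {F : Sph C}

/-- equality of maps out of a direct sum -/
theorem Sum2.ext {A B : C} (S : Sum2 A B) {Z : C} {f g : S.S ⟶ Z}
    (h1 : S.inl ≫ f = S.inl ≫ g) (h2 : S.inr ≫ f = S.inr ≫ g) : f = g := by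
  rw [← Category.id_comp f, ← Category.id_comp g, ← S.total, Preadditive.add_comp,
    Preadditive.add_comp, Category.assoc, Category.assoc, Category.assoc, Category.assoc, h1, h2]

/-- equality of maps into a direct sum -/
theorem Sum2.ext' {A B : C} (S : Sum2 A B) {Z : C} {f g : Z ⟶ S.S}
    (h1 : f ≫ S.fst = g ≫ S.fst) (h2 : f ≫ S.snd = g ≫ S.snd) : f = g := by
  rw [← Category.comp_id f, ← Category.comp_id g, ← S.total, Preadditive.comp_add,
    Preadditive.comp_add, reassoc_of% h1, reassoc_of% h2]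

section fn

variable (F)

/-- `T` on morphisms -/
def Tm (X Y : Tw C) (S : Sum2 (F.Q X.X) X.X) (S' : Sum2 (F.Q Y.X) Y.X) (f : X.X ⟶ Y.X) :
    (T F X S).X ⟶ (T F Y S').X :=
  S.fst ≫ F.m (bar X Y f) ≫ S'.inl + S.snd ≫ f ≫ S'.inr

/-- `T'` on morphisms -/
def Tm' (X Y : Tw C) (S : Sum2 X.X (F.Q X.X)) (S' : Sum2 Y.X (F.Q Y.X)) (f : X.X ⟶ Y.X) :
    (T' F X S).X ⟶ (T' F Y S').X :=
  S.fst ≫ f ≫ S'.inl + S.snd ≫ F.m (bar X Y f) ≫ S'.inr

end fn

section forT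
variable {X Y Z : Tw C} {S : Sum2 (F.Q X.X) X.X} {S' : Sum2 (F.Q Y.X) Y.X}
  {S'' : Sum2 (F.Q Z.X) Z.X}

@[reassoc] theorem T_d_inl :
    S.inl ≫ (T F X S).d = -(F.m X.d ≫ S.inl) + F.eps X.X ≫ S.inr := by
  simp [T, Preadditive.comp_add, Preadditive.comp_neg]

@[reassoc] theorem T_d_inr : S.inr ≫ (T F X S).d = X.d ≫ S.inr := by
  simp [T, Preadditive.comp_add, Preadditive.comp_neg]

@[reassoc] theorem T_e_inl : S.inl ≫ (T F X S).e = -(F.m X.e ≫ S.inl) := by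
  simp [T, Preadditive.comp_add, Preadditive.comp_neg]

@[reassoc] theorem T_e_inr : S.inr ≫ (T F X S).e = X.e ≫ S.inr := by
  simp [T, Preadditive.comp_add, Preadditive.comp_neg]

@[reassoc] theorem Tm_inl (f : X.X ⟶ Y.X) :
    S.inl ≫ Tm F X Y S S' f = F.m (bar X Y f) ≫ S'.inl := by
  simp [Tm, Preadditive.comp_add]

@[reassoc] theorem Tm_inr (f : X.X ⟶ Y.X) : S.inr ≫ Tm F X Y S S' f = f ≫ S'.inr := by
  simp [Tm, Preadditive.comp_add]

theorem Tm_id : Tm F X X S S (𝟙 X.X) = 𝟙 S.S := by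
  apply S.ext
  · rw [Tm_inl, bar_id]; simp
  · rw [Tm_inr]; simp

theorem Tm_comp (f : X.X ⟶ Y.X) (g : Y.X ⟶ Z.X) :
    Tm F X Z S S'' (f ≫ g) = Tm F X Y S S' f ≫ Tm F Y Z S' S'' g := by
  apply S.ext
  · rw [Tm_inl, Tm_inl_assoc, Tm_inl, bar_comp, F.m_comp, Category.assoc]
  · rw [Tm_inr, Tm_inr_assoc, Tm_inr, Category.assoc]

theorem Tm_add (f g : X.X ⟶ Y.X) :
    Tm F X Y S S' (f + g) = Tm F X Y S S' f + Tm F X Y S S' g := by
  apply S.ext
  · rw [Preadditive.comp_add, Tm_inl, Tm_inl, Tm_inl, bar_add, F.m_add, Preadditive.add_comp]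
  · rw [Preadditive.comp_add, Tm_inr, Tm_inr, Tm_inr, Preadditive.add_comp]

theorem bar_Tm (f : X.X ⟶ Y.X) :
    bar (T F X S) (T F Y S') (Tm F X Y S S' f) = Tm F X Y S S' (bar X Y f) := by
  apply S.ext
  · rw [Tm_inl, bar_bar]
    unfold bar
    rw [T_e_inl_assoc, Preadditive.neg_comp, Category.assoc, Tm_inl_assoc, T_e_inl]
    rw [Preadditive.comp_neg, Preadditive.comp_neg, neg_neg, bar, ← F.m_comp_assoc,
      ← F.m_comp_assoc]
    simp
  · rw [Tm_inr]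
    unfold bar
    rw [T_e_inr_assoc, Tm_inr_assoc, T_e_inr]
    simp

theorem D_Tm (f : X.X ⟶ Y.X) :
    D (T F X S) (T F Y S') (Tm F X Y S S' f) = Tm F X Y S S' (D X Y f) := by
  unfold D
  rw [bar_Tm]
  apply S.ext
  · rw [Tm_inl, Preadditive.comp_sub, Tm_inl_assoc, T_d_inl_assoc, T_d_inl,
      Preadditive.add_comp, Preadditive.neg_comp, Category.assoc, Category.assoc, Tm_inl,
      Tm_inr, bar_sub, bar_comp, bar_comp, bar_d, bar_d, bar_bar, F.m_sub, F.m_comp,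
      F.m_comp, F.m_neg, F.m_neg, Preadditive.comp_add, F.eps_nat_assoc]
    simp only [Preadditive.comp_neg, Preadditive.neg_comp, Preadditive.sub_comp,
      Category.assoc]
    abel
  · rw [Tm_inr, Preadditive.comp_sub, Tm_inr_assoc, T_d_inr_assoc, T_d_inr, Tm_inr,
      Preadditive.sub_comp, Category.assoc, Category.assoc]

end forT

section forT'
variable {X Y Z : Tw C} {S : Sum2 X.X (F.Q X.X)} {S' : Sum2 Y.X (F.Q Y.X)}
  {S'' : Sum2 Z.X (F.Q Z.X)}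

@[reassoc] theorem T'_d_inl :
    S.inl ≫ (T' F X S).d = X.d ≫ S.inl + F.eta X.X ≫ S.inr := by
  simp [T', Preadditive.comp_sub]

@[reassoc] theorem T'_d_inr : S.inr ≫ (T' F X S).d = -(F.m X.d ≫ S.inr) := by
  simp [T', Preadditive.comp_sub]

@[reassoc] theorem T'_e_inl : S.inl ≫ (T' F X S).e = X.e ≫ S.inl := by
  simp [T', Preadditive.comp_sub]

@[reassoc] theorem T'_e_inr : S.inr ≫ (T' F X S).e = -(F.m X.e ≫ S.inr) := by
  simp [T', Preadditive.comp_sub]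

@[reassoc] theorem Tm'_inl (f : X.X ⟶ Y.X) : S.inl ≫ Tm' F X Y S S' f = f ≫ S'.inl := by
  simp [Tm', Preadditive.comp_add]

@[reassoc] theorem Tm'_inr (f : X.X ⟶ Y.X) :
    S.inr ≫ Tm' F X Y S S' f = F.m (bar X Y f) ≫ S'.inr := by
  simp [Tm', Preadditive.comp_add]

theorem Tm'_id : Tm' F X X S S (𝟙 X.X) = 𝟙 S.S := by
  apply S.ext
  · rw [Tm'_inl]; simp
  · rw [Tm'_inr, bar_id]; simp

theorem Tm'_comp (f : X.X ⟶ Y.X) (g : Y.X ⟶ Z.X) :
    Tm' F X Z S S'' (f ≫ g) = Tm' F X Y S S' f ≫ Tm' F Y Z S' S'' g := by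
  apply S.ext
  · rw [Tm'_inl, Tm'_inl_assoc, Tm'_inl, Category.assoc]
  · rw [Tm'_inr, Tm'_inr_assoc, Tm'_inr, bar_comp, F.m_comp, Category.assoc]

theorem Tm'_add (f g : X.X ⟶ Y.X) :
    Tm' F X Y S S' (f + g) = Tm' F X Y S S' f + Tm' F X Y S S' g := by
  apply S.ext
  · rw [Preadditive.comp_add, Tm'_inl, Tm'_inl, Tm'_inl, Preadditive.add_comp]
  · rw [Preadditive.comp_add, Tm'_inr, Tm'_inr, Tm'_inr, bar_add, F.m_add,
      Preadditive.add_comp]

theorem bar_Tm' (f : X.X ⟶ Y.X) :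
    bar (T' F X S) (T' F Y S') (Tm' F X Y S S' f) = Tm' F X Y S S' (bar X Y f) := by
  apply S.ext
  · rw [Tm'_inl]
    unfold bar
    rw [T'_e_inl_assoc, Tm'_inl_assoc, T'_e_inl]
    simp
  · rw [Tm'_inr, bar_bar]
    unfold bar
    rw [T'_e_inr_assoc, Preadditive.neg_comp, Category.assoc, Tm'_inr_assoc, T'_e_inr]
    rw [Preadditive.comp_neg, Preadditive.comp_neg, neg_neg, bar, ← F.m_comp_assoc,
      ← F.m_comp_assoc]
    simp

theorem D_Tm' (f : X.X ⟶ Y.X) :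
    D (T' F X S) (T' F Y S') (Tm' F X Y S S' f) = Tm' F X Y S S' (D X Y f) := by
  unfold D
  rw [bar_Tm']
  apply S.ext
  · rw [Tm'_inl, Preadditive.comp_sub, Tm'_inl_assoc, T'_d_inl_assoc, T'_d_inl,
      Preadditive.add_comp, Category.assoc, Category.assoc, Tm'_inl, Tm'_inr, bar_bar,
      Preadditive.comp_add, F.eta_nat_assoc]
    simp only [Preadditive.sub_comp, Category.assoc]
    abel
  · rw [Tm'_inr, Preadditive.comp_sub, Tm'_inr_assoc, T'_d_inr_assoc, T'_d_inr, 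
      Preadditive.neg_comp, Category.assoc, Tm'_inr, bar_sub, bar_comp, bar_comp, bar_d,
      bar_d, bar_bar, F.m_sub, F.m_comp, F.m_comp, F.m_neg, F.m_neg]
    simp only [Preadditive.comp_neg, Preadditive.neg_comp, Preadditive.sub_comp,
      Category.assoc]

end forT'

end Crest.Agent.R175.TwA_253
end

-- ▼ part R175/TwF_253

/-!
# Twists, abstract part 4 (row 175, helper253): `T' T X ≃ X`, natural in `X`
-/

universe v u

namespace Crest.Agent.R175.TwA_253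

open CategoryTheory Preadditive

variable {C : Type u} [Category.{v} C] [Preadditive C] {F : Sph C}

@[reassoc] theorem Sum2.m_inl_fst {A B : C} (S : Sum2 A B) : F.m S.inl ≫ F.m S.fst = 𝟙 _ := by
  rw [← F.m_comp, S.inl_fst, F.m_id]

@[reassoc] theorem Sum2.m_inl_snd {A B : C} (S : Sum2 A B) : F.m S.inl ≫ F.m S.snd = 0 := by
  rw [← F.m_comp, S.inl_snd, F.m_zero]

@[reassoc] theorem Sum2.m_inr_fst {A B : C} (S : Sum2 A B) : F.m S.inr ≫ F.m S.fst = 0 := by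
  rw [← F.m_comp, S.inr_fst, F.m_zero]

@[reassoc] theorem Sum2.m_inr_snd {A B : C} (S : Sum2 A B) : F.m S.inr ≫ F.m S.snd = 𝟙 _ := by
  rw [← F.m_comp, S.inr_snd, F.m_id]

@[reassoc] theorem m_ee (X : Tw C) : F.m X.e ≫ F.m X.e = 𝟙 _ := by
  rw [← F.m_comp, X.ee, F.m_id]

@[reassoc] theorem mm_ee (X : Tw C) : F.m (F.m X.e) ≫ F.m (F.m X.e) = 𝟙 _ := by
  rw [← F.m_comp, m_ee, F.m_id]

/-- the simp set of block calculations -/
macro "tw_simp" : tactic => `(tactic|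
  simp only [comp_sub, sub_comp, comp_add, add_comp, comp_neg, neg_comp, neg_neg, neg_zero,
    Category.assoc, Category.comp_id, Category.id_comp,
    Sum2.inl_fst_assoc, Sum2.inl_snd_assoc, Sum2.inr_fst_assoc, Sum2.inr_snd_assoc,
    Sum2.inl_fst, Sum2.inl_snd, Sum2.inr_fst, Sum2.inr_snd,
    Sum2.m_inl_fst_assoc, Sum2.m_inl_snd_assoc, Sum2.m_inr_fst_assoc, Sum2.m_inr_snd_assoc,
    Sum2.m_inl_fst, Sum2.m_inl_snd, Sum2.m_inr_fst, Sum2.m_inr_snd,
    Limits.zero_comp, Limits.comp_zero, add_zero, zero_add, sub_zero, zero_sub,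
    sub_neg_eq_add,
    Sph.m_add, Sph.m_neg, Sph.m_sub, Sph.m_comp, Sph.m_zero, Sph.m_id,
    Sph.u_c_assoc, Sph.u_c, Sph.u_eps1, Sph.u_eps1_assoc, Sph.u_eps2, Sph.u_eps2_assoc,
    Sph.eta_c1, Sph.eta_c1_assoc, Sph.eta_c2, Sph.eta_c2_assoc,
    m_ee, m_ee_assoc, mm_ee, mm_ee_assoc, Tw.ee, Tw.ee_assoc, Tw.dd, Tw.dd_assoc])

/-- the simp set of block calculations with naturality -/
macro "tw_nat" : tactic => `(tactic|
  simp only [comp_sub, sub_comp, comp_add, add_comp, comp_neg, neg_comp, neg_neg, neg_zero,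
    Category.assoc, Category.comp_id, Category.id_comp,
    Sum2.inl_fst_assoc, Sum2.inl_snd_assoc, Sum2.inr_fst_assoc, Sum2.inr_snd_assoc,
    Sum2.inl_fst, Sum2.inl_snd, Sum2.inr_fst, Sum2.inr_snd,
    Sum2.m_inl_fst_assoc, Sum2.m_inl_snd_assoc, Sum2.m_inr_fst_assoc, Sum2.m_inr_snd_assoc,
    Sum2.m_inl_fst, Sum2.m_inl_snd, Sum2.m_inr_fst, Sum2.m_inr_snd,
    Limits.zero_comp, Limits.comp_zero, add_zero, zero_add, sub_zero, zero_sub,
    sub_neg_eq_add,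
    Sph.m_add, Sph.m_neg, Sph.m_sub, Sph.m_comp, Sph.m_zero, Sph.m_id,
    Sph.u_c_assoc, Sph.u_c, Sph.u_eps1, Sph.u_eps1_assoc, Sph.u_eps2, Sph.u_eps2_assoc,
    Sph.eta_c1, Sph.eta_c1_assoc, Sph.eta_c2, Sph.eta_c2_assoc,
    Sph.eps_nat, Sph.eps_nat_assoc, Sph.c_nat, Sph.c_nat_assoc, Sph.eta_nat', Sph.eta_nat'_assoc,
    Sph.u_nat', Sph.u_nat'_assoc,
    m_ee, m_ee_assoc, mm_ee, mm_ee_assoc, Tw.ee, Tw.ee_assoc, Tw.dd, Tw.dd_assoc])

section one

variable (F) (X : Tw C) (S : Sum2 (F.Q X.X) X.X) (R : Sum2 (T F X S).X (F.Q (T F X S).X))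

/-- `X → T' T X` -/
def io : X.X ⟶ (T' F (T F X S) R).X :=
  S.inr ≫ R.inl + F.eta X.X ≫ F.u X.X ≫ F.m S.inl ≫ R.inr

/-- `T' T X → X` -/
def pr : (T' F (T F X S) R).X ⟶ X.X :=
  R.fst ≫ S.snd - R.snd ≫ F.m S.fst ≫ F.c X.X ≫ F.eps X.X

/-- the homotopy on `T' T X` -/
def ht : (T' F (T F X S) R).X ⟶ (T' F (T F X S) R).X :=
  R.snd ≫ F.m S.fst ≫ F.c X.X ≫ S.inl ≫ R.inl - R.snd ≫ F.m S.snd ≫ F.u X.X ≫ F.m S.inl ≫ R.inr

variable {F X S R}

theorem io_pr : io F X S R ≫ pr F X S R = 𝟙 X.X := by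
  unfold io pr
  tw_simp

theorem bar_io : bar X (T' F (T F X S) R) (io F X S R) = io F X S R := by
  unfold bar io
  tw_nat

theorem D_io : D X (T' F (T F X S) R) (io F X S R) = 0 := by
  unfold D
  rw [bar_io]
  unfold io
  tw_nat
  abel

theorem bar_pr : bar (T' F (T F X S) R) X (pr F X S R) = pr F X S R := by
  apply R.ext
  · apply S.ext
    · unfold bar pr
      tw_nat
    · unfold bar pr
      tw_nat
  · unfold bar pr
    tw_nat

theorem D_pr : D (T' F (T F X S) R) X (pr F X S R) = 0 := by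
  unfold D
  rw [bar_pr]
  unfold pr
  apply R.ext
  · apply S.ext
    · tw_nat
      abel
    · tw_nat
      abel
  · tw_nat
    abel

theorem bar_ht : bar (T' F (T F X S) R) (T' F (T F X S) R) (ht F X S R) = - ht F X S R := by
  apply R.ext
  · apply S.ext
    · unfold bar ht
      tw_nat
    · unfold bar ht
      tw_nat
  · unfold bar ht
    tw_nat
    abel

theorem D_ht : D (T' F (T F X S) R) (T' F (T F X S) R) (ht F X S R) =
    𝟙 _ - pr F X S R ≫ io F X S R := by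
  unfold D
  rw [bar_ht]
  apply R.ext
  · apply S.ext
    · unfold pr io ht
      tw_nat
    · unfold pr io ht
      tw_nat
      abel
  · have hh := congrArg (fun z => F.m S.fst ≫ z ≫ F.m S.inl ≫ R.inr) (F.id1 X.X)
    have ht' : F.m S.fst ≫ F.m S.inl ≫ R.inr + F.m S.snd ≫ F.m S.inr ≫ R.inr = R.inr := by
      rw [← F.m_comp_assoc, ← F.m_comp_assoc, ← add_comp, ← F.m_add, S.total, F.m_id,
        Category.id_comp]
    unfold pr io ht
    tw_nat
    simp only [comp_add, add_comp, Category.assoc, Category.id_comp, F.eta_nat'_assoc] at hh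
    rw [← sub_eq_zero] at hh ht' ⊢
    have e : ∀ a b : (F.Q (T F X S).X ⟶ R.S), a = 0 → b = 0 → a + b = 0 := by
      intro a b h h'; rw [h, h', add_zero]
    refine Eq.trans ?_ (e _ _ hh ht')
    abel

/-- naturality of `io` -/
theorem io_nat {Y : Tw C} {S' : Sum2 (F.Q Y.X) Y.X}
    {R' : Sum2 (T F Y S').X (F.Q (T F Y S').X)} (f : X.X ⟶ Y.X) :
    io F X S R ≫ Tm' F (T F X S) (T F Y S') R R' (Tm F X Y S S' f) = f ≫ io F Y S' R' := by
  unfold Tm'
  rw [bar_Tm]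
  unfold io Tm
  rw [bar_bar]
  tw_nat

end one

section two

variable (F) (X : Tw C) (S : Sum2 X.X (F.Q X.X)) (R : Sum2 (F.Q (T' F X S).X) (T' F X S).X)

/-- `X → T T' X` -/
def io' : X.X ⟶ (T F (T' F X S) R).X :=
  S.inl ≫ R.inr - F.eta X.X ≫ F.u X.X ≫ F.m S.inr ≫ R.inl

/-- `T T' X → X` -/
def pr' : (T F (T' F X S) R).X ⟶ X.X :=
  R.snd ≫ S.fst + R.fst ≫ F.m S.snd ≫ F.c X.X ≫ F.eps X.X

/-- the homotopy on `T T' X` -/
def ht' : (T F (T' F X S) R).X ⟶ (T F (T' F X S) R).X :=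
  R.snd ≫ S.snd ≫ F.u X.X ≫ F.m S.inr ≫ R.inl - R.fst ≫ F.m S.snd ≫ F.c X.X ≫ F.m S.inl ≫ R.inl

variable {F X S R}

theorem io_pr' : io' F X S R ≫ pr' F X S R = 𝟙 X.X := by
  unfold io' pr'
  tw_simp

theorem bar_io' : bar X (T F (T' F X S) R) (io' F X S R) = io' F X S R := by
  unfold bar io'
  tw_nat
  abel

theorem D_io' : D X (T F (T' F X S) R) (io' F X S R) = 0 := by
  unfold D
  rw [bar_io']
  unfold io'
  tw_nat
  abel

theorem bar_pr' : bar (T F (T' F X S) R) X (pr' F X S R) = pr' F X S R := by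
  apply R.ext
  · unfold bar pr'
    tw_nat
  · apply S.ext
    · unfold bar pr'
      tw_nat
    · unfold bar pr'
      tw_nat

theorem D_pr' : D (T F (T' F X S) R) X (pr' F X S R) = 0 := by
  unfold D
  rw [bar_pr']
  unfold pr'
  apply R.ext
  · tw_nat
    abel
  · apply S.ext
    · tw_nat
      abel
    · tw_nat

theorem bar_ht' : bar (T F (T' F X S) R) (T F (T' F X S) R) (ht' F X S R) = - ht' F X S R := by
  apply R.ext
  · unfold bar ht'
    tw_nat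
  · apply S.ext
    · unfold bar ht'
      tw_nat
    · unfold bar ht'
      tw_nat

theorem D_ht' : D (T F (T' F X S) R) (T F (T' F X S) R) (ht' F X S R) =
    𝟙 _ - pr' F X S R ≫ io' F X S R := by
  unfold D
  rw [bar_ht']
  apply R.ext
  · have hh := congrArg (fun z => F.m S.snd ≫ z ≫ F.m S.inr ≫ R.inl) (F.id2 X.X)
    have ht'' : F.m S.fst ≫ F.m S.inl ≫ R.inl + F.m S.snd ≫ F.m S.inr ≫ R.inl = R.inl := by
      rw [← F.m_comp_assoc, ← F.m_comp_assoc, ← add_comp, ← F.m_add, S.total, F.m_id,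
        Category.id_comp]
    unfold pr' io' ht'
    tw_nat
    simp only [comp_add, add_comp, Category.assoc, Category.id_comp, F.eps_nat_assoc] at hh
    rw [← sub_eq_zero] at hh ht'' ⊢
    have e : ∀ a b : (F.Q (T' F X S).X ⟶ R.S), a = 0 → b = 0 → a + b = 0 := by
      intro a b h h'; rw [h, h', add_zero]
    refine Eq.trans ?_ (e _ _ hh ht'')
    abel
  · apply S.ext
    · unfold pr' io' ht'
      tw_nat
      abel
    · unfold pr' io' ht'
      tw_nat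
      abel

/-- naturality of `io'` -/
theorem io_nat' {Y : Tw C} {S' : Sum2 Y.X (F.Q Y.X)}
    {R' : Sum2 (F.Q (T' F Y S').X) (T' F Y S').X} (f : X.X ⟶ Y.X) :
    io' F X S R ≫ Tm F (T' F X S) (T' F Y S') R R' (Tm' F X Y S S' f) = f ≫ io' F Y S' R' := by
  unfold Tm
  rw [bar_Tm']
  unfold io' Tm'
  rw [bar_bar]
  tw_nat
  abel

end two

end Crest.Agent.R175.TwA_253
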