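import Mathlib.CategoryTheory.Preadditive.AdditiveFunctor
import Mathlib.Tactic.Abel
import Crest.Agent.R175.TwF_253

-- ▼ part R175/TwB_250
section

/-!
helper250: braid relation for twist functors by one elimination (abstract part).
`C` a preadditive category with binary biproducts, `S T : C ⥤ C` additive with counits
`εS : S ⟶ 𝟭`, `εT : T ⟶ 𝟭`.  Differential objects are pairs `(X, d)`.
-/

set_option autoImplicit false
set_option linter.unusedSectionVars false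
set_option linter.unnecessarySimpa false
open CategoryTheory CategoryTheory.Limits

namespace Crest.Agent.R175.TwB_250
universe v u

/-- an explicit choice of binary biproducts -/
class BP (C : Type u) [Category.{v} C] [Preadditive C] where
  sm : C → C → C
  inl : ∀ {A B : C}, A ⟶ sm A B
  inr : ∀ {A B : C}, B ⟶ sm A B
  fst : ∀ {A B : C}, sm A B ⟶ A
  snd : ∀ {A B : C}, sm A B ⟶ B
  inl_fst : ∀ {A B : C}, (inl : A ⟶ sm A B) ≫ fst = 𝟙 A
  inr_snd : ∀ {A B : C}, (inr : B ⟶ sm A B) ≫ snd = 𝟙 B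
  inl_snd : ∀ {A B : C}, (inl : A ⟶ sm A B) ≫ snd = 0
  inr_fst : ∀ {A B : C}, (inr : B ⟶ sm A B) ≫ fst = 0
  total : ∀ {A B : C}, fst ≫ (inl : A ⟶ sm A B) + snd ≫ inr = 𝟙 (sm A B)

infixr:40 " ⊹ " => BP.sm

namespace bp

variable {C : Type u} [Category.{v} C] [Preadditive C] [BP C]

abbrev inl {A B : C} : A ⟶ A ⊹ B := BP.inl
abbrev inr {A B : C} : B ⟶ A ⊹ B := BP.inr
abbrev fst {A B : C} : (A ⊹ B) ⟶ A := BP.fst
abbrev snd {A B : C} : (A ⊹ B) ⟶ B := BP.snd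

@[reassoc (attr := simp)]
theorem inl_fst {A B : C} : (inl : A ⟶ A ⊹ B) ≫ fst = 𝟙 A := BP.inl_fst
@[reassoc (attr := simp)]
theorem inr_snd {A B : C} : (inr : B ⟶ A ⊹ B) ≫ snd = 𝟙 B := BP.inr_snd
@[reassoc (attr := simp)]
theorem inl_snd {A B : C} : (inl : A ⟶ A ⊹ B) ≫ snd = 0 := BP.inl_snd
@[reassoc (attr := simp)]
theorem inr_fst {A B : C} : (inr : B ⟶ A ⊹ B) ≫ fst = 0 := BP.inr_fst
theorem total {A B : C} : fst ≫ (inl : A ⟶ A ⊹ B) + snd ≫ inr = 𝟙 (A ⊹ B) := BP.total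

def desc {A B Z : C} (f : A ⟶ Z) (g : B ⟶ Z) : (A ⊹ B) ⟶ Z := fst ≫ f + snd ≫ g
def lift {A B Z : C} (f : Z ⟶ A) (g : Z ⟶ B) : Z ⟶ (A ⊹ B) := f ≫ inl + g ≫ inr

@[reassoc (attr := simp)]
theorem inl_desc {A B Z : C} (f : A ⟶ Z) (g : B ⟶ Z) : inl ≫ desc f g = f := by simp [desc]
@[reassoc (attr := simp)]
theorem inr_desc {A B Z : C} (f : A ⟶ Z) (g : B ⟶ Z) : inr ≫ desc f g = g := by simp [desc]
@[reassoc (attr := simp)]
theorem lift_fst {A B Z : C} (f : Z ⟶ A) (g : Z ⟶ B) : lift f g ≫ fst = f := by simp [lift]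
@[reassoc (attr := simp)]
theorem lift_snd {A B Z : C} (f : Z ⟶ A) (g : Z ⟶ B) : lift f g ≫ snd = g := by simp [lift]

theorem hom_ext' {A B Z : C} (f g : (A ⊹ B) ⟶ Z) (h1 : inl ≫ f = inl ≫ g)
    (h2 : inr ≫ f = inr ≫ g) : f = g := by
  rw [← Category.id_comp f, ← Category.id_comp g, ← total, Preadditive.add_comp,
    Preadditive.add_comp, Category.assoc, Category.assoc, Category.assoc, Category.assoc, h1, h2]

theorem hom_ext {A B Z : C} (f g : Z ⟶ (A ⊹ B)) (h1 : f ≫ fst = g ≫ fst)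
    (h2 : f ≫ snd = g ≫ snd) : f = g := by
  rw [← Category.comp_id f, ← Category.comp_id g, ← total, Preadditive.comp_add,
    Preadditive.comp_add, ← Category.assoc, ← Category.assoc, ← Category.assoc,
    ← Category.assoc, h1, h2]

end bp

variable {C : Type u} [Category.{v} C] [Preadditive C] [BP C]

section basics

variable (S : C ⥤ C) [S.Additive]

@[reassoc (attr := simp)]
theorem map_inl_fst (A B : C) :
    S.map (bp.inl : A ⟶ A ⊹ B) ≫ S.map bp.fst = 𝟙 _ := by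
  rw [← S.map_comp, bp.inl_fst, S.map_id]

@[reassoc (attr := simp)]
theorem map_inr_snd (A B : C) :
    S.map (bp.inr : B ⟶ A ⊹ B) ≫ S.map bp.snd = 𝟙 _ := by
  rw [← S.map_comp, bp.inr_snd, S.map_id]

@[reassoc (attr := simp)]
theorem map_inl_snd (A B : C) :
    S.map (bp.inl : A ⟶ A ⊹ B) ≫ S.map bp.snd = 0 := by
  rw [← S.map_comp, bp.inl_snd, S.map_zero]

@[reassoc (attr := simp)]
theorem map_inr_fst (A B : C) :
    S.map (bp.inr : B ⟶ A ⊹ B) ≫ S.map bp.fst = 0 := by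
  rw [← S.map_comp, bp.inr_fst, S.map_zero]

@[reassoc (attr := simp)]
theorem map2_inl_fst (F G : C ⥤ C) (A B : C) :
    F.map (G.map (bp.inl : A ⟶ A ⊹ B)) ≫ F.map (G.map bp.fst) = 𝟙 _ := by
  rw [← F.map_comp, ← G.map_comp, bp.inl_fst, G.map_id, F.map_id]

@[reassoc (attr := simp)]
theorem map2_inr_snd (F G : C ⥤ C) (A B : C) :
    F.map (G.map (bp.inr : B ⟶ A ⊹ B)) ≫ F.map (G.map bp.snd) = 𝟙 _ := by
  rw [← F.map_comp, ← G.map_comp, bp.inr_snd, G.map_id, F.map_id]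

@[reassoc (attr := simp)]
theorem map2_inl_snd (F G : C ⥤ C) [F.Additive] [G.Additive] (A B : C) :
    F.map (G.map (bp.inl : A ⟶ A ⊹ B)) ≫ F.map (G.map bp.snd) = 0 := by
  rw [← F.map_comp, ← G.map_comp, bp.inl_snd, G.map_zero, F.map_zero]

@[reassoc (attr := simp)]
theorem map2_inr_fst (F G : C ⥤ C) [F.Additive] [G.Additive] (A B : C) :
    F.map (G.map (bp.inr : B ⟶ A ⊹ B)) ≫ F.map (G.map bp.fst) = 0 := by
  rw [← F.map_comp, ← G.map_comp, bp.inr_fst, G.map_zero, F.map_zero]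

theorem map_ext {A B Z : C} {f g : S.obj (A ⊹ B) ⟶ Z}
    (h1 : S.map bp.inl ≫ f = S.map bp.inl ≫ g)
    (h2 : S.map bp.inr ≫ f = S.map bp.inr ≫ g) : f = g := by
  have e : (𝟙 (S.obj (A ⊹ B)) : _) =
      S.map bp.fst ≫ S.map bp.inl + S.map bp.snd ≫ S.map bp.inr := by
    rw [← S.map_comp, ← S.map_comp, ← S.map_add, bp.total, S.map_id]
  calc f = 𝟙 _ ≫ f := (Category.id_comp _).symm
    _ = 𝟙 _ ≫ g := by
        rw [e, Preadditive.add_comp, Preadditive.add_comp, Category.assoc, Category.assoc,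
          Category.assoc, Category.assoc, h1, h2]
    _ = g := Category.id_comp _

/-- a counit `S ⟶ 𝟭` in unbundled form -/
structure Cou (S : C ⥤ C) where
  e : ∀ X : C, S.obj X ⟶ X
  nat : ∀ {X Y : C} (f : X ⟶ Y), S.map f ≫ e Y = e X ≫ f

attribute [reassoc] Cou.nat
attribute [simp] Cou.nat Cou.nat_assoc

@[reassoc (attr := simp)]
theorem Cou.map_nat {S : C ⥤ C} (ε : Cou S) (F : C ⥤ C) {X Y : C} (f : X ⟶ Y) :
    F.map (S.map f) ≫ F.map (ε.e Y) = F.map (ε.e X) ≫ F.map f := by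
  rw [← F.map_comp, ε.nat, F.map_comp]

@[reassoc (attr := simp)]
theorem Cou.map2_nat {S : C ⥤ C} (ε : Cou S) (F G : C ⥤ C) {X Y : C} (f : X ⟶ Y) :
    F.map (G.map (S.map f)) ≫ F.map (G.map (ε.e Y))
      = F.map (G.map (ε.e X)) ≫ F.map (G.map f) := by
  rw [← F.map_comp, ε.map_nat, F.map_comp]

variable (ε : Cou S)

/-- the underlying object of the twist -/
abbrev tob (X : C) : C := S.obj X ⊹ X

/-- the differential of the twist `cone (ε : S X → X)` -/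
def td {X : C} (d : X ⟶ X) : tob S X ⟶ tob S X :=
  bp.desc (bp.lift (-(S.map d)) (ε.e X)) (d ≫ bp.inr)

@[reassoc (attr := simp)]
theorem inl_td {X : C} (d : X ⟶ X) :
    bp.inl ≫ td S ε d = -(S.map d ≫ bp.inl) + ε.e X ≫ bp.inr := by
  apply bp.hom_ext <;> simp [td]

@[reassoc (attr := simp)]
theorem inr_td {X : C} (d : X ⟶ X) :
    bp.inr ≫ td S ε d = d ≫ bp.inr := by
  simp [td]

@[reassoc (attr := simp)]
theorem map_inl_td (F : C ⥤ C) [F.Additive] {X : C} (d : X ⟶ X) :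
    F.map bp.inl ≫ F.map (td S ε d)
      = -(F.map (S.map d) ≫ F.map bp.inl) + F.map (ε.e X) ≫ F.map bp.inr := by
  rw [← F.map_comp, inl_td, F.map_add, F.map_neg, F.map_comp, F.map_comp]

@[reassoc (attr := simp)]
theorem map_inr_td (F : C ⥤ C) [F.Additive] {X : C} (d : X ⟶ X) :
    F.map bp.inr ≫ F.map (td S ε d) = F.map d ≫ F.map bp.inr := by
  rw [← F.map_comp, inr_td, F.map_comp]

@[reassoc (attr := simp)]
theorem map2_inl_td (F G : C ⥤ C) [F.Additive] [G.Additive] {X : C} (d : X ⟶ X) :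
    F.map (G.map bp.inl) ≫ F.map (G.map (td S ε d))
      = -(F.map (G.map (S.map d)) ≫ F.map (G.map bp.inl))
        + F.map (G.map (ε.e X)) ≫ F.map (G.map bp.inr) := by
  rw [← F.map_comp, map_inl_td, F.map_add, F.map_neg, F.map_comp, F.map_comp]

@[reassoc (attr := simp)]
theorem map2_inr_td (F G : C ⥤ C) [F.Additive] [G.Additive] {X : C} (d : X ⟶ X) :
    F.map (G.map bp.inr) ≫ F.map (G.map (td S ε d))
      = F.map (G.map d) ≫ F.map (G.map bp.inr) := by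
  rw [← F.map_comp, map_inr_td, F.map_comp]

/-- parity operator of the twist -/
def tg {X : C} (g : X ⟶ X) : tob S X ⟶ tob S X :=
  bp.desc (-(S.map g ≫ bp.inl)) (g ≫ bp.inr)

@[reassoc (attr := simp)]
theorem inl_tg {X : C} (g : X ⟶ X) : bp.inl ≫ tg S g = -(S.map g ≫ bp.inl) := by
  simp [tg]

@[reassoc (attr := simp)]
theorem inr_tg {X : C} (g : X ⟶ X) : bp.inr ≫ tg S g = g ≫ bp.inr := by
  simp [tg]

@[reassoc (attr := simp)]
theorem map_inl_tg (F : C ⥤ C) [F.Additive] {X : C} (g : X ⟶ X) :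
    F.map bp.inl ≫ F.map (tg S g) = -(F.map (S.map g) ≫ F.map bp.inl) := by
  rw [← F.map_comp, inl_tg, F.map_neg, F.map_comp]

@[reassoc (attr := simp)]
theorem map_inr_tg (F : C ⥤ C) [F.Additive] {X : C} (g : X ⟶ X) :
    F.map bp.inr ≫ F.map (tg S g) = F.map g ≫ F.map bp.inr := by
  rw [← F.map_comp, inr_tg, F.map_comp]

@[reassoc (attr := simp)]
theorem map2_inl_tg (F G : C ⥤ C) [F.Additive] [G.Additive] {X : C} (g : X ⟶ X) :
    F.map (G.map bp.inl) ≫ F.map (G.map (tg S g))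
      = -(F.map (G.map (S.map g)) ≫ F.map (G.map bp.inl)) := by
  rw [← F.map_comp, map_inl_tg, F.map_neg, F.map_comp]

@[reassoc (attr := simp)]
theorem map2_inr_tg (F G : C ⥤ C) [F.Additive] [G.Additive] {X : C} (g : X ⟶ X) :
    F.map (G.map bp.inr) ≫ F.map (G.map (tg S g))
      = F.map (G.map g) ≫ F.map (G.map bp.inr) := by
  rw [← F.map_comp, map_inr_tg, F.map_comp]




end basics

section braid

variable (S T : C ⥤ C) [S.Additive] [T.Additive] (ε : Cou S) (τ : Cou T)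

/-- the splitting `S S = S + S T S` -/
structure Spl where
  η : ∀ X : C, S.obj X ⟶ S.obj (S.obj X)
  σ : ∀ X : C, S.obj (S.obj X) ⟶ S.obj X
  ρ : ∀ X : C, S.obj (S.obj X) ⟶ S.obj (T.obj (S.obj X))
  η_nat : ∀ {X Y : C} (f : X ⟶ Y), S.map f ≫ η Y = η X ≫ S.map (S.map f)
  ρ_nat : ∀ {X Y : C} (f : X ⟶ Y), S.map (S.map f) ≫ ρ Y = ρ X ≫ S.map (T.map (S.map f))
  ησ : ∀ X, η X ≫ σ X = 𝟙 _
  ηρ : ∀ X, η X ≫ ρ X = 0
  κσ : ∀ X, S.map (τ.e (S.obj X)) ≫ σ X = 0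
  κρ : ∀ X, S.map (τ.e (S.obj X)) ≫ ρ X = 𝟙 _
  tot : ∀ X, σ X ≫ η X + ρ X ≫ S.map (τ.e (S.obj X)) = 𝟙 _
  ηε : ∀ X, η X ≫ ε.e (S.obj X) = 𝟙 _
  ηε' : ∀ X, η X ≫ S.map (ε.e X) = 𝟙 _

attribute [reassoc] Spl.η_nat Spl.ρ_nat Spl.ησ Spl.ηρ Spl.κσ Spl.κρ Spl.ηε Spl.ηε'
attribute [simp] Spl.η_nat Spl.ρ_nat Spl.ησ Spl.ηρ Spl.κσ Spl.κρ Spl.ηε Spl.ηε'
attribute [simp] Spl.η_nat_assoc Spl.ρ_nat_assoc Spl.ησ_assoc Spl.ηρ_assoc Spl.κσ_assoc
  Spl.κρ_assoc Spl.ηε_assoc Spl.ηε'_assoc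

variable {S T ε τ}

/-- underlying object of the symmetric model -/
abbrev dob (S T : C ⥤ C) (X : C) : C :=
  (S.obj (T.obj X) ⊹ T.obj (S.obj X)) ⊹ ((S.obj X ⊹ T.obj X) ⊹ X)

/-- differential of the symmetric model -/
def dd (ε : Cou S) (τ : Cou T) {X : C} (d : X ⟶ X) : dob S T X ⟶ dob S T X :=
  bp.desc
    (bp.desc
      (S.map (T.map d) ≫ bp.inl ≫ bp.inl
        - S.map (τ.e X) ≫ bp.inl ≫ bp.inl ≫ bp.inr
        + ε.e (T.obj X) ≫ bp.inr ≫ bp.inl ≫ bp.inr)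
      (T.map (S.map d) ≫ bp.inr ≫ bp.inl
        - T.map (ε.e X) ≫ bp.inr ≫ bp.inl ≫ bp.inr
        + τ.e (S.obj X) ≫ bp.inl ≫ bp.inl ≫ bp.inr))
    (bp.desc
      (bp.desc
        (-(S.map d ≫ bp.inl ≫ bp.inl ≫ bp.inr) + ε.e X ≫ bp.inr ≫ bp.inr)
        (-(T.map d ≫ bp.inr ≫ bp.inl ≫ bp.inr) + τ.e X ≫ bp.inr ≫ bp.inr))
      (d ≫ bp.inr ≫ bp.inr))

/-- the projection `T_s T_t T_s X → Δ X` -/
def pi (P : Spl S T ε τ) (X : C) :
    tob S (tob T (tob S X)) ⟶ dob S T X :=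
  bp.desc
    (S.map bp.fst ≫ S.map (T.map bp.snd) ≫ bp.inl ≫ bp.inl
      + S.map bp.snd ≫ S.map bp.fst ≫ P.ρ X ≫
        (S.map (T.map (ε.e X)) ≫ bp.inl ≫ bp.inl
          + ε.e (T.obj (S.obj X)) ≫ bp.inr ≫ bp.inl)
      + S.map bp.snd ≫ S.map bp.snd ≫ bp.inl ≫ bp.inl ≫ bp.inr)
    (bp.desc
      (T.map bp.fst ≫ bp.inr ≫ bp.inl
          + T.map bp.snd ≫ bp.inr ≫ bp.inl ≫ bp.inr)
      (bp.desc (bp.inl ≫ bp.inl ≫ bp.inr) (bp.inr ≫ bp.inr)))

/-- the inclusion `Δ X → T_s T_t T_s X` -/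
def io (P : Spl S T ε τ) (X : C) :
    dob S T X ⟶ tob S (tob T (tob S X)) :=
  bp.desc
    (bp.desc
      (S.map (T.map bp.inr) ≫ S.map bp.inl ≫ bp.inl)
      (T.map bp.inl ≫ bp.inl ≫ bp.inr
        - τ.e (S.obj X) ≫ P.η X ≫ S.map bp.inl ≫ S.map bp.inr ≫ bp.inl))
    (bp.desc
      (bp.desc
        (S.map bp.inr ≫ S.map bp.inr ≫ bp.inl)
        (T.map bp.inr ≫ bp.inl ≫ bp.inr))
      (bp.inr ≫ bp.inr ≫ bp.inr))

/-- the contraction -/
def ho (P : Spl S T ε τ) (X : C) :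
    tob S (tob T (tob S X)) ⟶ tob S (tob T (tob S X)) :=
  bp.desc
    (-(S.map bp.snd ≫ S.map bp.fst ≫ P.ρ X ≫ S.map (T.map bp.inl) ≫
      S.map bp.inl ≫ bp.inl))
    (bp.snd ≫ bp.fst ≫ P.η X ≫ S.map bp.inl ≫ S.map bp.inr ≫ bp.inl)

theorem io_pi (P : Spl S T ε τ) (X : C) : io P X ≫ pi P X = 𝟙 _ := by
  have h1 := P.ηρ X
  apply bp.hom_ext'
  · apply bp.hom_ext'
    · simp [io, pi]
    · simp [io, pi, reassoc_of% h1]
  · apply bp.hom_ext'
    · apply bp.hom_ext'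
      · simp [io, pi]
      · simp [io, pi]
    · simp [io, pi]

/-- extensionality for maps out of `T_s T_t T_s X` -/
theorem t3_ext {X Z : C} {f g : tob S (tob T (tob S X)) ⟶ Z}
    (hg : S.map (T.map bp.inl) ≫ S.map bp.inl ≫ bp.inl ≫ f
      = S.map (T.map bp.inl) ≫ S.map bp.inl ≫ bp.inl ≫ g)
    (hf : S.map (T.map bp.inr) ≫ S.map bp.inl ≫ bp.inl ≫ f
      = S.map (T.map bp.inr) ≫ S.map bp.inl ≫ bp.inl ≫ g)
    (he : S.map bp.inl ≫ S.map bp.inr ≫ bp.inl ≫ f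
      = S.map bp.inl ≫ S.map bp.inr ≫ bp.inl ≫ g)
    (ha' : S.map bp.inr ≫ S.map bp.inr ≫ bp.inl ≫ f
      = S.map bp.inr ≫ S.map bp.inr ≫ bp.inl ≫ g)
    (hc : T.map bp.inl ≫ bp.inl ≫ bp.inr ≫ f
      = T.map bp.inl ≫ bp.inl ≫ bp.inr ≫ g)
    (hb : T.map bp.inr ≫ bp.inl ≫ bp.inr ≫ f
      = T.map bp.inr ≫ bp.inl ≫ bp.inr ≫ g)
    (ha : bp.inl ≫ bp.inr ≫ bp.inr ≫ f
      = bp.inl ≫ bp.inr ≫ bp.inr ≫ g)
    (hx : bp.inr ≫ bp.inr ≫ bp.inr ≫ f
      = bp.inr ≫ bp.inr ≫ bp.inr ≫ g) : f = g := by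
  apply bp.hom_ext'
  · apply map_ext S
    · exact map_ext (T ⋙ S) hg hf
    · exact map_ext S he ha'
  · apply bp.hom_ext'
    · exact map_ext T hc hb
    · exact bp.hom_ext' _ _ ha hx

/-- the differential of `T_s T_t T_s X` -/
abbrev d3 (ε : Cou S) (τ : Cou T) {X : C} (d : X ⟶ X) :
    tob S (tob T (tob S X)) ⟶ tob S (tob T (tob S X)) :=
  td S ε (td T τ (td S ε d))

theorem io_d (P : Spl S T ε τ) {X : C} (d : X ⟶ X) :
    io P X ≫ d3 ε τ d = dd ε τ d ≫ io P X := by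
  apply bp.hom_ext'
  · apply bp.hom_ext'
    · simp [io, dd, d3]
      abel
    · simp [io, dd, d3]
      abel
  · apply bp.hom_ext'
    · apply bp.hom_ext'
      · simp [io, dd, d3]
      · simp [io, dd, d3]
    · simp [io, dd, d3]

theorem Spl.rk (P : Spl S T ε τ) (X : C) :
    P.ρ X ≫ S.map (τ.e (S.obj X)) = 𝟙 _ - P.σ X ≫ P.η X := by
  rw [← P.tot X]; abel

theorem Spl.ket (ε : Cou S) (τ : Cou T) (X : C) :
    ε.e (T.obj (S.obj X)) ≫ τ.e (S.obj X) = S.map (τ.e (S.obj X)) ≫ ε.e (S.obj X) :=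
  (ε.nat _).symm

theorem pi_d (P : Spl S T ε τ) {X : C} (d : X ⟶ X) :
    pi P X ≫ dd ε τ d = d3 ε τ d ≫ pi P X := by
  apply t3_ext
  · simp [pi, dd, d3]
  · simp [pi, dd, d3]
    abel
  · have h1 := P.rk X
    have h2 := Spl.ket ε τ X
    simp [pi, dd, d3]
    rw [reassoc_of% h2, reassoc_of% h1, reassoc_of% h1]
    simp
    abel
  · simp [pi, dd, d3]
  · simp [pi, dd, d3]
    abel
  · simp [pi, dd, d3]
  · simp [pi, dd, d3]
  · simp [pi, dd, d3]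

theorem homot (P : Spl S T ε τ) {X : C} (d : X ⟶ X) :
    𝟙 _ - pi P X ≫ io P X = d3 ε τ d ≫ ho P X + ho P X ≫ d3 ε τ d := by
  apply t3_ext
  · simp [pi, io, ho, d3]
  · simp [pi, io, ho, d3]
  · have h1 := P.rk X
    have h2 := Spl.ket ε τ X
    simp [pi, io, ho, d3]
    rw [reassoc_of% h2, reassoc_of% h1, reassoc_of% h1]
    simp
    abel
  · simp [pi, io, ho, d3]
  · simp [pi, io, ho, d3]
  · simp [pi, io, ho, d3]
  · simp [pi, io, ho, d3]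
    abel
  · simp [pi, io, ho, d3]

/-- the parity operator of `T_s T_t T_s X` -/
abbrev g3 (S T : C ⥤ C) {X : C} (g : X ⟶ X) :
    tob S (tob T (tob S X)) ⟶ tob S (tob T (tob S X)) :=
  tg S (tg T (tg S g))

/-- parity operator of the symmetric model -/
def dg (S T : C ⥤ C) {X : C} (g : X ⟶ X) : dob S T X ⟶ dob S T X :=
  bp.desc
    (bp.desc (S.map (T.map g) ≫ bp.inl ≫ bp.inl) (T.map (S.map g) ≫ bp.inr ≫ bp.inl))
    (bp.desc
      (bp.desc (-(S.map g ≫ bp.inl ≫ bp.inl ≫ bp.inr)) (-(T.map g ≫ bp.inr ≫ bp.inl ≫ bp.inr)))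
      (g ≫ bp.inr ≫ bp.inr))

theorem io_g (P : Spl S T ε τ) {X : C} (g : X ⟶ X) :
    io P X ≫ g3 S T g = dg S T g ≫ io P X := by
  apply bp.hom_ext'
  · apply bp.hom_ext'
    · simp [io, dg, g3]
    · simp [io, dg, g3]
  · apply bp.hom_ext'
    · apply bp.hom_ext'
      · simp [io, dg, g3]
      · simp [io, dg, g3]
    · simp [io, dg, g3]

theorem pi_g (P : Spl S T ε τ) {X : C} (g : X ⟶ X) :
    pi P X ≫ dg S T g = g3 S T g ≫ pi P X := by
  apply t3_ext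
  · simp [pi, dg, g3]
  · simp [pi, dg, g3]
  · simp [pi, dg, g3]
    abel
  · simp [pi, dg, g3]
  · simp [pi, dg, g3]
  · simp [pi, dg, g3]
  · simp [pi, dg, g3]
  · simp [pi, dg, g3]

theorem ho_g (P : Spl S T ε τ) {X : C} (g : X ⟶ X) :
    ho P X ≫ g3 S T g = -(g3 S T g ≫ ho P X) := by
  apply t3_ext
  · simp [ho, g3]
  · simp [ho, g3]
  · simp [ho, g3]
  · simp [ho, g3]
  · simp [ho, g3]
  · simp [ho, g3]
  · simp [ho, g3]
  · simp [ho, g3]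

/-- the symmetry of the model -/
def sw (S T : C ⥤ C) (X : C) : dob S T X ⟶ dob T S X :=
  bp.desc
    (bp.desc (bp.inr ≫ bp.inl) (bp.inl ≫ bp.inl))
    (bp.desc (bp.desc (bp.inr ≫ bp.inl ≫ bp.inr) (bp.inl ≫ bp.inl ≫ bp.inr)) (bp.inr ≫ bp.inr))

theorem sw_sw (S T : C ⥤ C) (X : C) : sw S T X ≫ sw T S X = 𝟙 _ := by
  apply bp.hom_ext'
  · apply bp.hom_ext'
    · simp [sw]
    · simp [sw]
  · apply bp.hom_ext'
    · apply bp.hom_ext'
      · simp [sw]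
      · simp [sw]
    · simp [sw]

theorem sw_d (ε : Cou S) (τ : Cou T) {X : C} (d : X ⟶ X) :
    sw S T X ≫ dd τ ε d = dd ε τ d ≫ sw S T X := by
  apply bp.hom_ext'
  · apply bp.hom_ext'
    · simp [sw, dd]
    · simp [sw, dd]
  · apply bp.hom_ext'
    · apply bp.hom_ext'
      · simp [sw, dd]
      · simp [sw, dd]
    · simp [sw, dd]

theorem sw_g {X : C} (g : X ⟶ X) :
    sw S T X ≫ dg T S g = dg S T g ≫ sw S T X := by
  apply bp.hom_ext'
  · apply bp.hom_ext'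
    · simp [sw, dg]
    · simp [sw, dg]
  · apply bp.hom_ext'
    · apply bp.hom_ext'
      · simp [sw, dg]
      · simp [sw, dg]
    · simp [sw, dg]

/-- the braid equivalence `T_s T_t T_s X → T_t T_s T_t X` -/
def bq (P : Spl S T ε τ) (Q : Spl T S τ ε) (X : C) :
    tob S (tob T (tob S X)) ⟶ tob T (tob S (tob T X)) :=
  pi P X ≫ sw S T X ≫ io Q X

theorem bq_d (P : Spl S T ε τ) (Q : Spl T S τ ε) {X : C} (d : X ⟶ X) :
    bq P Q X ≫ d3 τ ε d = d3 ε τ d ≫ bq P Q X := by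
  rw [bq, Category.assoc, Category.assoc, io_d, ← Category.assoc (sw S T X), sw_d,
    Category.assoc, ← Category.assoc (pi P X), pi_d, Category.assoc]

theorem bq_g (P : Spl S T ε τ) (Q : Spl T S τ ε) {X : C} (g : X ⟶ X) :
    bq P Q X ≫ g3 T S g = g3 S T g ≫ bq P Q X := by
  rw [bq, Category.assoc, Category.assoc, io_g, ← Category.assoc (sw S T X), sw_g,
    Category.assoc, ← Category.assoc (pi P X), pi_g, Category.assoc]

theorem bq_bq (P : Spl S T ε τ) (Q : Spl T S τ ε) {X : C} (d : X ⟶ X) :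
    𝟙 _ - bq P Q X ≫ bq Q P X = d3 ε τ d ≫ ho P X + ho P X ≫ d3 ε τ d := by
  rw [← homot P d]
  congr 1
  rw [bq, bq, Category.assoc, Category.assoc, ← Category.assoc (io Q X), io_pi,
    Category.id_comp, ← Category.assoc (sw S T X), sw_sw, Category.id_comp]

end braid

section comm

variable (S T : C ⥤ C) [S.Additive] [T.Additive] (ε : Cou S) (τ : Cou T)

/-- the commutation isomorphism `T_s T_t X → T_t T_s X` for `S T = 0 = T S` -/
def cq (X : C) : tob S (tob T X) ⟶ tob T (tob S X) :=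
  bp.desc (S.map bp.snd ≫ bp.inl ≫ bp.inr)
    (bp.desc (T.map bp.inr ≫ bp.inl) (bp.inr ≫ bp.inr))

theorem z_of {A Z : C} (h : 𝟙 A = 0) (f : A ⟶ Z) : f = 0 := by
  rw [← Category.id_comp f, h, zero_comp]

theorem cq_cq (hST : ∀ X, 𝟙 (S.obj (T.obj X)) = 0) (X : C) :
    cq S T X ≫ cq T S X = 𝟙 _ := by
  apply bp.hom_ext'
  · apply map_ext S
    · exact (z_of (hST X) _).trans (z_of (hST X) _).symm
    · simp [cq]
  · apply bp.hom_ext'
    · simp [cq]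
    · simp [cq]

theorem cq_d (hST : ∀ X, 𝟙 (S.obj (T.obj X)) = 0) {X : C} (d : X ⟶ X) :
    cq S T X ≫ td T τ (td S ε d) = td S ε (td T τ d) ≫ cq S T X := by
  apply bp.hom_ext'
  · apply map_ext S
    · exact (z_of (hST X) _).trans (z_of (hST X) _).symm
    · simp [cq]
  · apply bp.hom_ext'
    · simp [cq]
    · simp [cq]

theorem cq_g (hST : ∀ X, 𝟙 (S.obj (T.obj X)) = 0) {X : C} (g : X ⟶ X) :
    cq S T X ≫ tg T (tg S g) = tg S (tg T g) ≫ cq S T X := by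
  apply bp.hom_ext'
  · apply map_ext S
    · exact (z_of (hST X) _).trans (z_of (hST X) _).symm
    · simp [cq]
  · apply bp.hom_ext'
    · simp [cq]
    · simp [cq]

end comm

end Crest.Agent.R175.TwB_250
end

-- ▼ part R175/TwD_250

/-!
helper250: braid relation and commutation relation for the twists `T F` of helper253
(`Sph` data), from the abstract elimination of `TwB_250`.
-/

set_option autoImplicit false
set_option linter.unusedSectionVars false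
set_option linter.unusedSimpArgs false

open CategoryTheory

namespace Crest.Agent.R175.TwD_250
open Crest.Agent.R175.TwA_253 Crest.Agent.R175.TwB_250
universe v u

variable {C : Type u} [Category.{v} C] [Preadditive C]

/-- the sums of the explicit biproducts -/
abbrev s2 [BP C] (A B : C) : Sum2 A B where
  S := A ⊹ B
  inl := bp.inl
  inr := bp.inr
  fst := bp.fst
  snd := bp.snd
  inl_fst := bp.inl_fst
  inr_snd := bp.inr_snd
  inl_snd := bp.inl_snd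
  inr_fst := bp.inr_fst
  total := bp.total

/-- `Q` as a functor -/
abbrev Qf (F : Sph C) : C ⥤ C where
  obj := F.Q
  map f := F.m f
  map_id := F.m_id
  map_comp := F.m_comp


instance (F : Sph C) : (Qf F).Additive where
  map_add := F.m_add _ _

/-- the counit -/
abbrev Cf (F : Sph C) : Cou (Qf F) where
  e := F.eps
  nat := F.eps_nat

/-- the natural transformation `θ : Q_s → Q_s Q_t Q_s` for one edge `s - t`
(`θ (p ⊗ h) = p ⊗ a ⊗ rev a ⊗ h`), and the `1`-part `σ` of `Q_s Q_s = Q_s ⊗ ⟨1, l⟩`. -/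
structure Edge (F G : Sph C) where
  θ : ∀ X : C, F.Q X ⟶ F.Q (G.Q (F.Q X))
  σ : ∀ X : C, F.Q (F.Q X) ⟶ F.Q X
  nat : ∀ {X Y : C} (f : X ⟶ Y), F.m f ≫ θ Y = θ X ≫ F.m (G.m (F.m f))
  uσ : ∀ X, F.u X ≫ σ X = 𝟙 _
  κσ : ∀ X, F.m (G.eps (F.Q X)) ≫ σ X = 0
  b : ∀ X, F.m (G.eps (F.Q X)) ≫ F.c X ≫ θ X = 𝟙 _
  tot : ∀ X, σ X ≫ F.u X + F.c X ≫ θ X ≫ F.m (G.eps (F.Q X)) = 𝟙 _

/-- the splitting used in `TwB_250` -/
def spl {F G : Sph C} (E : Edge F G) : Spl (Qf F) (Qf G) (Cf F) (Cf G) where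
  η X := F.u X
  σ X := E.σ X
  ρ X := F.c X ≫ E.θ X
  η_nat f := F.u_nat f
  ρ_nat {X Y} f := by
    change F.m (F.m f) ≫ F.c Y ≫ E.θ Y = (F.c X ≫ E.θ X) ≫ F.m (G.m (F.m f))
    rw [F.c_nat_assoc, E.nat, Category.assoc]
  ησ X := E.uσ X
  ηρ X := by
    change F.u X ≫ F.c X ≫ E.θ X = 0
    simp
  κσ X := E.κσ X
  κρ X := E.b X
  tot X := by
    have := E.tot X
    rw [← this]
    change _ + (F.c X ≫ E.θ X) ≫ F.m (G.eps (F.Q X)) = _
    rw [Category.assoc]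
  ηε X := F.u_eps2 X
  ηε' X := F.u_eps1 X

section main

variable [BP C]

/-- the twist with the chosen sums -/
abbrev Tq (F : Sph C) (X : Tw C) : Tw C := T F X (s2 _ _)

theorem Tq_d (F : Sph C) (X : Tw C) :
    (Tq F X).d = td (Qf F) (Cf F) X.d := by
  apply bp.hom_ext'
  · refine Eq.trans ?_ (inl_td (Qf F) (Cf F) X.d).symm
    change bp.inl ≫ (-(bp.fst ≫ F.m X.d ≫ bp.inl) + bp.fst ≫ F.eps X.X ≫ bp.inr
      + bp.snd ≫ X.d ≫ bp.inr) = _
    simp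
  · refine Eq.trans ?_ (inr_td (Qf F) (Cf F) X.d).symm
    change bp.inr ≫ (-(bp.fst ≫ F.m X.d ≫ bp.inl) + bp.fst ≫ F.eps X.X ≫ bp.inr
      + bp.snd ≫ X.d ≫ bp.inr) = _
    simp

theorem Tq_e (F : Sph C) (X : Tw C) :
    (Tq F X).e = tg (Qf F) X.e := by
  apply bp.hom_ext'
  · refine Eq.trans ?_ (inl_tg (Qf F) X.e).symm
    change bp.inl ≫ (-(bp.fst ≫ F.m X.e ≫ bp.inl) + bp.snd ≫ X.e ≫ bp.inr) = _
    simp
  · refine Eq.trans ?_ (inr_tg (Qf F) X.e).symm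
    change bp.inr ≫ (-(bp.fst ≫ F.m X.e ≫ bp.inl) + bp.snd ≫ X.e ≫ bp.inr) = _
    simp

theorem eff {X Y : Tw C} {f : X.X ⟶ Y.X} (hd : f ≫ Y.d = X.d ≫ f) (he : f ≫ Y.e = X.e ≫ f) :
    bar X Y f = f ∧ D X Y f = 0 := by
  have h1 : bar X Y f = f := by
    rw [bar, he, ← Category.assoc, X.ee, Category.id_comp]
  exact ⟨h1, by rw [D, h1, hd, sub_self]⟩

theorem efh {X : Tw C} {h : X.X ⟶ X.X} (he : h ≫ X.e = -(X.e ≫ h)) :
    D X X (-h) = -(X.d ≫ h + h ≫ X.d) := by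
  have h1 : bar X X (-h) = h := by
    rw [bar, Preadditive.neg_comp, he, neg_neg, ← Category.assoc, X.ee, Category.id_comp]
  rw [D, h1, Preadditive.neg_comp]
  abel

/-- **the braid relation** for twists along two spherical objects joined by one edge -/
theorem braid {F G : Sph C} (E : Edge F G) (E' : Edge G F) (X : Tw C) :
    TwA_253.HEq (Tq F (Tq G (Tq F X))) (Tq G (Tq F (Tq G X))) := by
  have hd : ∀ F G : Sph C, (Tq F (Tq G (Tq F X))).d = d3 (Cf F) (Cf G) X.d := by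
    intro F G
    rw [Tq_d, Tq_d, Tq_d]
  have he : ∀ F G : Sph C, (Tq F (Tq G (Tq F X))).e = g3 (Qf F) (Qf G) X.e := by
    intro F G
    rw [Tq_e, Tq_e, Tq_e]
  have h1 := eff (X := Tq F (Tq G (Tq F X))) (Y := Tq G (Tq F (Tq G X)))
    (f := bq (spl E) (spl E') X.X)
    (by rw [hd, hd]; exact bq_d (spl E) (spl E') X.d)
    (by rw [he, he]; exact bq_g (spl E) (spl E') X.e)
  have h2 := eff (X := Tq G (Tq F (Tq G X))) (Y := Tq F (Tq G (Tq F X)))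
    (f := bq (spl E') (spl E) X.X)
    (by rw [hd, hd]; exact bq_d (spl E') (spl E) X.d)
    (by rw [he, he]; exact bq_g (spl E') (spl E) X.e)
  refine ⟨bq (spl E) (spl E') X.X, bq (spl E') (spl E) X.X, -(ho (spl E) X.X),
    -(ho (spl E') X.X), h1.1, h2.1, h1.2, h2.2, ?_, ?_⟩
  · rw [efh (X := Tq F (Tq G (Tq F X))) (by rw [he]; exact ho_g (spl E) X.e), hd,
      ← bq_bq (spl E) (spl E') X.d]
    abel
  · rw [efh (X := Tq G (Tq F (Tq G X))) (by rw [he]; exact ho_g (spl E') X.e), hd,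
      ← bq_bq (spl E') (spl E) X.d]
    abel

/-- **the commutation relation** for orthogonal spherical objects -/
theorem comm {F G : Sph C} (h : ∀ X, 𝟙 (F.Q (G.Q X)) = 0) (h' : ∀ X, 𝟙 (G.Q (F.Q X)) = 0)
    (X : Tw C) : TwA_253.HEq (Tq F (Tq G X)) (Tq G (Tq F X)) := by
  have hd : ∀ F G : Sph C, (Tq F (Tq G X)).d = td (Qf F) (Cf F) (td (Qf G) (Cf G) X.d) := by
    intro F G
    rw [Tq_d, Tq_d]
  have he : ∀ F G : Sph C, (Tq F (Tq G X)).e = tg (Qf F) (tg (Qf G) X.e) := by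
    intro F G
    rw [Tq_e, Tq_e]
  have h1 := eff (X := Tq F (Tq G X)) (Y := Tq G (Tq F X)) (f := cq (Qf F) (Qf G) X.X)
    (by rw [hd, hd]; exact cq_d (Qf F) (Qf G) (Cf F) (Cf G) h X.d)
    (by rw [he, he]; exact cq_g (Qf F) (Qf G) h X.e)
  have h2 := eff (X := Tq G (Tq F X)) (Y := Tq F (Tq G X)) (f := cq (Qf G) (Qf F) X.X)
    (by rw [hd, hd]; exact cq_d (Qf G) (Qf F) (Cf G) (Cf F) h' X.d)
    (by rw [he, he]; exact cq_g (Qf G) (Qf F) h' X.e)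
  refine ⟨cq (Qf F) (Qf G) X.X, cq (Qf G) (Qf F) X.X, 0, 0, h1.1, h2.1, h1.2, h2.2, ?_, ?_⟩
  · rw [cq_cq (Qf F) (Qf G) h]; simp [D, bar]
  · rw [cq_cq (Qf G) (Qf F) h']; simp [D, bar]

end main

end Crest.Agent.R175.TwD_250
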