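import Crest.Agent.R175.TwH_253
import Crest.Agent.R175.TwD_250
import Crest.Agent.R175.TwI_253
import Crest.Agent.R175.TwS_83
import Crest.Agent.R175.PTD_450
import Crest.Agent.R175.TU_788

-- ▼ part R175/TwM_250
section

/-!
helper250: the edge data `θ : Q_s → Q_s Q_t Q_s` on `Gob G k` (concrete part of the braid
relation), and `Q_s Q_t = 0` when there is no edge.
-/

set_option autoImplicit false
set_option linter.unusedSectionVars false
set_option linter.unusedSimpArgs false

open CategoryTheory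

namespace Crest.Agent.R175.TwM_250

open PTA TwG_253

universe v

noncomputable section

variable {T : Type v} {G : MG T} {k : Type v} [Field k] [Fintype T] (U U' : T → Prop)
variable {X Y Z : Gob G k}

/-- `v ↦ ∑_b b ⊗ rev b ⊗ v` -/
def w (Z : Gob G k) (r : T) : Z.V r →ₗ[k] HP (QG U' Z) r :=
  ∑ q, ∑ b : G.E r q, i1 (QG U' Z) b ∘ₗ qin U' Z q ∘ₗ i1 Z (G.rev b)

theorem w_apply (Z : Gob G k) (r : T) (y : Z.V r) :
    w U' Z r y = ∑ q, ∑ b : G.E r q, i1 (QG U' Z) b (qin U' Z q (i1 Z (G.rev b) y)) := by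
  simp [w]

/-- `θ` -/
def thG (X : Gob G k) : QG U X ⟶ QG U (QG U' (QG U X)) :=
  mkH (fun r => qin U _ r ∘ₗ w U' (QG U X) r) (fun _ => 0) (fun _ _ _ => 0) (fun _ => 0)
    (fun _ => 0) (fun _ => 0)

/-- `σ` -/
def sgG (X : Gob G k) : QG U (QG U X) ⟶ QG U X :=
  mkH (fun t => LinearMap.fst _ _ _ ∘ₗ qev U (QG U X) t) (fun _ => 0) (fun _ _ _ => 0)
    (fun _ => 0) (fun _ => 0) (fun _ => 0)

theorem c0_th (r : T) (y : (QG U X).V r) :
    c0 (thG U U' X) r y = qin U _ r (w U' (QG U X) r y) := rfl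
theorem c0_sg (r : T) (y : (QG U (QG U X)).V r) :
    c0 (sgG U X) r y = (qev U (QG U X) r y).1 := rfl

theorem w_nat (f : X ⟶ Y) (h1 : ∀ (s t : T) (a : G.E s t), c1 f a = 0) (r : T) (y : X.V r) :
    hmap (mG U' f) r (w U' X r y) = w U' Y r (c0 f r y) := by
  rw [w_apply, w_apply, map_sum]
  refine Finset.sum_congr rfl fun q _ => ?_
  rw [map_sum]
  refine Finset.sum_congr rfl fun b _ => ?_
  rw [hmap_i1, c1_mG, LinearMap.zero_apply, map_zero, add_zero]
  congr 1
  rw [c0_mG]
  apply q_ext
  intro h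
  rw [qev_qin h, qev_qin h, qev_qin h, hmap_i1, h1, LinearMap.zero_apply, map_zero, add_zero]

theorem th_nat (f : X ⟶ Y) : mG U f ≫ thG U U' Y = thG U U' X ≫ mG U (mG U' (mG U f)) := by
  apply hm_ext
  · intro t; apply LinearMap.ext; intro x
    apply q_ext; intro h
    simp only [c0_comp, LinearMap.comp_apply, c0_th, c0_mG, qev_qin h]
    rw [w_nat U' (mG U f) (fun _ _ _ => rfl), c0_mG]
  · intro t; apply LinearMap.ext; intro x; exact Subsingleton.elim _ _
  · intro s t a; simp [thG, c1_mG]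
  · intro t; simp [thG, ci_mG]
  · intro t; simp [thG, cj_mG]
  · intro t; simp [thG, c2_mG, c1_mG, cj_mG]

/-! ### no edge -/

theorem QQ_zero {s t : T} (hst : s ≠ t) (h : IsEmpty (G.E s t)) (X : Gob G k) :
    𝟙 (QG (fun r => r = s) (QG (fun r => r = t) X)) = 0 := by
  apply hm_ext
  · intro r; apply LinearMap.ext; intro x
    by_cases hr : r = s
    · subst hr
      rw [c0_id, LinearMap.id_apply]
      apply q_ext
      intro _
      have e := sum_i1 r (qev (fun q => q = r) _ r x)
      have h0 : (qev (fun q => q = r) _ r x).1 = 0 := q_zero (U := fun r => r = t) hst _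
      have h2 : (qev (fun q => q = r) _ r x).2.2.2 = 0 := q_zero (U := fun r => r = t) hst _
      have hw : (qev (fun q => q = r) _ r x).2.2.1 = 0 := Subsingleton.elim _ _
      have h1 : (∑ q, ∑ b : G.E r q,
          i1 (QG (fun q => q = t) X) b ((qev (fun q => q = r) _ r x).2.1 q b)) = 0 := by
        apply Finset.sum_eq_zero
        intro q _
        apply Finset.sum_eq_zero
        intro b _
        by_cases hq : q = t
        · subst hq; exact h.elim b
        · have : (qev (fun q => q = r) _ r x).2.1 q b = 0 := q_zero (U := fun z => z = t) hq _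
          rw [this, map_zero]
      rw [h0, h1, hw, h2, map_zero, map_zero, map_zero, add_zero, add_zero, add_zero] at e
      refine e.symm.trans ?_
      exact (map_zero (qev (fun q => q = r) _ r)).symm
    · exact (q_zero (U := fun q => q = s) hr _).trans (q_zero (U := fun q => q = s) hr _).symm
  · intro t; apply LinearMap.ext; intro x; exact Subsingleton.elim _ _
  · intro s t a; simp
  · intro t; simp
  · intro t; simp
  · intro t; simp

/-! ### one edge -/

section one

variable {s t : T} (hst : s ≠ t)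

theorem HP_one (a₀ : G.E s t) (ha : ∀ b : G.E s t, b = a₀) (hst : s ≠ t)
    (x : HP (QG (fun r => r = t) Z) s) : x = i1 _ a₀ (x.2.1 t a₀) := by
  have e := sum_i1 s x
  have h0 : x.1 = 0 := q_zero (U := fun r => r = t) hst _
  have h2 : x.2.2.2 = 0 := q_zero (U := fun r => r = t) hst _
  have hw : x.2.2.1 = 0 := Subsingleton.elim _ _
  rw [h0, h2, hw, map_zero, map_zero, map_zero, zero_add, add_zero, add_zero] at e
  refine e.symm.trans ?_
  rw [Finset.sum_eq_single t, Finset.sum_eq_single a₀]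
  · intro b _ hb
    exact absurd (ha b) hb
  · intro h; exact absurd (Finset.mem_univ _) h
  · intro q _ hq
    apply Finset.sum_eq_zero
    intro b _
    have : x.2.1 q b = 0 := q_zero (U := fun r => r = t) hq _
    rw [this, map_zero]
  · intro h; exact absurd (Finset.mem_univ _) h

theorem w_one (a₀ : G.E s t) (ha : ∀ b : G.E s t, b = a₀) (y : Z.V s) :
    w (fun r => r = t) Z s y = i1 _ a₀ (qin (fun r => r = t) Z t (i1 Z (G.rev a₀) y)) := by
  rw [w_apply, Finset.sum_eq_single t, Finset.sum_eq_single a₀]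
  · intro b _ hb
    exact absurd (ha b) hb
  · intro h; exact absurd (Finset.mem_univ _) h
  · intro q _ hq
    apply Finset.sum_eq_zero
    intro b _
    have : qin (fun r => r = t) Z q (i1 Z (G.rev b) y) = 0 :=
      q_zero (U := fun r => r = t) hq _
    rw [this, map_zero]
  · intro h; exact absurd (Finset.mem_univ _) h

theorem i1_self {s t : T} (b : G.E t s) (x : X.V s) : (i1 X b x).2.1 s b = x := by
  classical
  change (Pi.single s (Pi.single b x) : ∀ r, G.E t r → X.V r) s b = x
  simp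

/-- the map `Q_s Q_t Q_s → Q_s Q_s → Q_s` -/
theorem c2_one (a₀ : G.E s t) (ha : ∀ b : G.E s t, b = a₀) (hst : s ≠ t)
    (x : HP (QG (fun r => r = t) (QG (fun r => r = s) X)) s) :
    hmap (epsG (fun r => r = t) (QG (fun r => r = s) X)) s x =
      i2 _ s ((qev (fun r => r = t) _ t (x.2.1 t a₀)).2.1 s (G.rev a₀)) := by
  rw [HP_one a₀ ha hst x, hmap_i1, c0_eps, c1_eps, ← HP_one a₀ ha hst x]
  have h0 : (qev (fun r => r = t) (QG (fun r => r = s) X) t (x.2.1 t a₀)).1 = 0 :=
    q_zero (U := fun r => r = s) (fun h => hst h.symm) _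
  rw [h0, map_zero, zero_add]

theorem uσ : uG U X ≫ sgG U X = 𝟙 _ := by
  apply hm_ext
  · intro t; apply LinearMap.ext; intro x
    by_cases h : U t
    · simp only [c0_comp, LinearMap.comp_apply, c0_u, c0_sg, qev_qin h, i0_0, c0_id,
        LinearMap.id_apply]
    · rw [q_zero h x, map_zero, map_zero]
  · intro t; apply LinearMap.ext; intro x; exact Subsingleton.elim _ _
  · intro s t a; simp [c1_u, sgG]
  · intro t; simp [ci_u, sgG]
  · intro t; simp [cj_u, sgG]
  · intro t; simp [c2_u, c1_u, cj_u, sgG]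

theorem κσ (hst : s ≠ t) : mG (fun r => r = s) (epsG (fun r => r = t) (QG (fun r => r = s) X)) ≫
    sgG (fun r => r = s) X = 0 := by
  apply hm_ext
  · intro r; apply LinearMap.ext; intro x
    by_cases h : r = s
    · subst h
      simp only [c0_comp, LinearMap.comp_apply, c0_mG, c0_sg, hmap_0]
      rw [qev_qin (U := fun q => q = r) rfl, hmap_0]
      have h0 : (qev (fun q => q = r) _ r x).1 = 0 := q_zero (U := fun r => r = t) hst _
      rw [h0, map_zero]
      rfl
    · exact q_zero (U := fun q => q = s) h _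
  · intro t; apply LinearMap.ext; intro x; exact Subsingleton.elim _ _
  · intro s t a; simp [c1_mG, sgG]
  · intro t; simp [ci_mG, sgG]
  · intro t; simp [cj_mG, sgG]
  · intro t; simp [c2_mG, c1_mG, cj_mG, sgG]

theorem bG (a₀ : G.E s t) (ha : ∀ b : G.E s t, b = a₀) (ha' : ∀ b : G.E t s, b = G.rev a₀)
    (hst : s ≠ t) :
    mG (fun r => r = s) (epsG (fun r => r = t) (QG (fun r => r = s) X)) ≫
      cG (fun r => r = s) X ≫ thG (fun r => r = s) (fun r => r = t) X = 𝟙 _ := by
  apply hm_ext
  · intro r; apply LinearMap.ext; intro x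
    by_cases h : r = s
    · subst h
      simp only [c0_comp, LinearMap.comp_apply, c0_mG, c0_th, c0_c, c0_id, LinearMap.id_apply]
      apply q_ext
      intro _
      rw [qev_qin (U := fun q => q = r) rfl, qev_qin (U := fun q => q = r) rfl,
        c2_one a₀ ha hst, i2_2, w_one a₀ ha]
      have h1 := HP_one a₀ ha hst (qev (fun q => q = r) _ r x)
      have h2 := HP_one (G.rev a₀) ha' (Ne.symm hst)
        (qev (fun q => q = t) _ t ((qev (fun q => q = r) _ r x).2.1 t a₀))
      refine Eq.trans ?_ h1.symm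
      congr 1
      refine Eq.trans ?_ (qin_qev (U := fun q => q = t) _)
      congr 1
      exact h2.symm
    · exact (q_zero (U := fun q => q = s) h _).trans (q_zero (U := fun q => q = s) h _).symm
  · intro t; apply LinearMap.ext; intro x; exact Subsingleton.elim _ _
  · intro s t a; simp [c1_mG, c1_c, thG]
  · intro t; simp [ci_mG, ci_c, thG]
  · intro t; simp [cj_mG, cj_c, thG]
  · intro t; simp [c2_mG, c1_mG, cj_mG, c2_c, c1_c, cj_c, thG]

theorem totG (a₀ : G.E s t) (ha : ∀ b : G.E s t, b = a₀)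
    (hst : s ≠ t) :
    sgG (fun r => r = s) X ≫ uG (fun r => r = s) X +
      cG (fun r => r = s) X ≫ thG (fun r => r = s) (fun r => r = t) X ≫
      mG (fun r => r = s) (epsG (fun r => r = t) (QG (fun r => r = s) X)) = 𝟙 _ := by
  apply hm_ext
  · intro r; apply LinearMap.ext; intro x
    by_cases h : r = s
    · subst h
      simp only [c0_add, LinearMap.add_apply, c0_comp, LinearMap.comp_apply, c0_mG, c0_th, c0_c,
        c0_id, LinearMap.id_apply, c0_sg, c0_u]
      apply q_ext
      intro _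
      rw [map_add, qev_qin (U := fun q => q = r) rfl, qev_qin (U := fun q => q = r) rfl,
        qev_qin (U := fun q => q = r) rfl, c2_one a₀ ha hst, w_one a₀ ha]
      set y := qev (fun q => q = r) _ r x with hy
      have e := sum_i1 r y
      have hw : y.2.2.1 = 0 := Subsingleton.elim _ _
      have h1 : (∑ q, ∑ b : G.E r q, i1 (QG (fun q => q = r) X) b (y.2.1 q b)) = 0 := by
        apply Finset.sum_eq_zero
        intro q _
        apply Finset.sum_eq_zero
        intro b _
        by_cases hq : q = r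
        · subst hq; exact (G.irr q).elim b
        · have : y.2.1 q b = 0 := q_zero (U := fun z => z = r) hq _
          rw [this, map_zero]
      rw [hw, h1, map_zero, add_zero, add_zero] at e
      refine Eq.trans ?_ e
      congr 1
      congr 1
      rw [i1_self, qev_qin (U := fun q => q = t) rfl, i1_self]
    · exact (q_zero (U := fun q => q = s) h _).trans (q_zero (U := fun q => q = s) h _).symm
  · intro t; apply LinearMap.ext; intro x; exact Subsingleton.elim _ _
  · intro s t a; simp [c1_mG, c1_c, thG, sgG, c1_u]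
  · intro t; simp [ci_mG, ci_c, thG, sgG, ci_u]
  · intro t; simp [cj_mG, cj_c, thG, sgG, cj_u]
  · intro t; simp [c2_mG, c1_mG, cj_mG, c2_c, c1_c, cj_c, thG, sgG, c2_u, c1_u, cj_u]

end one

end

end Crest.Agent.R175.TwM_250
end

-- ▼ part R175/TwN_250
section

/-!
helper250: `Edge` for the concrete twists.
-/

set_option autoImplicit false
set_option linter.unusedSectionVars false

open CategoryTheory

namespace Crest.Agent.R175.TwM_250

open PTA TwG_253

universe v

noncomputable section

variable {T : Type v} {G : MG T} {k : Type v} [Field k] [Fintype T]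

theorem sing {s : T} (a b : T) (ha : a = s) (hb : b = s) : IsEmpty (G.E a b) := by
  subst ha hb; exact G.irr _

variable (G k) in
/-- `Q_s` -/
abbrev sph1 (s : T) : TwA_253.Sph (Gob G k) := sphG (fun r => r = s) sing

/-- the edge data for one edge -/
def edge1 {s t : T} (a₀ : G.E s t) (ha : ∀ b : G.E s t, b = a₀) (hst : s ≠ t) :
    TwD_250.Edge (sph1 G k s) (sph1 G k t) where
  θ X := thG (fun r => r = s) (fun r => r = t) X
  σ X := sgG (fun r => r = s) X
  nat f := by
    dsimp only [sph1, sphG]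
    exact th_nat (fun r => r = s) (fun r => r = t) f
  uσ X := by
    dsimp only [sph1, sphG]
    exact uσ (fun r => r = s)
  κσ X := by
    dsimp only [sph1, sphG]
    exact κσ hst
  b X := by
    dsimp only [sph1, sphG]
    exact bG a₀ ha (fun b => by rw [← ha (G.rev b), G.rev_rev]) hst
  tot X := by
    dsimp only [sph1, sphG]
    exact totG a₀ ha hst

theorem QQ1_zero {s t : T} (hst : s ≠ t) (h : IsEmpty (G.E s t)) (X : Gob G k) :
    𝟙 ((sph1 G k s).Q ((sph1 G k t).Q X)) = 0 := by
  dsimp only [sph1, sphG]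
  exact QQ_zero hst h X

end

end Crest.Agent.R175.TwM_250
end

-- ▼ part R175/TwP_250
section

/-!
helper250: braid and commutation relations for the twists `T (Q_s)` on `Gob G k`, for arbitrary
choices of the sums, and the passage from `Tw` to `TOb`.
-/

set_option autoImplicit false
set_option linter.unusedSectionVars false

open CategoryTheory

namespace Crest.Agent.R175.TwM_250

section abs
open TwA_253 TwS_83 TwD_250 TwB_250
universe v u

variable {C : Type u} [Category.{v} C] [Preadditive C] [BP C]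



end abs

open PTA TwG_253

universe v

noncomputable section

variable {T : Type v} {G : MG T} {k : Type v} [Field k] [Fintype T]

instance : TwB_250.BP (Gob G k) where
  sm := gsum
  inl := PTA.inl _ _
  inr := PTA.inr _ _
  fst := PTA.fst _ _
  snd := PTA.snd _ _
  inl_fst := PTA.inl_fst _ _
  inr_snd := PTA.inr_snd _ _
  inl_snd := PTA.inl_snd _ _
  inr_fst := PTA.inr_fst _ _
  total := PTA.sum_one _ _

/-- T-framed objects as differential objects -/
abbrev tw (X : TOb G k) : TwA_253.Tw (Gob G k) where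
  X := X.X
  e := gam X.X
  d := X.d
  ee := gam_gam _
  dd := X.dd
  de := X.dg

theorem hiso_of_heq {X Y : TOb G k} (h : TwA_253.HEq (tw X) (tw Y)) : HIso X Y := by
  obtain ⟨f, g, h, h', a, b, c, d, e, e'⟩ := h
  exact ⟨⟨f, g, h, h', a, b, c, d, e, e'⟩⟩


end

end Crest.Agent.R175.TwM_250
end

-- ▼ part R175/TwQ_250

/-!
helper250: **braid and commutation relations for `TU` on `TOb`**.
-/

set_option autoImplicit false
set_option linter.unusedSectionVars false

open CategoryTheory

namespace Crest.Agent.R175.TwQ_250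

section abs
open TwA_253 TwS_83 TwD_250 TwB_250
universe v u

variable {C : Type u} [Category.{v} C] [Preadditive C]

/-- `Z` is the twist of `Y` along `F` -/
def IsT (F : Sph C) (Y Z : Tw C) : Prop :=
  ∃ S : Sum2 (F.Q Y.X) Y.X, Nonempty (SI Z (T F Y S))

variable [BP C]

theorem IsT.tq {F : Sph C} {Y Z A : Tw C} (h : IsT F Y Z) (i : Nonempty (SI Y A)) :
    Nonempty (SI Z (Tq F A)) := by
  obtain ⟨S, ⟨j⟩⟩ := h
  obtain ⟨i⟩ := i
  exact ⟨j.trans (Tm_SI i S (s2 _ _))⟩

theorem braid_isT {F G : Sph C} (E : Edge F G) (E' : Edge G F) {X Y₁ Y₂ Y₃ Z₁ Z₂ Z₃ : Tw C}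
    (h₁ : IsT F X Y₁) (h₂ : IsT G Y₁ Y₂) (h₃ : IsT F Y₂ Y₃)
    (g₁ : IsT G X Z₁) (g₂ : IsT F Z₁ Z₂) (g₃ : IsT G Z₂ Z₃) : TwA_253.HEq Y₃ Z₃ := by
  obtain ⟨i⟩ := h₃.tq (h₂.tq (h₁.tq ⟨SI.refl X⟩))
  obtain ⟨j⟩ := g₃.tq (g₂.tq (g₁.tq ⟨SI.refl X⟩))
  exact i.heq.trans ((braid E E' X).trans j.heq.symm)

theorem comm_isT {F G : Sph C} (h : ∀ X, 𝟙 (F.Q (G.Q X)) = 0) (h' : ∀ X, 𝟙 (G.Q (F.Q X)) = 0)
    {X Y₁ Y₂ Z₁ Z₂ : Tw C} (h₁ : IsT G X Y₁) (h₂ : IsT F Y₁ Y₂)
    (g₁ : IsT F X Z₁) (g₂ : IsT G Z₁ Z₂) : TwA_253.HEq Y₂ Z₂ := by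
  obtain ⟨i⟩ := h₂.tq (h₁.tq ⟨SI.refl X⟩)
  obtain ⟨j⟩ := g₂.tq (g₁.tq ⟨SI.refl X⟩)
  exact i.heq.trans ((comm h h' X).trans j.heq.symm)

end abs

open PTA TwG_253 TU_788
open TwA_253 (Tw Sum2 Sph)
open TwS_83 (SI)

universe v

noncomputable section

variable {T : Type v} {G : MG T} {k : Type v} [Field k] [Fintype T]

/-- forgetting the change of the parity involution is an isomorphism -/
def siOf (A : Tw (Gob G k)) (hp : FmU_83.Pu A.e) (hd : ∀ t, cW A.d t = 0) :
    SI (toTw (ofTw A hp hd)) A where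
  f := mkH (fun _ => LinearMap.id) (fun _ => LinearMap.id) (fun _ _ _ => 0) (fun _ => 0)
    (fun _ => 0) (fun _ => 0)
  g := mkH (fun _ => LinearMap.id) (fun _ => LinearMap.id) (fun _ _ _ => 0) (fun _ => 0)
    (fun _ => 0) (fun _ => 0)
  fg := by
    apply hm_ext <;> intros <;> simp
  gf := by
    apply hm_ext <;> intros <;> simp
  fe := by
    have h := gam_rg A hp
    change _ = gam (rg A.X A.e A.ee) ≫ _
    rw [h]
    apply hm_ext
    · intro t; rfl
    · intro t; rfl
    · intro s t a; simp; rfl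
    · intro t; simp; rfl
    · intro t; simp; rfl
    · intro t; simp; rfl
  fd := by
    apply hm_ext <;> intros <;> simp <;> rfl

theorem isT_TU (U : T → Prop) (hU : ∀ s t, U s → U t → IsEmpty (G.E s t)) (X : TOb G k) :
    IsT (sphG U hU) (toTw X) (toTw (TU U hU X)) :=
  ⟨sm _ _, ⟨siOf (tw U hU X) (pu_tw U hU X) (cW_tw U hU X)⟩⟩

theorem hiso_of_heq {X Y : TOb G k} (h : TwA_253.HEq (toTw X) (toTw Y)) : HIso X Y := by
  obtain ⟨f, g, h, h', a, b, c, d, e, e'⟩ := h
  exact ⟨⟨f, g, h, h', a, b, c, d, e, e'⟩⟩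

/-- **the braid relation** -/
theorem TU_braid {s t : T} (hst : s ≠ t) (a₀ : G.E s t) (ha : ∀ b : G.E s t, b = a₀)
    (X : TOb G k) :
    HIso (TU (fun r => r = s) TwM_250.sing (TU (fun r => r = t) TwM_250.sing
        (TU (fun r => r = s) TwM_250.sing X)))
      (TU (fun r => r = t) TwM_250.sing (TU (fun r => r = s) TwM_250.sing
        (TU (fun r => r = t) TwM_250.sing X))) :=
  hiso_of_heq <| braid_isT (TwM_250.edge1 a₀ ha hst)
    (TwM_250.edge1 (G.rev a₀) (fun b => by rw [← ha (G.rev b), G.rev_rev]) hst.symm)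
    (isT_TU _ _ _) (isT_TU _ _ _) (isT_TU _ _ _) (isT_TU _ _ _) (isT_TU _ _ _) (isT_TU _ _ _)

/-- **the commutation relation** -/
theorem TU_comm {s t : T} (hst : s ≠ t) (h : IsEmpty (G.E s t)) (X : TOb G k) :
    HIso (TU (fun r => r = s) TwM_250.sing (TU (fun r => r = t) TwM_250.sing X))
      (TU (fun r => r = t) TwM_250.sing (TU (fun r => r = s) TwM_250.sing X)) :=
  hiso_of_heq <| comm_isT (TwM_250.QQ1_zero hst h)
    (TwM_250.QQ1_zero hst.symm ⟨fun b => h.elim (G.rev b)⟩)
    (isT_TU _ _ _) (isT_TU _ _ _) (isT_TU _ _ _) (isT_TU _ _ _)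

end

end Crest.Agent.R175.TwQ_250
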