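import Crest.Agent.R175.Res_428
import Crest.Agent.R175.Unfr_83
import Crest.Agent.R175.Res3_428
import Crest.Agent.R175.TwI_253
import Crest.Agent.R175.FmU_83
import Crest.Agent.R175.TUh_988
import Crest.Agent.R175.TwQ_250
import Crest.Agent.R175.TUhT_988
import Crest.Agent.R175.TUadd_61
import Crest.Agent.R175.TUhF_988
import Crest.Agent.R175.Act2_732
import Crest.Agent.R175.Cls_133
import Crest.Agent.R175.ActC_788
import Crest.Agent.R175.TUc_61

-- ▼ part R175/Res4_428
section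

/-!
# Restriction commutes with the twists (row 175, S0263-RES)

`ι : T' → T` injective, `U : T → Prop` contained in the image, `U'` its preimage:
`Cmp (Res k G ι) (Q_U) (Q_U')`.
-/

set_option autoImplicit false
set_option linter.unusedSectionVars false
set_option linter.unusedVariables false
set_option linter.unusedSimpArgs false

open CategoryTheory Module

namespace Crest.Agent.R175.Res4_428

open Crest.Agent.R175.PTA Crest.Agent.R175.ResI_663 Crest.Agent.R175.Res_428
open Crest.Agent.R175.Unfr_83 Crest.Agent.R175.TwG_253 Crest.Agent.R175.FmU_83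
open Crest.Agent.R175.TwA_253 (Tw Sph Sum2)
open Crest.Agent.R175.TwS_83 Crest.Agent.R175.Res3_428

variable {T T' : Type} {k : Type} [Field k] [Fintype T] [Fintype T'] {G : MG T}
  {ι : T' → T} (hι : Function.Injective ι)

/-- the comparison `Hom(P_(ι t), X) → Hom(P_t, Res X)` -/
def bet (ι : T' → T) (X : Gob G k) (t : T') : HP X (ι t) →ₗ[k] HP (resG ι X) t where
  toFun x := (x.1, fun s a => x.2.1 (ι s) a, (x.2.2.1, fun u a => x.2.1 u.1 (G.rev a)), x.2.2.2)
  map_add' x y := rfl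
  map_smul' r x := rfl

theorem bet_inj (X : Gob G k) (t : T') : Function.Injective (bet ι X t) := by
  intro x y h
  apply HP_ext
  · exact congrArg (fun z => z.1) h
  · intro s a
    by_cases hs : s ∈ Set.range ι
    · obtain ⟨s, rfl⟩ := hs
      exact congrFun (congrFun (congrArg (fun z => z.2.1) h) s) a
    · have := congrFun (congrFun (congrArg (fun z => z.2.2.1.2) h) ⟨s, hs⟩) (G.rev a)
      change x.2.1 s (G.rev (G.rev a)) = y.2.1 s (G.rev (G.rev a)) at this
      rwa [G.rev_rev] at this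
  · exact congrArg (fun z => z.2.2.1.1) h
  · exact congrArg (fun z => z.2.2.2) h

include hι in
theorem bet_surj (X : Gob G k) (t : T') : Function.Surjective (bet ι X t) := by
  have hf : finrank k (HP X (ι t)) = finrank k (HP (resG ι X) t) := by
    have e1 : finrank k (HP X (ι t)) = finrank k (X.V (ι t) × (∀ s, G.E (ι t) s → X.V s) ×
      X.W (ι t) × X.V (ι t)) := rfl
    have e2 : finrank k (HP (resG ι X) t) = finrank k (X.V (ι t) ×
      (∀ s : T', G.E (ι t) (ι s) → X.V (ι s)) × (X.W (ι t) × NW ι X (ι t)) × X.V (ι t)) := rfl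
    rw [e1, e2]
    simp only [Module.finrank_prod, Module.finrank_pi_fintype, Finset.sum_const,
      Finset.card_univ, smul_eq_mul]
    rw [sum_split hι]
    have e3 : ∀ u : Out ι, Fintype.card (G.E (ι t) u.1) = Fintype.card (G.E u.1 (ι t)) :=
      fun u => Fintype.card_congr (revE G _ _)
    simp only [e3]
    ring
  exact (LinearMap.injective_iff_surjective_of_finrank_eq_finrank hf).1 (bet_inj X t)



variable {U : T → Prop} {U' : T' → Prop}

/-- `U` is contained in the image of `ι`, with preimage `U'` -/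
structure Fit (ι : T' → T) (U : T → Prop) (U' : T' → Prop) : Prop where
  iff : ∀ t, U (ι t) ↔ U' t
  out : ∀ u : Out ι, ¬ U u.1

variable (h : Fit ι U U')

include h in
theorem subW (X : Gob G k) (t : T') : Subsingleton ((resG ι (QG U X)).W t) := by
  have h1 : ∀ u : Out ι, Subsingleton ((QG U X).V u.1) :=
    fun u => ⟨fun x y => by rw [q_zero (h.out u) x, q_zero (h.out u) y]⟩
  refine ⟨fun x y => Prod.ext (Subsingleton.elim (α := PUnit) _ _) ?_⟩
  funext u a
  exact (h1 u).elim _ _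

include h in
theorem subV (X : Gob G k) (t : T') (ht : ¬ U' t) : Subsingleton ((resG ι (QG U X)).V t) := by
  have ht' : ¬ U (ι t) := fun e => ht ((h.iff t).1 e)
  exact ⟨fun (x : (QG U X).V (ι t)) (y : (QG U X).V (ι t)) => by
    rw [q_zero ht' x, q_zero ht' y]⟩

/-- the comparison `Res (Q_U X) ⟶ Q_U' (Res X)` -/
noncomputable def alph (ι : T' → T) (U : T → Prop) (U' : T' → Prop) (X : Gob G k) :
    resG ι (QG U X) ⟶ QG U' (resG ι X) :=
  lift U' (resH ι (epsG U X))

include h in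
theorem alph_eps (X : Gob G k) : alph ι U U' X ≫ epsG U' (resG ι X) = resH ι (epsG U X) :=
  lift_eps _ (fun t => subW h X t) (fun t ht => subV h X t ht)


theorem pu_res {X Y : Gob G k} (f : X ⟶ Y) (hf : Pu f) : Pu (resH ι f) where
  p1 s t a := hf.p1 _ _ _
  pi t := by
    apply LinearMap.ext
    intro (x : X.W (ι t) × NW ι X (ι t))
    have e : ci f (ι t) x.1 + ∑ u : Out ι, ∑ a : G.E u.1 (ι t), c1 f a (x.2 u a) = 0 := by
      simp only [hf.p1, hf.pi, LinearMap.zero_apply, Finset.sum_const_zero, add_zero]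
    exact e
  pj t := by
    apply LinearMap.ext
    intro (x : X.V (ι t))
    apply Prod.ext
    · exact LinearMap.congr_fun (hf.pj (ι t)) x
    · funext u a
      exact LinearMap.congr_fun (hf.p1 _ _ (G.rev a)) x
  p2 t := hf.p2 _

include hι h in
theorem alph_nat {X Y : Gob G k} (f : X ⟶ Y) :
    resH ι (mG U f) ≫ alph ι U U' Y = alph ι U U' X ≫ mG U' (resH ι f) := by
  apply eq_of_eps
  · exact (pu_res _ (pu_mG U f)).comp (pu_lift _ _)
  · exact (pu_lift _ _).comp (pu_mG U' _)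
  · rw [Category.assoc, Category.assoc, alph_eps h, eps_nat, ← Category.assoc, alph_eps h,
      ← resH_comp hι, ← resH_comp hι, eps_nat]

include hι h in
theorem isIso_alph (X : Gob G k) : IsIso (alph ι U U' X) := by
  apply isIso_of_bijective
  · intro t
    by_cases ht : U' t
    · have hU : U (ι t) := (h.iff t).2 ht
      constructor
      · intro (x : (QG U X).V (ι t)) (y : (QG U X).V (ι t)) hxy
        have e := congrArg (qev U' (resG ι X) t) hxy
        change qev U' (resG ι X) t (qin U' (resG ι X) t (bet ι X t (qev U X (ι t) x))) =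
          qev U' (resG ι X) t (qin U' (resG ι X) t (bet ι X t (qev U X (ι t) y))) at e
        rw [qev_qin ht, qev_qin ht] at e
        exact q_ext fun _ => bet_inj X t e
      · intro y
        obtain ⟨z, hz⟩ := bet_surj hι X t (qev U' (resG ι X) t y)
        refine ⟨qin U X (ι t) z, ?_⟩
        apply q_ext
        intro _
        change qev U' (resG ι X) t (qin U' (resG ι X) t (bet ι X t
          (qev U X (ι t) (qin U X (ι t) z)))) = _
        rw [qev_qin ht, qev_qin hU, hz]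
    · constructor
      · intro x y _
        exact (subV h X t ht).elim _ _
      · intro y
        exact ⟨0, by rw [q_zero ht y, map_zero]⟩
  · intro t
    constructor
    · intro x y _
      exact (subW h X t).elim _ _
    · intro y
      exact ⟨0, Subsingleton.elim _ _⟩


/-- the comparison of the functors `Q` along the restriction -/
noncomputable def cmp (hU : ∀ s t, U s → U t → IsEmpty (G.E s t))
    (hU' : ∀ s t, U' s → U' t → IsEmpty ((comap G ι).E s t)) :
    Cmp (Res k G hι) (sphG U hU) (sphG U' hU') where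
  α A := alph ι U U' A
  β A := @inv _ _ _ _ (alph ι U U' A) (isIso_alph hι h A)
  αβ A := @IsIso.hom_inv_id _ _ _ _ (alph ι U U' A) (isIso_alph hι h A)
  βα A := @IsIso.inv_hom_id _ _ _ _ (alph ι U U' A) (isIso_alph hι h A)
  nat f := alph_nat hι h f
  eps A := alph_eps h A





end Crest.Agent.R175.Res4_428
end

-- ▼ part R175/ResTU_131
section

/-!
Row 175: restriction commutes with the twists `TU_788.TU U hU` on objects.
-/

set_option autoImplicit false
set_option linter.unusedSectionVars false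
set_option linter.unusedVariables false

open CategoryTheory

namespace Crest.Agent.R175.ResTU_131

open Crest.Agent.R175.PTA Crest.Agent.R175.TwG_253 Crest.Agent.R175.TU_788
open Crest.Agent.R175.TUh_988 Crest.Agent.R175.ResI_663 Crest.Agent.R175.Res_428
open Crest.Agent.R175.Res3_428 Crest.Agent.R175.Res4_428
open Crest.Agent.R175.TwA_253 (Tw Sum2 Sph)
open Crest.Agent.R175.TwS_83 (SI)

noncomputable section

/-- general step -/
theorem gen6 {C C' : Type*} [Category C] [Preadditive C] [Category C'] [Preadditive C']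
    (R : C ⥤ C') [R.Additive] (F : Sph C) (F' : Sph C')
    (K : Cmp R F F') (A : Tw C) (S : Sum2 (F.Q A.X) A.X)
    (B : Tw C') (hB : B = mapTw R A) (S' : Sum2 (F'.Q B.X) B.X)
    (Z : Tw C) (hZ : TwA_253.HEq Z (TwA_253.T F A S)) (Z' : Tw C') (hZ' : Z' = mapTw R Z) :
    TwA_253.HEq Z' (TwA_253.T F' B S') := by
  subst hB
  subst hZ'
  exact (mapTw_heq R hZ).trans (K.siT A S S').heq

variable {T T' : Type} {k : Type} [Field k] [Fintype T] [Fintype T'] {G : MG T}
  {ι : T' → T} (hι : Function.Injective ι)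

/-- restriction of the abstract object of `X` -/
theorem toTw_resT (X : TOb G k) (h : Ok ι X) :
    toTw (resT hι X h) = mapTw (Res k G hι) (toTw X) := by
  have h1 : resH ι (gam X.X) = gam (resG ι X.X) := resH_gam ι
  unfold toTw mapTw
  congr 1
  exact h1.symm

/-- `T_U X` is minimal outside of the image -/
theorem ok_TU (U : T → Prop) (hU : ∀ s t, U s → U t → IsEmpty (G.E s t)) (X : TOb G k)
    (h : Ok ι X) (hout : ∀ u : Out ι, ¬ U u.1) : Ok ι (TU U hU X) := by
  intro u
  change c0 (-(fst (QG U X.X) X.X ≫ mG U X.d ≫ inl (QG U X.X) X.X)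
    + fst (QG U X.X) X.X ≫ epsG U X.X ≫ inr (QG U X.X) X.X
    + snd (QG U X.X) X.X ≫ X.d ≫ inr (QG U X.X) X.X) u.1 = 0
  have h0 : c0 X.d u.1 = 0 := h u
  apply LinearMap.ext
  intro x
  have h1 : c0 (fst (QG U X.X) X.X) u.1 x = 0 := q_zero (hout u) _
  simp only [c0_add, c0_neg, c0_comp, LinearMap.add_apply, LinearMap.neg_apply,
    LinearMap.comp_apply, h1, map_zero, neg_zero, zero_add, h0, LinearMap.zero_apply]

/-- **restriction commutes with the twists** -/
theorem res_TU {U : T → Prop} {U' : T' → Prop} (hfit : Fit ι U U')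
    (hU : ∀ s t, U s → U t → IsEmpty (G.E s t))
    (hU' : ∀ s t, U' s → U' t → IsEmpty ((comap G ι).E s t)) (X : TOb G k)
    (hX : Ok ι X) (hO : Ok ι (TU U hU X)) :
    HIso (resT hι (TU U hU X) hO) (TU U' hU' (resT hι X hX)) := by
  have h2 := gen6 (Res k G hι) (sphG U hU) (sphG U' hU') (cmp hι hfit hU hU') (toTw X) (sm _ _)
    (toTw (resT hι X hX)) (toTw_resT hι X hX) (sm _ _) (toTw (TU U hU X)) (heq_TU U hU X)
    (toTw (resT hι (TU U hU X) hO)) (toTw_resT hι (TU U hU X) hO)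
  exact hiso_of_heq' (h2.trans (heq_TU U' hU' (resT hι X hX)).symm)

end

end Crest.Agent.R175.ResTU_131
end

-- ▼ part R175/FTU_131
section

/-!
Row 175: the matrix functors `Φ : ADat G k` commute with the twists `TU_788.TU U hU` on objects, for a
set `U` which is stable under `N`.
-/

set_option autoImplicit false
set_option linter.unusedSectionVars false

open CategoryTheory

namespace Crest.Agent.R175.FTU_131

open Crest.Agent.R175.PTA Crest.Agent.R175.TwG_253 Crest.Agent.R175.TU_788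
open Crest.Agent.R175.TUh_988 Crest.Agent.R175.Fm_27
open Crest.Agent.R175.TwA_253 (Tw Sum2 Sph)
open Crest.Agent.R175.TwS_83 (SI)

noncomputable section

variable {T : Type} {G : MG T} {k : Type} [Field k] [Fintype T]

/-- `Φ` on the abstract object of `X` -/
theorem toTw_tob (Φ : ADat G k) (X : TOb G k) :
    toTw (Φ.toFDat.tob X) = (FmU_83.addF Φ).tw (toTw X) := by
  have h : Φ.hom (gam X.X) = gam (Φ.toFDat.ob X.X) := Φ.toFDat.hom_gam X.X
  unfold toTw FmT_83.AddF.tw
  congr 1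
  exact h.symm

/-- general step -/
theorem gen5 (F : Sph (Gob G k)) (Φ : FmT_83.AddF (Gob G k) (Gob G k))
    (P : FmT_83.TwComm Φ F F) (A : Tw (Gob G k)) (S : Sum2 (F.Q A.X) A.X)
    (B : Tw (Gob G k)) (hB : B = Φ.tw A) (R : Sum2 (F.Q B.X) B.X)
    (C : Tw (Gob G k)) (hC : TwA_253.HEq C (TwA_253.T F A S)) :
    TwA_253.HEq (Φ.tw C) (TwA_253.T F B R) := by
  subst hB
  exact (Φ.heq hC).trans (P.si S R).heq

/-- **`Φ (T_U X) ≅ T_U (Φ X)`** -/
theorem tob_TU (Φ : ADat G k) (U : T → Prop) (hU : ∀ s t, U s → U t → IsEmpty (G.E s t))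
    (hN : ∀ a b, Φ.N a b → U a → U b) (X : TOb G k) :
    HIso (Φ.toFDat.tob (TU U hU X)) (TU U hU (Φ.toFDat.tob X)) := by
  have h1 : TwA_253.HEq (toTw (Φ.toFDat.tob (TU U hU X)))
      ((FmU_83.addF Φ).tw (toTw (TU U hU X))) := by
    rw [toTw_tob]
    exact TwA_253.HEq.refl _
  have h2 := gen5 (sphG U hU) (FmU_83.addF Φ) (FmU_83.twComm Φ U hU hN) (toTw X) (sm _ _)
    (toTw (Φ.toFDat.tob X)) (toTw_tob Φ X) (sm _ _) (toTw (TU U hU X)) (heq_TU U hU X)
  exact hiso_of_heq' (h1.trans (h2.trans (heq_TU U hU (Φ.toFDat.tob X)).symm))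

end

end Crest.Agent.R175.FTU_131
end

-- ▼ part R175/TwR_250
section

/-!
helper250: `T_{U₁ ⊔ U₂} ≅ T_{U₂} T_{U₁}` for `TU` on `TOb`, and the product over a fibre.
-/

set_option autoImplicit false
set_option linter.unusedSectionVars false

open CategoryTheory

namespace Crest.Agent.R175.TwQ_250

section abs
open TwA_253 TwS_83 TwD_250 TwB_250
universe v u

variable {C : Type u} [Category.{v} C] [Preadditive C] [BP C]

theorem split_isT {F F₁ F₂ : Sph C} (P : Split F F₁ F₂) {X Y Y₁ Y₂ : Tw C}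
    (h : 𝟙 (F₂.Q (F₁.Q X.X)) = 0)
    (g : IsT F X Y) (h₁ : IsT F₁ X Y₁) (h₂ : IsT F₂ Y₁ Y₂) : TwA_253.HEq Y Y₂ := by
  obtain ⟨i⟩ := h₂.tq (h₁.tq ⟨SI.refl X⟩)
  obtain ⟨j⟩ := g.tq ⟨SI.refl X⟩
  exact j.heq.trans ((P.T_split (s2 _ _) (s2 _ _) (s2 _ _) h).heq.trans i.heq.symm)

end abs

open PTA TwG_253 TU_788
open TwA_253 (Tw Sum2 Sph)
open TwS_83 (SI)

universe v

noncomputable section

variable {T : Type v} {G : MG T} {k : Type v} [Field k] [Fintype T]

/-- `T_{U₁ ⊔ U₂} = T_{U₂} T_{U₁}` -/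
theorem TU_split {U U₁ U₂ : T → Prop} (hU : ∀ s t, U s → U t → IsEmpty (G.E s t))
    (hU₁ : ∀ s t, U₁ s → U₁ t → IsEmpty (G.E s t)) (hU₂ : ∀ s t, U₂ s → U₂ t → IsEmpty (G.E s t))
    (h : ∀ t, U t ↔ U₁ t ∨ U₂ t) (hd : ∀ t, U₁ t → ¬ U₂ t) (X : TOb G k) :
    HIso (TU U hU X) (TU U₂ hU₂ (TU U₁ hU₁ X)) := by
  have hz : 𝟙 (QG U₂ (QG U₁ X.X)) = 0 :=
    TwV_83.QQ_zero (fun t h2 h1 => hd t h1 h2)
      (fun t s h2 h1 => hU t s ((h t).2 (Or.inr h2)) ((h s).2 (Or.inl h1)))
  have hz' : 𝟙 ((sphG U₂ hU₂).Q ((sphG U₁ hU₁).Q (toTw X).X)) = 0 := by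
    dsimp only [sphG]
    exact hz
  have P : TwS_83.Split (sphG (k := k) U hU) (sphG U₁ hU₁) (sphG U₂ hU₂) :=
    TwV_83.splitG h hd _ _ _ rfl rfl rfl (fun _ => HEq.rfl) (fun _ => HEq.rfl)
      (fun _ => HEq.rfl) (fun _ => HEq.rfl) (fun _ => HEq.rfl) (fun _ => HEq.rfl)
  exact hiso_of_heq (split_isT P hz' (isT_TU U hU X) (isT_TU U₁ hU₁ X) (isT_TU U₂ hU₂ _))

/-! ### the product over a fibre of the unfolded graph -/

section fibre

open Crest.GroupTheory Crest.Agent.R175.Cls_133 Crest.Agent.R175.UG_27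
open Crest.Agent.R175.Unf_109 Crest.Agent.R175.Act2_732

variable {S : Type} [Fintype S] {M : CoxeterMatrix S} {Λ : Finset ℕ} {k : Type} [Field k]

/-- part of a fibre -/
def fib (s : S) (l : List (J Λ)) : S × J Λ → Prop := fun a => a.1 = s ∧ a.2 ∈ l

theorem fib_ok (s : S) (l : List (J Λ)) (a b : S × J Λ) (ha : fib s l a) (hb : fib s l b) :
    IsEmpty ((UG M Λ).E a b) := isEmpty_fibre (ha.1.trans hb.1.symm)

theorem TU_list (P : Twc (UG M Λ) (Cls (UG M Λ) k))
    (hP : ∀ v X, P.p v (⟦X⟧ : Cls (UG M Λ) k) = ⟦TU (fun r => r = v) TwM_250.sing X⟧)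
    (s : S) (l : List (J Λ)) (hl : l.Nodup) (X : TOb (UG M Λ) k) :
    l.foldr (fun i y => P.p (s, i) y) (⟦X⟧ : Cls (UG M Λ) k) =
      ⟦TU (fib s l) (fib_ok s l) X⟧ := by
  induction l with
  | nil =>
    rw [List.foldr_nil]
    refine (mk_eq.2 ?_).symm
    apply TUh_988.TU_of_zero
    exact TwV_83.QG_zero fun t h => absurd h.2 (List.not_mem_nil)
  | cons i l ih =>
    rw [List.foldr_cons, ih (List.nodup_cons.1 hl).2, hP]
    refine (mk_eq.2 ?_).symm
    refine TU_split _ _ _ (fun t => ?_) (fun t h1 h2 => ?_) X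
    · constructor
      · rintro ⟨h1, h2⟩
        rcases List.mem_cons.1 h2 with h | h
        · exact Or.inr (Prod.ext h1 h)
        · exact Or.inl ⟨h1, h⟩
      · rintro (⟨h1, h2⟩ | h)
        · exact ⟨h1, List.mem_cons_of_mem _ h2⟩
        · exact ⟨congrArg Prod.fst h, List.mem_cons.2 (Or.inl (congrArg Prod.snd h))⟩
    · apply (List.nodup_cons.1 hl).1
      rw [h2] at h1
      exact h1.2

theorem TU_congr {U V : S × J Λ → Prop} (h : U = V) (hU : ∀ a b, U a → U b → IsEmpty ((UG M Λ).E a b))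
    (hV : ∀ a b, V a → V b → IsEmpty ((UG M Λ).E a b)) (X : TOb (UG M Λ) k) :
    TU U hU X = TU V hV X := by
  subst h; rfl

/-- **the generator `s` of `ArtinGroup M` acts by the twist along the whole fibre** -/
theorem unf_mk (P : Twc (UG M Λ) (Cls (UG M Λ) k))
    (hP : ∀ v X, P.p v (⟦X⟧ : Cls (UG M Λ) k) = ⟦TU (fun r => r = v) TwM_250.sing X⟧)
    (hΛ : Good M Λ) (s : S) (hU : ∀ a b : S × J Λ, a.1 = s → b.1 = s → IsEmpty ((UG M Λ).E a b))
    (X : TOb (UG M Λ) k) :
    P.unf hΛ (artinGen M s) (⟦X⟧ : Cls (UG M Λ) k) = ⟦TU (fun a => a.1 = s) hU X⟧ := by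
  rw [P.unf_gen_apply hΛ s Finset.univ.toList (Finset.nodup_toList _) (fun i => by simp),
    TU_list P hP s _ (Finset.nodup_toList _)]
  congr 1
  apply TU_congr
  funext a
  simp [fib]

end fibre

end

end Crest.Agent.R175.TwQ_250
end

-- ▼ part R175/FTU2_131
section

/-!
Row 175: the field `hF` of `ActC_788.actI`.
-/

set_option autoImplicit false
set_option linter.unusedSectionVars false
set_option linter.unusedVariables false

open CategoryTheory
open scoped Classical

namespace Crest.Agent.R175.FTU_131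

open Crest.GroupTheory Crest.Agent.R175.PTA Crest.Agent.R175.Cls_133 Crest.Agent.R175.UG_27
open Crest.Agent.R175.Unf_109 Crest.Agent.R175.FmCls_303 Crest.Agent.R175.LevC_788
open Crest.Agent.R175.TU_788 Crest.Agent.R175.ActC_788 Crest.Agent.R175.Fm_27
open Crest.Agent.R175.Lev_788 Crest.Agent.R175.Act2_732

variable {S : Type} [Fintype S] {M : CoxeterMatrix S} {Λ : Finset ℕ}

/-- `F_m (T_s X) ≅ T_s (F_m X)` on classes -/
theorem FmC_TF (h4 : ∀ m ∈ Λ, 4 ≤ m) {m : ℕ} (hm : m ∈ Λ) (s : S) (X : TOb (UG M Λ) ℂ) :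
    FmC M h4 hm (⟦TF M Λ s X⟧ : Cls (UG M Λ) ℂ) =
      ⟦TF M Λ s ((Fm M (algebraMap ℝ ℂ) hm ((by norm_num : 2 ≤ 4).trans (h4 m hm))).toFDat.tob X)⟧ :=
  Quotient.sound (tob_TU (Fm M (algebraMap ℝ ℂ) hm ((by norm_num : 2 ≤ 4).trans (h4 m hm)))
    (fun a : S × J Λ => a.1 = s) (fib_hU M Λ s)
    (fun a b (h : NF Λ m a b) ha => h.1.symm.trans ha) X)

/-- **the field `hF`** -/
theorem hF (hΛ : Good M Λ) (P : Twc (UG M Λ) (Cls (UG M Λ) ℂ))
    (gen : ∀ (s : S) (X : TOb (UG M Λ) ℂ),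
      P.unf hΛ (artinGen M s) (⟦X⟧ : Cls (UG M Λ) ℂ) = ⟦TF M Λ s X⟧)
    (m : ℕ) (hm : m ∈ Λ) (s : S) (X : TOb (UG M Λ) ℂ) :
    FmC M hΛ.four hm (⟦TF M Λ s X⟧ : Cls (UG M Λ) ℂ)
      = P.unf hΛ (artinGen M s) (FmC M hΛ.four hm (⟦X⟧ : Cls (UG M Λ) ℂ)) :=
  (FmC_TF hΛ.four hm s X).trans (gen s _).symm

end Crest.Agent.R175.FTU_131
end

-- ▼ part R175/ActU_131

/-!
Row 175: the action of the Artin group on the classes of every level, unconditional.
-/

set_option autoImplicit false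
set_option linter.unusedSectionVars false
set_option linter.unusedVariables false

open CategoryTheory
open scoped Classical

namespace Crest.Agent.R175.ActU_131

open Crest.GroupTheory Crest.Agent.R175.PTA Crest.Agent.R175.Cls_133 Crest.Agent.R175.UG_27
open Crest.Agent.R175.Unf_109 Crest.Agent.R175.LevC_788
open Crest.Agent.R175.TU_788 Crest.Agent.R175.ActC_788
open Crest.Agent.R175.Lev_788 Crest.Agent.R175.Act2_732

variable {S : Type} [Fintype S] (M : CoxeterMatrix S) {Λ : Finset ℕ}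

theorem gen (hΛ : Good M Λ) (s : S) (X : TOb (UG M Λ) ℂ) :
    (TUc_61.P (UG M Λ) ℂ).unf hΛ (artinGen M s) (⟦X⟧ : Cls (UG M Λ) ℂ) = ⟦TF M Λ s X⟧ :=
  TwQ_250.unf_mk (TUc_61.P (UG M Λ) ℂ) (fun _ _ => rfl) hΛ s _ X

/-- **the action** -/
noncomputable def act (hΛ : Good M Λ) : ActI M hΛ.four :=
  actI hΛ (TUc_61.P (UG M Λ) ℂ) (gen M hΛ) (FTU_131.hF hΛ _ (gen M hΛ))

theorem act_smul (hΛ : Good M Λ) (r : ArtinGroup M) (x : Cls (UG M Λ) ℂ) :
    (act M hΛ).act.smul r x = (TUc_61.P (UG M Λ) ℂ).unf hΛ r x := rfl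

end Crest.Agent.R175.ActU_131
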