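import Crest.Prelude
import Crest.Agent.Rz.Def_ArtinGroup
import Crest.Agent.R175.Semi_663

-- ▼ part R175/Grp_184
section

/-!
# R175 (S0264): the concrete Coxeter matrix on 116 generators and homomorphisms out of its
Artin group
-/

set_option autoImplicit false

namespace Crest.Agent.R175.Grp_184

open Crest.GroupTheory

/-! ### homomorphisms out of Artin groups with labels `0, 2, 3` -/

section general

variable {S : Type*} {M : CoxeterMatrix S}

lemma lift_altWord {G : Type*} [Group G] (f : S → G) (s t : S) :
    FreeGroup.lift f (artinAltWord s t 0) = 1 ∧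
    FreeGroup.lift f (artinAltWord s t 1) = f s ∧
    FreeGroup.lift f (artinAltWord s t 2) = f s * f t ∧
    FreeGroup.lift f (artinAltWord s t 3) = f s * f t * f s := by
  simp [artinAltWord, mul_assoc]

/-- homomorphism out of an Artin group with labels in `{0, 2, 3}`. -/
noncomputable def lift (hM : ∀ s t : S, s ≠ t → M.M s t = 0 ∨ M.M s t = 2 ∨ M.M s t = 3)
    {G : Type*} [Group G] (f : S → G)
    (h2 : ∀ s t, M.M s t = 2 → f s * f t = f t * f s)
    (h3 : ∀ s t, M.M s t = 3 → f s * f t * f s = f t * f s * f t) : ArtinGroup M →* G :=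
  PresentedGroup.toGroup (f := f) (by
    rintro _ ⟨⟨s, t⟩, rfl⟩
    obtain ⟨a0, a1, a2, a3⟩ := lift_altWord f s t
    obtain ⟨b0, b1, b2, b3⟩ := lift_altWord f t s
    simp only [map_mul, map_inv]
    by_cases hst : s = t
    · subst hst; exact mul_inv_cancel _
    · rcases hM s t hst with h | h | h
      · rw [h, a0, b0, inv_one, mul_one]
      · rw [h, a2, b2, h2 s t h, mul_inv_cancel]
      · rw [h, a3, b3, h3 s t h, mul_inv_cancel])

@[simp] lemma lift_gen (hM : ∀ s t : S, s ≠ t → M.M s t = 0 ∨ M.M s t = 2 ∨ M.M s t = 3)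
    {G : Type*} [Group G] (f : S → G)
    (h2 : ∀ s t, M.M s t = 2 → f s * f t = f t * f s)
    (h3 : ∀ s t, M.M s t = 3 → f s * f t * f s = f t * f s * f t) (s : S) :
    lift hM f h2 h3 (artinGen M s) = f s := by
  unfold lift artinGen
  exact PresentedGroup.toGroup.of _

lemma gen_rel (s t : S) : (PresentedGroup.mk (artinRelators M))
    (artinAltWord s t (M.M s t) * (artinAltWord t s (M.M s t))⁻¹) = 1 :=
  PresentedGroup.one_of_mem ⟨(s, t), rfl⟩

lemma gen_comm {s t : S} (h : M.M s t = 2) :
    artinGen M s * artinGen M t = artinGen M t * artinGen M s := by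
  have := gen_rel (M := M) s t
  rw [h] at this
  simp only [artinAltWord, map_mul, map_inv, mul_one] at this
  rw [mul_inv_eq_one] at this
  simpa [artinGen, PresentedGroup.of] using this

lemma gen_braid {s t : S} (h : M.M s t = 3) :
    artinGen M s * artinGen M t * artinGen M s = artinGen M t * artinGen M s * artinGen M t := by
  have := gen_rel (M := M) s t
  rw [h] at this
  simp only [artinAltWord, map_mul, map_inv, mul_one] at this
  rw [mul_inv_eq_one] at this
  simpa [artinGen, PresentedGroup.of, mul_assoc] using this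

end general

/-! ### the generators -/

/-- generators. -/
inductive Gn
  | a (i : Fin 3)
  | l (i : Fin 3) (b : Bool)
  | u (i j : Fin 3)
  | r (i j : Fin 3) (b : Bool)
  | s (i : Fin 3) (b : Bool)
  | t (b : Bool)
  | z (k : Fin 72)
  deriving DecidableEq, Fintype

open Gn

/-- first element of the `j`-th leaf pair of the `i`-th `D₄` piece. -/
def UU (i j : Fin 3) : Gn := if j = 2 then l i false else a i

/-- second element of the `j`-th leaf pair of the `i`-th `D₄` piece. -/
def VV (i j : Fin 3) : Gn := if j = 0 then l i false else l i true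

/-- half of the labels. -/
def lab : Gn → Gn → ℕ
  | a _, a _ => 3
  | l i _, a j => if j = i + 1 then 3 else if j = i then 2 else 0
  | l i _, l j _ => if i = j then 2 else 0
  | u i j, x => if x = VV i j then 2 else 0
  | r i j _, x => if x = UU i j ∨ x = u i j then 2 else 0
  | s i _, x => if x = a i ∨ x = a (i + 1) then 2 else 0
  | t _, a _ => 2
  | _, _ => 0

lemma lab_mem (x y : Gn) : lab x y = 0 ∨ lab x y = 2 ∨ lab x y = 3 := by
  unfold lab
  split
  any_goals tauto
  all_goals split_ifs <;> tauto

/-- the Coxeter matrix. -/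
def MM : CoxeterMatrix Gn where
  M := fun x y => if x = y then 1 else max (lab x y) (lab y x)
  isSymm := Matrix.IsSymm.ext fun x y => by
    by_cases h : x = y
    · subst h; rfl
    · rw [if_neg h, if_neg (Ne.symm h), max_comm]
  diagonal := fun x => by simp
  off_diagonal := fun x y h => by
    simp only [if_neg h]
    rcases lab_mem x y with h1 | h1 | h1 <;> rcases lab_mem y x with h2 | h2 | h2 <;>
      rw [h1, h2] <;> decide

lemma MM_apply {x y : Gn} (h : x ≠ y) : MM.M x y = max (lab x y) (lab y x) := by
  show (if x = y then 1 else max (lab x y) (lab y x)) = _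
  rw [if_neg h]

lemma MM_label (x y : Gn) (h : x ≠ y) : MM.M x y = 0 ∨ MM.M x y = 2 ∨ MM.M x y = 3 := by
  rw [MM_apply h]
  rcases lab_mem x y with h1 | h1 | h1 <;> rcases lab_mem y x with h2 | h2 | h2 <;>
    rw [h1, h2] <;> decide

/-- the group. -/
abbrev GG := ArtinGroup MM

/-- its generators. -/
noncomputable abbrev gn (x : Gn) : GG := artinGen MM x

/-- conditions on images of the generators. -/
structure Cond {G : Type*} [Group G] (f : Gn → G) : Prop where
  aa : ∀ i j, i ≠ j → f (a i) * f (a j) * f (a i) = f (a j) * f (a i) * f (a j)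
  la3 : ∀ i b, f (l i b) * f (a (i + 1)) * f (l i b) = f (a (i + 1)) * f (l i b) * f (a (i + 1))
  la2 : ∀ i b, f (l i b) * f (a i) = f (a i) * f (l i b)
  ll : ∀ i b b', f (l i b) * f (l i b') = f (l i b') * f (l i b)
  uV : ∀ i j, f (u i j) * f (VV i j) = f (VV i j) * f (u i j)
  rU : ∀ i j b, f (r i j b) * f (UU i j) = f (UU i j) * f (r i j b)
  ru : ∀ i j b, f (r i j b) * f (u i j) = f (u i j) * f (r i j b)
  s0 : ∀ i b, f (s i b) * f (a i) = f (a i) * f (s i b)
  s1 : ∀ i b, f (s i b) * f (a (i + 1)) = f (a (i + 1)) * f (s i b)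
  ta : ∀ i b, f (t b) * f (a i) = f (a i) * f (t b)

lemma Cond.two {G : Type*} [Group G] {f : Gn → G} (h : Cond f) (x y : Gn) (hxy : lab x y = 2) :
    f x * f y = f y * f x := by
  unfold lab at hxy
  split at hxy
  · norm_num at hxy
  · rename_i i b j
    split_ifs at hxy with h1 h2
    · omega
    · subst h2; exact h.la2 _ _
  · rename_i i b j b'
    split_ifs at hxy with h1
    subst h1; exact h.ll _ _ _
  · rename_i i j
    split_ifs at hxy with h1
    subst h1; exact h.uV _ _
  · rename_i i j b
    split_ifs at hxy with h1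
    rcases h1 with rfl | rfl
    · exact h.rU _ _ _
    · exact h.ru _ _ _
  · rename_i i b
    split_ifs at hxy with h1
    rcases h1 with rfl | rfl
    · exact h.s0 _ _
    · exact h.s1 _ _
  · exact h.ta _ _
  · norm_num at hxy

lemma Cond.three {G : Type*} [Group G] {f : Gn → G} (h : Cond f) (x y : Gn) (hne : x ≠ y)
    (hxy : lab x y = 3) : f x * f y * f x = f y * f x * f y := by
  unfold lab at hxy
  split at hxy
  · exact h.aa _ _ (by rintro rfl; exact hne rfl)
  · rename_i i b j
    split_ifs at hxy with h1 h2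
    · subst h1; exact h.la3 _ _
    · omega
  · split_ifs at hxy; omega
  · split_ifs at hxy; omega
  · split_ifs at hxy; omega
  · split_ifs at hxy; omega
  · norm_num at hxy
  · norm_num at hxy

/-- homomorphisms out of `GG`. -/
noncomputable def mk {G : Type*} [Group G] (f : Gn → G) (h : Cond f) : GG →* G :=
  lift (M := MM) MM_label f
    (fun x y hxy => by
      by_cases hne : x = y
      · subst hne; rfl
      · rw [MM_apply hne] at hxy
        rcases max_choice (lab x y) (lab y x) with h1 | h1
        · exact h.two x y (by rw [← hxy, h1])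
        · exact (h.two y x (by rw [← hxy, h1])).symm)
    (fun x y hxy => by
      by_cases hne : x = y
      · subst hne; rfl
      · rw [MM_apply hne] at hxy
        rcases max_choice (lab x y) (lab y x) with h1 | h1
        · exact h.three x y hne (by rw [← hxy, h1])
        · exact (h.three y x (Ne.symm hne) (by rw [← hxy, h1])).symm)

@[simp] lemma mk_gn {G : Type*} [Group G] (f : Gn → G) (h : Cond f) (x : Gn) :
    mk f h (gn x) = f x := lift_gen _ _ _ _ _

/-- the generators satisfy the conditions. -/
lemma cond_gn : Cond gn := by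
  have c2 : ∀ x y : Gn, x ≠ y → max (lab x y) (lab y x) = 2 → gn x * gn y = gn y * gn x :=
    fun x y h h2 => gen_comm (by rw [MM_apply h, h2])
  have c3 : ∀ x y : Gn, x ≠ y → max (lab x y) (lab y x) = 3 →
      gn x * gn y * gn x = gn y * gn x * gn y :=
    fun x y h h2 => gen_braid (by rw [MM_apply h, h2])
  refine ⟨?_, ?_, ?_, ?_, ?_, ?_, ?_, ?_, ?_, ?_⟩
  · intro i j hij
    exact c3 _ _ (by simpa using hij) rfl
  · intro i b
    exact c3 _ _ (by simp) (by simp [lab])
  · intro i b
    exact c2 _ _ (by simp) (by simp [lab])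
  · intro i b b'
    by_cases hb : b = b'
    · rw [hb]
    · exact c2 _ _ (by simpa using hb) (by simp [lab])
  · intro i j
    refine c2 _ _ ?_ ?_ <;> fin_cases j <;> simp [lab, VV]
  · intro i j b
    refine c2 _ _ ?_ ?_ <;> fin_cases j <;> simp [lab, UU]
  · intro i j b
    refine c2 _ _ (by simp) ?_
    fin_cases j <;> simp [lab, VV]
  · intro i b
    exact c2 _ _ (by simp) (by simp [lab])
  · intro i b
    exact c2 _ _ (by simp) (by simp [lab])
  · intro i b
    exact c2 _ _ (by simp) (by simp [lab])

theorem card_Gn : Fintype.card Gn = 116 := by decide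

end Crest.Agent.R175.Grp_184
private theorem rz_fddcc19275 : type_of% @_root_.Crest.Agent.R175.Grp_184.lab.eq_1 := @_root_.Crest.Agent.R175.Grp_184.lab.eq_1 -- L96
end

-- ▼ part R175/AttB_663

/-!
The centralizers of the commutators of the extra generators in the group of `Grp_184`.
-/

set_option autoImplicit false

namespace Crest.Agent.R175.AttB_663

open Crest.GroupTheory Crest.Agent.R175.FreeC_663 Crest.Agent.R175.Semi_663
open Crest.Agent.R175.Grp_184 Crest.Agent.R175.Grp_184.Gn

theorem att_r (i j : Fin 3) : Att MM ({r i j false, r i j true} : Set Gn) {UU i j, u i j} where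
  disj := by
    rintro x (rfl | rfl) <;> simp [UU]
    split_ifs <;> simp
  two := by
    have hU : ∀ b, MM.M (r i j b) (UU i j) = 2 := by
      intro b
      rw [MM_apply (by simp [UU]; split_ifs <;> simp)]
      have h1 : lab (r i j b) (UU i j) = 2 := by simp [lab]
      have h2 : lab (UU i j) (r i j b) = 0 := by unfold UU; split_ifs <;> rfl
      rw [h1, h2]; rfl
    have hu : ∀ b, MM.M (r i j b) (u i j) = 2 := by
      intro b
      rw [MM_apply (by simp)]
      have h1 : lab (r i j b) (u i j) = 2 := by simp [lab]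
      have h2 : lab (u i j) (r i j b) = 0 := by
        simp only [lab]
        rw [if_neg]
        unfold VV; split_ifs <;> simp
      rw [h1, h2]; rfl
    rintro x (rfl | rfl) y (rfl | rfl)
    · exact hU _
    · exact hu _
    · exact hU _
    · exact hu _
  zero := by
    rintro x hx y hy hne
    obtain ⟨b, rfl⟩ : ∃ b, x = r i j b := by
      rcases hx with rfl | rfl
      · exact ⟨_, rfl⟩
      · exact ⟨_, rfl⟩
    simp only [Set.mem_insert_iff, Set.mem_singleton_iff, not_or] at hy
    rw [MM_apply (Ne.symm hne)]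
    have h1 : lab (r i j b) y = 0 := by
      simp only [lab]
      rw [if_neg (not_or.2 hy)]
    have h2 : lab y (r i j b) = 0 := by
      cases y with
      | a i => rfl
      | l i b => rfl
      | u i' j' =>
        simp only [lab]
        rw [if_neg]
        unfold VV; split_ifs <;> simp
      | r i' j' b' =>
        simp only [lab]
        rw [if_neg]
        unfold UU; split_ifs <;> simp
      | s i b => simp [lab]
      | t b => rfl
      | z k => rfl
    rw [h1, h2]; rfl

theorem att_s (i : Fin 3) : Att MM ({s i false, s i true} : Set Gn) {a i, a (i + 1)} where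
  disj := by
    rintro x (rfl | rfl) <;> simp
  two := by
    rintro x (rfl | rfl) y (rfl | rfl) <;> rw [MM_apply (by simp)] <;> simp [lab]
  zero := by
    rintro x hx y hy hne
    obtain ⟨b, rfl⟩ : ∃ b, x = s i b := by
      rcases hx with rfl | rfl
      · exact ⟨_, rfl⟩
      · exact ⟨_, rfl⟩
    simp only [Set.mem_insert_iff, Set.mem_singleton_iff, not_or] at hy
    rw [MM_apply (Ne.symm hne)]
    have h1 : lab (s i b) y = 0 := by
      simp only [lab]
      rw [if_neg (not_or.2 hy)]
    have h2 : lab y (s i b) = 0 := by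
      cases y with
      | a i => rfl
      | l i b => rfl
      | u i' j' =>
        simp only [lab]
        rw [if_neg]
        unfold VV; split_ifs <;> simp
      | r i' j' b' =>
        simp only [lab]
        rw [if_neg]
        unfold UU; split_ifs <;> simp
      | s i b => simp [lab]
      | t b => rfl
      | z k => rfl
    rw [h1, h2]; rfl

theorem att_t : Att MM ({t false, t true} : Set Gn) {a 0, a 1, a 2} where
  disj := by
    rintro x (rfl | rfl | rfl) <;> simp
  two := by
    rintro x (rfl | rfl) y (rfl | rfl | rfl) <;> rw [MM_apply (by simp)] <;> simp [lab]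
  zero := by
    rintro x hx y hy hne
    obtain ⟨b, rfl⟩ : ∃ b, x = t b := by
      rcases hx with rfl | rfl
      · exact ⟨_, rfl⟩
      · exact ⟨_, rfl⟩
    simp only [Set.mem_insert_iff, Set.mem_singleton_iff, not_or] at hy
    rw [MM_apply (Ne.symm hne)]
    have hya : ∀ k, y ≠ a k := by
      rintro k rfl
      fin_cases k
      · exact hy.1 rfl
      · exact hy.2.1 rfl
      · exact hy.2.2 rfl
    have h1 : lab (t b) y = 0 := by
      cases y with
      | a i => exact absurd rfl (hya i)
      | l i b => rfl
      | u i j => rfl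
      | r i j b => rfl
      | s i b => rfl
      | t b => rfl
      | z k => rfl
    have h2 : lab y (t b) = 0 := by
      cases y with
      | a i => rfl
      | l i b => rfl
      | u i' j' =>
        simp only [lab]
        rw [if_neg]
        unfold VV; split_ifs <;> simp
      | r i' j' b' =>
        simp only [lab]
        rw [if_neg]
        unfold UU; split_ifs <;> simp
      | s i b => simp [lab]
      | t b => rfl
      | z k => rfl
    rw [h1, h2]; rfl

/-- the standard parabolic subgroup as a closure -/
theorem std_two (x y : Gn) : stdParabolic MM {x, y} = Subgroup.closure {gn x, gn y} := by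
  rw [stdParabolic, Set.image_pair]

theorem std_three (x y w : Gn) :
    stdParabolic MM {x, y, w} = Subgroup.closure {gn x, gn y, gn w} := by
  rw [stdParabolic, Set.image_insert_eq, Set.image_pair]

/-- the commutator `r s r⁻¹ s⁻¹` of the pair `(i, j)` -/
noncomputable def hr (i j : Fin 3) : GG :=
  gn (r i j false) * gn (r i j true) * (gn (r i j false))⁻¹ * (gn (r i j true))⁻¹

/-- the commutator of the pair of the edge `i` -/
noncomputable def hs (i : Fin 3) : GG :=
  gn (s i false) * gn (s i true) * (gn (s i false))⁻¹ * (gn (s i true))⁻¹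

/-- the commutator of the pair of the triangle -/
noncomputable def ht : GG :=
  gn (t false) * gn (t true) * (gn (t false))⁻¹ * (gn (t true))⁻¹

theorem cent_r (i j : Fin 3) (g : GG) (hg : g * hr i j = hr i j * g) :
    ∃ (n : ℤ) (k : GG), k ∈ Subgroup.closure {gn (UU i j), gn (u i j)} ∧ g = hr i j ^ n * k := by
  have h := centralizer_cm (att_r i j) (r₁ := r i j false) (r₂ := r i j true) (by simp) (by simp)
    (by simp) hg
  rw [std_two] at h
  exact h

theorem cent_s (i : Fin 3) (g : GG) (hg : g * hs i = hs i * g) :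
    ∃ (n : ℤ) (k : GG), k ∈ Subgroup.closure {gn (a i), gn (a (i + 1))} ∧ g = hs i ^ n * k := by
  have h := centralizer_cm (att_s i) (r₁ := s i false) (r₂ := s i true) (by simp) (by simp)
    (by simp) hg
  rw [std_two] at h
  exact h

theorem cent_t (g : GG) (hg : g * ht = ht * g) :
    ∃ (n : ℤ) (k : GG), k ∈ Subgroup.closure {gn (a 0), gn (a 1), gn (a 2)} ∧
      g = ht ^ n * k := by
  have h := centralizer_cm att_t (r₁ := t false) (r₂ := t true) (by simp) (by simp)
    (by simp) hg
  rw [std_three] at h
  exact h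


/-! ### homomorphisms which fold the leaves to the triangle -/

/-- images of the generators: `a i, l i b ↦ A i`, everything else `↦ 1` -/
def fold {L : Type*} [One L] (A : Fin 3 → L) : Gn → L
  | a i => A i
  | l i _ => A i
  | _ => 1

theorem fold_cond {L : Type*} [Group L] (A : Fin 3 → L)
    (hA : ∀ i j, i ≠ j → A i * A j * A i = A j * A i * A j) : Cond (fold A) where
  aa := hA
  la3 i b := hA i (i + 1) (by revert i; decide)
  la2 i b := rfl
  ll i b b' := rfl
  uV i j := by unfold VV; split_ifs <;> simp [fold]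
  rU i j b := by unfold UU; split_ifs <;> simp [fold]
  ru i j b := by simp [fold]
  s0 i b := by simp [fold]
  s1 i b := by simp [fold]
  ta i b := by simp [fold]

/-- the homomorphism -/
noncomputable def tri {L : Type*} [Group L] (A : Fin 3 → L)
    (hA : ∀ i j, i ≠ j → A i * A j * A i = A j * A i * A j) : GG →* L :=
  mk (fold A) (fold_cond A hA)

section
variable {L : Type*} [Group L] (A : Fin 3 → L)
    (hA : ∀ i j, i ≠ j → A i * A j * A i = A j * A i * A j)

@[simp] theorem tri_a (i : Fin 3) : tri A hA (gn (a i)) = A i := mk_gn _ _ _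
@[simp] theorem tri_l (i : Fin 3) (b : Bool) : tri A hA (gn (l i b)) = A i := mk_gn _ _ _
@[simp] theorem tri_u (i j : Fin 3) : tri A hA (gn (u i j)) = 1 := mk_gn _ _ _
@[simp] theorem tri_r (i j : Fin 3) (b : Bool) : tri A hA (gn (r i j b)) = 1 := mk_gn _ _ _
@[simp] theorem tri_s (i : Fin 3) (b : Bool) : tri A hA (gn (s i b)) = 1 := mk_gn _ _ _
@[simp] theorem tri_t (b : Bool) : tri A hA (gn (t b)) = 1 := mk_gn _ _ _
@[simp] theorem tri_z (k : Fin 72) : tri A hA (gn (z k)) = 1 := mk_gn _ _ _
theorem tri_hs (i : Fin 3) : tri A hA (hs i) = 1 := by simp [hs]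
end

theorem fin3_1 : ∀ i : Fin 3, i + 1 ≠ i := by decide
theorem fin3_2 : ∀ i : Fin 3, i + 2 ≠ i := by decide
theorem fin3_21 : ∀ i : Fin 3, i + 2 ≠ i + 1 := by decide
theorem fin3_cases : ∀ i j : Fin 3, j = i ∨ j = i + 1 ∨ j = i + 2 := by decide

/-- the triple `x, y, x y x⁻¹` at the places `i, i + 1, i + 2` -/
def rot3 {L : Type*} [Group L] (x y : L) (i : Fin 3) (j : Fin 3) : L :=
  if j = i then x else if j = i + 1 then y else x * y * x⁻¹

theorem rot3_braid {L : Type*} [Group L] {x y : L} (h : x * y * x = y * x * y) (i : Fin 3) :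
    ∀ j k, j ≠ k → rot3 x y i j * rot3 x y i k * rot3 x y i j =
      rot3 x y i k * rot3 x y i j * rot3 x y i k := by
  have h1 : x * (x * y * x⁻¹) * x = (x * y * x⁻¹) * x * (x * y * x⁻¹) := by
    have e : (x * y * x⁻¹) * x * (x * y * x⁻¹) = x * (y * x * y) * x⁻¹ := by group
    rw [e, ← h]
    group
  have h2 : y * (x * y * x⁻¹) * y = (x * y * x⁻¹) * y * (x * y * x⁻¹) := by
    have e1 : x * y * x⁻¹ = y⁻¹ * x * y := by
      rw [mul_inv_eq_iff_eq_mul]
      have : y⁻¹ * x * y * x = y⁻¹ * (x * y * x) := by group
      rw [this, h]; group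
    rw [e1]
    have e2 : (y⁻¹ * x * y) * y * (y⁻¹ * x * y) = y⁻¹ * (x * y * x) * y := by group
    rw [e2, h]
    group
  have c0 : rot3 x y i i = x := by simp [rot3]
  have c1 : rot3 x y i (i + 1) = y := by
    have : i + 1 ≠ i := fin3_1 i
    simp [rot3]
  have c2 : rot3 x y i (i + 2) = x * y * x⁻¹ := by
    have h3 : i + 2 ≠ i := fin3_2 i
    have h4 : i + 2 ≠ i + 1 := fin3_21 i
    unfold rot3
    rw [if_neg h3, if_neg h4]
  have cases3 : ∀ j : Fin 3, j = i ∨ j = i + 1 ∨ j = i + 2 := fin3_cases i
  intro j k hjk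
  rcases cases3 j with rfl | rfl | rfl <;> rcases cases3 k with rfl | rfl | rfl
  · exact absurd rfl hjk
  · rw [c0, c1]; exact h
  · rw [c0, c2]; exact h1
  · rw [c0, c1]; exact h.symm
  · exact absurd rfl hjk
  · rw [c1, c2]; exact h2
  · rw [c0, c2]; exact h1.symm
  · rw [c1, c2]; exact h2.symm
  · exact absurd rfl hjk

/-- the homomorphism with `a i ↦ x`, `a (i + 1) ↦ y`, `a (i + 2) ↦ x y x⁻¹` -/
noncomputable def edgeHom {L : Type*} [Group L] {x y : L} (h : x * y * x = y * x * y) (i : Fin 3) :
    GG →* L := tri (rot3 x y i) (rot3_braid h i)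

theorem edgeHom_a {L : Type*} [Group L] {x y : L} (h : x * y * x = y * x * y) (i : Fin 3) :
    edgeHom h i (gn (a i)) = x := by
  rw [edgeHom, tri_a]; simp [rot3]

theorem edgeHom_b {L : Type*} [Group L] {x y : L} (h : x * y * x = y * x * y) (i : Fin 3) :
    edgeHom h i (gn (a (i + 1))) = y := by
  have : i + 1 ≠ i := fin3_1 i
  rw [edgeHom, tri_a]; simp [rot3]


theorem edgeHom_hs {L : Type*} [Group L] {x y : L} (h : x * y * x = y * x * y) (i j : Fin 3) :
    edgeHom h i (hs j) = 1 := tri_hs _ _ _

end Crest.Agent.R175.AttB_663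
private theorem rz_af038ea3b1 : type_of% @_root_.Crest.Agent.R175.AttB_663.fold.eq_1 := @_root_.Crest.Agent.R175.AttB_663.fold.eq_1 -- L200
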