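import Mathlib
import Crest.Agent.R175.PTB_534

-- ▼ part R175/DS_450
section

/-!
# Differential spaces (row 175, helper450)

`V` a finite dimensional space, `D : V →ₗ[k] V` with `D ∘ D = 0`.
`hd D = dim ker D - dim range D` is the dimension of the homology.
-/

set_option linter.unusedSectionVars false

namespace Crest.Agent.R175.DS_450

open Module LinearMap

variable {k : Type*} [Field k]
variable {V V₁ V₂ V₃ W : Type*}
  [AddCommGroup V] [Module k V] [FiniteDimensional k V]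
  [AddCommGroup V₁] [Module k V₁] [FiniteDimensional k V₁]
  [AddCommGroup V₂] [Module k V₂] [FiniteDimensional k V₂]
  [AddCommGroup V₃] [Module k V₃] [FiniteDimensional k V₃]
  [AddCommGroup W] [Module k W] [FiniteDimensional k W]

/-- dimension of the homology of a differential space -/
noncomputable def hd (D : V →ₗ[k] V) : ℕ :=
  finrank k (ker D) - finrank k (range D)

theorem range_le_ker {D : V →ₗ[k] V} (h : D ∘ₗ D = 0) : range D ≤ ker D := by
  rintro _ ⟨x, rfl⟩
  rw [mem_ker]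
  exact LinearMap.congr_fun h x

theorem finrank_range_le {D : V →ₗ[k] V} (h : D ∘ₗ D = 0) :
    finrank k (range D) ≤ finrank k (ker D) :=
  Submodule.finrank_mono (range_le_ker h)

theorem hd_add {D : V →ₗ[k] V} (h : D ∘ₗ D = 0) :
    hd D + finrank k (range D) = finrank k (ker D) := by
  unfold hd
  have := finrank_range_le h
  omega

/-- `hd + 2 rank = dim` -/
theorem hd_add_two {D : V →ₗ[k] V} (h : D ∘ₗ D = 0) :
    hd D + 2 * finrank k (range D) = finrank k V := by
  have h1 := hd_add h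
  have h2 := finrank_range_add_finrank_ker D
  omega



/-- homology as a quotient module -/
abbrev Hm (D : V →ₗ[k] V) : Type _ := (ker D) ⧸ ((range D).comap (ker D).subtype)

theorem finrank_Hm {D : V →ₗ[k] V} (h : D ∘ₗ D = 0) :
    finrank k (Hm D) = hd D := by
  have h1 := Submodule.finrank_quotient_add_finrank ((range D).comap (ker D).subtype)
  have h2 : finrank k ((range D).comap (ker D).subtype) = finrank k (range D) := by
    have := Submodule.comap_equiv_self_of_inj_of_le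
      (f := (ker D).subtype) (p := range D) (ker D).injective_subtype (by
        rw [Submodule.range_subtype]; exact range_le_ker h)
    exact this.finrank_eq
  have h3 := hd_add h
  have h4 : finrank k (Hm D) = finrank k ((ker D) ⧸ ((range D).comap (ker D).subtype)) := rfl
  omega


/-- a map compatible with the differentials up to a unit scalar and injective on
homology gives `hd ≤ hd` -/
theorem hd_le_of_inj {D₁ : V₁ →ₗ[k] V₁} {D₂ : V₂ →ₗ[k] V₂} (h₁ : D₁ ∘ₗ D₁ = 0)
    (h₂ : D₂ ∘ₗ D₂ = 0) (f : V₁ →ₗ[k] V₂)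
    (hc : ∀ x, D₁ x = 0 → D₂ (f x) = 0)
    (hi : ∀ x y, D₁ x = 0 → f x = D₂ y → ∃ z, x = D₁ z) : hd D₁ ≤ hd D₂ := by
  rw [← finrank_Hm h₁, ← finrank_Hm h₂]
  let g : ker D₁ →ₗ[k] ker D₂ :=
    (f.comp (ker D₁).subtype).codRestrict (ker D₂) (fun x => hc x.1 x.2)
  let q : ker D₁ →ₗ[k] Hm D₂ := (Submodule.mkQ _).comp g
  have hker : ker q ≤ (range D₁).comap (ker D₁).subtype := by
    intro x hx
    have hx1 : g x ∈ (range D₂).comap (ker D₂).subtype := by
      have : q x = 0 := hx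
      exact (Submodule.Quotient.mk_eq_zero _).1 this
    obtain ⟨y, hy⟩ := hx1
    obtain ⟨z, hz⟩ := hi x.1 y x.2 hy.symm
    exact ⟨z, hz.symm⟩
  have e1 : finrank k (range q) ≤ finrank k (Hm D₂) := Submodule.finrank_le _
  have e2 := finrank_range_add_finrank_ker q
  have e3 : finrank k (ker q) ≤ finrank k ((range D₁).comap (ker D₁).subtype) :=
    Submodule.finrank_mono hker
  have e4 := Submodule.finrank_quotient_add_finrank ((range D₁).comap (ker D₁).subtype)
  have e5 : finrank k (Hm D₁) =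
    finrank k ((ker D₁) ⧸ ((range D₁).comap (ker D₁).subtype)) := rfl
  omega

/-- invariance under homotopy equivalence of differential spaces (weak form: the maps
send cocycles to cocycles and coboundaries to coboundaries, and the composites are the
identity on homology) -/
theorem hd_eq_of_equiv {D₁ : V₁ →ₗ[k] V₁} {D₂ : V₂ →ₗ[k] V₂} (h₁ : D₁ ∘ₗ D₁ = 0)
    (h₂ : D₂ ∘ₗ D₂ = 0) (f : V₁ →ₗ[k] V₂) (g : V₂ →ₗ[k] V₁)
    (hf : ∀ x, D₁ x = 0 → D₂ (f x) = 0) (hg : ∀ x, D₂ x = 0 → D₁ (g x) = 0)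
    (hf' : ∀ x, ∃ y, f (D₁ x) = D₂ y) (hg' : ∀ x, ∃ y, g (D₂ x) = D₁ y)
    (hgf : ∀ x, D₁ x = 0 → ∃ z, x - g (f x) = D₁ z)
    (hfg : ∀ x, D₂ x = 0 → ∃ z, x - f (g x) = D₂ z) : hd D₁ = hd D₂ := by
  apply le_antisymm
  · refine hd_le_of_inj h₁ h₂ f hf ?_
    intro x y hx hxy
    obtain ⟨z, hz⟩ := hgf x hx
    obtain ⟨w, hw⟩ := hg' y
    refine ⟨z + w, ?_⟩
    rw [map_add, ← hz, ← hw, ← hxy]
    abel
  · refine hd_le_of_inj h₂ h₁ g hg ?_
    intro x y hx hxy
    obtain ⟨z, hz⟩ := hfg x hx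
    obtain ⟨w, hw⟩ := hf' y
    refine ⟨z + w, ?_⟩
    rw [map_add, ← hz, ← hw, ← hxy]
    abel

/-- invariance under isomorphism (compatible up to a unit scalar) -/
theorem hd_congr {D₁ : V₁ →ₗ[k] V₁} {D₂ : V₂ →ₗ[k] V₂} (e : V₁ ≃ₗ[k] V₂) (c : k)
    (hc : c ≠ 0) (h : ∀ x, D₂ (e x) = c • e (D₁ x)) : hd D₁ = hd D₂ := by
  have k1 : finrank k (ker D₁) = finrank k (ker D₂) := by
    have : (ker D₁).map (e : V₁ →ₗ[k] V₂) = ker D₂ := by
      ext y
      constructor
      · rintro ⟨x, hx, rfl⟩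
        have hx' : D₁ x = 0 := hx
        change D₂ (e x) = 0
        rw [h, hx', map_zero, smul_zero]
      · intro hy
        refine ⟨e.symm y, ?_, by simp⟩
        have hy' : D₂ y = 0 := hy
        have := h (e.symm y)
        rw [LinearEquiv.apply_symm_apply, hy'] at this
        have h2 : e (D₁ (e.symm y)) = 0 := by
          rcases smul_eq_zero.1 this.symm with h3 | h3
          · exact absurd h3 hc
          · exact h3
        exact (LinearEquiv.map_eq_zero_iff e).1 h2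
    rw [← this]
    exact (LinearEquiv.finrank_map_eq e _).symm
  have k2 : finrank k (range D₁) = finrank k (range D₂) := by
    have : (range D₁).map (e : V₁ →ₗ[k] V₂) = range D₂ := by
      ext y
      constructor
      · rintro ⟨_, ⟨x, rfl⟩, rfl⟩
        refine ⟨c⁻¹ • e x, ?_⟩
        rw [map_smul, h, smul_smul, inv_mul_cancel₀ hc, one_smul]
        rfl
      · rintro ⟨x, rfl⟩
        refine ⟨D₁ (c • e.symm x), ⟨_, rfl⟩, ?_⟩
        change e _ = _
        rw [map_smul, map_smul, ← h, LinearEquiv.apply_symm_apply]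
    rw [← this]
    exact (LinearEquiv.finrank_map_eq e _).symm
  unfold hd
  rw [k1, k2]


section SES

variable {D : V →ₗ[k] V} {D₁ : V₁ →ₗ[k] V₁} {D₂ : V₂ →ₗ[k] V₂}

/-- short exact sequence `V₁ → V → V₂` of differential spaces: `hd V ≤ hd V₁ + hd V₂`.
The signs are arbitrary nonzero scalars. -/
theorem hd_ses_le (h : D ∘ₗ D = 0) (h₁ : D₁ ∘ₗ D₁ = 0) (h₂ : D₂ ∘ₗ D₂ = 0)
    (i : V₁ →ₗ[k] V) (p : V →ₗ[k] V₂) (hi : Function.Injective i)
    (hp : Function.Surjective p) (hex : ∀ x, p x = 0 ↔ ∃ y, i y = x) (c c' : k)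
    (hc : c ≠ 0) (hc' : c' ≠ 0) (hiD : ∀ x, D (i x) = c • i (D₁ x))
    (hpD : ∀ x, D₂ (p x) = c' • p (D x)) : hd D ≤ hd D₁ + hd D₂ := by
  have e := hd_add_two h
  have e1 := hd_add_two h₁
  have e2 := hd_add_two h₂
  -- dimension
  have hdim : finrank k V = finrank k V₁ + finrank k V₂ := by
    have a1 := finrank_range_add_finrank_ker p
    rw [LinearMap.range_eq_top.2 hp, finrank_top] at a1
    have a2 : finrank k (ker p) = finrank k V₁ := by
      have : ker p = range i := by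
        ext x; rw [mem_ker, hex]; rfl
      rw [this]
      exact (LinearEquiv.ofInjective i hi).finrank_eq.symm
    omega
  -- rank
  have hr : finrank k (range D₁) + finrank k (range D₂) ≤ finrank k (range D) := by
    -- the map range D → range D₂ is onto with kernel containing i (range D₁)
    let g : range D →ₗ[k] range D₂ :=
      (p.comp (range D).subtype).codRestrict (range D₂) (by
        rintro ⟨_, ⟨x, rfl⟩⟩
        refine ⟨c'⁻¹ • p x, ?_⟩
        rw [map_smul, hpD, smul_smul, inv_mul_cancel₀ hc', one_smul]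
        rfl)
    have hg : Function.Surjective g := by
      rintro ⟨_, ⟨y, rfl⟩⟩
      obtain ⟨x, rfl⟩ := hp y
      refine ⟨⟨D (c' • x), ⟨_, rfl⟩⟩, ?_⟩
      apply Subtype.ext
      change p (D (c' • x)) = D₂ (p x)
      rw [map_smul, map_smul, hpD]
    let f : range D₁ →ₗ[k] ker g :=
      ((i.comp (range D₁).subtype).codRestrict (range D) (by
        rintro ⟨_, ⟨x, rfl⟩⟩
        refine ⟨c⁻¹ • i x, ?_⟩
        rw [map_smul, hiD, smul_smul, inv_mul_cancel₀ hc, one_smul]
        rfl)).codRestrict (ker g) (by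
        rintro ⟨x, hx⟩
        rw [mem_ker]
        apply Subtype.ext
        change p (i x) = 0
        exact (hex _).2 ⟨_, rfl⟩)
    have hf : Function.Injective f := by
      rintro ⟨x, hx⟩ ⟨y, hy⟩ hxy
      apply Subtype.ext
      apply hi
      have := congrArg (fun z : ker g => ((z : range D) : V)) hxy
      exact this
    have b1 := LinearMap.finrank_le_finrank_of_injective hf
    have b2 := finrank_range_add_finrank_ker g
    rw [LinearMap.range_eq_top.2 hg, finrank_top] at b2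
    omega
  omega



/-- the opposite estimate: if every cocycle of the quotient lifts to a cocycle then
`hd` is additive -/
theorem hd_ses_eq (h : D ∘ₗ D = 0) (h₁ : D₁ ∘ₗ D₁ = 0) (h₂ : D₂ ∘ₗ D₂ = 0)
    (i : V₁ →ₗ[k] V) (p : V →ₗ[k] V₂) (hi : Function.Injective i)
    (hp : Function.Surjective p) (hex : ∀ x, p x = 0 ↔ ∃ y, i y = x) (c c' : k)
    (hc : c ≠ 0) (hc' : c' ≠ 0) (hiD : ∀ x, D (i x) = c • i (D₁ x))
    (hpD : ∀ x, D₂ (p x) = c' • p (D x))
    (hlift : ∀ y, D₂ y = 0 → ∃ x, D x = 0 ∧ p x = y) : hd D = hd D₁ + hd D₂ := by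
  have e := hd_add_two h
  have e1 := hd_add_two h₁
  have e2 := hd_add_two h₂
  have hdim : finrank k V = finrank k V₁ + finrank k V₂ := by
    have a1 := finrank_range_add_finrank_ker p
    rw [LinearMap.range_eq_top.2 hp, finrank_top] at a1
    have a2 : finrank k (ker p) = finrank k V₁ := by
      have : ker p = range i := by
        ext x; rw [mem_ker, hex]; rfl
      rw [this]
      exact (LinearEquiv.ofInjective i hi).finrank_eq.symm
    omega
  have hle := hd_ses_le h h₁ h₂ i p hi hp hex c c' hc hc' hiD hpD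
  have hr : finrank k (range D) ≤ finrank k (range D₁) + finrank k (range D₂) := by
    let g : range D →ₗ[k] range D₂ :=
      (p.comp (range D).subtype).codRestrict (range D₂) (by
        rintro ⟨_, ⟨x, rfl⟩⟩
        refine ⟨c'⁻¹ • p x, ?_⟩
        rw [map_smul, hpD, smul_smul, inv_mul_cancel₀ hc', one_smul]
        rfl)
    have hg : Function.Surjective g := by
      rintro ⟨_, ⟨y, rfl⟩⟩
      obtain ⟨x, rfl⟩ := hp y
      refine ⟨⟨D (c' • x), ⟨_, rfl⟩⟩, ?_⟩
      apply Subtype.ext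
      change p (D (c' • x)) = D₂ (p x)
      rw [map_smul, map_smul, hpD]
    let f : range D₁ →ₗ[k] ker g :=
      ((i.comp (range D₁).subtype).codRestrict (range D) (by
        rintro ⟨_, ⟨x, rfl⟩⟩
        refine ⟨c⁻¹ • i x, ?_⟩
        rw [map_smul, hiD, smul_smul, inv_mul_cancel₀ hc, one_smul]
        rfl)).codRestrict (ker g) (by
        rintro ⟨x, hx⟩
        rw [mem_ker]
        apply Subtype.ext
        change p (i x) = 0
        exact (hex _).2 ⟨_, rfl⟩)
    have hs : Function.Surjective f := by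
      rintro ⟨⟨_, ⟨x, rfl⟩⟩, hx⟩
      have hx0 : p (D x) = 0 := by
        rw [mem_ker] at hx
        exact congrArg (fun z : range D₂ => (z : V₂)) hx
      have hy : D₂ (p x) = 0 := by rw [hpD, hx0, smul_zero]
      obtain ⟨x', hx', hpx⟩ := hlift _ hy
      obtain ⟨z, hz⟩ := (hex (x - x')).1 (by rw [map_sub, hpx, sub_self])
      refine ⟨⟨D₁ (c • z), ⟨_, rfl⟩⟩, ?_⟩
      apply Subtype.ext
      apply Subtype.ext
      change i (D₁ (c • z)) = D x
      rw [map_smul, map_smul, ← hiD, hz, map_sub, hx', sub_zero]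
    have b1 : finrank k (ker g) ≤ finrank k (range D₁) :=
      LinearMap.finrank_le_finrank_of_surjective hs
    have b2 := finrank_range_add_finrank_ker g
    rw [LinearMap.range_eq_top.2 hg, finrank_top] at b2
    omega
  omega

end SES

/-- elimination inside one differential space: `s ∘ s = 0`, `s D s = s`; a retract
`(W, r : W → V, q : V → W)` with `q r = 1`, `s r = 0`, `q s = 0` and
`r q + a s + s b = 1`. Then `hd D = hd (q (D - D s D) r)`. -/
theorem elim {D : V →ₗ[k] V} (h : D ∘ₗ D = 0) (s : V →ₗ[k] V) (hss : ∀ x, s (s x) = 0)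
    (hsDs : ∀ x, s (D (s x)) = s x) (r : W →ₗ[k] V) (q : V →ₗ[k] W)
    (hqr : ∀ x, q (r x) = x) (hsr : ∀ x, s (r x) = 0) (hqs : ∀ x, q (s x) = 0)
    (a b : V →ₗ[k] V) (hab : ∀ x, r (q x) + a (s x) + s (b x) = x) :
    (q ∘ₗ (D - D ∘ₗ s ∘ₗ D) ∘ₗ r) ∘ₗ (q ∘ₗ (D - D ∘ₗ s ∘ₗ D) ∘ₗ r) = 0 ∧
    hd D = hd (q ∘ₗ (D - D ∘ₗ s ∘ₗ D) ∘ₗ r) := by
  have hDD : ∀ x, D (D x) = 0 := fun x => LinearMap.congr_fun h x
  set D' : W →ₗ[k] W := q ∘ₗ (D - D ∘ₗ s ∘ₗ D) ∘ₗ r with hD'
  have hD'a : ∀ x, D' x = q (D (r x)) - q (D (s (D (r x)))) := by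
    intro x; simp [hD', map_sub]
  -- the maps f = q (1 - D s), g = (1 - s D) r
  -- key identity: (1-e) r q (1-e) = 1 - e, e = sD + Ds
  -- f : V → W,  f x = q x - q (D (s x)) ; g : W → V, g y = r y - s (D (r y))
  have key : ∀ x, r (q x - q (D (s x))) - s (D (r (q x - q (D (s x)))))
      = x - s (D x) - D (s x) := by
    intro x
    have h1 := hab (x - D (s x))
    have e1 : s (x - D (s x)) = 0 := by rw [map_sub, hsDs, sub_self]
    rw [e1, map_zero, add_zero, map_sub] at h1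
    have h2 : r (q x - q (D (s x))) = x - D (s x) - s (b (x - D (s x))) := by
      rw [eq_sub_iff_add_eq]; exact h1
    rw [h2]
    have h3 : s (D (x - D (s x) - s (b (x - D (s x))))) =
        s (D x) - s (b (x - D (s x))) := by
      rw [map_sub, map_sub, map_sub, map_sub, hDD, hsDs, map_zero, sub_zero]
    rw [h3]; abel
  have hgD : ∀ y, D (r y - s (D (r y))) = r (D' y) - s (D (r (D' y))) := by
    intro y
    have h1 := key (D (r y))
    rw [hDD, map_zero, sub_zero] at h1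
    rw [hD'a, h1, map_sub]
  let f : V →ₗ[k] W := q - q ∘ₗ D ∘ₗ s
  let g : W →ₗ[k] V := r - s ∘ₗ D ∘ₗ r
  have hfa : ∀ x, f x = q x - q (D (s x)) := fun x => rfl
  have hga : ∀ y, g y = r y - s (D (r y)) := fun y => rfl
  have gf : ∀ x, g (f x) = x - s (D x) - D (s x) := by
    intro x; rw [hfa, hga]; exact key x
  have fg : ∀ y, f (g y) = y := by
    intro y
    rw [hfa, hga]
    simp only [map_sub, hqr, hqs, hsr, hss, map_zero, sub_zero]
  have Dg : ∀ y, D (g y) = g (D' y) := by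
    intro y; rw [hga, hga]; exact hgD y
  have fD : ∀ x, f (D x) = D' (f x) := by
    intro x
    have e1 : f (D (g (f x))) = D' (f x) := by rw [Dg, fg]
    have e2 : D (g (f x)) = g (f (D x)) := by
      rw [gf, gf, map_sub, map_sub, hDD, hDD, map_zero]
      abel
    rw [e2, fg] at e1
    exact e1
  have h' : D' ∘ₗ D' = 0 := by
    ext y
    change D' (D' y) = 0
    have e1 : g (D' (D' y)) = 0 := by rw [← Dg, ← Dg, hDD]
    have e2 := fg (D' (D' y))
    rw [e1, map_zero] at e2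
    exact e2.symm
  refine ⟨h', hd_eq_of_equiv h h' f g ?_ ?_ ?_ ?_ ?_ ?_⟩
  · intro x hx; rw [← fD, hx, map_zero]
  · intro x hx; rw [Dg, hx, map_zero]
  · intro x; exact ⟨f x, fD x⟩
  · intro x; exact ⟨g x, (Dg x).symm⟩
  · intro x hx
    refine ⟨s x, ?_⟩
    rw [gf, hx, map_zero]; abel
  · intro x _
    exact ⟨0, by rw [fg, map_zero, sub_self]⟩

end Crest.Agent.R175.DS_450
end

-- ▼ part R175/PTB_450

/-!
# T-framed objects (row 175, helper450): homotopy invariance, direct sums, cones, elimination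

over `PTA_534`. `Idl G k`: two-sided ideals `J` of the category `Gob G k` (`full`, `CsI`),
`J.h X Y` = dimension of the homology of `(J.I X Y, D)`; `hT = CsI.h`, `hD = full.h`.

* `OEquiv ε X Y`: homotopy equivalence of sign `ε` (`bar p = ε p`); `h_left`, `h_right`.
* `sh X`: parity shift.
* `ElimData`: Gaussian elimination / perturbation lemma; `ElimData.he`.
* `Ext Y Z X`: extensions split in `Gob` (cones, direct sums); `h_right_le`, `h_left_le`,
  `h_right_lt`, `h_right_eq`, `lift_iff`.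
* `sum X Y`, `cone g`.
-/

set_option autoImplicit false
set_option linter.unusedSectionVars false
set_option linter.unusedVariables false
set_option linter.unusedSimpArgs false

open CategoryTheory Module LinearMap

namespace Crest.Agent.R175.PTA

universe u v

variable {T : Type u} {G : MG T} {k : Type v} [Field k] [Fintype T]

@[simp] theorem TOb.bar_d' (X : TOb G k) : bar X.d = -X.d := X.bar_d

/-- Leibniz for closed right factor of sign `ε` -/
theorem D_comp_rightε {X Y Z : TOb G k} (f : X.X ⟶ Y.X) {g : Y.X ⟶ Z.X} {ε : k}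
    (hb : bar g = ε • g) (hg : D Y Z g = 0) :
    D X Z (f ≫ g) = ε • (D X Y f ≫ g) := by
  rw [D_comp, hg, Limits.comp_zero, zero_add, hb, Linear.comp_smul]

theorem D_bar {X Y : TOb G k} (f : X.X ⟶ Y.X) : D X Y (bar f) = -bar (D X Y f) := by
  rw [bar_D, neg_neg]



variable (G k) in
/-- two-sided ideals of `Gob` -/
structure Idl where
  /-- the subspaces -/
  I : ∀ X Y : Gob G k, Submodule k (X ⟶ Y)
  comp_right : ∀ {X Y Z : Gob G k} {f : X ⟶ Y} (g : Y ⟶ Z), f ∈ I X Y → f ≫ g ∈ I X Z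
  comp_left : ∀ {X Y Z : Gob G k} (f : X ⟶ Y) {g : Y ⟶ Z}, g ∈ I Y Z → f ≫ g ∈ I X Z

namespace Idl

variable (G k) in
/-- the unit ideal -/
def full : Idl G k where
  I _ _ := ⊤
  comp_right _ _ := trivial
  comp_left _ _ _ := trivial

variable (G k) in
/-- separate frames -/
def CsI : Idl G k where
  I X Y := Cs X Y
  comp_right g hf := Cs_comp_right hf g
  comp_left f _ hg := Cs_comp_left f hg

variable (J : Idl G k)

theorem bar_mem {X Y : Gob G k} {f : X ⟶ Y} (h : f ∈ J.I X Y) : bar f ∈ J.I X Y :=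
  J.comp_left _ (J.comp_right _ h)

theorem D_mem {X Y : TOb G k} {f : X.X ⟶ Y.X} (h : f ∈ J.I X.X Y.X) :
    D X Y f ∈ J.I X.X Y.X :=
  Submodule.sub_mem _ (J.comp_right _ h) (J.comp_left _ (J.bar_mem h))

/-- the differential restricted to the ideal -/
def Dr (X Y : TOb G k) : J.I X.X Y.X →ₗ[k] J.I X.X Y.X :=
  (D X Y).restrict (fun _ h => J.D_mem h)

@[simp] theorem Dr_coe (X Y : TOb G k) (f : J.I X.X Y.X) :
    (J.Dr X Y f : X.X ⟶ Y.X) = D X Y f := rfl

theorem Dr_Dr (X Y : TOb G k) : J.Dr X Y ∘ₗ J.Dr X Y = 0 := by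
  apply LinearMap.ext
  intro f
  apply Subtype.ext
  exact D_D _

/-- total dimension of the homology of the Hom complex (ideal `J`) -/
noncomputable def h (X Y : TOb G k) : ℕ := hd (J.Dr X Y)


theorem hD_eq (X Y : TOb G k) : hD X Y = (full G k).h X Y :=
  (hd_congr ((full G k).Dr X Y) (D X Y) (Submodule.topEquiv) (fun x => rfl)).symm

end Idl

/-! ### homotopy equivalences -/

/-- homotopy equivalence of sign `ε` (`bar p = ε p`, `bar q = ε q`) -/
structure OEquiv (ε : k) (X Y : TOb G k) where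
  p : X.X ⟶ Y.X
  q : Y.X ⟶ X.X
  s : X.X ⟶ X.X
  r : Y.X ⟶ Y.X
  hε : ε * ε = 1
  bp : bar p = ε • p
  bq : bar q = ε • q
  Dp : D X Y p = 0
  Dq : D Y X q = 0
  pq : p ≫ q = 𝟙 X.X + D X X s
  qp : q ≫ p = 𝟙 Y.X + D Y Y r



namespace OEquiv

/-- identity -/
def refl (X : TOb G k) : OEquiv (1 : k) X X where
  p := 𝟙 _
  q := 𝟙 _
  s := 0
  r := 0
  hε := one_mul 1
  bp := by simp
  bq := by simp
  Dp := D_id
  Dq := D_id
  pq := by simp
  qp := by simp

/-- inverse -/
def symm {ε : k} {X Y : TOb G k} (e : OEquiv ε X Y) : OEquiv ε Y X where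
  p := e.q
  q := e.p
  s := e.r
  r := e.s
  hε := e.hε
  bp := e.bq
  bq := e.bp
  Dp := e.Dq
  Dq := e.Dp
  pq := e.qp
  qp := e.pq

/-- composition -/
def trans {ε ε' : k} {X Y Z : TOb G k} (e : OEquiv ε X Y) (e' : OEquiv ε' Y Z) :
    OEquiv (ε * ε') X Z where
  p := e.p ≫ e'.p
  q := e'.q ≫ e.q
  s := e.s + ε • (e.p ≫ e'.s ≫ e.q)
  r := e'.r + ε' • (e'.q ≫ e.r ≫ e'.p)
  hε := by
    have h1 := e.hε
    have h2 := e'.hε
    calc ε * ε' * (ε * ε') = (ε * ε) * (ε' * ε') := by ring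
      _ = 1 := by rw [h1, h2, one_mul]
  bp := by rw [bar_comp, e.bp, e'.bp, Linear.smul_comp, Linear.comp_smul, smul_smul]
  bq := by
    rw [bar_comp, e.bq, e'.bq, Linear.smul_comp, Linear.comp_smul, smul_smul, mul_comm]
  Dp := by rw [D_comp_left e.Dp, e'.Dp, Limits.comp_zero]
  Dq := by rw [D_comp_left e'.Dq, e.Dq, Limits.comp_zero]
  pq := by
    rw [map_add, map_smul, D_comp_left e.Dp, D_comp_rightε _ e.bq e.Dq,
      Linear.comp_smul, smul_smul, e.hε, one_smul]
    have h1 : D Y Y e'.s = e'.p ≫ e'.q - 𝟙 _ := by rw [e'.pq]; abel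
    have h2 : D X X e.s = e.p ≫ e.q - 𝟙 _ := by rw [e.pq]; abel
    rw [h1, h2]
    simp only [Preadditive.sub_comp, Preadditive.comp_sub, Category.assoc, Category.id_comp]
    abel
  qp := by
    rw [map_add, map_smul, D_comp_left e'.Dq, D_comp_rightε _ e'.bp e'.Dp,
      Linear.comp_smul, smul_smul, e'.hε, one_smul]
    have h1 : D Z Z e'.r = e'.q ≫ e'.p - 𝟙 _ := by rw [e'.qp]; abel
    have h2 : D Y Y e.r = e.q ≫ e.p - 𝟙 _ := by rw [e.qp]; abel
    rw [h1, h2]
    simp only [Preadditive.sub_comp, Preadditive.comp_sub, Category.assoc, Category.id_comp]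
    abel

variable (J : Idl G k)

theorem h_left_le {ε : k} {X Y : TOb G k} (e : OEquiv ε X Y) (Z : TOb G k) :
    J.h X Z ≤ J.h Y Z := by
  unfold Idl.h
  let F : J.I X.X Z.X →ₗ[k] J.I Y.X Z.X :=
    (Linear.leftComp k Z.X e.q).restrict (fun _ h => J.comp_left _ h)
  have hF : ∀ x, (F x : Y.X ⟶ Z.X) = e.q ≫ (x : X.X ⟶ Z.X) := fun x => rfl
  refine DS_450.hd_le_of_inj (J.Dr_Dr X Z) (J.Dr_Dr Y Z) F ?_ ?_
  · intro x hx
    have hx' : D X Z x = 0 := congrArg Subtype.val hx
    apply Subtype.ext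
    rw [J.Dr_coe, hF, D_comp_left e.Dq, hx', Limits.comp_zero]; rfl
  · intro x y hx hxy
    have hx' : D X Z x = 0 := congrArg Subtype.val hx
    have hxy' : e.q ≫ (x : X.X ⟶ Z.X) = D Y Z y := congrArg Subtype.val hxy
    have hbx : D X Z (bar x.1) = 0 := by rw [D_bar, hx', bar_zero, neg_zero]
    refine ⟨⟨e.p ≫ (y : Y.X ⟶ Z.X) - e.s ≫ bar x.1,
      Submodule.sub_mem _ (J.comp_left _ y.2) (J.comp_left _ (J.bar_mem x.2))⟩, ?_⟩
    apply Subtype.ext
    rw [J.Dr_coe]
    change (x : X.X ⟶ Z.X) = D X Z (e.p ≫ (y : Y.X ⟶ Z.X) - e.s ≫ bar x.1)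
    rw [map_sub, D_comp_left e.Dp, D_comp, hbx, Limits.comp_zero, zero_add,
      bar_bar, ← hxy']
    have h1 : 𝟙 X.X = e.p ≫ e.q - D X X e.s := by rw [e.pq]; abel
    calc (x : X.X ⟶ Z.X) = 𝟙 _ ≫ (x : X.X ⟶ Z.X) := (Category.id_comp _).symm
      _ = (e.p ≫ e.q - D X X e.s) ≫ (x : X.X ⟶ Z.X) := by rw [h1]
      _ = _ := by rw [Preadditive.sub_comp, Category.assoc]

theorem h_left {ε : k} {X Y : TOb G k} (e : OEquiv ε X Y) (Z : TOb G k) :
    J.h X Z = J.h Y Z :=
  le_antisymm (e.h_left_le J Z) (e.symm.h_left_le J Z)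

theorem h_right_le {ε : k} {X Y : TOb G k} (e : OEquiv ε X Y) (Z : TOb G k) :
    J.h Z X ≤ J.h Z Y := by
  unfold Idl.h
  let F : J.I Z.X X.X →ₗ[k] J.I Z.X Y.X :=
    (Linear.rightComp k Z.X e.p).restrict (fun _ h => J.comp_right _ h)
  have hF : ∀ x, (F x : Z.X ⟶ Y.X) = (x : Z.X ⟶ X.X) ≫ e.p := fun x => rfl
  refine DS_450.hd_le_of_inj (J.Dr_Dr Z X) (J.Dr_Dr Z Y) F ?_ ?_
  · intro x hx
    have hx' : D Z X x = 0 := congrArg Subtype.val hx
    apply Subtype.ext
    rw [J.Dr_coe, hF, D_comp_rightε _ e.bp e.Dp, hx', Limits.zero_comp, smul_zero]; rfl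
  · intro x y hx hxy
    have hx' : D Z X x = 0 := congrArg Subtype.val hx
    have hxy' : (x : Z.X ⟶ X.X) ≫ e.p = D Z Y y := congrArg Subtype.val hxy
    refine ⟨⟨ε • ((y : Z.X ⟶ Y.X) ≫ e.q) - (x : Z.X ⟶ X.X) ≫ e.s,
      Submodule.sub_mem _ (Submodule.smul_mem _ _ (J.comp_right _ y.2))
        (J.comp_right _ x.2)⟩, ?_⟩
    apply Subtype.ext
    rw [J.Dr_coe]
    change (x : Z.X ⟶ X.X) = D Z X (ε • ((y : Z.X ⟶ Y.X) ≫ e.q) -
      (x : Z.X ⟶ X.X) ≫ e.s)
    rw [map_sub, map_smul, D_comp_rightε _ e.bq e.Dq, smul_smul, e.hε, one_smul,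
      D_comp_left hx', ← hxy']
    have h1 : 𝟙 X.X = e.p ≫ e.q - D X X e.s := by rw [e.pq]; abel
    calc (x : Z.X ⟶ X.X) = (x : Z.X ⟶ X.X) ≫ 𝟙 _ := (Category.comp_id _).symm
      _ = (x : Z.X ⟶ X.X) ≫ (e.p ≫ e.q - D X X e.s) := by rw [h1]
      _ = _ := by rw [Preadditive.comp_sub, Category.assoc]

theorem h_right {ε : k} {X Y : TOb G k} (e : OEquiv ε X Y) (Z : TOb G k) :
    J.h Z X = J.h Z Y :=
  le_antisymm (e.h_right_le J Z) (e.symm.h_right_le J Z)

theorem hT_left {ε : k} {X Y : TOb G k} (e : OEquiv ε X Y) (Z : TOb G k) :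
    hT X Z = hT Y Z := e.h_left (Idl.CsI G k) Z
theorem hT_right {ε : k} {X Y : TOb G k} (e : OEquiv ε X Y) (Z : TOb G k) :
    hT Z X = hT Z Y := e.h_right (Idl.CsI G k) Z
theorem hD_left {ε : k} {X Y : TOb G k} (e : OEquiv ε X Y) (Z : TOb G k) :
    hD X Z = hD Y Z := by rw [Idl.hD_eq, Idl.hD_eq]; exact e.h_left (Idl.full G k) Z
theorem hD_right {ε : k} {X Y : TOb G k} (e : OEquiv ε X Y) (Z : TOb G k) :
    hD Z X = hD Z Y := by rw [Idl.hD_eq, Idl.hD_eq]; exact e.h_right (Idl.full G k) Z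

end OEquiv

/-- cast of the sign -/
def OEquiv.cast {ε ε' : k} {X Y : TOb G k} (e : OEquiv ε X Y) (h : ε = ε') :
    OEquiv ε' X Y := h ▸ e

/-- strict isomorphisms (even, closed, invertible) give homotopy equivalences -/
theorem HIso.of_iso {X Y : TOb G k} (p : X.X ⟶ Y.X) (q : Y.X ⟶ X.X) (bp : bar p = p)
    (pd : p ≫ Y.d = X.d ≫ p) (pq : p ≫ q = 𝟙 _) (qp : q ≫ p = 𝟙 _) : HIso X Y := by
  have bq : bar q = q := by
    calc bar q = bar q ≫ (p ≫ q) := by rw [pq, Category.comp_id]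
      _ = bar (q ≫ p) ≫ q := by rw [bar_comp, bp, Category.assoc]
      _ = q := by rw [qp, bar_id, Category.id_comp]
  have qd : q ≫ X.d = Y.d ≫ q := by
    calc q ≫ X.d = q ≫ X.d ≫ (p ≫ q) := by rw [pq, Category.comp_id]
      _ = q ≫ (X.d ≫ p) ≫ q := by simp only [Category.assoc]
      _ = (q ≫ p) ≫ Y.d ≫ q := by rw [← pd]; simp only [Category.assoc]
      _ = Y.d ≫ q := by rw [qp, Category.id_comp]
  exact ⟨{
    p := p, q := q, s := 0, r := 0, bp := bp, bq := bq
    Dp := by rw [D_apply, bp, pd, sub_self]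
    Dq := by rw [D_apply, bq, qd, sub_self]
    pq := by rw [pq, map_zero, add_zero]
    qp := by rw [qp, map_zero, add_zero] }⟩

end Crest.Agent.R175.PTA
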