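import Crest.Agent.R175.PTD_450
import Crest.Agent.R175.FrmHd_988
import Crest.Agent.R175.Res_428
import Mathlib
import Crest.Agent.R175.PTA_534
import Crest.Agent.R175.ResI_663
import Crest.Agent.R175.Cls_133
import Crest.Agent.R175.PTM_450
import Crest.Agent.R175.Fm4_27
import Crest.Agent.R175.PTB_450
import Crest.Agent.R175.Fm7_27
import Crest.Agent.R175.Lev_788
import Crest.Agent.R175.LevC_788
import Crest.Agent.R175.ActU_131_Mg
import Crest.Agent.R175.Unfr_83
import Crest.Agent.R175.PTC_505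
import Crest.Agent.R175.PTC2_505

-- ▼ part R175/ResB_988
section

/-!
Row 175, task 486 (S0263-RES), over `ResI_663` (comap, resG, resF) and `Res_428` (resH, resT):

* `dT_resT`, `dT_resF`: `dT (Res X) t = dT X (ι t)`;
* `HIso_of_q`, `HIso_of_finrank`; `res_free`, `res_frm`, `res_frm_out`, `res_prj`, `res_prj_out`;
* transitivity `res_res`: `Res κ (Res ι X) ≅ Res (ι ∘ κ) X`;
* relabeling `hT_relabel`: for `e : T' ≃ T`, `hT (Res e X) (Res e Y) = hT X Y`; `hT_res_congr`;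
* `res_dsum`.
-/

set_option autoImplicit false
set_option linter.unusedSectionVars false
set_option linter.unusedVariables false
set_option linter.unusedSimpArgs false

open CategoryTheory

namespace Crest.Agent.R175.ResB_988

open Crest.Agent.R175.PTA Crest.Agent.R175.ResI_663 Crest.Agent.R175.Res_428
open Crest.Agent.R175.Res_988 (dT_hd)

universe v

section dT

variable {T T' : Type} {G : MG T} {k : Type v} [Field k] [Fintype T] [Fintype T'] {ι : T' → T}
  [DecidableEq T] [DecidableEq T']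



/-- `Hom(x_t, Res X)` and `Hom(x_(ι t), X)` have the same dimension -/
theorem hT_frm_resT (hι : Function.Injective ι) (X : TOb G k) (h : Ok ι X) (t : T') :
    hT (frm (comap G ι) k t) (resT hι X h) = hT (frm G k (ι t)) X := by
  rw [Res_988.hT_frm_left_hd, Res_988.hT_frm_left_hd]; rfl


/-- `V u = d_u` outside of the image -/
theorem finrank_out (X : TOb G k) (h : Ok ι X) (u : Out ι) :
    Module.finrank k (X.X.V u.1) = dT X u.1 := by
  rw [dT_hd, h u, hd_zero]

/-- `lam (Res X)` in terms of `lam` and `dT` -/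
theorem lam_resT' (hι : Function.Injective ι) (X : TOb G k) (h : Ok ι X) (t : T') :
    lam (resT hι X h) t = lam X (ι t) +
      ∑ u : Out ι, Fintype.card (G.E u.1 (ι t)) * dT X u.1 := by
  rw [lam_resT hι h]
  simp only [finrank_out X h]

end dT

/-! ### isomorphisms -/

section iso

variable {T : Type} {G : MG T} {k : Type v} [Field k] [Fintype T]

/-- an even closed isomorphism in the base category gives an isomorphism -/
theorem HIso_of_q {X Y : TOb G k} (q : Y.X ⟶ X.X) (p : X.X ⟶ Y.X) (bq : bar q = q)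
    (Dq : D Y X q = 0) (pq : p ≫ q = 𝟙 _) (qp : q ≫ p = 𝟙 _) : HIso X Y := by
  have bp : bar p = p := by
    have h : bar (p ≫ q) ≫ p = p := by rw [pq, bar_id, Category.id_comp]
    rw [bar_comp, bq, Category.assoc, qp, Category.comp_id] at h
    exact h
  have Dp : D X Y p = 0 := by
    have h : D Y Y (q ≫ p) = 0 := by rw [qp, D_id]
    rw [D_comp, Dq, Limits.zero_comp, add_zero] at h
    have h2 : p ≫ q ≫ D X Y p = 0 := by rw [h, Limits.comp_zero]
    rwa [← Category.assoc, pq, Category.id_comp] at h2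
  exact ⟨HEquiv.ofIso p q bp bq Dp Dq pq qp⟩

/-- the same with the components of `q` of length 0 only, given as bijective linear maps -/
theorem HIso_of_bij {X Y : TOb G k} (q : Y.X ⟶ X.X) (bq : bar q = q) (Dq : D Y X q = 0)
    (hV : ∀ t, Function.Bijective (c0 q t)) (hW : ∀ t, Function.Bijective (cW q t))
    (h1 : ∀ (s t : T) (a : G.E s t), c1 q a = 0) (hi : ∀ t, ci q t = 0) (hj : ∀ t, cj q t = 0)
    (h2 : ∀ t, c2 q t = 0) : HIso X Y := by
  let eV : ∀ t, Y.X.V t ≃ₗ[k] X.X.V t := fun t => LinearEquiv.ofBijective (c0 q t) (hV t)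
  let eW : ∀ t, Y.X.W t ≃ₗ[k] X.X.W t := fun t => LinearEquiv.ofBijective (cW q t) (hW t)
  have ev : ∀ t, c0 q t = (eV t).toLinearMap := fun t => rfl
  have ew : ∀ t, cW q t = (eW t).toLinearMap := fun t => rfl
  refine HIso_of_q q
    (mkH (fun t => (eV t).symm.toLinearMap) (fun t => (eW t).symm.toLinearMap)
      (fun _ _ _ => 0) (fun _ => 0) (fun _ => 0) (fun _ => 0)) bq Dq ?_ ?_
  · apply hm_ext <;> intros <;> simp [ev, ew, h1, hi, hj, h2]
  · apply hm_ext <;> intros <;> simp [ev, ew, h1, hi, hj, h2]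

/-- even objects with zero differential are classified by their dimensions -/
theorem HIso_of_finrank (X Y : TOb G k) (dX : X.d = 0) (dY : Y.d = 0)
    (gVX : ∀ t, X.X.gV t = LinearMap.id) (gWX : ∀ t, X.X.gW t = LinearMap.id)
    (gVY : ∀ t, Y.X.gV t = LinearMap.id) (gWY : ∀ t, Y.X.gW t = LinearMap.id)
    (hV : ∀ t, Module.finrank k (X.X.V t) = Module.finrank k (Y.X.V t))
    (hW : ∀ t, Module.finrank k (X.X.W t) = Module.finrank k (Y.X.W t)) : HIso X Y := by
  let eV : ∀ t, X.X.V t ≃ₗ[k] Y.X.V t := fun t => LinearEquiv.ofFinrankEq _ _ (hV t)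
  let eW : ∀ t, X.X.W t ≃ₗ[k] Y.X.W t := fun t => LinearEquiv.ofFinrankEq _ _ (hW t)
  refine HIso_of_q
    (mkH (fun t => (eV t).symm.toLinearMap) (fun t => (eW t).symm.toLinearMap)
      (fun _ _ _ => 0) (fun _ => 0) (fun _ => 0) (fun _ => 0))
    (mkH (fun t => (eV t).toLinearMap) (fun t => (eW t).toLinearMap)
      (fun _ _ _ => 0) (fun _ => 0) (fun _ => 0) (fun _ => 0)) ?_ ?_ ?_ ?_
  · apply hm_ext <;> intros <;> simp [gVX, gWX, gVY, gWY]
  · rw [D_apply, dX, dY]; simp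
  · apply hm_ext <;> intros <;> simp
  · apply hm_ext <;> intros <;> simp

end iso

section frames

variable {T T' : Type} {G : MG T} {k : Type v} [Field k] [Fintype T] [Fintype T'] {ι : T' → T}
  (hι : Function.Injective ι)

theorem ok_free (m n : T → ℕ) : Ok ι (free G k m n) := fun _ => rfl

theorem ok_frm [DecidableEq T] (t : T) : Ok ι (frm G k t) := fun _ => rfl


/-- the restriction of a free object -/
theorem res_free (m n : T → ℕ) (m' n' : T' → ℕ) (hm : ∀ t, m (ι t) = m' t)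
    (hn : ∀ t, n (ι t) + ∑ u : Out ι, Fintype.card (G.E u.1 (ι t)) * m u.1 = n' t) :
    HIso (resT hι (free G k m n) (ok_free m n)) (free (comap G ι) k m' n') := by
  refine HIso_of_finrank _ _ (resH_zero ι) rfl (fun _ => rfl) (fun t => rfl) (fun _ => rfl)
    (fun _ => rfl) (fun t => ?_) fun t => ?_
  · change Module.finrank k (Fin (m (ι t)) → k) = Module.finrank k (Fin (m' t) → k)
    rw [hm]
  · have h1 := lam_resT hι (ok_free m n : Ok ι (free G k m n)) t
    refine h1.trans ?_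
    change Module.finrank k (Fin (n (ι t)) → k) + ∑ u : Out ι, Fintype.card (G.E u.1 (ι t)) *
      Module.finrank k (Fin (m u.1) → k) = Module.finrank k (Fin (n' t) → k)
    simp only [Module.finrank_fintype_fun_eq_card, Fintype.card_fin]
    exact hn t

variable [DecidableEq T] [DecidableEq T']

include hι in
theorem single_ι (t s : T') : (Pi.single (ι t) 1 : T → ℕ) (ι s) = (Pi.single t 1 : T' → ℕ) s := by
  by_cases h : s = t
  · subst h; rw [Pi.single_eq_same, Pi.single_eq_same]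
  · rw [Pi.single_eq_of_ne h, Pi.single_eq_of_ne (fun e => h (hι e))]



/-- `Res (frm (ι t)) ≅ frm t` -/
theorem res_frm (t : T') : HIso (resT hι (frm G k (ι t)) (ok_frm _)) (frm (comap G ι) k t) :=
  res_free hι _ _ _ _ (fun s => rfl) fun s => by simp [single_ι hι]




end frames

/-! ### transitivity -/

section trans

variable {T T' T'' : Type} {G : MG T} {k : Type v} [Field k] [Fintype T] [Fintype T']
  [Fintype T''] {ι : T' → T} {κ : T'' → T'}

/-- `Out (ι ∘ κ) = Out ι ⊕ Out κ` -/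
noncomputable def outE (hι : Function.Injective ι) (κ : T'' → T') :
    Out ι ⊕ Out κ ≃ Out (ι ∘ κ) :=
  Equiv.ofBijective (Sum.elim (fun u => ⟨u.1, fun ⟨s, h⟩ => u.2 ⟨κ s, h⟩⟩)
    (fun u => ⟨ι u.1, fun ⟨s, h⟩ => u.2 ⟨s, hι h⟩⟩)) (by
    constructor
    · rintro (a | a) (b | b) h
      · have h1 : a.1 = b.1 := congrArg (fun z : Out (ι ∘ κ) => z.1) h
        exact congrArg _ (Subtype.ext h1)
      · exact absurd ⟨b.1, (congrArg (fun z : Out (ι ∘ κ) => z.1) h).symm⟩ a.2
      · exact absurd ⟨a.1, congrArg (fun z : Out (ι ∘ κ) => z.1) h⟩ b.2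
      · have h1 : ι a.1 = ι b.1 := congrArg (fun z : Out (ι ∘ κ) => z.1) h
        exact congrArg _ (Subtype.ext (hι h1))
    · rintro ⟨u, hu⟩
      by_cases h : u ∈ Set.range ι
      · obtain ⟨a, rfl⟩ := h
        exact ⟨Sum.inr ⟨a, fun ⟨s, h⟩ => hu ⟨s, congrArg ι h⟩⟩, rfl⟩
      · exact ⟨Sum.inl ⟨u, h⟩, rfl⟩)

theorem sum_out (hι : Function.Injective ι) (κ : T'' → T') {M : Type*} [AddCommMonoid M]
    (F : Out (ι ∘ κ) → M) : ∑ u, F u = ∑ u : Out ι, F (outE hι κ (Sum.inl u)) +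
      ∑ u : Out κ, F (outE hι κ (Sum.inr u)) := by
  rw [← Fintype.sum_equiv (outE hι κ) (fun x => F (outE hι κ x)) F fun _ => rfl,
    Fintype.sum_sum_type]

variable (hι : Function.Injective ι) (hκ : Function.Injective κ)

variable (ι κ) in
/-- the two step restriction as an object over `comap G (ι ∘ κ)` -/
def r2O (X : Gob G k) : Gob (comap G (ι ∘ κ)) k := resG κ (resG ι X)

variable (ι κ) in
/-- the two step restriction of a morphism -/
noncomputable def r2H {X Y : Gob G k} (f : X ⟶ Y) : r2O ι κ X ⟶ r2O ι κ Y := resH κ (resH ι f)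

/-- the comparison of the frames -/
noncomputable def trW (X : Gob G k) (t : T'') :
    (X.W (ι (κ t)) × NW (ι ∘ κ) X (ι (κ t))) →ₗ[k] (r2O ι κ X).W t where
  toFun x := ((x.1, fun u a => x.2 (outE hι κ (Sum.inl u)) a),
    fun u a => x.2 (outE hι κ (Sum.inr u)) a)
  map_add' x y := rfl
  map_smul' c x := rfl

/-- the comparison map `Res (ι ∘ κ) X → Res κ (Res ι X)` -/
noncomputable def trG (X : Gob G k) : resG (ι ∘ κ) X ⟶ r2O ι κ X :=
  mkH (X := resG (ι ∘ κ) X) (Y := r2O ι κ X) (fun _ => LinearMap.id)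
    (fun t => trW hι X t) (fun _ _ _ => 0) (fun _ => 0) (fun _ => 0) (fun _ => 0)

theorem trW_injective (X : Gob G k) (t : T'') : Function.Injective (trW hι (κ := κ) X t) := by
  rw [injective_iff_map_eq_zero]
  intro x hx
  have h1 := congrArg (fun z : (X.W (ι (κ t)) × NW ι X (ι (κ t))) ×
    (∀ (u : Out κ) (_ : (comap G ι).E u.1 (κ t)), X.V (ι u.1)) => z.1.1) hx
  refine Prod.ext h1 ?_
  funext u
  obtain ⟨v, rfl⟩ := (outE hι κ).surjective u
  funext a
  rcases v with v | v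
  · have h2 := congrArg (fun z : (X.W (ι (κ t)) × NW ι X (ι (κ t))) ×
      (∀ (u : Out κ) (_ : (comap G ι).E u.1 (κ t)), X.V (ι u.1)) => z.1.2 v a) hx
    exact h2
  · have h2 := congrArg (fun z : (X.W (ι (κ t)) × NW ι X (ι (κ t))) ×
      (∀ (u : Out κ) (_ : (comap G ι).E u.1 (κ t)), X.V (ι u.1)) => z.2 v a) hx
    exact h2

include hι in
theorem trW_finrank (X : Gob G k) (t : T'') :
    Module.finrank k (X.W (ι (κ t)) × NW (ι ∘ κ) X (ι (κ t))) =
    Module.finrank k ((r2O ι κ X).W t) := by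
  have h1 : Module.finrank k (X.W (ι (κ t)) × NW (ι ∘ κ) X (ι (κ t))) =
      Module.finrank k (X.W (ι (κ t))) + ∑ u : Out (ι ∘ κ),
        Fintype.card (G.E u.1 (ι (κ t))) * Module.finrank k (X.V u.1) := by
    rw [← finrank_NW (ι := ι ∘ κ) X]; exact Module.finrank_prod
  have h2 : Module.finrank k ((r2O ι κ X).W t) =
      (Module.finrank k (X.W (ι (κ t))) + ∑ u : Out ι,
        Fintype.card (G.E u.1 (ι (κ t))) * Module.finrank k (X.V u.1)) + ∑ u : Out κ,
        Fintype.card ((comap G ι).E u.1 (κ t)) * Module.finrank k ((resG ι X).V u.1) := by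
    rw [← finrank_NW (ι := κ) (resG ι X), ← finrank_NW (ι := ι) X]
    exact Module.finrank_prod.trans (congrArg (· + _) Module.finrank_prod)
  rw [h1, h2, sum_out hι κ, add_assoc]
  rfl

theorem trW_bijective (X : Gob G k) (t : T'') : Function.Bijective (trW hι (κ := κ) X t) :=
  ⟨trW_injective hι X t,
    (LinearMap.injective_iff_surjective_of_finrank_eq_finrank (trW_finrank hι X t)).1
      (trW_injective hι X t)⟩

/-- naturality of the comparison map -/
theorem trG_nat {X Y : Gob G k} (f : X ⟶ Y) :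
    trG hι (κ := κ) X ≫ r2H ι κ f = resH (ι ∘ κ) f ≫ trG hι Y := by
  apply hm_ext
  · intro t; rfl
  · intro t; rfl
  · intro s t a
    refine LinearMap.ext fun (x : X.V (ι (κ s))) => ?_
    have h : ∀ y : Y.V (ι (κ t)), y + c0 f (ι (κ t)) 0 = 0 + y := fun y => by
      rw [map_zero, add_zero, zero_add]
    exact h (c1 (G := G) (s := ι (κ s)) (t := ι (κ t)) f a x)
  · intro t
    refine LinearMap.ext fun (x : X.W (ι (κ t)) × NW (ι ∘ κ) X (ι (κ t))) => ?_
    have h : ((ci f (ι (κ t)) x.1 + ∑ u : Out ι, ∑ a : G.E u.1 (ι (κ t)),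
        c1 f a (x.2 (outE hι κ (Sum.inl u)) a)) + ∑ u : Out κ, ∑ a : G.E (ι u.1) (ι (κ t)),
        c1 f a (x.2 (outE hι κ (Sum.inr u)) a)) + c0 f (ι (κ t)) 0 =
      (0 : Y.V (ι (κ t))) + (ci f (ι (κ t)) x.1 +
        ∑ u : Out (ι ∘ κ), ∑ a : G.E u.1 (ι (κ t)), c1 f a (x.2 u a)) := by
      rw [sum_out hι κ, map_zero, add_zero, zero_add, add_assoc]
      rfl
    exact h
  · intro t
    refine LinearMap.ext fun (x : X.V (ι (κ t))) => ?_
    have h1 : cj (trG hι (κ := κ) X ≫ r2H ι κ f) t x =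
      cj (r2H ι κ f) t x + cW (r2H ι κ f) t 0 := rfl
    have h2 : cj (resH (ι ∘ κ) f ≫ trG hι Y) t x = 0 + trW hι Y t (cjR (ι ∘ κ) f t x) := rfl
    rw [h1, h2, map_zero, add_zero, zero_add]
    rfl
  · intro t
    refine LinearMap.ext fun (x : X.V (ι (κ t))) => ?_
    have h1 := c2_comp_apply (trG hι (κ := κ) X) (r2H ι κ f) t x
    have h2 := c2_comp_apply (resH (ι ∘ κ) f) (trG hι (κ := κ) Y) t x
    refine h1.trans (Eq.trans ?_ h2.symm)
    have e1 : ∀ (s : T'') (a : (comap G (ι ∘ κ)).E t s),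
      c1 (trG hι (κ := κ) X) a x = 0 := fun s a => rfl
    have e2 : ∀ (s : T'') (a : (comap G (ι ∘ κ)).E t s) (y),
      c1 (trG hι (κ := κ) Y) ((comap G (ι ∘ κ)).rev a) y = 0 := fun s a y => rfl
    have e3 : c2 (trG hι (κ := κ) X) t x = 0 := rfl
    have e4 : ∀ y, c2 (trG hι (κ := κ) Y) t y = 0 := fun y => rfl
    have e5 : cj (trG hι (κ := κ) X) t x = 0 := rfl
    have e6 : ∀ y, ci (trG hι (κ := κ) Y) t y = 0 := fun y => rfl
    simp only [e1, e2, e3, e4, e5, e6, map_zero, Finset.sum_const_zero, add_zero, zero_add]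
    rfl

theorem trG_gam (X : Gob G k) :
    trG hι (κ := κ) X ≫ gam (r2O ι κ X) = gam (resG (ι ∘ κ) X) ≫ trG hι X := by
  have h1 : r2H ι κ (gam X) = gam (r2O ι κ X) := by
    have h2 : resH ι (gam X) = gam (resG ι X) := resH_gam ι
    have h3 : resH κ (gam (resG ι X)) = gam (resG κ (resG ι X)) := resH_gam κ
    exact (congrArg (resH κ) h2).trans h3
  rw [← h1, trG_nat, resH_gam]



/-- **transitivity**: `Res κ (Res ι X) ≅ Res (ι ∘ κ) X` -/
theorem res_res (X : TOb G k) (h : Ok (ι ∘ κ) X) (h' : Ok ι X) (h'' : Ok κ (resT hι X h')) :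
    HIso (G := comap G (ι ∘ κ)) (resT (G := comap G ι) hκ (resT (G := G) hι X h') h'')
      (resT (hι.comp hκ) X h) := by
  refine HIso_of_bij (G := comap G (ι ∘ κ))
    (X := (resT (G := comap G ι) hκ (resT (G := G) hι X h') h''))
    (Y := resT (hι.comp hκ) X h) (trG hι X.X) ?_ ?_ (fun t => Function.bijective_id)
    (fun t => trW_bijective hι X.X t) (fun s t a => rfl) (fun t => rfl) (fun t => rfl)
    (fun t => rfl)
  · change gam (resG (ι ∘ κ) X.X) ≫ trG hι X.X ≫ gam (r2O ι κ X.X) = _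
    rw [trG_gam, ← Category.assoc, gam_gam, Category.id_comp]
  · have h1 : bar (trG hι (κ := κ) X.X) = trG hι X.X := by
      change gam (resG (ι ∘ κ) X.X) ≫ trG hι X.X ≫ gam (r2O ι κ X.X) = _
      rw [trG_gam, ← Category.assoc, gam_gam, Category.id_comp]
    change trG hι X.X ≫ r2H ι κ X.d - resH (ι ∘ κ) X.d ≫ bar (trG hι X.X) = 0
    rw [h1, trG_nat, sub_self]

/-- transitivity for minimal objects -/
theorem res_resF (X : FObj G k) :
    HIso ((resF hκ (resF hι X)).toTOb : TOb (comap G (ι ∘ κ)) k)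
      (resF (hι.comp hκ) X).toTOb := by
  have h := res_res hι hκ X.toTOb (ok_F X) (ok_F X) (fun _ => rfl)
  have h1 : resT hι X.toTOb (ok_F X) = (resF hι X).toTOb := resT_toTOb hι X
  have h2 : resT (hι.comp hκ) X.toTOb (ok_F X) = (resF (hι.comp hκ) X).toTOb :=
    resT_toTOb _ X
  have h3 : resT hκ (resF hι X).toTOb (ok_F _) = (resF hκ (resF hι X)).toTOb :=
    resT_toTOb _ _
  have h4 : ∀ (Z Z' : TOb (comap G ι) k) (e : Z = Z') (hZ : Ok κ Z) (hZ' : Ok κ Z'),
    resT hκ Z hZ = resT hκ Z' hZ' := by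
    intro Z Z' e hZ hZ'
    subst e; rfl
  rw [h2] at h
  have h5 : resT hκ (resT hι X.toTOb (ok_F X)) (fun _ => rfl) =
    (resF hκ (resF hι X)).toTOb := (h4 _ _ h1 _ (ok_F _)).trans h3
  exact h5 ▸ h

end trans

/-! ### relabeling -/

section relabel

variable {T T' : Type} {G : MG T} {k : Type v} [Field k] [Fintype T] [Fintype T'] {e : T' → T}

theorem out_isEmpty (he : Function.Surjective e) : IsEmpty (Out e) := ⟨fun u => u.2 (he u.1)⟩

theorem ok_surj (he : Function.Surjective e) (X : TOb G k) : Ok e X :=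
  fun u => absurd (he u.1) u.2

theorem NW_subsingleton (he : Function.Surjective e) (X : Gob G k) (t : T) :
    Subsingleton (NW e X t) := by
  have := out_isEmpty he
  infer_instance

theorem exists_ext (he : Function.Bijective e) (P : T → Type*) (f : ∀ t', P (e t')) :
    ∃ F : ∀ t, P t, ∀ t', F (e t') = f t' :=
  ⟨(Equiv.ofBijective e he).piCongrLeft P f,
    fun t' => (Equiv.ofBijective e he).piCongrLeft_apply_apply P f t'⟩

theorem exists_ext2 (he : Function.Bijective e) (P : T → T → Type*)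
    (f : ∀ s' t', P (e s') (e t')) :
    ∃ F : ∀ s t, P s t, ∀ s' t', F (e s') (e t') = f s' t' := by
  choose F1 h1 using fun s' => exists_ext he (P (e s')) (f s')
  obtain ⟨F, hF⟩ := exists_ext he (fun s => ∀ t, P s t) F1
  exact ⟨F, fun s' t' => by rw [hF, h1]⟩

variable (e) in
/-- the restriction on the complexes with separate frames -/
noncomputable def rlC (he : Function.Surjective e) (X Y : Gob G k) :
    Cs X Y →ₗ[k] Cs (resG e X) (resG e Y) where
  toFun f := ⟨resH e f.1, resH_mem_Cs e f.2 fun u => absurd (he u.1) u.2⟩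
  map_add' f g := Subtype.ext (resH_add e f.1 g.1)
  map_smul' c f := Subtype.ext (resH_smul e c f.1)

theorem ciR_empty (he : Function.Surjective e) {X Y : Gob G k} (f : X ⟶ Y) (t : T')
    (x : X.W (e t) × NW e X (e t)) : ciR e f t x = ci f (e t) x.1 := by
  have := out_isEmpty he
  change ci f (e t) x.1 + ∑ u : Out e, ∑ a : G.E u.1 (e t), c1 f a (x.2 u a) = _
  simp

theorem rlC_injective (he : Function.Surjective e) (X Y : Gob G k) :
    Function.Injective (rlC e he X Y) := by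
  rw [injective_iff_map_eq_zero]
  intro f hf
  have hf1 : resH e f.1 = 0 := congrArg Subtype.val hf
  have := out_isEmpty he
  apply Subtype.ext
  apply hm_ext
  · intro t
    obtain ⟨t, rfl⟩ := he t
    exact congrArg (fun g => c0 g t) hf1
  · intro t; rw [f.2 t]; rfl
  · intro s t a
    obtain ⟨t, rfl⟩ := he t
    obtain ⟨s, rfl⟩ := he s
    exact congrArg (fun g : resG e X ⟶ resG e Y => c1 (G := comap G e) g (s := s) (t := t) a) hf1
  · intro t
    obtain ⟨t, rfl⟩ := he t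
    refine LinearMap.ext fun w => ?_
    have h1 : ciR e f.1 t (w, 0) = 0 :=
      congrArg (fun g : resG e X ⟶ resG e Y => ci g t ((w, 0) : X.W (e t) × NW e X (e t))) hf1
    rw [ciR_empty he] at h1
    exact h1
  · intro t
    obtain ⟨t, rfl⟩ := he t
    refine LinearMap.ext fun x => ?_
    have h1 : cjR e f.1 t x = 0 :=
      congrArg (fun g : resG e X ⟶ resG e Y => cj g t x) hf1
    exact congrArg Prod.fst h1
  · intro t
    obtain ⟨t, rfl⟩ := he t
    exact congrArg (fun g => c2 g t) hf1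

theorem rlC_surjective (he : Function.Bijective e) (X Y : Gob G k) :
    Function.Surjective (rlC e he.2 X Y) := by
  intro g
  have := out_isEmpty he.2
  obtain ⟨f0, h0⟩ := exists_ext he (fun t => X.V t →ₗ[k] Y.V t) (fun t' => c0 g.1 t')
  obtain ⟨f2, h2⟩ := exists_ext he (fun t => X.V t →ₗ[k] Y.V t) (fun t' => c2 g.1 t')
  obtain ⟨f1, h1⟩ := exists_ext2 he (fun s t => G.E s t → (X.V s →ₗ[k] Y.V t))
    (fun s' t' (a : G.E (e s') (e t')) => c1 (G := comap G e) g.1 (s := s') (t := t') a)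
  obtain ⟨fi, hi⟩ := exists_ext he (fun t => X.W t →ₗ[k] Y.V t)
    (fun t' => (ci g.1 t' : X.W (e t') × NW e X (e t') →ₗ[k] Y.V (e t')) ∘ₗ
      LinearMap.inl k (X.W (e t')) (NW e X (e t')))
  obtain ⟨fj, hj⟩ := exists_ext he (fun t => X.V t →ₗ[k] Y.W t)
    (fun t' => LinearMap.fst k (Y.W (e t')) (NW e Y (e t')) ∘ₗ
      (cj g.1 t' : X.V (e t') →ₗ[k] Y.W (e t') × NW e Y (e t')))
  refine ⟨⟨mkH f0 (fun _ => 0) f1 fi fj f2, fun _ => rfl⟩, ?_⟩
  apply Subtype.ext
  apply hm_ext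
  · intro t; exact h0 t
  · intro t
    rw [g.2 t]
    exact (rlC e he.2 X Y ⟨mkH f0 (fun _ => 0) f1 fi fj f2, fun _ => rfl⟩).2 t
  · intro s t a; exact congrFun (h1 s t) a
  · intro t
    refine LinearMap.ext fun (x : X.W (e t) × NW e X (e t)) => ?_
    have hs := NW_subsingleton he.2 X (e t)
    have h3 : ciR e (mkH f0 (fun _ => 0) f1 fi fj f2) t x = fi (e t) x.1 := by
      rw [ciR_empty he.2, ci_mkH]
    refine h3.trans ?_
    rw [hi]
    have h4 : x = (x.1, 0) := Prod.ext rfl (Subsingleton.elim _ _)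
    exact congrArg (ci g.1 t) h4.symm
  · intro t
    refine LinearMap.ext fun (x : X.V (e t)) => ?_
    have hs := NW_subsingleton he.2 Y (e t)
    have h3 : ∀ y z : Y.W (e t) × NW e Y (e t), y.1 = z.1 → y = z := fun y z h =>
      Prod.ext h (Subsingleton.elim _ _)
    refine h3 _ _ ?_
    exact LinearMap.congr_fun (hj t) x
  · intro t; exact h2 t

/-- **relabeling of the vertices** does not change `hT` -/
theorem hT_relabel (he : Function.Bijective e) (X Y : TOb G k) :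
    hT (resT he.1 X (ok_surj he.2 X)) (resT he.1 Y (ok_surj he.2 Y)) = hT X Y := by
  symm
  refine hd_congr _ _ (LinearEquiv.ofBijective (rlC e he.2 X.X Y.X)
    ⟨rlC_injective he.2 _ _, rlC_surjective he _ _⟩) fun f => ?_
  apply Subtype.ext
  exact resH_D he.1 (ok_surj he.2 X) (ok_surj he.2 Y) f.1


end relabel

section congr

variable {T T₁ T₂ : Type} {G : MG T} {k : Type v} [Field k] [Fintype T] [Fintype T₁] [Fintype T₂]
  {ι₁ : T₁ → T} {ι₂ : T₂ → T}

/-- two injections with the same range differ by a bijection -/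
theorem exists_relabel (h₁ : Function.Injective ι₁) (h₂ : Function.Injective ι₂)
    (hr : Set.range ι₁ = Set.range ι₂) : ∃ e : T₁ → T₂, Function.Bijective e ∧ ι₁ = ι₂ ∘ e := by
  have h : ∀ t, ∃ s, ι₂ s = ι₁ t := fun t => by
    have : ι₁ t ∈ Set.range ι₂ := hr ▸ ⟨t, rfl⟩
    exact this
  choose e he using h
  refine ⟨e, ⟨fun a b hab => h₁ ?_, fun s => ?_⟩, funext fun t => (he t).symm⟩
  · rw [← he, ← he, hab]
  · have : ι₂ s ∈ Set.range ι₁ := hr.symm ▸ ⟨s, rfl⟩
    obtain ⟨t, ht⟩ := this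
    exact ⟨t, h₂ (by rw [he, ht])⟩

/-- `hT (Res X) (Res Y)` depends only on the range of the injection -/
theorem hT_res_congr (h₁ : Function.Injective ι₁) (h₂ : Function.Injective ι₂)
    (hr : Set.range ι₁ = Set.range ι₂) (X Y : TOb G k) (hX₁ : Ok ι₁ X) (hX₂ : Ok ι₂ X)
    (hY₁ : Ok ι₁ Y) (hY₂ : Ok ι₂ Y) :
    hT (resT h₁ X hX₁) (resT h₁ Y hY₁) = hT (resT h₂ X hX₂) (resT h₂ Y hY₂) := by
  obtain ⟨e, he, rfl⟩ := exists_relabel h₁ h₂ hr
  rw [← hT_relabel he (resT h₂ X hX₂) (resT h₂ Y hY₂)]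
  have hx := res_res h₂ he.1 X hX₁ hX₂ (ok_surj he.2 _)
  have hy := res_res h₂ he.1 Y hY₁ hY₂ (ok_surj he.2 _)
  exact ((hx.hT_left _).trans (hy.hT_right _)).symm

theorem hT_resF_congr (h₁ : Function.Injective ι₁) (h₂ : Function.Injective ι₂)
    (hr : Set.range ι₁ = Set.range ι₂) (X Y : FObj G k) :
    hT (resF h₁ X).toTOb (resF h₁ Y).toTOb = hT (resF h₂ X).toTOb (resF h₂ Y).toTOb := by
  rw [← resT_toTOb, ← resT_toTOb, ← resT_toTOb, ← resT_toTOb]
  exact hT_res_congr h₁ h₂ hr _ _ _ _ _ _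

end congr

/-! ### direct sums -/

section sums

variable {T T' : Type} {G : MG T} {k : Type v} [Field k] [Fintype T] [Fintype T'] {ι : T' → T}
  (hι : Function.Injective ι)

theorem ok_dsum (X Y : TOb G k) (hX : Ok ι X) (hY : Ok ι Y) : Ok ι (dsum X Y) := fun u => by
  rw [dsum_d]
  simp [hX u, hY u]

/-- `Res (X ⊕ Y) ≅ Res X ⊕ Res Y` -/
theorem res_dsum (X Y : TOb G k) (hX : Ok ι X) (hY : Ok ι Y) (h : Ok ι (dsum X Y)) :
    HIso (resT hι (dsum X Y) h) (dsum (resT hι X hX) (resT hι Y hY)) := by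
  have e1 : resH ι (inl X.X Y.X) ≫ resH ι (fst X.X Y.X) = 𝟙 (resG ι X.X) := by
    rw [← resH_comp hι, inl_fst, resH_id]
  have e2 : resH ι (inr X.X Y.X) ≫ resH ι (snd X.X Y.X) = 𝟙 (resG ι Y.X) := by
    rw [← resH_comp hι, inr_snd, resH_id]
  have e3 : resH ι (inl X.X Y.X) ≫ resH ι (snd X.X Y.X) = 0 := by
    rw [← resH_comp hι, inl_snd, resH_zero]
  have e4 : resH ι (inr X.X Y.X) ≫ resH ι (fst X.X Y.X) = 0 := by
    rw [← resH_comp hι, inr_fst, resH_zero]
  have e5 : resH ι (fst X.X Y.X) ≫ resH ι (inl X.X Y.X) +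
      resH ι (snd X.X Y.X) ≫ resH ι (inr X.X Y.X) = 𝟙 _ := by
    rw [← resH_comp hι, ← resH_comp hι, ← resH_add, sum_one, resH_id]
  have e6 : resH ι (dsum X Y).d = resH ι (fst X.X Y.X) ≫ resH ι X.d ≫ resH ι (inl X.X Y.X) +
      resH ι (snd X.X Y.X) ≫ resH ι Y.d ≫ resH ι (inr X.X Y.X) := by
    rw [← resH_comp hι, ← resH_comp hι, ← resH_comp hι, ← resH_comp hι, ← resH_add]
    rw [dsum_d]
  have b1 : bar (resH ι (fst X.X Y.X)) = resH ι (fst X.X Y.X) := by
    rw [← resH_bar hι, bar_fst]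
  have b2 : bar (resH ι (snd X.X Y.X)) = resH ι (snd X.X Y.X) := by
    rw [← resH_bar hι, bar_snd]
  have a1 : ∀ {Z : Gob (comap G ι) k} (f : resG ι X.X ⟶ Z),
      resH ι (inl X.X Y.X) ≫ resH ι (fst X.X Y.X) ≫ f = f := fun f => by
    rw [← Category.assoc, e1, Category.id_comp]
  have a2 : ∀ {Z : Gob (comap G ι) k} (f : resG ι Y.X ⟶ Z),
      resH ι (inr X.X Y.X) ≫ resH ι (snd X.X Y.X) ≫ f = f := fun f => by
    rw [← Category.assoc, e2, Category.id_comp]
  have a3 : ∀ {Z : Gob (comap G ι) k} (f : resG ι Y.X ⟶ Z),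
      resH ι (inl X.X Y.X) ≫ resH ι (snd X.X Y.X) ≫ f = 0 := fun f => by
    rw [← Category.assoc, e3, Limits.zero_comp]
  have a4 : ∀ {Z : Gob (comap G ι) k} (f : resG ι X.X ⟶ Z),
      resH ι (inr X.X Y.X) ≫ resH ι (fst X.X Y.X) ≫ f = 0 := fun f => by
    rw [← Category.assoc, e4, Limits.zero_comp]
  refine HIso.symm (HIso_of_q
    (resH ι (fst X.X Y.X) ≫ inl (resG ι X.X) (resG ι Y.X) +
      resH ι (snd X.X Y.X) ≫ inr (resG ι X.X) (resG ι Y.X))
    (fst (resG ι X.X) (resG ι Y.X) ≫ resH ι (inl X.X Y.X) +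
      snd (resG ι X.X) (resG ι Y.X) ≫ resH ι (inr X.X Y.X)) ?_ ?_ ?_ ?_)
  · simp only [bar_add, bar_comp, b1, b2, bar_inl, bar_inr]
  · rw [D_apply]
    have hb : bar (resH ι (fst X.X Y.X) ≫ inl (resG ι X.X) (resG ι Y.X) +
      resH ι (snd X.X Y.X) ≫ inr (resG ι X.X) (resG ι Y.X)) = resH ι (fst X.X Y.X) ≫ inl _ _ +
      resH ι (snd X.X Y.X) ≫ inr _ _ := by
      simp only [bar_add, bar_comp, b1, b2, bar_inl, bar_inr]
    rw [hb, dsum_d]
    change _ - resH ι (dsum X Y).d ≫ _ = 0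
    rw [e6]
    simp only [Preadditive.add_comp, Preadditive.comp_add, Category.assoc, inl_fst_assoc,
      inl_snd_assoc, inr_fst_assoc, inr_snd_assoc, a1, a2, a3, a4, Limits.comp_zero,
      Limits.zero_comp, add_zero, zero_add, sub_self]
  · simp only [Preadditive.add_comp, Preadditive.comp_add, Category.assoc, a1, a2, a3, a4,
      Limits.comp_zero, add_zero, zero_add]
    exact sum_one _ _
  · simp only [Preadditive.add_comp, Preadditive.comp_add, Category.assoc, inl_fst_assoc,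
      inl_snd_assoc, inr_fst_assoc, inr_snd_assoc, Limits.comp_zero, add_zero, zero_add]
    exact e5

end sums

end Crest.Agent.R175.ResB_988
end

-- ▼ part R175/MFa_663
section

/-!
Rank estimates for a differential with a filtration (used for (MF)).
-/

set_option autoImplicit false

namespace Crest.Agent.R175.MFa_663

open Module LinearMap

variable {k : Type*} [Field k]

section rank

variable {C D' M M' : Type*} [AddCommGroup C] [Module k C] [AddCommGroup D'] [Module k D']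
  [AddCommGroup M] [Module k M] [AddCommGroup M'] [Module k M']
  [FiniteDimensional k C] [FiniteDimensional k D'] [FiniteDimensional k M]
  [FiniteDimensional k M']

/-- restricting the source to a complement of a subspace lowers the rank by at most its dimension -/
theorem rank_le_source (D : C →ₗ[k] D') (ι : M →ₗ[k] C) (A : Submodule k C)
    (hA : ∀ x : C, ∃ m : M, x - ι m ∈ A) :
    finrank k (range D) ≤ finrank k (range (D ∘ₗ ι)) + finrank k A := by
  have h1 : range D ≤ range (D ∘ₗ ι) ⊔ A.map D := by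
    rintro _ ⟨x, rfl⟩
    obtain ⟨m, hm⟩ := hA x
    have : D x = (D ∘ₗ ι) m + D (x - ι m) := by simp
    rw [this]
    exact Submodule.add_mem_sup ⟨m, rfl⟩ (Submodule.mem_map_of_mem hm)
  calc finrank k (range D) ≤ finrank k (range (D ∘ₗ ι) ⊔ A.map D : Submodule k D') :=
        Submodule.finrank_mono h1
    _ ≤ finrank k (range (D ∘ₗ ι)) + finrank k (A.map D) := Submodule.finrank_add_le_finrank_add_finrank _ _
    _ ≤ _ := by gcongr; exact Submodule.finrank_map_le D A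

/-- projecting the target: the rank is lowered by at most the dimension of the kernel part -/
theorem rank_le_target (D : M →ₗ[k] C) (π : C →ₗ[k] M') (B : Submodule k C)
    (hB : ∀ m : M, π (D m) = 0 → D m ∈ B) :
    finrank k (range D) ≤ finrank k (range (π ∘ₗ D)) + finrank k B := by
  have h1 : range (π ∘ₗ D) = (range D).map π := by
    rw [LinearMap.range_comp]
  set p := range D
  have h2 := LinearMap.finrank_range_add_finrank_ker (π.domRestrict p)
  have h3 : finrank k (range (π.domRestrict p)) = finrank k (p.map π) := by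
    rw [LinearMap.range_domRestrict]
  have h4 : finrank k (ker (π.domRestrict p)) ≤ finrank k B := by
    have hinj : Function.Injective (p.subtype ∘ₗ (ker (π.domRestrict p)).subtype) :=
      (Submodule.injective_subtype _).comp (Submodule.injective_subtype _)
    refine LinearMap.finrank_le_finrank_of_injective
      (f := LinearMap.codRestrict B (p.subtype ∘ₗ (ker (π.domRestrict p)).subtype) ?_) ?_
    · rintro ⟨⟨x, ⟨m, rfl⟩⟩, hx⟩
      exact hB m (by simpa using hx)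
    · intro a b hab
      apply hinj
      have := congrArg Subtype.val hab
      simpa using this
  rw [h1, ← h3, ← h2]
  gcongr

/-- the combination used for (MF) -/
theorem rank_le_mid (D : C →ₗ[k] C) (ι : M →ₗ[k] C) (π : C →ₗ[k] M') (A B : Submodule k C)
    (hA : ∀ x : C, ∃ m : M, x - ι m ∈ A) (hB : ∀ m : M, π (D (ι m)) = 0 → D (ι m) ∈ B) :
    finrank k (range D) ≤ finrank k (range (π ∘ₗ D ∘ₗ ι)) + finrank k A + finrank k B := by
  have h1 := rank_le_source D ι A hA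
  have h2 := rank_le_target (D ∘ₗ ι) π B hB
  omega

end rank

end Crest.Agent.R175.MFa_663
end

-- ▼ part R175/MFI_663
section

/-!
# The inequality (MF)

`h(X|, Y|) + ∑_{u ∉ range ι} (d_u lam'_u + lam_u d'_u) + ∑_{u,u' ∉ range ι} #E(u,u') d_u d'_{u'}
          ≤ h(X, Y) + 2 ∑_{u ∉ range ι} d_u d'_u`.
-/

set_option autoImplicit false
set_option linter.unusedSectionVars false
set_option linter.unusedVariables false

open CategoryTheory Module

namespace Crest.Agent.R175.MFI_663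

open Crest.Agent.R175.PTA Crest.Agent.R175.MFa_663 Crest.Agent.R175.ResI_663

universe v

variable {T : Type} {G : MG T} {k : Type v} [Field k] {T' : Type} (ι : T' → T)
variable [Fintype T] [Fintype T']

/-! ### the comparison map -/

/-- the part of `Hom(W', V')` on the new frames -/
noncomputable def pfi (X Y : FObj G k) (f : Cp X.X Y.X) (t : T) : NW ι X.X t →ₗ[k] Y.X.V t :=
  ∑ u : Out ι, ∑ a : G.E u.1 t, Cp.f1 f a ∘ₗ LinearMap.proj a ∘ₗ LinearMap.proj u

def pfj (X Y : FObj G k) (f : Cp X.X Y.X) (t : T) : X.X.V t →ₗ[k] NW ι Y.X t :=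
  LinearMap.pi fun _ => LinearMap.pi fun a => Cp.f1 f (G.rev a)

variable {ι}

theorem pfi_apply (X Y : FObj G k) (f : Cp X.X Y.X) (t : T) (x : NW ι X.X t) :
    pfi ι X Y f t x = ∑ u : Out ι, ∑ a : G.E u.1 t, Cp.f1 f a (x u a) := by
  simp [pfi]

theorem pfj_apply (X Y : FObj G k) (f : Cp X.X Y.X) (t : T) (x : X.X.V t) (u : Out ι)
    (a : G.E u.1 t) : pfj ι X Y f t x u a = Cp.f1 f (G.rev a) x := rfl

/-- the components of `Cp(X, Y)` seen by the restricted complex -/
noncomputable def pr (hι : Function.Injective ι) (X Y : FObj G k) : Cp X.X Y.X →ₗ[k] Cp (resF hι X).X (resF hι Y).X where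
  toFun f := Cp.mk (X := (resF hι X).X) (Y := (resF hι Y).X) (fun t => Cp.f0 f (ι t))
    (fun s t a => Cp.f1 f (s := ι s) (t := ι t) a)
    (fun t => LinearMap.coprod (Cp.fi f (ι t)) (pfi ι X Y f (ι t)))
    (fun t => LinearMap.prod (Cp.fj f (ι t)) (pfj ι X Y f (ι t)))
    (fun t => Cp.f2 f (ι t))
  map_add' f g := by
    apply Cp.ext'
    · intro t; rfl
    · intro s t a; rfl
    · intro t
      refine LinearMap.ext fun x => ?_
      change (Cp.fi f (ι t) + Cp.fi g (ι t)) x.1 + pfi ι X Y (f + g) (ι t) x.2 =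
        (Cp.fi f (ι t) x.1 + pfi ι X Y f (ι t) x.2) +
          (Cp.fi g (ι t) x.1 + pfi ι X Y g (ι t) x.2)
      simp only [pfi_apply, Cp.f1_add, LinearMap.add_apply, Finset.sum_add_distrib]
      abel
    · intro t; rfl
    · intro t; rfl
  map_smul' c f := by
    apply Cp.ext'
    · intro t; rfl
    · intro s t a; rfl
    · intro t
      refine LinearMap.ext fun x => ?_
      change (c • Cp.fi f (ι t)) x.1 + pfi ι X Y (c • f) (ι t) x.2 =
        c • (Cp.fi f (ι t) x.1 + pfi ι X Y f (ι t) x.2)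
      simp only [pfi_apply, Cp.f1_smul, LinearMap.smul_apply, smul_add, Finset.smul_sum]
    · intro t; rfl
    · intro t; rfl

variable (ι) in
/-- the subspace `f0 u = 0` for `u ∉ range ι` -/
def Nsub (X Y : FObj G k) : Submodule k (Cp X.X Y.X) where
  carrier := {f | ∀ u, u ∉ Set.range ι → Cp.f0 f u = 0}
  add_mem' := by
    intro f g hf hg u hu; rw [Cp.f0_add, hf u hu, hg u hu, add_zero]
  zero_mem' := by intro u hu; rfl
  smul_mem' := by intro c f hf u hu; rw [Cp.f0_smul, hf u hu, smul_zero]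

/-- the length 2 part, split along `ι` -/
theorem f2_aux (hι : Function.Injective ι) (X Y : FObj G k) (f : Cp X.X Y.X) (t : T) (x : X.X.V t) :
    Cp.f2 (FD X Y f) t x =
      Y.e t (Cp.f0 f t x) - Y.X.gV t (Cp.f0 f t (X.X.gV t (X.e t x)))
      + (∑ s : T', ∑ a : G.E t (ι s), Y.B (G.rev a) ∘ₗ Cp.f1 f a) x
      - (∑ s : T', ∑ a : G.E t (ι s),
          (Y.X.gV t ∘ₗ Cp.f1 f (G.rev a) ∘ₗ X.X.gV (ι s)) ∘ₗ X.B a) x
      + (Y.i t (Cp.fj f t x) + newI ι Y t (pfj ι X Y f t x))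
      - Y.X.gV t (Cp.fi f t (X.X.gW t (X.j t x)) +
          pfi ι X Y f t (newG ι X.X t (newJ ι X t x))) := by
  have h1 : newI ι Y t (pfj ι X Y f t x) =
      (∑ u : Out ι, ∑ a : G.E t u.1, Y.B (G.rev a) ∘ₗ Cp.f1 f a) x := by
    rw [newI_apply, LinearMap.sum_apply]
    refine Finset.sum_congr rfl fun u _ => ?_
    rw [LinearMap.sum_apply]
    refine (Fintype.sum_equiv (revE G t u.1) _ _ fun a => ?_).symm
    rw [pfj_apply]
    simp [revE]
  have h2 : Y.X.gV t (pfi ι X Y f t (newG ι X.X t (newJ ι X t x))) =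
      (∑ u : Out ι, ∑ a : G.E t u.1,
        (Y.X.gV t ∘ₗ Cp.f1 f (G.rev a) ∘ₗ X.X.gV u.1) ∘ₗ X.B a) x := by
    rw [pfi_apply, LinearMap.sum_apply, map_sum]
    refine Finset.sum_congr rfl fun u _ => ?_
    rw [LinearMap.sum_apply, map_sum]
    refine (Fintype.sum_equiv (revE G t u.1) _ _ fun a => ?_).symm
    rw [newG_apply, newJ_apply]
    simp [revE]
  rw [f2_FD, sum_split hι (fun s => ∑ a : G.E t s, Y.B (G.rev a) ∘ₗ Cp.f1 f a),
    sum_split hι (fun s => ∑ a : G.E t s,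
      (Y.X.gV t ∘ₗ Cp.f1 f (G.rev a) ∘ₗ X.X.gV s) ∘ₗ X.B a), map_add, h1, h2]
  simp only [LinearMap.add_apply, LinearMap.sub_apply, LinearMap.comp_apply]
  abel

/-- `pr` is a chain map on `Nsub` -/
theorem pr_FD (hι : Function.Injective ι) (X Y : FObj G k) (f : Cp X.X Y.X)
    (hf : f ∈ Nsub ι X Y) :
    pr hι X Y (FD X Y f) = FD (resF hι X) (resF hι Y) (pr hι X Y f) := by
  apply Cp.ext'
  · intro t
    rw [f0_FD]
    exact f0_FD X Y f (ι t)
  · intro s t a
    rw [f1_FD]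
    exact f1_FD X Y f (s := ι s) (t := ι t) a
  · intro t
    rw [fi_FD]
    refine LinearMap.ext fun x => ?_
    change Cp.fi (FD X Y f) (ι t) x.1 + pfi ι X Y (FD X Y f) (ι t) x.2 =
      -(Y.X.gV (ι t) (Cp.f0 f (ι t) (X.X.gV (ι t) (X.i (ι t) x.1 + newI ι X (ι t) x.2))))
    rw [fi_FD, pfi_apply, newI_apply]
    simp only [f1_FD, LinearMap.neg_apply, LinearMap.comp_apply, map_add, map_sum,
      LinearMap.sub_apply, Finset.sum_sub_distrib]
    have : ∀ (u : Out ι) (a : G.E u.1 (ι t)), Y.B a (Cp.f0 f u.1 (x.2 u a)) = 0 := by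
      intro u a
      rw [hf u.1 u.2, LinearMap.zero_apply, map_zero]
    simp only [this, Finset.sum_const_zero]
    abel
  · intro t
    rw [fj_FD]
    refine LinearMap.ext fun x => Prod.ext ?_ ?_
    · exact LinearMap.congr_fun (fj_FD X Y f (ι t)) x
    · funext u a
      change Cp.f1 (FD X Y f) (G.rev a) x = Y.B (G.rev a) (Cp.f0 f (ι t) x)
      rw [f1_FD, hf u.1 u.2]
      first | (simp; done) | (simp; rfl)
  · intro t
    rw [f2_FD]
    refine LinearMap.ext fun x => ?_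
    exact f2_aux hι X Y f (ι t) x

/-! ### the two subspaces -/

open Classical in
variable (ι) in
/-- extension by zero of a family given outside `range ι` -/
noncomputable def ext0 (X Y : Gob G k) : (∀ u : Out ι, X.V u.1 →ₗ[k] Y.V u.1) →ₗ[k]
    (∀ t, X.V t →ₗ[k] Y.V t) :=
  LinearMap.pi fun t => if h : t ∈ Set.range ι then 0 else LinearMap.proj (⟨t, h⟩ : Out ι)

theorem ext0_pos (X Y : Gob G k) (g : ∀ u : Out ι, X.V u.1 →ₗ[k] Y.V u.1) {t : T}
    (h : t ∈ Set.range ι) : ext0 ι X Y g t = 0 := by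
  rw [ext0, LinearMap.pi_apply, dif_pos h]; rfl

theorem ext0_neg (X Y : Gob G k) (g : ∀ u : Out ι, X.V u.1 →ₗ[k] Y.V u.1) {t : T}
    (h : t ∉ Set.range ι) : ext0 ι X Y g t = g ⟨t, h⟩ := by
  rw [ext0, LinearMap.pi_apply, dif_neg h]; rfl

variable (ι) in
/-- into the length 0 part -/
noncomputable def in0 (X Y : Gob G k) : (∀ u : Out ι, X.V u.1 →ₗ[k] Y.V u.1) →ₗ[k] Cp X Y :=
  LinearMap.inl k (∀ t, X.V t →ₗ[k] Y.V t) ((∀ s t, G.E s t → (X.V s →ₗ[k] Y.V t)) ×
  (∀ t, X.W t →ₗ[k] Y.V t) × (∀ t, X.V t →ₗ[k] Y.W t) × (∀ t, X.V t →ₗ[k] Y.V t)) ∘ₗ ext0 ι X Y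

variable (ι) in
/-- into the length 2 part -/
noncomputable def in2 (X Y : Gob G k) : (∀ u : Out ι, X.V u.1 →ₗ[k] Y.V u.1) →ₗ[k] Cp X Y :=
  LinearMap.inr k (∀ t, X.V t →ₗ[k] Y.V t) ((∀ s t, G.E s t → (X.V s →ₗ[k] Y.V t)) ×
  (∀ t, X.W t →ₗ[k] Y.V t) × (∀ t, X.V t →ₗ[k] Y.W t) × (∀ t, X.V t →ₗ[k] Y.V t)) ∘ₗ
  LinearMap.inr k (∀ s t, G.E s t → (X.V s →ₗ[k] Y.V t)) (
  (∀ t, X.W t →ₗ[k] Y.V t) × (∀ t, X.V t →ₗ[k] Y.W t) × (∀ t, X.V t →ₗ[k] Y.V t)) ∘ₗ
  LinearMap.inr k (∀ t, X.W t →ₗ[k] Y.V t) ((∀ t, X.V t →ₗ[k] Y.W t) ×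
    (∀ t, X.V t →ₗ[k] Y.V t)) ∘ₗ
  LinearMap.inr k (∀ t, X.V t →ₗ[k] Y.W t) (∀ t, X.V t →ₗ[k] Y.V t) ∘ₗ ext0 ι X Y

theorem in0_eq (X Y : Gob G k) (g : ∀ u : Out ι, X.V u.1 →ₗ[k] Y.V u.1) :
    in0 ι X Y g = Cp.mk (ext0 ι X Y g) 0 0 0 0 := rfl

theorem in2_eq (X Y : Gob G k) (g : ∀ u : Out ι, X.V u.1 →ₗ[k] Y.V u.1) :
    in2 ι X Y g = Cp.mk 0 0 0 0 (ext0 ι X Y g) := rfl

theorem finrank_ext (X Y : Gob G k) :
    finrank k (∀ u : Out ι, X.V u.1 →ₗ[k] Y.V u.1) =
      ∑ u : Out ι, finrank k (X.V u.1) * finrank k (Y.V u.1) := by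
  rw [Module.finrank_pi_fintype]
  simp [Module.finrank_linearMap]

theorem f1_of_pfi {X Y : FObj G k} {f : Cp X.X Y.X} {t : T} (h : pfi ι X Y f t = 0)
    (u : Out ι) (a : G.E u.1 t) : Cp.f1 f a = 0 := by
  classical
  refine LinearMap.ext fun x => ?_
  have h1 := LinearMap.congr_fun h (Pi.single u (Pi.single a x))
  rw [pfi_apply, Finset.sum_eq_single u, Finset.sum_eq_single a] at h1
  · simpa using h1
  · intro b _ hb
    simp [hb]
  · simp
  · intro u' _ hu
    refine Finset.sum_eq_zero fun b _ => ?_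
    rw [Pi.single_eq_of_ne hu]
    simp
  · simp

theorem f1_of_pfj {X Y : FObj G k} {f : Cp X.X Y.X} {t : T} (h : pfj ι X Y f t = 0)
    (u : Out ι) (a : G.E t u.1) : Cp.f1 f a = 0 := by
  refine LinearMap.ext fun x => ?_
  have h1 := congrFun (congrFun (LinearMap.congr_fun h x) u) (G.rev a)
  rw [pfj_apply] at h1
  simpa using h1

/-- the rank estimate -/
theorem rank_FD_le (hι : Function.Injective ι) (X Y : FObj G k) :
    finrank k (LinearMap.range (FD X Y)) ≤
      finrank k (LinearMap.range (FD (resF hι X) (resF hι Y))) +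
        2 * ∑ u : Out ι, finrank k (X.X.V u.1) * finrank k (Y.X.V u.1) := by
  classical
  have h := rank_le_mid (FD X Y) (Nsub ι X Y).subtype (pr hι X Y)
    (LinearMap.range (in0 ι X.X Y.X)) (LinearMap.range (in2 ι X.X Y.X)) ?_ ?_
  · have h1 : finrank k (LinearMap.range (in0 ι X.X Y.X)) ≤ _ := LinearMap.finrank_range_le _
    have h2 : finrank k (LinearMap.range (in2 ι X.X Y.X)) ≤ _ := LinearMap.finrank_range_le _
    rw [finrank_ext] at h1 h2
    have h3 : finrank k (LinearMap.range (pr hι X Y ∘ₗ FD X Y ∘ₗ (Nsub ι X Y).subtype)) ≤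
        finrank k (LinearMap.range (FD (resF hι X) (resF hι Y))) := by
      apply Submodule.finrank_mono
      rintro _ ⟨m, rfl⟩
      exact ⟨pr hι X Y m.1, (pr_FD hι X Y m.1 m.2).symm⟩
    omega
  · intro x
    have hm : Cp.mk (fun t => if t ∈ Set.range ι then Cp.f0 x t else 0) (fun _ _ a => Cp.f1 x a)
        (Cp.fi x) (Cp.fj x) (Cp.f2 x) ∈ Nsub ι X Y := by
      intro u hu
      rw [Cp.f0_mk, if_neg hu]
    refine ⟨⟨_, hm⟩, fun u => Cp.f0 x u.1, ?_⟩
    rw [in0_eq, eq_sub_iff_add_eq]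
    change _ + Cp.mk (fun t => if t ∈ Set.range ι then Cp.f0 x t else 0)
      (fun _ _ a => Cp.f1 x a) (Cp.fi x) (Cp.fj x) (Cp.f2 x) = _
    apply Cp.ext'
    · intro t
      by_cases ht : t ∈ Set.range ι
      · rw [Cp.f0_add, Cp.f0_mk, Cp.f0_mk, ext0_pos _ _ _ ht, if_pos ht, zero_add]
      · rw [Cp.f0_add, Cp.f0_mk, Cp.f0_mk, ext0_neg _ _ _ ht, if_neg ht, add_zero]
    · intro s t a; simp
    · intro t; simp
    · intro t; simp
    · intro t; simp
  · rintro ⟨m, hm⟩ h0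
    change pr hι X Y (FD X Y m) = 0 at h0
    refine ⟨fun u => Cp.f2 (FD X Y m) u.1, ?_⟩
    rw [in2_eq]
    change _ = FD X Y m
    apply Cp.ext'
    · intro t; rw [f0_FD]; rfl
    · intro s t a
      rw [Cp.f1_mk]
      change 0 = Cp.f1 (FD X Y m) a
      symm
      by_cases hs : s ∈ Set.range ι
      · obtain ⟨s', rfl⟩ := hs
        by_cases ht : t ∈ Set.range ι
        · obtain ⟨t', rfl⟩ := ht
          exact congrArg (fun g => Cp.f1 g (s := s') (t := t') a) h0
        · have h1 : LinearMap.prod (Cp.fj (FD X Y m) (ι s')) (pfj ι X Y (FD X Y m) (ι s')) = 0 :=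
            congrArg (fun g => Cp.fj g s') h0
          refine f1_of_pfj (t := ι s') ?_ ⟨t, ht⟩ a
          refine LinearMap.ext fun x => ?_
          exact congrArg Prod.snd (LinearMap.congr_fun h1 x)
      · by_cases ht : t ∈ Set.range ι
        · obtain ⟨t', rfl⟩ := ht
          have h1 : LinearMap.coprod (Cp.fi (FD X Y m) (ι t')) (pfi ι X Y (FD X Y m) (ι t')) = 0 :=
            congrArg (fun g => Cp.fi g t') h0
          refine f1_of_pfi (t := ι t') ?_ ⟨s, hs⟩ a
          refine LinearMap.ext fun x => ?_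
          simpa using LinearMap.congr_fun h1 (0, x)
        · rw [f1_FD, hm s hs, hm t ht]
          simp
    · intro t
      rw [Cp.fi_mk]
      change 0 = Cp.fi (FD X Y m) t
      symm
      by_cases ht : t ∈ Set.range ι
      · obtain ⟨t', rfl⟩ := ht
        have h1 : LinearMap.coprod (Cp.fi (FD X Y m) (ι t')) (pfi ι X Y (FD X Y m) (ι t')) = 0 :=
            congrArg (fun g => Cp.fi g t') h0
        refine LinearMap.ext fun x => ?_
        simpa using LinearMap.congr_fun h1 (x, 0)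
      · rw [fi_FD, hm t ht]
        simp
    · intro t
      rw [Cp.fj_mk]
      change 0 = Cp.fj (FD X Y m) t
      symm
      by_cases ht : t ∈ Set.range ι
      · obtain ⟨t', rfl⟩ := ht
        have h1 : LinearMap.prod (Cp.fj (FD X Y m) (ι t')) (pfj ι X Y (FD X Y m) (ι t')) = 0 :=
            congrArg (fun g => Cp.fj g t') h0
        refine LinearMap.ext fun x => ?_
        exact congrArg Prod.fst (LinearMap.congr_fun h1 x)
      · rw [fj_FD, hm t ht]
        simp
    · intro t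
      rw [Cp.f2_mk]
      by_cases ht : t ∈ Set.range ι
      · rw [ext0_pos _ _ _ ht]
        obtain ⟨t', rfl⟩ := ht
        exact (congrArg (fun g => Cp.f2 g t') h0).symm
      · rw [ext0_neg _ _ _ ht]

/-! ### dimensions -/

theorem finrank_Cp {T : Type} {G : MG T} [Fintype T] (X Y : Gob G k) :
    finrank k (Cp X Y) = 2 * (∑ t, finrank k (X.V t) * finrank k (Y.V t)) +
      (∑ s, ∑ t, Fintype.card (G.E s t) * (finrank k (X.V s) * finrank k (Y.V t))) +
      (∑ t, finrank k (X.W t) * finrank k (Y.V t)) +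
      (∑ t, finrank k (X.V t) * finrank k (Y.W t)) := by
  have h : finrank k (Cp X Y) = finrank k ((∀ t, X.V t →ₗ[k] Y.V t) ×
    (∀ s t, G.E s t → (X.V s →ₗ[k] Y.V t)) ×
    (∀ t, X.W t →ₗ[k] Y.V t) × (∀ t, X.V t →ₗ[k] Y.W t) × (∀ t, X.V t →ₗ[k] Y.V t)) := rfl
  rw [h]
  simp only [Module.finrank_prod, Module.finrank_pi_fintype, Module.finrank_linearMap,
    Finset.sum_const, Finset.card_univ, smul_eq_mul]
  ring

theorem card_rev (G : MG T) (s t : T) : Fintype.card (G.E s t) = Fintype.card (G.E t s) :=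
  Fintype.card_congr (revE G s t)

theorem dim_aux (hι : Function.Injective ι) (c : T → T → ℕ) (hc : ∀ s t, c s t = c t s)
    (d d' l l' : T → ℕ) :
    (2 * (∑ t, d t * d' t) + (∑ s, ∑ t, c s t * (d s * d' t)) + (∑ t, l t * d' t) +
      (∑ t, d t * l' t)) =
    (2 * (∑ t : T', d (ι t) * d' (ι t)) +
      (∑ s : T', ∑ t : T', c (ι s) (ι t) * (d (ι s) * d' (ι t))) +
      (∑ t : T', (l (ι t) + ∑ u : Out ι, c u (ι t) * d u) * d' (ι t)) +
      (∑ t : T', d (ι t) * (l' (ι t) + ∑ u : Out ι, c u (ι t) * d' u))) +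
    (2 * (∑ u : Out ι, d u * d' u) + (∑ u : Out ι, (d u * l' u + l u * d' u)) +
      ∑ u : Out ι, ∑ u' : Out ι, c u u' * (d u * d' u')) := by
  have e1 : ∑ s : T', ∑ u : Out ι, c (ι s) u * (d (ι s) * d' u) =
      ∑ t : T', d (ι t) * (∑ u : Out ι, c u (ι t) * d' u) := by
    refine Finset.sum_congr rfl fun s _ => ?_
    rw [Finset.mul_sum]
    refine Finset.sum_congr rfl fun u _ => ?_
    rw [hc (ι s) u]; ring
  have e2 : ∑ u : Out ι, ∑ s : T', c u (ι s) * (d u * d' (ι s)) =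
      ∑ t : T', (∑ u : Out ι, c u (ι t) * d u) * d' (ι t) := by
    rw [Finset.sum_comm]
    refine Finset.sum_congr rfl fun s _ => ?_
    rw [Finset.sum_mul]
    refine Finset.sum_congr rfl fun u _ => ?_
    ring
  rw [sum_split hι (fun t => d t * d' t), sum_split hι (fun t => l t * d' t),
    sum_split hι (fun t => d t * l' t),
    sum_split hι (fun s => ∑ t, c s t * (d s * d' t))]
  simp only [sum_split hι (fun t => c _ t * (d _ * d' t)), Finset.sum_add_distrib, add_mul,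
    mul_add, e1, e2]
  ring

/-- **(MF)** -/
theorem MF (hι : Function.Injective ι) (X Y : FObj G k) :
    hT (resF hι X).toTOb (resF hι Y).toTOb +
      (∑ u : Out ι, (finrank k (X.X.V u.1) * lam Y.toTOb u.1 +
        lam X.toTOb u.1 * finrank k (Y.X.V u.1))) +
      (∑ u : Out ι, ∑ u' : Out ι, Fintype.card (G.E u.1 u'.1) *
        (finrank k (X.X.V u.1) * finrank k (Y.X.V u'.1))) ≤
    hT X.toTOb Y.toTOb +
      2 * ∑ u : Out ι, finrank k (X.X.V u.1) * finrank k (Y.X.V u.1) := by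
  rw [hT_eq_FD, hT_eq_FD]
  have h1 := hd_add_two_range (D := FD X Y) (FD_FD X Y)
  have h2 := hd_add_two_range (D := FD (resF hι X) (resF hι Y)) (FD_FD _ _)
  have h3 := rank_FD_le hι X Y
  have h4 := finrank_Cp X.X Y.X
  have h5 := finrank_Cp (resF hι X).X (resF hι Y).X
  have h6 := dim_aux hι (fun s t => Fintype.card (G.E s t)) (card_rev G)
    (fun t => finrank k (X.X.V t)) (fun t => finrank k (Y.X.V t))
    (fun t => finrank k (X.X.W t)) (fun t => finrank k (Y.X.W t))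
  have h7 : finrank k (Cp (resF hι X).X (resF hι Y).X) =
    (2 * (∑ t : T', finrank k (X.X.V (ι t)) * finrank k (Y.X.V (ι t))) +
      (∑ s : T', ∑ t : T', Fintype.card (G.E (ι s) (ι t)) *
        (finrank k (X.X.V (ι s)) * finrank k (Y.X.V (ι t)))) +
      (∑ t : T', (finrank k (X.X.W (ι t)) +
        ∑ u : Out ι, Fintype.card (G.E u.1 (ι t)) * finrank k (X.X.V u.1)) *
          finrank k (Y.X.V (ι t))) +
      (∑ t : T', finrank k (X.X.V (ι t)) * (finrank k (Y.X.W (ι t)) +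
        ∑ u : Out ι, Fintype.card (G.E u.1 (ι t)) * finrank k (Y.X.V u.1)))) := by
    rw [h5]
    have hl := fun t => lam_resF hι X t
    have hl' := fun t => lam_resF hι Y t
    simp only [lam] at hl hl'
    simp only [hl, hl']
    rfl
  simp only [lam]
  omega

end Crest.Agent.R175.MFI_663
end

-- ▼ part R175/ResC_774
section

/-!
# Restriction on classes (row 175, helper774)

`rC hι : Cls G k →+ Cls (comap G ι) k`, `⟦X⟧ ↦ ⟦resT hι X h⟧` for every `X` with `Ok ι X`
(every class has such a representative, by the minimal model PTM_450).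

* `rC_mk`, `rC_F`, `rC_fr`, `rC_fr_out`, `hC_fr_rC`, `hC_rC_fr`, `lamC_rC`;
* `rC_rC` : transitivity;  `hC_rC_congr` : only the range of `ι` matters;
* `MF_C` : `h(Res x, Res y) + ∑_u (d_u x · lam_u y + lam_u x · d_u y) + ∑_{u,u'} card E(u,u') d_u x d_{u'} y
  ≤ h(x, y) + 2 ∑_u d_u x d_u y`.
-/

set_option autoImplicit false
set_option linter.unusedSectionVars false
set_option linter.unusedVariables false
set_option linter.unusedSimpArgs false

open CategoryTheory

namespace Crest.Agent.R175.ResC_774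

open Crest.Agent.R175.PTA Crest.Agent.R175.ResI_663 Crest.Agent.R175.Res_428
open Crest.Agent.R175.ResB_988 Crest.Agent.R175.Cls_133

universe v

section basic

variable {T T' : Type} {G : MG T} {k : Type v} [Field k] [NeZero (2 : k)] [Fintype T] [Fintype T']

/-- every class has a minimal representative -/
theorem exists_rep (x : Cls G k) : ∃ F : FObj G k, (⟦F.toTOb⟧ : Cls G k) = x := by
  induction x using Quotient.inductionOn with
  | h X =>
    obtain ⟨F, hF⟩ := exists_min (NeZero.ne (2 : k)) X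
    exact ⟨F, (Quotient.sound hF : (⟦X⟧ : Cls G k) = ⟦F.toTOb⟧).symm⟩

variable {ι : T' → T} (hι : Function.Injective ι)

/-- every class has a representative minimal outside of the image -/
theorem exists_ok (x : Cls G k) : ∃ X : TOb G k, Ok ι X ∧ (⟦X⟧ : Cls G k) = x := by
  obtain ⟨F, hF⟩ := exists_rep x
  exact ⟨F.toTOb, ok_F F, hF⟩

/-- the underlying function -/
noncomputable def rC0 (x : Cls G k) : Cls (comap G ι) k :=
  ⟦resT hι (exists_ok (ι := ι) x).choose (exists_ok (ι := ι) x).choose_spec.1⟧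

theorem rC0_mk (X : TOb G k) (h : Ok ι X) : rC0 hι (⟦X⟧ : Cls G k) = ⟦resT hι X h⟧ := by
  have h1 := (exists_ok (ι := ι) (⟦X⟧ : Cls G k)).choose_spec
  exact Quotient.sound (resHIso hι h1.1 h (Quotient.exact h1.2))

/-- **restriction on classes** -/
noncomputable def rC : Cls G k →+ Cls (comap G ι) k where
  toFun := rC0 hι
  map_zero' := by
    have h : (0 : Cls G k) = ⟦free G k 0 0⟧ := rfl
    rw [h, rC0_mk hι _ (ok_free 0 0)]
    refine Quotient.sound ?_
    exact res_free hι 0 0 0 0 (fun _ => rfl) fun t => by simp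
  map_add' x y := by
    obtain ⟨X, hX, rfl⟩ := exists_ok (ι := ι) x
    obtain ⟨Y, hY, rfl⟩ := exists_ok (ι := ι) y
    rw [mk_add, rC0_mk hι _ (ok_dsum X Y hX hY), rC0_mk hι _ hX, rC0_mk hι _ hY, mk_add]
    exact Quotient.sound (res_dsum hι X Y hX hY (ok_dsum X Y hX hY))

theorem rC_mk (X : TOb G k) (h : Ok ι X) : rC hι (⟦X⟧ : Cls G k) = ⟦resT hι X h⟧ :=
  rC0_mk hι X h

theorem rC_F (F : FObj G k) : rC hι (⟦F.toTOb⟧ : Cls G k) = ⟦(resF hι F).toTOb⟧ := by
  rw [rC_mk hι _ (ok_F F), resT_toTOb]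


end basic

section fr

variable {T T' : Type} {G : MG T} {k : Type v} [Field k] [NeZero (2 : k)] [Fintype T] [Fintype T']
  [DecidableEq T] [DecidableEq T'] {ι : T' → T} (hι : Function.Injective ι)

/-- `Res (frm (ι t)) = frm t` -/
theorem rC_fr (t : T') : rC hι (frC G k (ι t)) = frC (comap G ι) k t := by
  rw [frC_def, rC_mk hι _ (ok_frm _)]
  exact Quotient.sound (res_frm hι t)


/-- `d_t (Res x) = d_(ι t) x` -/
theorem hC_fr_rC (x : Cls G k) (t : T') :
    hC (frC (comap G ι) k t) (rC hι x) = hC (frC G k (ι t)) x := by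
  obtain ⟨X, hX, rfl⟩ := exists_ok (ι := ι) x
  rw [rC_mk hι _ hX]
  exact hT_frm_resT hι X hX t


/-- `lam_t (Res x) = lam_(ι t) x + ∑_u card E(u, ι t) d_u x` -/
theorem lamC_rC (x : Cls G k) (t : T') :
    lamC (rC hι x) t = lamC x (ι t) +
      ∑ u : Out ι, Fintype.card (G.E u.1 (ι t)) * hC (frC G k u.1) x := by
  obtain ⟨X, hX, rfl⟩ := exists_ok (ι := ι) x
  rw [rC_mk hι _ hX, lamC_mk, lamC_mk, lam_resT' hι X hX t]
  congr 1
  refine Finset.sum_congr rfl fun u _ => ?_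
  rw [hC_fr_left]

end fr

section trans

variable {T T' T'' : Type} {G : MG T} {k : Type v} [Field k] [NeZero (2 : k)] [Fintype T]
  [Fintype T'] [Fintype T''] {ι : T' → T} {κ : T'' → T'}


end trans

section congr

variable {T T₁ T₂ : Type} {G : MG T} {k : Type v} [Field k] [NeZero (2 : k)] [Fintype T]
  [Fintype T₁] [Fintype T₂] {ι₁ : T₁ → T} {ι₂ : T₂ → T}



end congr

section mf

variable {T T' : Type} {G : MG T} {k : Type v} [Field k] [NeZero (2 : k)] [Fintype T] [Fintype T']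
  [DecidableEq T] [DecidableEq T'] {ι : T' → T} (hι : Function.Injective ι)


end mf

section mf2

variable {T T' T'' : Type} {G : MG T} {k : Type v} [Field k] [NeZero (2 : k)] [Fintype T]
  [Fintype T'] [Fintype T''] [DecidableEq T] [DecidableEq T'] [DecidableEq T'']
  {ι : T' → T} {κ : T'' → T'}


end mf2

end Crest.Agent.R175.ResC_774
end

-- ▼ part R175/FmRes_663
section

/-!
# Matrix functors and restriction (row 175)

For `ι : T' → T` injective whose image is `N`-stable: `Φ.res`, the same functor on the smaller graph,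
and the natural isomorphism `Res (Φ X) ≅ Φ.res (Res X)` (`theta`).
-/

set_option autoImplicit false
set_option linter.unusedSectionVars false
set_option linter.unusedVariables false
set_option linter.unusedSimpArgs false

open CategoryTheory
open scoped Classical

namespace Crest.Agent.R175.FmRes_663

open Crest.Agent.R175.PTA Crest.Agent.R175.ResI_663 Crest.Agent.R175.Res_428
  Crest.Agent.R175.Fm_27

universe v

variable {T T' : Type} {G : MG T} {k : Type v} [Field k] [Fintype T] [Fintype T'] {ι : T' → T}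

theorem sum_in {M : Type*} [AddCommMonoid M] (hι : Function.Injective ι) (F : T → M)
    (h : ∀ u : Out ι, F u.1 = 0) : ∑ t, F t = ∑ t : T', F (ι t) := by
  rw [sum_split hι F, Finset.sum_eq_zero fun u _ => h u, add_zero]

/-- stability of the image of `ι` -/
def Stab (Φ : FDat G k) (ι : T' → T) : Prop :=
  ∀ a b : T, Φ.N a b → a ∈ Set.range ι → b ∈ Set.range ι

theorem Stab.out {Φ : FDat G k} (h : Stab Φ ι) {a b : T} (hab : Φ.N a b)
    (ha : a ∉ Set.range ι) : b ∉ Set.range ι := fun hb => ha (h _ _ (Φ.symm hab) hb)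

/-- the restricted data -/
def resD (Φ : FDat G k) (hι : Function.Injective ι) (hs : Stab Φ ι) : FDat (comap G ι) k where
  N s t := Φ.N (ι s) (ι t)
  symm h := Φ.symm h
  r t := Φ.r (ι t)
  r_ne t := Φ.r_ne _
  chi {a b a' b'} e e' := Φ.chi (a := ι a) (b := ι b) (a' := ι a') (b' := ι b') e e'
  back {a b a'} e f h := by
    have h1 := Φ.back (a := ι a) (b := ι b) (a' := ι a') e f h
    rw [sum_in hι] at h1
    · exact h1
    · intro u
      refine Finset.sum_eq_zero fun e' _ => if_neg fun hn => ?_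
      exact u.2 (hs _ _ hn ⟨b, rfl⟩)
  back0 {a a₂ b a'} e f h h2 hne := by
    have h1 := Φ.back0 (a := ι a) (a₂ := ι a₂) (b := ι b) (a' := ι a') e f h h2
      (fun h => hne (hι h))
    rw [sum_in hι] at h1
    · exact h1
    · intro u
      refine Finset.sum_eq_zero fun e' _ => if_neg fun hn => ?_
      exact u.2 (hs _ _ hn ⟨b, rfl⟩)


theorem swap4 {A C M : Type*} [AddCommMonoid M] [Fintype A] [Fintype C] {B : A → Type*}
    {D : C → Type*} [∀ a, Fintype (B a)] [∀ c, Fintype (D c)]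
    (F : ∀ a, B a → ∀ c, D c → M) :
    ∑ a, ∑ b, ∑ c, ∑ d, F a b c d = ∑ c, ∑ d, ∑ a, ∑ b, F a b c d := by
  calc ∑ a, ∑ b, ∑ c, ∑ d, F a b c d = ∑ a, ∑ c, ∑ b, ∑ d, F a b c d :=
        Finset.sum_congr rfl fun a _ => Finset.sum_comm
    _ = ∑ c, ∑ a, ∑ b, ∑ d, F a b c d := Finset.sum_comm
    _ = ∑ c, ∑ a, ∑ d, ∑ b, F a b c d :=
        Finset.sum_congr rfl fun c _ => Finset.sum_congr rfl fun a _ => Finset.sum_comm
    _ = ∑ c, ∑ d, ∑ a, ∑ b, F a b c d := Finset.sum_congr rfl fun c _ => Finset.sum_comm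

/-! ### the matrix of `chi` -/

/-- the backtracking relation in the form of a matrix identity -/
theorem backR (Φ : FDat G k) {t u : T} (p q : Σ a : Φ.Nb t, G.E u a.1) :
    (∑ u' : Φ.Nb u, ∑ e' : G.E u'.1 t, Φ.chi p.2 e' * Φ.chi (G.rev q.2) (G.rev e'))
      = if q = p then (Φ.r t / Φ.r p.1.1) ^ 2 else 0 := by
  have h0 : (∑ u' : Φ.Nb u, ∑ e' : G.E u'.1 t, Φ.chi p.2 e' * Φ.chi (G.rev q.2) (G.rev e'))
      = ∑ u', ∑ e' : G.E t u', if Φ.N u u' then Φ.chi (G.rev q.2) e' * Φ.chi p.2 (G.rev e')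
        else 0 := by
    rw [Φ.sum_Nb u (fun u' => ∑ e' : G.E u' t, Φ.chi p.2 e' * Φ.chi (G.rev q.2) (G.rev e'))]
    refine Finset.sum_congr rfl fun u' _ => ?_
    have hsym : Φ.N u' u ↔ Φ.N u u' := ⟨Φ.symm, Φ.symm⟩
    rw [← sum_rev (G := G) (fun e' : G.E u' t =>
      Φ.chi p.2 e' * Φ.chi (G.rev q.2) (G.rev e'))]
    by_cases h : Φ.N u u'
    · rw [if_pos (hsym.2 h)]
      refine Finset.sum_congr rfl fun e' _ => ?_
      rw [if_pos h, G.rev_rev, mul_comm]
    · rw [if_neg (fun h' => h (hsym.1 h'))]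
      simp [h]
  rw [h0]
  obtain ⟨a, e⟩ := p
  obtain ⟨a₂, f⟩ := q
  by_cases ha : a₂ = a
  · subst ha
    rw [Φ.back (G.rev f) e a₂.2]
    by_cases hf : f = e
    · subst hf
      simp
    · rw [if_neg, if_neg]
      · intro h
        simp only [Sigma.mk.injEq, heq_eq_eq, true_and] at h
        exact hf h
      · intro h
        rw [G.rev_rev] at h
        exact hf h.symm
  · rw [Φ.back0 (G.rev f) e a₂.2 a.2 (fun h => ha (Subtype.ext h)), if_neg]
    intro h
    exact ha (congrArg Sigma.fst h)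

theorem card_le (Φ : FDat G k) (t u : T) :
    Fintype.card (Σ a : Φ.Nb t, G.E u a.1) ≤ Fintype.card (Σ u' : Φ.Nb u, G.E u'.1 t) := by
  have hs : Function.Surjective (Matrix.toLin' (Matrix.of
      fun (p : Σ a : Φ.Nb t, G.E u a.1) (c : Σ u' : Φ.Nb u, G.E u'.1 t) => Φ.chi p.2 c.2)) := by
    intro y
    refine ⟨fun c => ∑ q : (Σ a : Φ.Nb t, G.E u a.1),
      ((Φ.r t / Φ.r q.1.1) ^ 2)⁻¹ * Φ.chi (G.rev q.2) (G.rev c.2) * y q, ?_⟩
    funext p
    rw [Matrix.toLin'_apply, Matrix.mulVec, dotProduct]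
    simp only [Matrix.of_apply, Finset.mul_sum]
    rw [Finset.sum_comm]
    have h1 : ∀ q : (Σ a : Φ.Nb t, G.E u a.1),
        (∑ c : (Σ u' : Φ.Nb u, G.E u'.1 t), Φ.chi p.2 c.2 *
          (((Φ.r t / Φ.r q.1.1) ^ 2)⁻¹ * Φ.chi (G.rev q.2) (G.rev c.2) * y q)) =
        ((Φ.r t / Φ.r q.1.1) ^ 2)⁻¹ * y q *
          (if q = p then (Φ.r t / Φ.r p.1.1) ^ 2 else 0) := by
      intro q
      rw [← backR Φ p q, Finset.mul_sum, Fintype.sum_sigma]
      refine Finset.sum_congr rfl fun u' _ => ?_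
      rw [Finset.mul_sum]
      refine Finset.sum_congr rfl fun e' _ => ?_
      ring
    rw [Finset.sum_congr rfl fun q _ => h1 q, Finset.sum_eq_single p]
    · rw [if_pos rfl]
      have := pow_ne_zero 2 (div_ne_zero (Φ.r_ne t) (Φ.r_ne p.1.1))
      rw [mul_comm, ← mul_assoc, mul_inv_cancel₀ this, one_mul]
    · intro q _ hq
      rw [if_neg hq, mul_zero]
    · simp
  have h := LinearMap.finrank_le_finrank_of_surjective hs
  simpa using h

theorem card_eq (Φ : FDat G k) (t u : T) :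
    Fintype.card (Σ a : Φ.Nb t, G.E u a.1) = Fintype.card (Σ u' : Φ.Nb u, G.E u'.1 t) := by
  refine le_antisymm (card_le Φ t u) ?_
  have e1 : Fintype.card (Σ u' : Φ.Nb u, G.E u'.1 t) = Fintype.card (Σ a : Φ.Nb u, G.E t a.1) :=
    Fintype.card_congr (Equiv.sigmaCongrRight fun u' => revE G u'.1 t)
  have e2 : Fintype.card (Σ u' : Φ.Nb t, G.E u'.1 u) = Fintype.card (Σ a : Φ.Nb t, G.E u a.1) :=
    Fintype.card_congr (Equiv.sigmaCongrRight fun u' => revE G u'.1 u)
  rw [e1, ← e2]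
  exact card_le Φ u t

/-! ### the natural isomorphism -/

section theta

variable (Φ : FDat G k) (hι : Function.Injective ι) (hs : Stab Φ ι)

theorem ρ_ne (a b : T) : Φ.ρ a b ≠ 0 := div_ne_zero (Φ.r_ne b) (Φ.r_ne a)

/-- source of the base change -/
abbrev SA (X : Gob G k) (t : T') : Type v :=
  ∀ (u' : Out ι) (_ : G.E u'.1 (ι t)), ∀ b : Φ.Nb u'.1, X.V b.1

/-- target of the base change -/
abbrev SB (X : Gob G k) (t : T') : Type v :=
  ∀ (a : (resD Φ hι hs).Nb t) (u : Out ι) (_ : G.E u.1 (ι a.1)), X.V u.1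

/-- base change of the new frames -/
noncomputable def thN (X : Gob G k) (t : T') : SA (ι := ι) Φ X t →ₗ[k] SB Φ hι hs X t where
  toFun z a u e := (Φ.ρ (ι a.1) (ι t))⁻¹ • ∑ u' : Φ.Nb u.1, ∑ e' : G.E u'.1 (ι t),
    Φ.chi e e' • z ⟨u'.1, hs.out (Φ.symm u'.2) u.2⟩ e' ⟨u.1, Φ.symm u'.2⟩
  map_add' z z' := by
    funext a u e
    simp only [Pi.add_apply, smul_add, Finset.sum_add_distrib]
  map_smul' c z := by
    funext a u e
    simp only [Pi.smul_apply, Finset.smul_sum, RingHom.id_apply, smul_smul]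
    refine Finset.sum_congr rfl fun _ _ => Finset.sum_congr rfl fun _ _ => ?_
    congr 1
    ring

theorem thN_apply (X : Gob G k) (t : T') (z : SA (ι := ι) Φ X t) (a : (resD Φ hι hs).Nb t)
    (u : Out ι) (e : G.E u.1 (ι a.1)) :
    thN Φ hι hs X t z a u e = (Φ.ρ (ι a.1) (ι t))⁻¹ • ∑ u' : Φ.Nb u.1, ∑ e' : G.E u'.1 (ι t),
    Φ.chi e e' • z ⟨u'.1, hs.out (Φ.symm u'.2) u.2⟩ e' ⟨u.1, Φ.symm u'.2⟩ := rfl

/-- neighbours in the restricted graph -/
noncomputable def nbE (t : T') : (resD Φ hι hs).Nb t ≃ Φ.Nb (ι t) :=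
  Equiv.ofBijective (fun a => ⟨ι a.1, a.2⟩) ⟨fun a b h => Subtype.ext (hι (congrArg Subtype.val h)),
    fun b => by
      obtain ⟨b, hb⟩ := b
      obtain ⟨b', rfl⟩ := hs _ _ (Φ.symm hb) ⟨t, rfl⟩
      exact ⟨⟨b', hb⟩, rfl⟩⟩

theorem sum_nb {M : Type*} [AddCommMonoid M] (t : T') (F : Φ.Nb (ι t) → M) :
    ∑ a, F a = ∑ a : (resD Φ hι hs).Nb t, F ⟨ι a.1, a.2⟩ :=
  (Fintype.sum_equiv (nbE Φ hι hs t) _ _ fun a => rfl).symm

theorem thN_surj (X : Gob G k) (t : T') : Function.Surjective (thN Φ hι hs X t) := by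
  intro y
  refine ⟨fun u' e' b => ∑ a : (resD Φ hι hs).Nb t, ∑ f : G.E b.1 (ι a.1),
    ((Φ.ρ (ι a.1) (ι t))⁻¹ * Φ.chi (G.rev f) (G.rev e')) •
      y a ⟨b.1, hs.out (Φ.symm b.2) u'.2⟩ f, ?_⟩
  funext a u e
  rw [thN_apply]
  have h1 : (∑ u' : Φ.Nb u.1, ∑ e' : G.E u'.1 (ι t), Φ.chi e e' •
      ∑ a₂ : (resD Φ hι hs).Nb t, ∑ f : G.E u.1 (ι a₂.1),
        ((Φ.ρ (ι a₂.1) (ι t))⁻¹ * Φ.chi (G.rev f) (G.rev e')) • y a₂ u f)
      = ∑ q : (Σ a₂ : (resD Φ hι hs).Nb t, G.E u.1 (ι a₂.1)),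
        ((Φ.ρ (ι q.1.1) (ι t))⁻¹ * (∑ u' : Φ.Nb u.1, ∑ e' : G.E u'.1 (ι t),
          Φ.chi e e' * Φ.chi (G.rev q.2) (G.rev e'))) • y q.1 u q.2 := by
    simp only [Finset.smul_sum, smul_smul, Finset.mul_sum, Finset.sum_smul, Fintype.sum_sigma]
    rw [swap4]
    refine Finset.sum_congr rfl fun _ _ => Finset.sum_congr rfl fun _ _ =>
      Finset.sum_congr rfl fun _ _ => Finset.sum_congr rfl fun _ _ => ?_
    congr 1
    ring
  rw [h1, Finset.sum_eq_single (⟨a, e⟩ : Σ a₂ : (resD Φ hι hs).Nb t, G.E u.1 (ι a₂.1))]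
  · have h2 := backR Φ (t := ι t) (u := u.1) ⟨⟨ι a.1, a.2⟩, e⟩ ⟨⟨ι a.1, a.2⟩, e⟩
    rw [if_pos rfl] at h2
    change _ = (Φ.ρ (ι a.1) (ι t)) ^ 2 at h2
    rw [h2, smul_smul]
    have := ρ_ne Φ (ι a.1) (ι t)
    rw [show (Φ.ρ (ι a.1) (ι t))⁻¹ * ((Φ.ρ (ι a.1) (ι t))⁻¹ * Φ.ρ (ι a.1) (ι t) ^ 2) = 1 by
      field_simp, one_smul]
  · intro q _ hq
    have h2 := backR Φ (t := ι t) (u := u.1) ⟨⟨ι a.1, a.2⟩, e⟩ ⟨⟨ι q.1.1, q.1.2⟩, q.2⟩
    rw [if_neg] at h2
    · rw [h2, mul_zero, zero_smul]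
    · intro h
      apply hq
      obtain ⟨⟨q1, hq1⟩, q2⟩ := q
      obtain ⟨a, ha⟩ := a
      simp only at e h ⊢
      have h3 : ι q1 = ι a := congrArg (fun x => x.1.1) h
      have h4 := hι h3
      subst h4
      simp only [Sigma.mk.injEq, heq_eq_eq, true_and] at h
      rw [h]
  · intro h; exact absurd (Finset.mem_univ _) h

/-- pairs of neighbouring vertices outside the image, swapped -/
def swapOut : (Σ u' : Out ι, Φ.Nb u'.1) ≃ (Σ u : Out ι, Φ.Nb u.1) where
  toFun p := ⟨⟨p.2.1, hs.out (Φ.symm p.2.2) p.1.2⟩, ⟨p.1.1, Φ.symm p.2.2⟩⟩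
  invFun p := ⟨⟨p.2.1, hs.out (Φ.symm p.2.2) p.1.2⟩, ⟨p.1.1, Φ.symm p.2.2⟩⟩
  left_inv p := rfl
  right_inv p := rfl

theorem sum_out {M : Type*} [AddCommMonoid M] (F : ∀ u' : Out ι, Φ.Nb u'.1 → M) :
    ∑ u' : Out ι, ∑ b : Φ.Nb u'.1, F u' b =
      ∑ u : Out ι, ∑ u' : Φ.Nb u.1, F ⟨u'.1, hs.out (Φ.symm u'.2) u.2⟩ ⟨u.1, Φ.symm u'.2⟩ := by
  rw [← Fintype.sum_sigma', ← Fintype.sum_sigma']
  exact Fintype.sum_equiv (swapOut Φ hs) _ _ fun p => rfl

include hs in
theorem finrank_SA (X : Gob G k) (t : T') : Module.finrank k (SA (ι := ι) Φ X t) =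
    ∑ u : Out ι, Fintype.card (Σ u' : Φ.Nb u.1, G.E u'.1 (ι t)) * Module.finrank k (X.V u.1) := by
  have h1 : Module.finrank k (SA (ι := ι) Φ X t) = ∑ u' : Out ι, ∑ b : Φ.Nb u'.1,
      Fintype.card (G.E u'.1 (ι t)) * Module.finrank k (X.V b.1) := by
    rw [Module.finrank_pi_fintype]
    refine Finset.sum_congr rfl fun u' _ => ?_
    rw [Module.finrank_pi_fintype]
    simp only [Module.finrank_pi_fintype, Finset.sum_const, Finset.card_univ, smul_eq_mul,
      Finset.mul_sum]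
  rw [h1, sum_out Φ hs]
  refine Finset.sum_congr rfl fun u _ => ?_
  rw [Fintype.card_sigma, Finset.sum_mul]

theorem finrank_SB (X : Gob G k) (t : T') : Module.finrank k (SB Φ hι hs X t) =
    ∑ u : Out ι, Fintype.card (Σ a : Φ.Nb (ι t), G.E u.1 a.1) * Module.finrank k (X.V u.1) := by
  have h1 : Module.finrank k (SB Φ hι hs X t) = ∑ a : (resD Φ hι hs).Nb t, ∑ u : Out ι,
      Fintype.card (G.E u.1 (ι a.1)) * Module.finrank k (X.V u.1) := by
    rw [Module.finrank_pi_fintype]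
    refine Finset.sum_congr rfl fun a _ => ?_
    rw [Module.finrank_pi_fintype]
    simp only [Module.finrank_pi_fintype, Finset.sum_const, Finset.card_univ, smul_eq_mul]
  rw [h1, Finset.sum_comm]
  refine Finset.sum_congr rfl fun u _ => ?_
  rw [Fintype.card_sigma, sum_nb Φ hι hs t, Finset.sum_mul]

theorem thN_bij (X : Gob G k) (t : T') : Function.Bijective (thN Φ hι hs X t) := by
  have h : Module.finrank k (SA (ι := ι) Φ X t) = Module.finrank k (SB Φ hι hs X t) := by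
    rw [finrank_SA Φ hs, finrank_SB]
    refine Finset.sum_congr rfl fun u _ => ?_
    rw [card_eq]
  exact ⟨(LinearMap.injective_iff_surjective_of_finrank_eq_finrank h).2 (thN_surj Φ hι hs X t),
    thN_surj Φ hι hs X t⟩

/-- relabelling the neighbours -/
noncomputable def relab (A : T → Type v) [∀ a, AddCommGroup (A a)] [∀ a, Module k (A a)]
    (t : T') : (∀ a : Φ.Nb (ι t), A a.1) ≃ₗ[k] (∀ a : (resD Φ hι hs).Nb t, A (ι a.1)) :=
  LinearEquiv.piCongrLeft' k (fun b : Φ.Nb (ι t) => A b.1) (nbE Φ hι hs t).symm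


/-- length 0 part of `theta` on `W` -/
noncomputable def thW (X : Gob G k) (t : T') :
    (resG ι (Φ.ob X)).W t ≃ₗ[k] ((resD Φ hι hs).ob (resG ι X)).W t :=
  (((relab Φ hι hs X.W t).prodCongr
    (LinearEquiv.ofBijective (thN Φ hι hs X t) (thN_bij Φ hι hs X t))).trans
    ({ toFun := fun z a => (z.1 a, z.2 a)
       invFun := fun z => (fun a => (z a).1, fun a => (z a).2)
       map_add' := fun _ _ => rfl
       map_smul' := fun _ _ => rfl
       left_inv := fun _ => rfl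
       right_inv := fun _ => rfl } :
      ((∀ a : (resD Φ hι hs).Nb t, X.W (ι a.1)) × SB Φ hι hs X t) ≃ₗ[k]
        (∀ a : (resD Φ hι hs).Nb t, X.W (ι a.1) × NW ι X (ι a.1))))


/-- the natural isomorphism `Res (Φ X) ≅ Φ (Res X)` -/
noncomputable def theta (X : Gob G k) : resG ι (Φ.ob X) ⟶ (resD Φ hι hs).ob (resG ι X) :=
  mkH (X := resG ι (Φ.ob X)) (Y := (resD Φ hι hs).ob (resG ι X))
    (fun t => (relab Φ hι hs X.V t).toLinearMap) (fun t => (thW Φ hι hs X t).toLinearMap)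
    (fun _ _ _ => 0) (fun _ => 0) (fun _ => 0) (fun _ => 0)

/-- its inverse -/
noncomputable def thetaI (X : Gob G k) : (resD Φ hι hs).ob (resG ι X) ⟶ resG ι (Φ.ob X) :=
  mkH (X := (resD Φ hι hs).ob (resG ι X)) (Y := resG ι (Φ.ob X))
    (fun t => (relab Φ hι hs X.V t).symm.toLinearMap)
    (fun t => (thW Φ hι hs X t).symm.toLinearMap)
    (fun _ _ _ => 0) (fun _ => 0) (fun _ => 0) (fun _ => 0)

theorem theta_inv (X : Gob G k) : theta Φ hι hs X ≫ thetaI Φ hι hs X = 𝟙 _ := by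
  apply hm_ext
  · intro t; exact LinearMap.ext fun x => (relab Φ hι hs X.V t).symm_apply_apply x
  · intro t; exact LinearMap.ext fun x => (thW Φ hι hs X t).symm_apply_apply x
  · intro s t a; simp [theta, thetaI]
  · intro t; simp [theta, thetaI]
  · intro t; simp [theta, thetaI]
  · intro t; simp [theta, thetaI]

theorem inv_theta (X : Gob G k) : thetaI Φ hι hs X ≫ theta Φ hι hs X = 𝟙 _ := by
  apply hm_ext
  · intro t; exact LinearMap.ext fun x => (relab Φ hι hs X.V t).apply_symm_apply x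
  · intro t; exact LinearMap.ext fun x => (thW Φ hι hs X t).apply_symm_apply x
  · intro s t a; simp [theta, thetaI]
  · intro t; simp [theta, thetaI]
  · intro t; simp [theta, thetaI]
  · intro t; simp [theta, thetaI]

section lem
variable (X : Gob G k)
@[simp] theorem c1_theta {s t : T'} (a : (comap G ι).E s t) : c1 (theta Φ hι hs X) a = 0 := rfl
@[simp] theorem ci_theta (t : T') : ci (theta Φ hι hs X) t = 0 := rfl
@[simp] theorem cj_theta (t : T') : cj (theta Φ hι hs X) t = 0 := rfl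
@[simp] theorem c2_theta (t : T') : c2 (theta Φ hι hs X) t = 0 := rfl
end lem

theorem c1_hom_apply {T : Type} {G : MG T} [Fintype T] (Φ : FDat G k) {X Y : Gob G k}
    (f : X ⟶ Y) {s t : T} (e' : G.E s t) (x : ∀ a : Φ.Nb s, X.V a.1) (b : Φ.Nb t) :
    (c1 (Φ.hom f) e' x : ∀ a : Φ.Nb t, Y.V a.1) b =
      ∑ a : Φ.Nb s, ∑ e : G.E a.1 b.1, Φ.chi e e' • c1 f e (x a) := by
  rw [FDat.c1_hom, mat_apply]
  refine Finset.sum_congr rfl fun a _ => ?_
  rw [LinearMap.sum_apply]
  rfl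

/-- naturality -/
theorem theta_nat {X Y : Gob G k} (f : X ⟶ Y) :
    resH ι (Φ.hom f) ≫ theta Φ hι hs Y = theta Φ hι hs X ≫ (resD Φ hι hs).hom (resH ι f) := by
  apply hm_ext
  · intro t
    rfl
  · intro t
    apply LinearMap.ext; intro z
    funext a
    apply Prod.ext
    · rfl
    · funext u e
      change thN Φ hι hs Y t (fun u' e' => c0 (Φ.hom f) u'.1 (z.2 u' e')) a u e =
        c0 f u.1 (thN Φ hι hs X t z.2 a u e)
      rw [thN_apply, thN_apply, map_smul, map_sum]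
      congr 1
      refine Finset.sum_congr rfl fun u' _ => ?_
      rw [map_sum]
      refine Finset.sum_congr rfl fun e' _ => ?_
      rw [map_smul]
      rfl
  · intro s t e'
    rw [c1_comp, c1_comp, c1_theta, c1_theta, LinearMap.zero_comp, zero_add, LinearMap.comp_zero,
      add_zero]
    apply LinearMap.ext; intro x
    funext a
    change (c1 (Φ.hom f) (s := ι s) (t := ι t) e' x : ∀ a : Φ.Nb (ι t), Y.V a.1) ⟨ι a.1, a.2⟩ =
      (c1 ((resD Φ hι hs).hom (resH ι f)) e' (fun b => x ⟨ι b.1, b.2⟩) :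
        ∀ a : (resD Φ hι hs).Nb t, Y.V (ι a.1)) a
    rw [c1_hom_apply, sum_nb Φ hι hs s]
    exact (c1_hom_apply (resD Φ hι hs) (resH ι f) e' (fun b => x ⟨ι b.1, b.2⟩) a).symm
  · intro t
    rw [ci_comp, ci_comp, ci_theta, ci_theta, LinearMap.zero_comp, zero_add, LinearMap.comp_zero,
      add_zero]
    apply LinearMap.ext; intro z
    funext a
    change Φ.ρ (ι a.1) (ι t) • ci f (ι a.1) (z.1 ⟨ι a.1, a.2⟩) +
      (∑ u' : Out ι, ∑ e' : G.E u'.1 (ι t), c1 (Φ.hom f) e' (z.2 u' e') :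
        ∀ a : Φ.Nb (ι t), Y.V a.1) ⟨ι a.1, a.2⟩ =
      Φ.ρ (ι a.1) (ι t) • (ci f (ι a.1) (z.1 ⟨ι a.1, a.2⟩) +
        ∑ u : Out ι, ∑ e : G.E u.1 (ι a.1), c1 f e (thN Φ hι hs X t z.2 a u e))
    rw [smul_add]
    congr 1
    have hL : (∑ u' : Out ι, ∑ e' : G.E u'.1 (ι t), c1 (Φ.hom f) e' (z.2 u' e') :
        ∀ a : Φ.Nb (ι t), Y.V a.1) ⟨ι a.1, a.2⟩ = ∑ u' : Out ι, ∑ b : Φ.Nb u'.1,
          ∑ e' : G.E u'.1 (ι t), ∑ e : G.E b.1 (ι a.1), Φ.chi e e' • c1 f e (z.2 u' e' b) := by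
      rw [Finset.sum_apply]
      refine Finset.sum_congr rfl fun u' _ => ?_
      rw [Finset.sum_apply, Finset.sum_comm]
      exact Finset.sum_congr rfl fun e' _ => c1_hom_apply Φ f e' (z.2 u' e') ⟨ι a.1, a.2⟩
    rw [hL, sum_out Φ hs, Finset.smul_sum]
    refine Finset.sum_congr rfl fun u _ => ?_
    have hR : (Φ.ρ (ι a.1) (ι t) • ∑ e : G.E u.1 (ι a.1), c1 f e (thN Φ hι hs X t z.2 a u e)) =
        ∑ e : G.E u.1 (ι a.1), ∑ u' : Φ.Nb u.1, ∑ e' : G.E u'.1 (ι t),
          Φ.chi e e' • c1 f e (z.2 ⟨u'.1, hs.out (Φ.symm u'.2) u.2⟩ e' ⟨u.1, Φ.symm u'.2⟩) := by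
      rw [Finset.smul_sum]
      refine Finset.sum_congr rfl fun e _ => ?_
      rw [thN_apply, map_smul, smul_smul, mul_inv_cancel₀ (ρ_ne Φ _ _), one_smul, map_sum]
      refine Finset.sum_congr rfl fun u' _ => ?_
      rw [map_sum]
      refine Finset.sum_congr rfl fun e' _ => ?_
      rw [map_smul]
    rw [hR, Finset.sum_comm]
    refine Finset.sum_congr rfl fun u' _ => ?_
    rw [Finset.sum_comm]
  · intro t
    rw [cj_comp, cj_comp, cj_theta, cj_theta, LinearMap.zero_comp, zero_add, LinearMap.comp_zero,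
      add_zero]
    apply LinearMap.ext; intro z
    funext a
    apply Prod.ext
    · rfl
    · funext u e
      change thN Φ hι hs Y t (fun u' e' => c1 (Φ.hom f) (G.rev e') z) a u e =
        Φ.ρ (ι a.1) (ι t) • c1 f (G.rev e) (z ⟨ι a.1, a.2⟩)
      rw [thN_apply]
      have h1 : (∑ u' : Φ.Nb u.1, ∑ e' : G.E u'.1 (ι t), Φ.chi e e' •
          (c1 (Φ.hom f) (G.rev e') z : ∀ a : Φ.Nb u'.1, Y.V a.1) ⟨u.1, Φ.symm u'.2⟩)
          = ∑ b : Φ.Nb (ι t), ∑ g : G.E u.1 b.1, (∑ u' : Φ.Nb u.1, ∑ e' : G.E u'.1 (ι t),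
            Φ.chi e e' * Φ.chi (G.rev g) (G.rev e')) • c1 f (G.rev g) (z b) := by
        have h2 : ∀ (u' : Φ.Nb u.1) (e' : G.E u'.1 (ι t)), Φ.chi e e' •
          (c1 (Φ.hom f) (G.rev e') z : ∀ a : Φ.Nb u'.1, Y.V a.1) ⟨u.1, Φ.symm u'.2⟩ =
          ∑ b : Φ.Nb (ι t), ∑ g : G.E u.1 b.1, (Φ.chi e e' * Φ.chi (G.rev g) (G.rev e')) •
            c1 f (G.rev g) (z b) := by
          intro u' e'
          rw [c1_hom_apply, Finset.smul_sum]
          refine Finset.sum_congr rfl fun b _ => ?_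
          rw [← sum_rev (G := G) (fun g : G.E b.1 u.1 => Φ.chi g (G.rev e') • c1 f g (z b)),
            Finset.smul_sum]
          refine Finset.sum_congr rfl fun g _ => ?_
          rw [smul_smul]
        rw [Finset.sum_congr rfl fun u' _ => Finset.sum_congr rfl fun e' _ => h2 u' e', swap4]
        simp only [Finset.sum_smul]
      have h3 := fun q => backR Φ (t := ι t) (u := u.1) ⟨⟨ι a.1, a.2⟩, e⟩ q
      rw [h1, ← Fintype.sum_sigma' (fun (b : Φ.Nb (ι t)) (g : G.E u.1 b.1) =>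
        (∑ u' : Φ.Nb u.1, ∑ e' : G.E u'.1 (ι t),
            Φ.chi e e' * Φ.chi (G.rev g) (G.rev e')) • c1 f (G.rev g) (z b)),
        Finset.sum_eq_single (⟨⟨ι a.1, a.2⟩, e⟩ : Σ b : Φ.Nb (ι t), G.E u.1 b.1)]
      · have h4 := h3 ⟨⟨ι a.1, a.2⟩, e⟩
        rw [if_pos rfl] at h4
        change _ = (Φ.ρ (ι a.1) (ι t)) ^ 2 at h4
        rw [h4, smul_smul]
        congr 1
        have := ρ_ne Φ (ι a.1) (ι t)
        field_simp
      · intro q _ hq
        have h4 := h3 q
        rw [if_neg hq] at h4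
        rw [h4, zero_smul]
      · intro h; exact absurd (Finset.mem_univ _) h
  · intro t
    simp only [c2_comp, c2_theta, c1_theta, ci_theta, cj_theta, LinearMap.zero_comp,
      LinearMap.comp_zero, Finset.sum_const_zero, zero_add, add_zero]
    rfl

theorem gam_theta (X : Gob G k) :
    gam (resG ι (Φ.ob X)) ≫ theta Φ hι hs X = theta Φ hι hs X ≫ gam _ := by
  have h := theta_nat Φ hι hs (gam X)
  rw [Φ.hom_gam, resH_gam, resH_gam, (resD Φ hι hs).hom_gam] at h
  exact h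

theorem bar_theta (X : Gob G k) : bar (theta Φ hι hs X) = theta Φ hι hs X := by
  rw [bar, ← gam_theta, ← Category.assoc, gam_gam, Category.id_comp]

end theta

/-! ### objects -/

section tob

variable (Φ : FDat G k) (hι : Function.Injective ι) (hs : Stab Φ ι)

include hs in
theorem ok_tob {X : TOb G k} (hX : Ok ι X) : Ok ι (Φ.tob X) := by
  intro u
  change dg (fun a : Φ.Nb u.1 => c0 X.d a.1) = 0
  rw [← dg_zero]
  congr 1
  funext a
  exact hX ⟨a.1, hs.out (Φ.symm a.2) u.2⟩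

/-- **`Res (Φ X) ~ Φ (Res X)`** -/
theorem res_tob {X : TOb G k} (hX : Ok ι X) :
    HIso (resT hι (Φ.tob X) (ok_tob Φ hs hX)) ((resD Φ hι hs).tob (resT hι X hX)) :=
  HIso.of_iso (theta Φ hι hs X.X) (thetaI Φ hι hs X.X) (bar_theta Φ hι hs X.X)
    (theta_nat Φ hι hs X.d).symm (theta_inv Φ hι hs X.X) (inv_theta Φ hι hs X.X)

/-- the same with an arbitrary proof of `Ok` -/
theorem res_tob' {X : TOb G k} (hX : Ok ι X) (hX' : Ok ι (Φ.tob X)) :
    HIso (resT hι (Φ.tob X) hX') ((resD Φ hι hs).tob (resT hι X hX)) :=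
  res_tob Φ hι hs hX

end tob

section adj

variable (Φ : ADat G k) (hι : Function.Injective ι) (hs : Stab Φ.toFDat ι)




end adj

end Crest.Agent.R175.FmRes_663
end

-- ▼ part R175/FmResU_663
section

/-!
# `F_m` and restriction to a subset `X ⊆ S`, over the graph `UG M Λ`

`res_Fm : HIso (Res (F_m Y)) (F_m (Res Y))`.
-/

set_option autoImplicit false
set_option linter.unusedSectionVars false
set_option linter.unusedVariables false

open CategoryTheory
open scoped Classical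

namespace Crest.Agent.R175.FmResU_663

open Crest.Agent.R175.PTA Crest.Agent.R175.ResI_663 Crest.Agent.R175.Res_428
  Crest.Agent.R175.Fm_27 Crest.Agent.R175.FmRes_663 Crest.Agent.R175.UG_27
  Crest.Agent.R175.Unf_109 Crest.Agent.R175.VdL_527

universe v

theorem FDat_ext {T : Type} {G : MG T} {k : Type v} [Field k] [Fintype T] {Φ Ψ : FDat G k}
    (hN : Φ.N = Ψ.N) (hr : Φ.r = Ψ.r)
    (hc : @FDat.chi T G k _ _ Φ = @FDat.chi T G k _ _ Ψ) : Φ = Ψ := by
  cases Φ
  cases Ψ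
  simp only at hN hr hc
  subst hN hr hc
  rfl

/-- inclusion of the vertices over `X ⊆ S` -/
def inc {S : Type} (X : Set S) (Λ : Finset ℕ) : X × J Λ → S × J Λ := fun a => ((a.1 : S), a.2)

theorem inc_inj {S : Type} (X : Set S) (Λ : Finset ℕ) : Function.Injective (inc X Λ) := by
  rintro ⟨a, i⟩ ⟨b, j⟩ h
  simp only [inc, Prod.mk.injEq] at h
  exact Prod.ext (Subtype.ext h.1) h.2

theorem mem_range_inc {S : Type} (X : Set S) (Λ : Finset ℕ) (a : S × J Λ) :
    a ∈ Set.range (inc X Λ) ↔ a.1 ∈ X := by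
  constructor
  · rintro ⟨b, rfl⟩
    exact b.1.2
  · intro h
    exact ⟨(⟨a.1, h⟩, a.2), rfl⟩

variable {S : Type} [Fintype S] (M : CoxeterMatrix S) {Λ : Finset ℕ} {m : ℕ}
  {k : Type v} [Field k] (φ : ℝ →+* k) (hm : m ∈ Λ) (h2 : 2 ≤ m) (X : Set S) [Fintype X]

theorem stab_Fm : Stab (Fm M φ hm h2).toFDat (inc X Λ) := by
  intro a b h ha
  rw [mem_range_inc] at ha ⊢
  have h1 : a.1 = b.1 := ((Fm_N M φ hm h2 a b).1 h).1
  rwa [← h1]

theorem resD_Fm : resD (Fm M φ hm h2).toFDat (inc_inj X Λ) (stab_Fm M φ hm h2 X) =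
    (Fm (res M X) φ hm h2).toFDat := by
  refine FDat_ext ?_ rfl rfl
  funext a b
  exact propext (Fm_res_N M φ hm h2 X a b).symm

/-- **`Res (F_m Y) ~ F_m (Res Y)`** -/
theorem res_Fm {Y : TOb (UG M Λ) k} (hY : Ok (inc X Λ) Y)
    (hY' : Ok (inc X Λ) ((Fm M φ hm h2).FT Y)) :
    HIso (G := UG (res M X) Λ) (resT (inc_inj X Λ) ((Fm M φ hm h2).FT Y) hY')
      ((Fm (res M X) φ hm h2).FT (resT (inc_inj X Λ) Y hY)) := by
  have h := res_tob' (Fm M φ hm h2).toFDat (inc_inj X Λ) (stab_Fm M φ hm h2 X) hY hY'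
  rw [resD_Fm] at h
  exact h

include φ hm h2 in
theorem ok_Fm {Y : TOb (UG M Λ) k} (hY : Ok (inc X Λ) Y) :
    Ok (inc X Λ) ((Fm M φ hm h2).FT Y) :=
  ok_tob (Fm M φ hm h2).toFDat (stab_Fm M φ hm h2 X) hY

end Crest.Agent.R175.FmResU_663
end

-- ▼ part R175/LamT_788
section

/-!
Row 175 (S0263), helper788: translation between `lamT (muS M Λ)` (numbers, `CatNum_427`) and sums
over `Out (inc T Λ)` (`ResI_663`).
-/

set_option autoImplicit false
set_option linter.unusedSectionVars false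
set_option linter.unusedVariables false

open scoped Classical

namespace Crest.Agent.R175.LamT_788

open Crest.Agent.R175.PTA Crest.Agent.R175.UG_27 Crest.Agent.R175.CatNum_427
open Crest.Agent.R175.Unf_109 Crest.Agent.R175.ResI_663 Crest.Agent.R175.FmResU_663
open Crest.Agent.R175.Lev_788

variable {S : Type} [Fintype S] {M : CoxeterMatrix S} {Λ : Finset ℕ}

theorem muS_eq_card (s t : S) (i j : J Λ) :
    muS M Λ s i t j = (Fintype.card ((UG M Λ).E (s, i) (t, j)) : ℝ) := by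
  rw [card_UG_real]
  unfold muS
  by_cases h : s = t
  · subst h
    rw [if_pos rfl]
    unfold mu
    rw [if_neg]
    simp only [M.diagonal]
    exact not_nb_one _ _
  · rw [if_neg h]

theorem muS_eq_card' (s t : S) (i j : J Λ) :
    muS M Λ s i t j = (Fintype.card ((UG M Λ).E (t, j) (s, i)) : ℝ) := by
  rw [muS_symm, muS_eq_card]

/-- sums over the vertices outside the face -/
theorem sum_out (T : Set S) (f : S × J Λ → ℝ) :
    ∑ u : Out (inc T Λ), f u.1 = ∑ u : S, ind Tᶜ u * ∑ k, f (u, k) := by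
  have h1 : ∑ u : Out (inc T Λ), f u.1
      = ∑ b : S × J Λ, if b ∉ Set.range (inc T Λ) then f b else 0 := by
    rw [← Finset.sum_filter]
    exact (Finset.sum_subtype _ (fun x => by simp) _).symm
  rw [h1, Fintype.sum_prod_type]
  refine Finset.sum_congr rfl fun u _ => ?_
  by_cases h : u ∈ T
  · rw [ind_not (T := Tᶜ) (fun h' : u ∈ Tᶜ => h' h), zero_mul]
    refine Finset.sum_eq_zero fun k _ => ?_
    rw [if_neg]
    rw [mem_range_inc]
    simpa using h
  · rw [ind_mem (T := Tᶜ) h, one_mul]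
    refine Finset.sum_congr rfl fun k _ => ?_
    rw [if_pos]
    rw [mem_range_inc]
    simpa using h

/-- **`lamT` as a sum over `Out`** -/
theorem lamT_eq {Ob : Type*} (d lam : Ob → S → J Λ → ℝ) (T : Set S) (x : Ob) (t : S) (j : J Λ) :
    lamT (muS M Λ) d lam T x t j = lam x t j
      + ∑ u : Out (inc T Λ), (Fintype.card ((UG M Λ).E u.1 (t, j)) : ℝ) * d x u.1.1 u.1.2 := by
  unfold lamT
  rw [sum_out T (fun u => (Fintype.card ((UG M Λ).E u (t, j)) : ℝ) * d x u.1 u.2)]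
  congr 1
  refine Finset.sum_congr rfl fun u _ => ?_
  congr 1
  refine Finset.sum_congr rfl fun k _ => ?_
  rw [muS_eq_card']





end Crest.Agent.R175.LamT_788
end

-- ▼ part R175/LResC_774
section

/-!
Row 175 (S0263), helper774: restriction between the concrete levels.

`rU T : Cls (UG M Λ) ℂ →+ Cls (UG (res M T) Λ) ℂ` = `ResC_774.rC (inc_inj T Λ)`;
`rU_F` : `rU (F_m x) = F_m (rU x)`;
`lres A A' hact : LRes (lev A) T (lev A')`.
-/

set_option autoImplicit false
set_option linter.unusedSectionVars false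
set_option linter.unusedVariables false

open CategoryTheory
open scoped Classical

namespace Crest.Agent.R175.LResC_774

open Crest.GroupTheory Crest.Agent.R175.PTA Crest.Agent.R175.Cls_133 Crest.Agent.R175.UG_27
open Crest.Agent.R175.Unf_109 Crest.Agent.R175.Fm_27 Crest.Agent.R175.FmCls_303
open Crest.Agent.R175.Lev_788 Crest.Agent.R175.LevC_788 Crest.Agent.R175.LamT_788
open Crest.Agent.R175.ResI_663 Crest.Agent.R175.Res_428 Crest.Agent.R175.ResC_774
open Crest.Agent.R175.FmResU_663 Crest.Agent.R175.CatNum_427 Crest.Agent.R175.VdL_527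

variable {S : Type} [Fintype S]

/-- restriction of classes to the face `T` -/
noncomputable def rU (M : CoxeterMatrix S) (Λ : Finset ℕ) (T : Set S) [Fintype T] :
    Cls (UG M Λ) ℂ →+ Cls (UG (res M T) Λ) ℂ :=
  rC (G := UG M Λ) (inc_inj T Λ)

variable {M : CoxeterMatrix S} {Λ : Finset ℕ} {h4 : ∀ m ∈ Λ, 4 ≤ m} (T : Set S) [Fintype T]

theorem rU_mk (X : TOb (UG M Λ) ℂ) (h : Ok (inc T Λ) X) :
    rU M Λ T ⟦X⟧ = (⟦resT (inc_inj T Λ) X h⟧ : Cls (UG (res M T) Λ) ℂ) :=
  rC_mk (inc_inj T Λ) X h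



theorem rU_lam (t : T) (j : J Λ) (x : Cls (UG M Λ) ℂ) :
    lamC (rU M Λ T x) (t, j) = lamC x ((t : S), j) +
      ∑ u : Out (inc T Λ), Fintype.card ((UG M Λ).E u.1 ((t : S), j)) *
        hC (frC (UG M Λ) ℂ u.1) x :=
  lamC_rC (G := UG M Λ) (inc_inj T Λ) x (t, j)

/-- `Res (F_m x) = F_m (Res x)` -/
theorem rU_F {m : ℕ} (hm : m ∈ Λ) (x : Cls (UG M Λ) ℂ) :
    rU M Λ T (FmC M h4 hm x) = FmC (res M T) h4 hm (rU M Λ T x) := by
  obtain ⟨X, hX, rfl⟩ := exists_ok (ι := inc T Λ) x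
  have h2 : 2 ≤ m := (by norm_num : 2 ≤ 4).trans (h4 m hm)
  have hok := ok_Fm M (algebraMap ℝ ℂ) hm h2 T hX
  have e1 : FmC M h4 hm (⟦X⟧ : Cls (UG M Λ) ℂ) = ⟦(Fm M (algebraMap ℝ ℂ) hm h2).FT X⟧ := rfl
  have e2 : FmC (res M T) h4 hm (⟦resT (inc_inj T Λ) X hX⟧ : Cls (UG (res M T) Λ) ℂ) =
      ⟦(Fm (res M T) (algebraMap ℝ ℂ) hm h2).FT (resT (inc_inj T Λ) X hX)⟧ := rfl
  rw [e1, rU_mk T X hX, rU_mk T _ hok, e2]
  exact Quotient.sound (res_Fm M (algebraMap ℝ ℂ) hm h2 T hX hok)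

/-- **restriction between the concrete levels** -/
noncomputable def lres (A : ActI M h4) (A' : ActI (res M T) h4)
    (hact : ∀ (t : T) (x : Cls (UG M Λ) ℂ),
      rU M Λ T (A.act.smul (artinGen M (t : S)) x) =
        A'.act.smul (artinGen (res M T) t) (rU M Λ T x)) :
    LRes (lev A) T (lev A') where
  r := rU M Λ T
  r_act := hact
  r_fr := fun t j =>
    @rC_fr _ _ (UG M Λ) ℂ _ _ _ _ (_) (_) _ (inc_inj T Λ) (t, j)
  r_d := fun t j x =>
    @hC_fr_rC _ _ (UG M Λ) ℂ _ _ _ _ (_) (_) _ (inc_inj T Λ) x (t, j)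
  r_lam := fun t j x => by
    rw [lamT_eq]
    have h := rU_lam (M := M) (Λ := Λ) T t j x
    have h' : ((lamC (rU M Λ T x) (t, j) : ℕ) : ℝ) = ((lamC x ((t : S), j) +
      ∑ u : Out (inc T Λ), Fintype.card ((UG M Λ).E u.1 ((t : S), j)) *
        hC (frC (UG M Λ) ℂ u.1) x : ℕ) : ℝ) := by rw [h]
    push_cast at h'
    exact h'
  r_F := fun m hm x => by
    change rU M Λ T (if hm : m ∈ Λ then FmC M h4 hm x else x) =
      (if hm : m ∈ Λ then FmC (res M T) h4 hm (rU M Λ T x) else rU M Λ T x)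
    rw [dif_pos hm, dif_pos hm]
    exact rU_F T hm x

end Crest.Agent.R175.LResC_774
end

-- ▼ part R175/ResTU2_131
section

/-!
Row 175: the action on the classes is compatible with restriction (field `hact` of `CatI_788.Inp`).
-/

set_option autoImplicit false
set_option linter.unusedSectionVars false
set_option linter.unusedVariables false

open CategoryTheory
open scoped Classical

namespace Crest.Agent.R175.ResTU_131

open Crest.GroupTheory Crest.Agent.R175.PTA Crest.Agent.R175.Cls_133 Crest.Agent.R175.UG_27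
open Crest.Agent.R175.Unf_109 Crest.Agent.R175.LevC_788 Crest.Agent.R175.CatNum_427
open Crest.Agent.R175.TU_788 Crest.Agent.R175.ActC_788 Crest.Agent.R175.ActU_131
open Crest.Agent.R175.Lev_788 Crest.Agent.R175.Act2_732 Crest.Agent.R175.VdL_527
open Crest.Agent.R175.ResI_663 Crest.Agent.R175.Res_428 Crest.Agent.R175.ResC_774
open Crest.Agent.R175.LResC_774 Crest.Agent.R175.LamT_788 Crest.Agent.R175.FmResU_663

variable {S : Type} [Fintype S] {M : CoxeterMatrix S} {Λ : Finset ℕ}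

theorem fit_inc (T : Set S) [Fintype T] (t : T) :
    Res4_428.Fit (inc T Λ) (fun a : S × J Λ => a.1 = (t : S)) (fun a : T × J Λ => a.1 = t) where
  iff a := ⟨fun h => Subtype.ext h, fun h => congrArg Subtype.val h⟩
  out u := fun h => u.2 ⟨(t, u.1.2), Prod.ext h.symm rfl⟩

theorem rU_TF (T : Set S) [Fintype T] (t : T) (x : TOb (UG M Λ) ℂ) (hx : Ok (inc T Λ) x) :
    rU M Λ T ⟦TF M Λ (t : S) x⟧ =
      (⟦TF (res M T) Λ t (resT (inc_inj T Λ) x hx)⟧ : Cls (UG (res M T) Λ) ℂ) := by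
  have hO : Ok (inc T Λ) (TF M Λ (t : S) x) :=
    ok_TU _ (fib_hU M Λ (t : S)) x hx (fit_inc T t).out
  rw [rU_mk T _ hO]
  exact Quotient.sound (res_TU (inc_inj T Λ) (fit_inc T t) (fib_hU M Λ (t : S))
    (fib_hU (res M T) Λ t) x hx hO)

/-- **the field `hact`** -/
theorem hact (hΛ : Good M Λ) (T : Set S) [Fintype T] (hT : Good (res M T) Λ) (t : T)
    (x : Cls (UG M Λ) ℂ) :
    rU M Λ T ((act M hΛ).act.smul (artinGen M (t : S)) x) =
      (act (res M T) hT).act.smul (artinGen (res M T) t) (rU M Λ T x) := by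
  obtain ⟨X, hX, rfl⟩ := exists_ok (ι := inc T Λ) x
  rw [act_smul, act_smul, gen, rU_mk T X hX, gen]
  exact rU_TF T t X hX

end Crest.Agent.R175.ResTU_131
end

-- ▼ part R175/PdT_788
section

/-!
Row 175 (S0263), helper788: `PD M T` (numbers) gives `PDm (Cr (res M T))` and `Good (res M T) Λ`.
-/

set_option autoImplicit false
set_option linter.unusedSectionVars false

open scoped Classical

namespace Crest.Agent.R175.PdT_788

open Crest.Agent.R175.Num_774 Crest.Agent.R175.Unf_109 Crest.Agent.R175.Pos_418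
open Crest.Agent.R175.VdL_527

variable {S : Type} [Fintype S] {M : CoxeterMatrix S}

theorem sum_ext_zero (T : Set S) [Fintype T] (f : T → ℝ) (g : S → ℝ → ℝ) (hg : ∀ s, g s 0 = 0) :
    ∑ s : S, g s (if h : s ∈ T then f ⟨s, h⟩ else 0) = ∑ s : T, g s (f s) := by
  have h1 : ∀ s, g s (if h : s ∈ T then f ⟨s, h⟩ else 0)
      = if s ∈ T then g s (if h : s ∈ T then f ⟨s, h⟩ else 0) else 0 := by
    intro s
    by_cases h : s ∈ T
    · rw [if_pos h]
    · rw [if_neg h, dif_neg h, hg]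
  rw [Finset.sum_congr rfl fun s _ => h1 s, ← Finset.sum_filter]
  refine (Finset.sum_subtype (p := fun s => s ∈ T) (F := inferInstanceAs (Fintype T)) _
    (fun x => by simp) _).trans ?_
  refine Finset.sum_congr rfl fun s _ => ?_
  rw [dif_pos s.2]

/-- **positive definiteness of the face** -/
theorem pdm_of_pd {T : Set S} [Fintype T] (h : PD M T) : PDm (Cr (res M T)) := by
  intro x hx
  have h1 := h (fun s => if h : s ∈ T then x ⟨s, h⟩ else 0) (fun s hs => dif_neg hs) (by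
    intro h0
    apply hx
    funext s
    have := congrFun h0 s.1
    rw [dif_pos s.2] at this
    exact this)
  refine lt_of_lt_of_le h1 (le_of_eq ?_)
  unfold qf
  rw [sum_ext_zero T x (fun s y => ∑ t, C M s t * y * (if h : t ∈ T then x ⟨t, h⟩ else 0))
    (fun s => by simp)]
  refine Finset.sum_congr rfl fun s _ => ?_
  rw [sum_ext_zero T x (fun t z => C M s t * x s * z) (fun t => by simp)]
  refine Finset.sum_congr rfl fun t _ => ?_
  show C M s t * x s * x t = x s * x t * Cr (res M T) s t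
  have : Cr (res M T) s t = C M s t := rfl
  rw [this]
  ring

theorem good_res {Λ : Finset ℕ} (hΛ : Good M Λ) (T : Set S) : Good (res M T) Λ where
  four := hΛ.four
  mem := fun s t h => hΛ.mem s t h

end Crest.Agent.R175.PdT_788
end

-- ▼ part R175/MFC_427
section

/-!
Row 175 (S0263), helper427: the field `MF` of `Lev_788.Sys`, concretely, over `UG M Λ`.

* `lamT_out`  : `lamT (muS M Λ)` as a sum over `Out (inc T Λ)`;
* `lamT_resF` : `lam (resF (inc T Λ) X)` = `lamT` (the r_lam translation, for minimal objects);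
* `MF_F`      : (MF) for minimal objects, faces `T \ {t} ⊆ T`;
* `MF_cls`    : (MF) on classes, `rC` of `ResC_774`;
* `MF_sys`    : the field `MF` of `Lev_788.Sys` for `lev A` and any restrictions whose `r` is `rC`.
-/

set_option autoImplicit false
set_option linter.unusedSectionVars false
set_option linter.unusedVariables false

open CategoryTheory
open scoped Classical

namespace Crest.Agent.R175.MFC_427

open Crest.GroupTheory Crest.Agent.R175.PTA Crest.Agent.R175.Cls_133 Crest.Agent.R175.UG_27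
open Crest.Agent.R175.Unf_109 Crest.Agent.R175.FmResU_663 Crest.Agent.R175.ResI_663
open Crest.Agent.R175.Lev_788 Crest.Agent.R175.CatNum_427 Crest.Agent.R175.VdL_527

universe v

variable {S : Type} [Fintype S]

theorem sum_out_inc (T : Set S) (Λ : Finset ℕ) (f : S × J Λ → ℝ) :
    ∑ u : Out (inc T Λ), f u.1 = ∑ u, ind Tᶜ u * ∑ k, f (u, k) := by
  have h1 : ∑ u, ind Tᶜ u * ∑ k, f (u, k)
      = ∑ a : S × J Λ, if a ∈ Set.range (inc T Λ) then 0 else f a := by
    rw [Fintype.sum_prod_type]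
    refine Finset.sum_congr rfl fun u _ => ?_
    rw [Finset.mul_sum]
    refine Finset.sum_congr rfl fun k _ => ?_
    by_cases h : u ∈ T
    · rw [ind_not (by simpa using h), zero_mul, if_pos ((mem_range_inc T Λ _).2 h)]
    · rw [ind_mem (by simpa using h), one_mul, if_neg (fun h' => h ((mem_range_inc T Λ _).1 h'))]
  rw [h1]
  have h2 : ∀ a : S × J Λ, (if a ∈ Set.range (inc T Λ) then 0 else f a)
      = if a ∉ Set.range (inc T Λ) then f a else 0 := fun a => by
    split_ifs <;> simp_all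
  simp only [h2]
  rw [← Finset.sum_filter]
  exact (Finset.sum_subtype _ (fun x => by simp) _).symm

/-- `lamT` as a sum over the vertices outside of the face -/
theorem lamT_out {M : CoxeterMatrix S} {Λ : Finset ℕ} {Ob : Type*} (d lam : Ob → S → J Λ → ℝ)
    (T : Set S) (X : Ob) {t : S} (ht : t ∈ T) (j : J Λ) :
    lamT (muS M Λ) d lam T X t j = lam X t j
      + ∑ u : Out (inc T Λ), (Fintype.card ((UG M Λ).E u.1 (t, j)) : ℝ) * d X u.1.1 u.1.2 := by
  unfold lamT
  congr 1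
  have h := sum_out_inc T Λ
    (fun a => (Fintype.card ((UG M Λ).E a (t, j)) : ℝ) * d X a.1 a.2)
  rw [h]
  refine Finset.sum_congr rfl fun u _ => ?_
  by_cases hu : u ∈ T
  · rw [ind_not (by simpa using hu), zero_mul, zero_mul]
  · congr 1
    refine Finset.sum_congr rfl fun k _ => ?_
    rw [card_UG_real]
    congr 1
    have hne : t ≠ u := fun e => hu (e ▸ ht)
    unfold muS
    rw [if_neg hne, M.symmetric t u]
    exact mu_comm _ _ _ _

section F

variable {M : CoxeterMatrix S} {Λ : Finset ℕ} {k : Type v} [Field k]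

/-- the r_lam translation, for minimal objects -/
theorem lamT_resF (T : Set S) [Fintype T] (X : FObj (UG M Λ) k) (t : T) (j : J Λ) :
    ((lam (resF (inc_inj T Λ) X).toTOb (t, j) : ℕ) : ℝ)
    = lamT (muS M Λ) (fun (X : FObj (UG M Λ) k) s j => (dT X.toTOb (s, j) : ℝ))
        (fun (X : FObj (UG M Λ) k) s j => (lam X.toTOb (s, j) : ℝ)) T X t j := by
  rw [lamT_out _ _ T X t.2 j, lam_resF]
  push_cast
  congr 1
  refine Finset.sum_congr rfl fun u _ => ?_
  rw [Unfr_83.dT_F]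
  rfl

/-- the inclusion of `T \ {t}` in `T` -/
def kap (T : Set S) (t : S) (Λ : Finset ℕ) : ↥(T \ {t}) × J Λ → T × J Λ :=
  fun a => (⟨a.1.1, a.1.2.1⟩, a.2)

theorem kap_inj (T : Set S) (t : S) (Λ : Finset ℕ) : Function.Injective (kap T t Λ) := by
  rintro ⟨⟨a, ha⟩, i⟩ ⟨⟨b, hb⟩, j⟩ h
  simp only [kap, Prod.mk.injEq, Subtype.mk.injEq] at h
  obtain ⟨rfl, rfl⟩ := h
  rfl

/-- the vertices over `t` -/
def outK (T : Set S) {t : S} (ht : t ∈ T) (Λ : Finset ℕ) : J Λ ≃ Out (kap T t Λ) where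
  toFun j := ⟨(⟨t, ht⟩, j), by
    rintro ⟨⟨⟨a, ha⟩, i⟩, h⟩
    simp only [kap, Prod.mk.injEq, Subtype.mk.injEq] at h
    exact ha.2 h.1⟩
  invFun u := u.1.2
  left_inv j := rfl
  right_inv u := by
    obtain ⟨⟨⟨a, ha⟩, i⟩, h⟩ := u
    have hat : a = t := by
      by_contra hne
      exact h ⟨(⟨a, ha, hne⟩, i), rfl⟩
    subst hat
    rfl

theorem range_kap (T : Set S) (t : S) (Λ : Finset ℕ) :
    Set.range (inc T Λ ∘ kap T t Λ) = Set.range (inc (T \ {t}) Λ) := rfl

/-- **(MF)** for minimal objects -/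
theorem MF_F (T : Set S) {t : S} (ht : t ∈ T) [Fintype T] [Fintype ↥(T \ {t})]
    (X Y : FObj (UG M Λ) k) :
    ((hT (resF (inc_inj (T \ {t}) Λ) X).toTOb (resF (inc_inj (T \ {t}) Λ) Y).toTOb : ℕ) : ℝ)
      + ∑ j, ((dT X.toTOb (t, j) : ℝ)
            * lamT (muS M Λ) (fun (X : FObj (UG M Λ) k) s j => (dT X.toTOb (s, j) : ℝ))
                (fun (X : FObj (UG M Λ) k) s j => (lam X.toTOb (s, j) : ℝ)) T Y t j
          + lamT (muS M Λ) (fun (X : FObj (UG M Λ) k) s j => (dT X.toTOb (s, j) : ℝ))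
                (fun (X : FObj (UG M Λ) k) s j => (lam X.toTOb (s, j) : ℝ)) T X t j
            * (dT Y.toTOb (t, j) : ℝ)
          - 2 * ((dT X.toTOb (t, j) : ℝ) * (dT Y.toTOb (t, j) : ℝ)))
    ≤ ((hT (resF (inc_inj T Λ) X).toTOb (resF (inc_inj T Λ) Y).toTOb : ℕ) : ℝ) := by
  have key := MFI_663.MF (kap_inj T t Λ) (resF (inc_inj T Λ) X) (resF (inc_inj T Λ) Y)
  have e1 : hT (resF (kap_inj T t Λ) (resF (inc_inj T Λ) X)).toTOb
      (resF (kap_inj T t Λ) (resF (inc_inj T Λ) Y)).toTOb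
      = hT (resF (inc_inj (T \ {t}) Λ) X).toTOb (resF (inc_inj (T \ {t}) Λ) Y).toTOb := by
    have hx := ResB_988.res_resF (inc_inj T Λ) (kap_inj T t Λ) X
    have hy := ResB_988.res_resF (inc_inj T Λ) (kap_inj T t Λ) Y
    have h3 := ResB_988.hT_resF_congr ((inc_inj T Λ).comp (kap_inj T t Λ))
      (inc_inj (T \ {t}) Λ) (range_kap T t Λ) X Y
    rw [← h3]
    exact (hx.hT_left _).trans (hy.hT_right _)
  rw [e1] at key
  have e2 : ∑ u : Out (kap T t Λ), ∑ u' : Out (kap T t Λ),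
      Fintype.card ((comap (UG M Λ) (inc T Λ)).E u.1 u'.1) *
        (Module.finrank k ((resF (inc_inj T Λ) X).X.V u.1)
          * Module.finrank k ((resF (inc_inj T Λ) Y).X.V u'.1)) = 0 := by
    refine Finset.sum_eq_zero fun u _ => Finset.sum_eq_zero fun u' _ => ?_
    obtain ⟨j, rfl⟩ := (outK T ht Λ).surjective u
    obtain ⟨j', rfl⟩ := (outK T ht Λ).surjective u'
    have h : IsEmpty ((comap (UG M Λ) (inc T Λ)).E (outK T ht Λ j).1 (outK T ht Λ j').1) :=
      isEmpty_fibre (M := M) (a := (t, j)) (b := (t, j')) rfl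
    rw [Fintype.card_eq_zero, zero_mul]
  rw [e2, add_zero] at key
  rw [← (outK T ht Λ).sum_comp, ← (outK T ht Λ).sum_comp] at key
  have key2 : ((hT (resF (inc_inj (T \ {t}) Λ) X).toTOb
        (resF (inc_inj (T \ {t}) Λ) Y).toTOb : ℕ) : ℝ)
      + ∑ j, ((dT X.toTOb (t, j) : ℝ)
            * lamT (muS M Λ) (fun (X : FObj (UG M Λ) k) s j => (dT X.toTOb (s, j) : ℝ))
                (fun (X : FObj (UG M Λ) k) s j => (lam X.toTOb (s, j) : ℝ)) T Y t j
          + lamT (muS M Λ) (fun (X : FObj (UG M Λ) k) s j => (dT X.toTOb (s, j) : ℝ))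
                (fun (X : FObj (UG M Λ) k) s j => (lam X.toTOb (s, j) : ℝ)) T X t j
            * (dT Y.toTOb (t, j) : ℝ))
      ≤ ((hT (resF (inc_inj T Λ) X).toTOb (resF (inc_inj T Λ) Y).toTOb : ℕ) : ℝ)
        + 2 * ∑ j, ((dT X.toTOb (t, j) : ℝ) * (dT Y.toTOb (t, j) : ℝ)) := by
    have h := (Nat.cast_le (α := ℝ)).2 key
    push_cast at h
    refine le_trans (le_of_eq ?_) (h.trans (le_of_eq ?_))
    · congr 1
      refine Finset.sum_congr rfl fun j _ => ?_
      rw [Unfr_83.dT_F, Unfr_83.dT_F, ← lamT_resF T X ⟨t, ht⟩ j, ← lamT_resF T Y ⟨t, ht⟩ j]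
      rfl
    · congr 2
      refine Finset.sum_congr rfl fun j _ => ?_
      rw [Unfr_83.dT_F, Unfr_83.dT_F]
      rfl
  have e3 : ∀ a b c : J Λ → ℝ, ∑ j, (a j + b j - 2 * c j)
      = ∑ j, (a j + b j) - 2 * ∑ j, c j := by
    intro a b c
    rw [Finset.sum_sub_distrib, Finset.mul_sum]
  rw [e3]
  linarith

end F

section cls

variable {M : CoxeterMatrix S} {Λ : Finset ℕ} {k : Type v} [Field k] [NeZero (2 : k)]


/-- **(MF)** on classes -/
theorem MF_cls (T : Set S) {t : S} (ht : t ∈ T) [Fintype T] [Fintype ↥(T \ {t})]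
    (x y : Cls (UG M Λ) k) :
    ((hC (ResC_774.rC (inc_inj (T \ {t}) Λ) x) (ResC_774.rC (inc_inj (T \ {t}) Λ) y) : ℕ) : ℝ)
      + ∑ j, ((hC (frC (UG M Λ) k (t, j)) x : ℝ)
            * lamT (muS M Λ) (fun (x : Cls (UG M Λ) k) s j => (hC (frC (UG M Λ) k (s, j)) x : ℝ))
                (fun (x : Cls (UG M Λ) k) s j => (lamC x (s, j) : ℝ)) T y t j
          + lamT (muS M Λ) (fun (x : Cls (UG M Λ) k) s j => (hC (frC (UG M Λ) k (s, j)) x : ℝ))
                (fun (x : Cls (UG M Λ) k) s j => (lamC x (s, j) : ℝ)) T x t j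
            * (hC (frC (UG M Λ) k (t, j)) y : ℝ)
          - 2 * ((hC (frC (UG M Λ) k (t, j)) x : ℝ) * (hC (frC (UG M Λ) k (t, j)) y : ℝ)))
    ≤ ((hC (ResC_774.rC (inc_inj T Λ) x) (ResC_774.rC (inc_inj T Λ) y) : ℕ) : ℝ) := by
  obtain ⟨X, rfl⟩ := ResC_774.exists_rep x
  obtain ⟨Y, rfl⟩ := ResC_774.exists_rep y
  have key := MF_F T ht X Y
  rw [ResC_774.rC_F, ResC_774.rC_F, ResC_774.rC_F, ResC_774.rC_F]
  have e : ∀ (Z : FObj (UG M Λ) k) j,
      lamT (muS M Λ) (fun (x : Cls (UG M Λ) k) s j => (hC (frC (UG M Λ) k (s, j)) x : ℝ))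
        (fun (x : Cls (UG M Λ) k) s j => (lamC x (s, j) : ℝ)) T ⟦Z.toTOb⟧ t j
      = lamT (muS M Λ) (fun (X : FObj (UG M Λ) k) s j => (dT X.toTOb (s, j) : ℝ))
        (fun (X : FObj (UG M Λ) k) s j => (lam X.toTOb (s, j) : ℝ)) T Z t j := by
    intro Z j
    unfold lamT
    simp only [hC_fr_left, lamC_mk]
  simp only [hC_fr_left, e]
  exact key

/-- **the field `MF` of `Lev_788.Sys`** for the concrete levels -/
theorem MF_sys {h4 : ∀ m ∈ Λ, 4 ≤ m} (A : LevC_788.ActI M h4) (fT : ∀ T : Set S, Fintype T)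
    (A' : ∀ T : Set S, @LevC_788.ActI T (fT T) (res M T) Λ h4)
    (R : ∀ T : Set S, LRes (LevC_788.lev A) T (@LevC_788.lev T (fT T) (res M T) Λ h4 (A' T)))
    (hR : ∀ (T : Set S) (x : Cls (UG M Λ) ℂ), (R T).r x = ResC_774.rC (inc_inj T Λ) x)
    (T : Set S) (t : S) (ht : t ∈ T) (X Y : (LevC_788.lev A).Ob) :
    (((@LevC_788.lev _ (fT (T \ {t})) (res M (T \ {t})) Λ h4 (A' (T \ {t}))).h
        ((R _).r X) ((R _).r Y) : ℕ) : ℝ)
      + ∑ j, (((LevC_788.lev A).d X t j : ℝ)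
            * lamT (muS M Λ) (fun X s j => ((LevC_788.lev A).d X s j : ℝ))
              (fun X s j => ((LevC_788.lev A).lam X s j : ℝ)) T Y t j
          + lamT (muS M Λ) (fun X s j => ((LevC_788.lev A).d X s j : ℝ))
              (fun X s j => ((LevC_788.lev A).lam X s j : ℝ)) T X t j
            * ((LevC_788.lev A).d Y t j : ℝ)
          - 2 * (((LevC_788.lev A).d X t j : ℝ) * ((LevC_788.lev A).d Y t j : ℝ)))
      ≤ (((@LevC_788.lev T (fT T) (res M T) Λ h4 (A' T)).h ((R T).r X) ((R T).r Y) : ℕ) : ℝ) := by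
  have key := @MF_cls S _ M Λ ℂ _ _ T t ht (fT T) (fT (T \ {t})) X Y
  rw [hR, hR, hR, hR]
  exact key

end cls

end Crest.Agent.R175.MFC_427
end

-- ▼ part R175/CatI_788

/-!
Row 175 (S0263), helper788: the system of levels of a Coxeter matrix from the four last inputs
`Inp Λ` (action on the classes, compatible with restriction; orbit of a rigid family; stabilisers),
and S0263.
-/

set_option autoImplicit false
set_option linter.unusedSectionVars false
set_option linter.unusedVariables false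

open CategoryTheory
open scoped Classical

namespace Crest.Agent.R175.CatI_788

open Crest.GroupTheory Crest.Agent.R175.PTA Crest.Agent.R175.Cls_133 Crest.Agent.R175.UG_27
open Crest.Agent.R175.Unf_109 Crest.Agent.R175.FmCls_303 Crest.Agent.R175.Pos_418
open Crest.Agent.R175.Lev_788 Crest.Agent.R175.LevC_788 Crest.Agent.R175.VdL_527
open Crest.Agent.R175.Num_774 Crest.Agent.R175.PdT_788 Crest.Agent.R175.LResC_774
open Crest.Agent.R175.GlueData_445

/-- the last inputs of the category side -/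
structure Inp (Λ : Finset ℕ) where
  A : ∀ {S : Type} [Fintype S] (M : CoxeterMatrix S) (hΛ : Good M Λ), ActI M hΛ.four
  hact : ∀ {S : Type} [Fintype S] (M : CoxeterMatrix S) (hΛ : Good M Λ) (T : Set S) [Fintype T]
    (t : T) (x : Cls (UG M Λ) ℂ),
    rU M Λ T ((A M hΛ).act.smul (artinGen M (t : S)) x) =
      (A (res M T) (good_res hΛ T)).act.smul (artinGen (res M T) t) (rU M Λ T x)
  orb : ∀ {S : Type} [Fintype S] (M : CoxeterMatrix S) (hΛ : Good M Λ), PDm (Cr M) →
    letI := (A M hΛ).act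
    ∀ (s : S) (X : J Λ → TOb (UG M Λ) ℂ), OFam hΛ.four (algebraMap ℝ ℂ) s X →
      ∃ (r : ArtinGroup M) (j : J Λ), r • (⟦X j⟧ : Cls (UG M Λ) ℂ) = frC (UG M Λ) ℂ (s, j) ∨
        r • (⟦X j⟧ : Cls (UG M Λ) ℂ) = shC (frC (UG M Λ) ℂ (s, j))
  stb : ∀ {S : Type} [Fintype S] (M : CoxeterMatrix S) (hΛ : Good M Λ), PDm (Cr M) →
    (lev (A M hΛ)).Stb

variable {Λ : Finset ℕ} (I : Inp Λ) {S : Type} [Fintype S] (M : CoxeterMatrix S) (hΛ : Good M Λ)

/-- **the system of levels** -/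
noncomputable def Inp.sys : Sys.{1} Λ M hΛ.four where
  L := lev (I.A M hΛ)
  LT := fun T => lev (I.A (res M T) (good_res hΛ T))
  R := fun T => lres T (I.A M hΛ) (I.A (res M T) (good_res hΛ T)) (I.hact M hΛ T)
  MF := fun T t ht X Y => MFC_427.MF_sys (I.A M hΛ) (fun T => inferInstance)
    (fun T => I.A (res M T) (good_res hΛ T))
    (fun T => lres T (I.A M hΛ) (I.A (res M T) (good_res hΛ T)) (I.hact M hΛ T))
    (fun T x => rfl) T t ht X Y
  PT := by
    intro T fT hT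
    have h := PTC_505.pt_lev (good_res hΛ T) (pdm_of_pd hT) (I.A (res M T) (good_res hΛ T))
      (I.orb (res M T) (good_res hΛ T) (pdm_of_pd hT))
    convert h
  Stb := fun T hT => I.stb (res M T) (good_res hΛ T) (pdm_of_pd hT)

/-- **S0263** from the inputs -/
theorem s0263_of_inp (I : ∀ Λ, Inp Λ) (S : Type*) [Finite S] (M : CoxeterMatrix S)
    (P Q : Subgroup (ArtinGroup M)) (hP : IsParabolic M P) (hQ : IsParabolic M Q) :
    IsParabolic M (P ⊓ Q) :=
  s0263_of_sys (fun n M => ⟨Inp.sys (I (lab M)) M (good_lab M)⟩) S M P Q hP hQ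

end Crest.Agent.R175.CatI_788
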