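import Crest.Prelude.Def_ArtinGroup
import Crest.Agent.R061.Parab
import Crest.Agent.Rz.Def_ArtinGroup

/-!
Row 175, Track D (base library for S0263), definitions and target statements (helper145).
-/

set_option autoImplicit false

namespace Crest.Agent.R175.DDef_145

open Crest.GroupTheory

universe u

/-- alternating list `s, t, s, ...` with `m` letters, starting with `s`. -/
def alt {S : Type u} : S → S → ℕ → List S
  | _, _, 0 => []
  | s, t, m + 1 => s :: alt t s m

@[simp] theorem alt_zero {S : Type u} (s t : S) : alt s t 0 = [] := rfl

theorem alt_succ {S : Type u} (s t : S) (m : ℕ) : alt s t (m + 1) = s :: alt t s m := rfl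

@[simp] theorem length_alt {S : Type u} (s t : S) (m : ℕ) : (alt s t m).length = m := by
  induction m generalizing s t with
  | zero => rfl
  | succ m ih => simp [alt_succ, ih]

theorem artinAltWord_eq {S : Type u} (s t : S) (m : ℕ) :
    artinAltWord s t m = ((alt s t m).map FreeGroup.of).prod := by
  induction m generalizing s t with
  | zero => rfl
  | succ m ih => simp [artinAltWord, alt_succ, ih]

/-- A map `f : S → N` to a monoid satisfies the braid relations of `M`. -/
def Braid {S : Type u} {N : Type*} [Monoid N] (M : CoxeterMatrix S) (f : S → N) : Prop :=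
  ∀ s t : S, M s t ≠ 0 → ((alt s t (M s t)).map f).prod = ((alt t s (M s t)).map f).prod

theorem prod_map_alt {S : Type u} {G : Type*} [Group G] (f : S → G) (s t : S) (m : ℕ) :
    FreeGroup.lift f (artinAltWord s t m) = ((alt s t m).map f).prod := by
  rw [artinAltWord_eq, map_list_prod, List.map_map]
  congr 1
  apply List.map_congr_left
  intro a _
  simp

/-- The generators of the Artin group satisfy the braid relations. -/
theorem braid_artinGen {S : Type u} (M : CoxeterMatrix S) : Braid M (artinGen M) := by
  intro s t _
  have h : (PresentedGroup.mk (artinRelators M)) (artinAltWord s t (M.M s t) *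
      (artinAltWord t s (M.M s t))⁻¹) = 1 :=
    PresentedGroup.one_of_mem (rels := artinRelators M) ⟨(s, t), rfl⟩
  rw [map_mul, map_inv, mul_inv_eq_one] at h
  have h2 : ∀ (a b : S) (m : ℕ), (PresentedGroup.mk (artinRelators M)) (artinAltWord a b m) =
      ((alt a b m).map (artinGen M)).prod := by
    intro a b m
    rw [artinAltWord_eq, map_list_prod, List.map_map]
    rfl
  rw [h2, h2] at h
  exact h

/-- Universal property of the Artin group. -/
noncomputable def artinLift {S : Type u} {G : Type*} [Group G] (M : CoxeterMatrix S) (f : S → G)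
    (hf : Braid M f) : ArtinGroup M →* G :=
  PresentedGroup.toGroup (f := f) (rels := artinRelators M) (by
    rintro _ ⟨⟨s, t⟩, rfl⟩
    rw [map_mul, map_inv, prod_map_alt, prod_map_alt, mul_inv_eq_one]
    by_cases h0 : M.M s t = 0
    · simp only [h0]; rfl
    · exact hf s t h0)

@[simp] theorem artinLift_gen {S : Type u} {G : Type*} [Group G] (M : CoxeterMatrix S) (f : S → G)
    (hf : Braid M f) (s : S) : artinLift M f hf (artinGen M s) = f s :=
  PresentedGroup.toGroup.of _


/-- restriction of a Coxeter matrix to a subset of the generators. -/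
def MX {S : Type u} (M : CoxeterMatrix S) (X : Set S) : CoxeterMatrix X where
  M := Matrix.of fun i j => M (i : S) (j : S)
  isSymm := by
    ext i j
    simp only [Matrix.transpose_apply, Matrix.of_apply]
    exact M.symmetric _ _
  diagonal := fun i => by simp
  off_diagonal := fun i j h => by
    simp only [Matrix.of_apply]
    exact M.off_diagonal _ _ (fun h' => h (Subtype.ext h'))

@[simp] theorem MX_apply {S : Type u} (M : CoxeterMatrix S) (X : Set S) (i j : X) :
    MX M X i j = M (i : S) (j : S) := rfl

theorem map_alt {S T : Type*} (f : S → T) (s t : S) (m : ℕ) :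
    (alt s t m).map f = alt (f s) (f t) m := by
  induction m generalizing s t with
  | zero => rfl
  | succ m ih => simp [alt_succ, ih]

/-- The natural map `A_X → A_S` of abstract Artin groups. -/
noncomputable def incl {S : Type u} (M : CoxeterMatrix S) (X : Set S) :
    ArtinGroup (MX M X) →* ArtinGroup M :=
  artinLift (MX M X) (fun x => artinGen M (x : S)) (by
    intro s t h
    have := braid_artinGen M (s : S) (t : S) h
    rw [← map_alt Subtype.val, ← map_alt Subtype.val, List.map_map, List.map_map] at this
    exact this)

@[simp] theorem incl_gen {S : Type u} (M : CoxeterMatrix S) (X : Set S) (x : X) :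
    incl M X (artinGen (MX M X) x) = artinGen M (x : S) := artinLift_gen _ _ _ _

/-- conjugate of a subgroup, `g H g⁻¹`. -/
def cj {G : Type*} [Group G] (g : G) (H : Subgroup G) : Subgroup G :=
  H.map (MulAut.conj g).toMonoidHom

/-- The relative intersection property: every `A_X ∩ g A_Y g⁻¹` is `h A_Z h⁻¹` with `h ∈ A_X`,
`Z ⊆ X`. -/
def RelInt {S : Type u} (M : CoxeterMatrix S) : Prop :=
  ∀ (X Y : Set S) (g : ArtinGroup M), ∃ h ∈ stdParabolic M X, ∃ Z ⊆ X,
    stdParabolic M X ⊓ cj g (stdParabolic M Y) = cj h (stdParabolic M Z)

theorem mem_cj {G : Type*} [Group G] {g : G} {H : Subgroup G} {x : G} :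
    x ∈ cj g H ↔ g⁻¹ * x * g ∈ H := by
  constructor
  · rintro ⟨y, hy, rfl⟩
    have : g⁻¹ * (MulAut.conj g).toMonoidHom y * g = y := by
      simp [MulAut.conj_apply, mul_assoc]
    rw [this]; exact hy
  · intro h
    exact ⟨_, h, by simp [MulAut.conj_apply, mul_assoc]⟩






/-! ### Targets of Track D -/






/-- transport of the relative property along a bijection of the index types. -/
def Transp.{v} : Prop := ∀ (S : Type v) (S' : Type) (e : S ≃ S') (M : CoxeterMatrix S),
  RelInt (M.reindex e) → RelInt M

end Crest.Agent.R175.DDef_145
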