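import Crest.Agent.R175.Fm3_27

/-!
Row 175 (S0263), labels > 3 (helper180): `F`-stability of the extremal predicates ((8'.4) of #2565).

* `Lf` (length derivation), `Eul X p`: `p ∈ Cs`, even, `D p = L d - d` (Euler operator, #2949/#2950);
* `Ex X Y`: every cocycle of `Cs X Y` is exact (`⇐ hT X Y = 0`);
* `Add P W`: `W` is a homotopy retract of a finite direct sum of shifts of objects in `P`
  (closed maps of sign `±1`); transitivity, `Fct` (functors of TOb's);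
* `CbW X p s μ η`: the functional `η` on `V_s` defines an eigenfunctional of the Euler operator on
  `H(V_s, d₀)` killing the image of `b_s`; `KaW`: dually; naturality `CbW.comp`, `KaW.map`;
* `F`-transfer `CbW.hom`, `KaW.hom`, result `cb_stable`, `ka_stable`.
-/

set_option autoImplicit false
set_option linter.unusedSectionVars false

open CategoryTheory
open scoped Classical

namespace Crest.Agent.R175.FmD_180

open Crest.Agent.R175.PTA Crest.Agent.R175.Fm_27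

universe u v

section base

variable {T : Type u} {G : MG T} {k : Type v} [Field k] [Fintype T]

/-- length derivation -/
def Lf {X Y : Gob G k} (f : X ⟶ Y) : X ⟶ Y :=
  mkH (fun _ => 0) (fun _ => 0) (fun _ _ a => c1 f a) (fun t => ci f t) (fun t => cj f t)
    (fun t => (2 : k) • c2 f t)

section Lf
variable {X Y Z : Gob G k}
@[simp] theorem c0_Lf (f : X ⟶ Y) (t : T) : c0 (Lf f) t = 0 := rfl
@[simp] theorem cW_Lf (f : X ⟶ Y) (t : T) : cW (Lf f) t = 0 := rfl
@[simp] theorem c1_Lf (f : X ⟶ Y) {s t : T} (a : G.E s t) : c1 (Lf f) a = c1 f a := rfl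
@[simp] theorem ci_Lf (f : X ⟶ Y) (t : T) : ci (Lf f) t = ci f t := rfl
@[simp] theorem cj_Lf (f : X ⟶ Y) (t : T) : cj (Lf f) t = cj f t := rfl
@[simp] theorem c2_Lf (f : X ⟶ Y) (t : T) : c2 (Lf f) t = (2 : k) • c2 f t := rfl


theorem Lf_smul (c : k) (f : X ⟶ Y) : Lf (c • f) = c • Lf f := by
  apply hm_ext <;> intros <;> simp [smul_comm c]

theorem Lf_comp (f : X ⟶ Y) (g : Y ⟶ Z) : Lf (f ≫ g) = Lf f ≫ g + f ≫ Lf g := by
  apply hm_ext
  · intro t; simp
  · intro t; simp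
  · intro s t a; simp [add_comm]
  · intro t; simp [add_comm]
  · intro t; simp [add_comm]
  · intro t
    simp only [c2_Lf, c2_comp, c2_add, c0_Lf, c1_Lf, ci_Lf, cj_Lf, LinearMap.comp_zero,
      LinearMap.zero_comp, LinearMap.comp_smul, LinearMap.smul_comp, smul_add]
    simp only [two_smul]
    abel

theorem Lf_bar (f : X ⟶ Y) : Lf (bar f) = bar (Lf f) := by
  apply hm_ext <;> intros <;> simp [LinearMap.comp_smul, LinearMap.smul_comp]

end Lf

/-- `p` is an Euler operator of `X` -/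
structure Eul (X : TOb G k) (p : X.X ⟶ X.X) : Prop where
  cs : p ∈ Cs X.X X.X
  even : bar p = p
  eq : D X X p = Lf X.d - X.d

/-- closed maps of sign `ε` -/
structure Cl (X Y : TOb G k) (ε : k) (f : X.X ⟶ Y.X) : Prop where
  sq : ε * ε = 1
  bar : bar f = ε • f
  D : D X Y f = 0

namespace Cl

variable {X Y Z : TOb G k} {ε δ : k} {f : X.X ⟶ Y.X} {g : Y.X ⟶ Z.X}

theorem eq (h : Cl X Y ε f) : f ≫ Y.d = ε • (X.d ≫ f) := by
  have := h.D
  rw [D_apply, h.bar, Linear.comp_smul, sub_eq_zero] at this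
  exact this

theorem comp (h : Cl X Y ε f) (h' : Cl Y Z δ g) : Cl X Z (ε * δ) (f ≫ g) where
  sq := by
    calc ε * δ * (ε * δ) = (ε * ε) * (δ * δ) := by ring
      _ = 1 := by rw [h.sq, h'.sq, one_mul]
  bar := by rw [bar_comp, h.bar, h'.bar, Linear.smul_comp, Linear.comp_smul, smul_smul]
  D := by rw [D_comp, h.D, h'.D, Limits.comp_zero, Limits.zero_comp, add_zero]

theorem one (X : TOb G k) : Cl X X (1 : k) (𝟙 X.X) where
  sq := by ring
  bar := by simp
  D := D_id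

theorem ne {h : Cl X Y ε f} : ε ≠ 0 := by
  rintro rfl
  have := h.sq
  simp at this

end Cl

theorem D_comp_closed {X Y Z : TOb G k} {ε : k} (f : X.X ⟶ Y.X) {g : Y.X ⟶ Z.X}
    (hg : Cl Y Z ε g) : D X Z (f ≫ g) = ε • (D X Y f ≫ g) := by
  rw [D_comp, hg.D, Limits.comp_zero, zero_add, hg.bar, Linear.comp_smul]

theorem D_closed_comp {X Y Z : TOb G k} {ε : k} {f : X.X ⟶ Y.X} (hf : Cl X Y ε f)
    (g : Y.X ⟶ Z.X) : D X Z (f ≫ g) = f ≫ D Y Z g := by
  rw [D_comp, hf.D, Limits.zero_comp, add_zero]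

/-- the basic identity: `θ = f q - p f + L f` is closed -/
theorem theta_closed {X Y : TOb G k} {ε : k} {f : X.X ⟶ Y.X} (hf : Cl X Y ε f)
    {p : X.X ⟶ X.X} {q : Y.X ⟶ Y.X} (hp : Eul X p) (hq : Eul Y q) :
    D X Y (f ≫ q - p ≫ f + Lf f) = 0 := by
  have e1 : D X Y (f ≫ q) = f ≫ (Lf Y.d - Y.d) := by rw [D_closed_comp hf, hq.eq]
  have e2 : D X Y (p ≫ f) = ε • ((Lf X.d - X.d) ≫ f) := by rw [D_comp_closed _ hf, hp.eq]
  have e3 : Lf (f ≫ Y.d) = Lf (ε • (X.d ≫ f)) := by rw [hf.eq]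
  rw [Lf_comp, Lf_smul, Lf_comp] at e3
  have e4 : D X Y (Lf f) = Lf f ≫ Y.d - ε • (X.d ≫ Lf f) := by
    rw [D_apply, ← Lf_bar, hf.bar, Lf_smul, Linear.comp_smul]
  have e5 := hf.eq
  rw [map_add, map_sub, e1, e2, e4]
  have e6 : Lf f ≫ Y.d = ε • (Lf X.d ≫ f + X.d ≫ Lf f) - f ≫ Lf Y.d := by
    rw [← e3]; abel
  rw [e6]
  simp only [Preadditive.comp_sub, Preadditive.sub_comp, smul_sub, smul_add]
  rw [e5]
  abel

theorem theta_mem {X Y : TOb G k} (f : X.X ⟶ Y.X)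
    {p : X.X ⟶ X.X} {q : Y.X ⟶ Y.X} (hp : Eul X p) (hq : Eul Y q) :
    f ≫ q - p ≫ f + Lf f ∈ Cs X.X Y.X := by
  intro t
  have h1 := hp.cs t
  have h2 := hq.cs t
  simp [h1, h2]

/-- every cocycle of `Cs X Y` is exact -/
def Ex (X Y : TOb G k) : Prop :=
  ∀ f : X.X ⟶ Y.X, f ∈ Cs X.X Y.X → D X Y f = 0 → ∃ h : X.X ⟶ Y.X, D X Y h = f

theorem ex_of_hT {X Y : TOb G k} (h : hT X Y = 0) : Ex X Y := by
  intro f hf hD
  have h1 := hd_add_range (D := DC X Y) (fun x => DC_DC x)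
  have h2 : hd (DC X Y) = 0 := h
  rw [h2, zero_add] at h1
  have h3 : LinearMap.range (DC X Y) = LinearMap.ker (DC X Y) :=
    Submodule.eq_of_le_of_finrank_eq (range_le_ker fun x => DC_DC x) h1
  have h4 : (⟨f, hf⟩ : Cs X.X Y.X) ∈ LinearMap.ker (DC X Y) := by
    rw [LinearMap.mem_ker]
    exact Subtype.ext hD
  rw [← h3] at h4
  obtain ⟨g, hg⟩ := h4
  exact ⟨g.1, congrArg Subtype.val hg⟩

/-! ### the additive closure -/

/-- `W` is a homotopy retract of a finite sum of shifts of objects in `P` -/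
structure AddD (P : TOb G k → Prop) (W : TOb G k) where
  ι : Type
  fin : Fintype ι
  X : ι → TOb G k
  f : ∀ x, W.X ⟶ (X x).X
  g : ∀ x, (X x).X ⟶ W.X
  ε : ι → k
  s : W.X ⟶ W.X
  hP : ∀ x, P (X x)
  hf : ∀ x, Cl W (X x) (ε x) (f x)
  hg : ∀ x, Cl (X x) W (ε x) (g x)
  eq : ∑ x, f x ≫ g x = 𝟙 W.X + D W W s

attribute [instance] AddD.fin

/-- `W ∈ add(P)` -/
def Add (P : TOb G k → Prop) (W : TOb G k) : Prop := Nonempty (AddD P W)

theorem Add.of {P : TOb G k → Prop} {W : TOb G k} (h : P W) : Add P W :=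
  ⟨{ ι := Unit, fin := inferInstance, X := fun _ => W, f := fun _ => 𝟙 _, g := fun _ => 𝟙 _,
     ε := fun _ => 1, s := 0, hP := fun _ => h, hf := fun _ => Cl.one W, hg := fun _ => Cl.one W,
     eq := by simp }⟩

theorem Add.mono {P Q : TOb G k → Prop} {W : TOb G k} (h : Add P W) (hPQ : ∀ X, P X → Q X) :
    Add Q W := by
  obtain ⟨A⟩ := h
  exact ⟨{ A with hP := fun x => hPQ _ (A.hP x) }⟩

theorem Add.trans {P Q : TOb G k → Prop} {W : TOb G k} (h : Add P W)
    (hPQ : ∀ X, P X → Add Q X) : Add Q W := by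
  obtain ⟨A⟩ := h
  have hB : ∀ x, Nonempty (AddD Q (A.X x)) := fun x => hPQ _ (A.hP x)
  let B : ∀ x, AddD Q (A.X x) := fun x => (hB x).some
  refine ⟨{
    ι := Σ x, (B x).ι
    fin := inferInstance
    X := fun y => (B y.1).X y.2
    f := fun y => A.f y.1 ≫ (B y.1).f y.2
    g := fun y => (B y.1).g y.2 ≫ A.g y.1
    ε := fun y => A.ε y.1 * (B y.1).ε y.2
    s := A.s + ∑ x, A.ε x • (A.f x ≫ (B x).s ≫ A.g x)
    hP := fun y => (B y.1).hP y.2
    hf := fun y => (A.hf y.1).comp ((B y.1).hf y.2)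
    hg := fun y => by
      have := ((B y.1).hg y.2).comp (A.hg y.1)
      rwa [mul_comm] at this
    eq := ?_ }⟩
  rw [Fintype.sum_sigma]
  have h1 : ∀ x, ∑ y, (A.f x ≫ (B x).f y) ≫ (B x).g y ≫ A.g x
      = A.f x ≫ A.g x + D W W (A.ε x • (A.f x ≫ (B x).s ≫ A.g x)) := by
    intro x
    have h2 : ∀ y, (A.f x ≫ (B x).f y) ≫ (B x).g y ≫ A.g x
        = A.f x ≫ ((B x).f y ≫ (B x).g y) ≫ A.g x := by
      intro y; simp only [Category.assoc]
    simp only [h2]
    rw [← Preadditive.comp_sum, ← Preadditive.sum_comp, (B x).eq, map_smul]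
    rw [D_closed_comp (A.hf x), D_comp_closed _ (A.hg x)]
    rw [Linear.comp_smul, smul_smul, (A.hf x).sq, one_smul]
    simp [Preadditive.add_comp, Preadditive.comp_add]
  simp only [h1]
  rw [Finset.sum_add_distrib, A.eq, map_add, map_sum]
  abel

/-- homotopy equivalent objects -/
theorem Add.of_hiso {P : TOb G k → Prop} {W W' : TOb G k} (h : HIso W W') (hP : P W') :
    Add P W := by
  obtain ⟨e⟩ := h
  refine ⟨{
    ι := Unit
    fin := inferInstance
    X := fun _ => W'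
    f := fun _ => e.p
    g := fun _ => e.q
    ε := fun _ => 1
    s := e.s
    hP := fun _ => hP
    hf := fun _ => ?_
    hg := fun _ => ?_
    eq := ?_ }⟩
  · exact ⟨by ring, by rw [e.bp, one_smul], e.Dp⟩
  · exact ⟨by ring, by rw [e.bq, one_smul], e.Dq⟩
  · simpa using e.pq

theorem Add.hiso {P : TOb G k → Prop} {W W' : TOb G k} (h : Add P W') (hi : HIso W W') :
    Add P W :=
  Add.trans (Add.of_hiso (P := fun X => X = W') hi rfl) (by rintro _ rfl; exact h)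

theorem Ex.add_right {P : TOb G k → Prop} {Z W : TOb G k} (h : Add P W)
    (hZ : ∀ X, P X → Ex Z X) : Ex Z W := by
  obtain ⟨A⟩ := h
  intro c hc hD
  have h1 : ∀ x, ∃ m, D Z (A.X x) m = c ≫ A.f x := by
    intro x
    refine hZ _ (A.hP x) _ (Cs_comp_right hc _) ?_
    rw [D_comp_closed _ (A.hf x), hD, Limits.zero_comp, smul_zero]
  choose m hm using h1
  refine ⟨∑ x, A.ε x • (m x ≫ A.g x) - c ≫ A.s, ?_⟩
  have h2 : D Z W (c ≫ A.s) = c ≫ D W W A.s := by
    rw [D_comp, hD, Limits.zero_comp, add_zero]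
  have h3 : ∀ x, D Z W (A.ε x • (m x ≫ A.g x)) = c ≫ A.f x ≫ A.g x := by
    intro x
    rw [map_smul, D_comp_closed _ (A.hg x), smul_smul, (A.hf x).sq, one_smul, hm x,
      Category.assoc]
  rw [map_sub, map_sum, h2]
  simp only [h3]
  rw [← Preadditive.comp_sum, A.eq, Preadditive.comp_add, Category.comp_id]
  abel

theorem Ex.add_left {P : TOb G k → Prop} {Z W : TOb G k} (h : Add P W)
    (hZ : ∀ X, P X → Ex X Z) : Ex W Z := by
  obtain ⟨A⟩ := h
  intro c hc hD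
  have h1 : ∀ x, ∃ m, D (A.X x) Z m = A.g x ≫ c := by
    intro x
    refine hZ _ (A.hP x) _ (Cs_comp_left _ hc) ?_
    rw [D_closed_comp (A.hg x), hD, Limits.comp_zero]
  choose m hm using h1
  refine ⟨∑ x, A.f x ≫ m x - A.s ≫ bar c, ?_⟩
  have h2 : D W Z (A.s ≫ bar c) = D W W A.s ≫ c := by
    rw [D_comp]
    have : D W Z (bar c) = 0 := by
      have := bar_D c
      rw [hD, bar_zero] at this
      exact (neg_eq_zero.mp this.symm)
    rw [this, Limits.comp_zero, zero_add, bar_bar]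
  have h3 : ∀ x, D W Z (A.f x ≫ m x) = (A.f x ≫ A.g x) ≫ c := by
    intro x
    rw [D_closed_comp (A.hf x), hm x, Category.assoc]
  rw [map_sub, map_sum, h2]
  simp only [h3]
  rw [← Preadditive.sum_comp, A.eq, Preadditive.add_comp, Category.id_comp]
  abel

/-! ### the extremal predicates -/

/-- `η` defines an eigenfunctional on `H(V_s, d₀)` killing `im b_s` -/
structure CbW (X : TOb G k) (p : X.X ⟶ X.X) (s : T) (μ : k) (η : X.X.V s →ₗ[k] k) : Prop where
  bd : ∀ v, η (c0 X.d s v) = 0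
  B : ∀ t (a : G.E t s) (x : X.X.V t), c0 X.d t x = 0 → η (c1 X.d a x) = 0
  i : ∀ w, η (ci X.d s w) = 0
  eig : ∀ v, c0 X.d s v = 0 → η (c0 p s v) = μ * η v

/-- some nonzero `η` -/
def Cb (X : TOb G k) (p : X.X ⟶ X.X) (s : T) (μ : k) : Prop :=
  ∃ η : X.X.V s →ₗ[k] k, CbW X p s μ η ∧ ∃ v, c0 X.d s v = 0 ∧ η v ≠ 0

/-- `v` is a cycle, an eigenvector of `H(p)`, killed by `a_s` on homology -/
structure KaW (X : TOb G k) (p : X.X ⟶ X.X) (s : T) (μ : k) (v : X.X.V s) : Prop where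
  cyc : c0 X.d s v = 0
  B : ∀ t (a : G.E s t), ∃ y, c0 X.d t y = c1 X.d a v
  j : cj X.d s v = 0
  eig : ∃ y, c0 X.d s y = c0 p s v - μ • v

/-- some `v` which is not a boundary -/
def Ka (X : TOb G k) (p : X.X ⟶ X.X) (s : T) (μ : k) : Prop :=
  ∃ v, KaW X p s μ v ∧ ¬ ∃ y, c0 X.d s y = v

section nat

variable {X Y : TOb G k} {ε : k} {g : X.X ⟶ Y.X}

theorem Cl.c0_eq (h : Cl X Y ε g) (s : T) (v : X.X.V s) :
    c0 Y.d s (c0 g s v) = ε • c0 g s (c0 X.d s v) := by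
  have := congrArg (fun f => c0 f s v) h.eq
  simpa using this

theorem Cl.c1_eq (h : Cl X Y ε g) {s t : T} (a : G.E s t) (v : X.X.V s) :
    c1 Y.d a (c0 g s v) + c0 Y.d t (c1 g a v) =
      ε • (c1 g a (c0 X.d s v) + c0 g t (c1 X.d a v)) := by
  have := congrArg (fun f => c1 f a v) h.eq
  simpa using this

theorem Cl.ci_eq (h : Cl X Y ε g) (t : T) (w : X.X.W t) :
    ci Y.d t (cW g t w) + c0 Y.d t (ci g t w) = ε • c0 g t (ci X.d t w) := by
  have := congrArg (fun f => ci f t w) h.eq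
  simpa using this

theorem Cl.cj_eq (h : Cl X Y ε g) (t : T) (v : X.X.V t) :
    cj Y.d t (c0 g t v) = ε • (cj g t (c0 X.d t v) + cW g t (cj X.d t v)) := by
  have := congrArg (fun f => cj f t v) h.eq
  simpa using this

theorem Cl.cycle (h : Cl X Y ε g) {s : T} {v : X.X.V s} (hv : c0 X.d s v = 0) :
    c0 Y.d s (c0 g s v) = 0 := by
  rw [h.c0_eq, hv, map_zero, smul_zero]

/-- naturality of the Euler operator on cycles -/
theorem nat_cycle (h : Cl X Y ε g) {p : X.X ⟶ X.X} {q : Y.X ⟶ Y.X} (hp : Eul X p)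
    (hq : Eul Y q) (hE : Ex X Y) {s : T} {v : X.X.V s} (hv : c0 X.d s v = 0) :
    ∃ y, c0 Y.d s y = c0 q s (c0 g s v) - c0 g s (c0 p s v) := by
  obtain ⟨K, hK⟩ := hE _ (theta_mem g hp hq) (theta_closed h hp hq)
  refine ⟨c0 K s v, ?_⟩
  have := congrArg (fun f => c0 f s v) hK
  simp only [D_apply, c0_sub, c0_comp, c0_add, c0_Lf, LinearMap.sub_apply,
    LinearMap.comp_apply, add_zero, hv, map_zero, sub_zero] at this
  exact this

theorem CbW.comp (h : Cl X Y ε g) {p : X.X ⟶ X.X} {q : Y.X ⟶ Y.X} (hp : Eul X p)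
    (hq : Eul Y q) (hE : Ex X Y) {s : T} {μ : k} {η : Y.X.V s →ₗ[k] k} (hη : CbW Y q s μ η) :
    CbW X p s μ (η ∘ₗ c0 g s) where
  bd v := by
    have h1 := hη.bd (c0 g s v)
    rw [h.c0_eq, map_smul, smul_eq_mul, mul_eq_zero] at h1
    rcases h1 with h1 | h1
    · have := h.sq; rw [h1] at this; simp at this
    · exact h1
  B t a x hx := by
    have h1 := congrArg η (h.c1_eq a x)
    rw [map_add, hη.bd, add_zero, hη.B t a _ (h.cycle hx), hx, map_zero, zero_add, map_smul,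
      smul_eq_mul, eq_comm, mul_eq_zero] at h1
    rcases h1 with h1 | h1
    · have := h.sq; rw [h1] at this; simp at this
    · exact h1
  i w := by
    have h1 := congrArg η (h.ci_eq s w)
    rw [map_add, hη.bd, add_zero, hη.i, map_smul, smul_eq_mul, eq_comm, mul_eq_zero] at h1
    rcases h1 with h1 | h1
    · have := h.sq; rw [h1] at this; simp at this
    · exact h1
  eig v hv := by
    obtain ⟨y, hy⟩ := nat_cycle h hp hq hE hv
    have h1 := congrArg η hy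
    rw [hη.bd, map_sub, hη.eig _ (h.cycle hv)] at h1
    rw [LinearMap.comp_apply, LinearMap.comp_apply]
    linear_combination h1

theorem KaW.map (h : Cl X Y ε g) {p : X.X ⟶ X.X} {q : Y.X ⟶ Y.X} (hp : Eul X p)
    (hq : Eul Y q) (hE : Ex X Y) {s : T} {μ : k} {v : X.X.V s} (hv : KaW X p s μ v) :
    KaW Y q s μ (c0 g s v) where
  cyc := h.cycle hv.cyc
  B t a := by
    obtain ⟨y, hy⟩ := hv.B t a
    have h1 := h.c1_eq a v
    rw [hv.cyc, map_zero, zero_add] at h1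
    refine ⟨c0 g t y - c1 g a v, ?_⟩
    rw [map_sub, h.c0_eq, hy, ← h1]
    abel
  j := by
    rw [h.cj_eq, hv.cyc, hv.j]; simp
  eig := by
    obtain ⟨y, hy⟩ := nat_cycle h hp hq hE hv.cyc
    obtain ⟨z, hz⟩ := hv.eig
    refine ⟨y + ε • c0 g s z, ?_⟩
    rw [map_add, map_smul, h.c0_eq, hy, hz, smul_smul, h.sq, one_smul, map_sub, map_smul]
    abel

end nat

/-- a summand inherits `Cb` -/
theorem Cb.of_add {P : TOb G k → Prop} {W : TOb G k} (h : Add P W)
    {q : W.X ⟶ W.X} (hq : Eul W q) (hE : ∀ X, P X → Ex X W)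
    {s : T} {μ : k} (hc : Cb W q s μ) (p : ∀ X : TOb G k, X.X ⟶ X.X)
    (hp : ∀ X, P X → Eul X (p X)) : ∃ X, P X ∧ Cb X (p X) s μ := by
  obtain ⟨A⟩ := h
  obtain ⟨η, hη, v, hv, hne⟩ := hc
  by_contra hcon
  push Not at hcon
  apply hne
  have h1 := congrArg (fun f => η (c0 f s v)) A.eq
  have h2 : ∀ x, η (c0 (A.f x ≫ A.g x) s v) = 0 := by
    intro x
    by_contra hx
    refine hcon (A.X x) (A.hP x) ⟨η ∘ₗ c0 (A.g x) s,
      CbW.comp (A.hg x) (hp _ (A.hP x)) hq (hE _ (A.hP x)) hη, c0 (A.f x) s v,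
      (A.hf x).cycle hv, ?_⟩
    exact hx
  have h3 : c0 (∑ x, A.f x ≫ A.g x) s v = ∑ x, c0 (A.f x ≫ A.g x) s v := by
    have : ∀ S : Finset A.ι, c0 (∑ x ∈ S, A.f x ≫ A.g x) s v
        = ∑ x ∈ S, c0 (A.f x ≫ A.g x) s v := by
      intro S
      induction S using Finset.induction_on with
      | empty => simp
      | insert a S ha ih => rw [Finset.sum_insert ha, Finset.sum_insert ha, c0_add,
          LinearMap.add_apply, ih]
    exact this _
  rw [h3, map_sum, Finset.sum_eq_zero (fun x _ => h2 x)] at h1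
  have h4 : η (c0 (D W W A.s) s v) = 0 := by
    rw [D_apply, c0_sub, c0_comp, c0_comp, LinearMap.sub_apply, LinearMap.comp_apply,
      LinearMap.comp_apply, hv, map_zero, sub_zero, hη.bd]
  rw [c0_add, LinearMap.add_apply, map_add, h4, add_zero] at h1
  simpa using h1.symm

/-- a summand inherits `Ka` -/
theorem Ka.of_add {P : TOb G k → Prop} {W : TOb G k} (h : Add P W)
    {q : W.X ⟶ W.X} (hq : Eul W q) (hE : ∀ X, P X → Ex W X)
    {s : T} {μ : k} (hc : Ka W q s μ) (p : ∀ X : TOb G k, X.X ⟶ X.X)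
    (hp : ∀ X, P X → Eul X (p X)) : ∃ X, P X ∧ Ka X (p X) s μ := by
  obtain ⟨A⟩ := h
  obtain ⟨v, hv, hne⟩ := hc
  by_contra hcon
  push Not at hcon
  apply hne
  have h2 : ∀ x, ∃ y, c0 (A.X x).d s y = c0 (A.f x) s v := by
    intro x
    by_contra hx
    exact hcon (A.X x) (A.hP x) ⟨c0 (A.f x) s v,
      KaW.map (A.hf x) hq (hp _ (A.hP x)) (hE _ (A.hP x)) hv, hx⟩
  choose y hy using h2
  have h1 := congrArg (fun f => c0 f s v) A.eq
  have h3 : c0 (∑ x, A.f x ≫ A.g x) s v = ∑ x, c0 (A.f x ≫ A.g x) s v := by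
    have : ∀ S : Finset A.ι, c0 (∑ x ∈ S, A.f x ≫ A.g x) s v
        = ∑ x ∈ S, c0 (A.f x ≫ A.g x) s v := by
      intro S
      induction S using Finset.induction_on with
      | empty => simp
      | insert a S ha ih => rw [Finset.sum_insert ha, Finset.sum_insert ha, c0_add,
          LinearMap.add_apply, ih]
    exact this _
  rw [h3, c0_add, LinearMap.add_apply, D_apply, c0_sub, c0_comp, c0_comp, LinearMap.sub_apply,
    LinearMap.comp_apply, LinearMap.comp_apply, hv.cyc, map_zero, sub_zero] at h1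
  refine ⟨∑ x, A.ε x • c0 (A.g x) s (y x) - c0 A.s s v, ?_⟩
  rw [map_sub, map_sum]
  have h4 : ∀ x, c0 W.d s (A.ε x • c0 (A.g x) s (y x)) = c0 (A.f x ≫ A.g x) s v := by
    intro x
    rw [map_smul, (A.hg x).c0_eq, smul_smul, (A.hg x).sq, one_smul, hy x]
    rfl
  simp only [h4]
  rw [h1]
  simp

end base

/-! ### functors on TOb's -/

section fct

variable {T : Type u} {G : MG T} {k : Type v} [Field k] [Fintype T]
  {T' : Type u} {G' : MG T'} [Fintype T']

/-- additive functors of differential objects compatible with parity -/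
structure Fct (G : MG T) (G' : MG T') (k : Type v) [Field k] where
  ob : TOb G k → TOb G' k
  map : ∀ {X Y : TOb G k}, (X.X ⟶ Y.X) → ((ob X).X ⟶ (ob Y).X)
  map_id : ∀ X, map (𝟙 (X : TOb G k).X) = 𝟙 (ob X).X
  map_comp : ∀ {X Y Z : TOb G k} (f : X.X ⟶ Y.X) (g : Y.X ⟶ Z.X),
    map (X := X) (Y := Z) (f ≫ g) = map (X := X) (Y := Y) f ≫ map (X := Y) (Y := Z) g
  map_add : ∀ {X Y : TOb G k} (f g : X.X ⟶ Y.X),
    map (X := X) (Y := Y) (f + g) = map (X := X) (Y := Y) f + map (X := X) (Y := Y) g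
  map_smul : ∀ {X Y : TOb G k} (c : k) (f : X.X ⟶ Y.X),
    map (X := X) (Y := Y) (c • f) = c • map (X := X) (Y := Y) f
  map_bar : ∀ {X Y : TOb G k} (f : X.X ⟶ Y.X),
    map (X := X) (Y := Y) (bar f) = bar (map (X := X) (Y := Y) f)
  map_D : ∀ {X Y : TOb G k} (f : X.X ⟶ Y.X),
    map (X := X) (Y := Y) (D X Y f) = D (ob X) (ob Y) (map (X := X) (Y := Y) f)

namespace Fct

variable (F : Fct G G' k)

/-- linear version -/
def L (X Y : TOb G k) : (X.X ⟶ Y.X) →ₗ[k] ((F.ob X).X ⟶ (F.ob Y).X) where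
  toFun := F.map (X := X) (Y := Y)
  map_add' := F.map_add (X := X) (Y := Y)
  map_smul' := F.map_smul (X := X) (Y := Y)

theorem map_sum {X Y : TOb G k} {ι : Type*} (S : Finset ι) (f : ι → (X.X ⟶ Y.X)) :
    F.map (X := X) (Y := Y) (∑ x ∈ S, f x) = ∑ x ∈ S, F.map (X := X) (Y := Y) (f x) :=
  _root_.map_sum (F.L X Y) f S

theorem cl {X Y : TOb G k} {ε : k} {f : X.X ⟶ Y.X} (h : Cl X Y ε f) :
    Cl (F.ob X) (F.ob Y) ε (F.map (X := X) (Y := Y) f) where
  sq := h.sq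
  bar := by rw [← F.map_bar, h.bar, F.map_smul]
  D := by
    rw [← F.map_D, h.D]
    exact (F.L X Y).map_zero

theorem add {P : TOb G k → Prop} {W : TOb G k} (h : Add P W) :
    Add (fun Z => ∃ X, P X ∧ Z = F.ob X) (F.ob W) := by
  obtain ⟨A⟩ := h
  refine ⟨{
    ι := A.ι
    fin := A.fin
    X := fun x => F.ob (A.X x)
    f := fun x => F.map (X := W) (Y := A.X x) (A.f x)
    g := fun x => F.map (X := A.X x) (Y := W) (A.g x)
    ε := A.ε
    s := F.map (X := W) (Y := W) A.s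
    hP := fun x => ⟨_, A.hP x, rfl⟩
    hf := fun x => F.cl (A.hf x)
    hg := fun x => F.cl (A.hg x)
    eq := ?_ }⟩
  rw [← F.map_id, ← F.map_D, ← F.map_add, ← A.eq, F.map_sum]
  refine Finset.sum_congr rfl fun x _ => ?_
  rw [F.map_comp]

end Fct

end fct

/-! ### transfer through `F` -/

section F

variable {T : Type} {G : MG T} {k : Type v} [Field k] [Fintype T] (Φ : FDat G k)

theorem hom_Lf {X Y : Gob G k} (f : X ⟶ Y) : Φ.hom (Lf f) = Lf (Φ.hom f) := by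
  apply hm_ext
  · intro a'
    rw [FDat.c0_hom, c0_Lf, ← dg_zero]
    rfl
  · intro a'
    rw [FDat.cW_hom, cW_Lf, ← dg_zero]
    rfl
  · intro a' b' e'
    rw [FDat.c1_hom, c1_Lf, FDat.c1_hom]
    rfl
  · intro a'; rfl
  · intro a'; rfl
  · intro a'
    rw [FDat.c2_hom, c2_Lf, FDat.c2_hom, ← dg_smul]
    congr 1
    funext a
    rw [c2_Lf, smul_comm]

theorem Eul.hom {X : TOb G k} {p : X.X ⟶ X.X} (h : Eul X p) : Eul (Φ.tob X) (Φ.hom p) where
  cs := Φ.cW_hom_eq_zero h.cs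
  even := by rw [← Φ.hom_bar, h.even]
  eq := by
    change D (Φ.tob X) (Φ.tob X) (Φ.hom p) = Lf (Φ.hom X.d) - Φ.hom X.d
    rw [← Φ.hom_D, h.eq, Φ.hom_sub, hom_Lf]


theorem CbW.hom {X : TOb G k} {p : X.X ⟶ X.X} {a a' : T} (h : Φ.N a a') {μ : k}
    {η : X.X.V a →ₗ[k] k} (hη : CbW X p a μ η) :
    CbW (Φ.tob X) (Φ.hom p) a' μ (η ∘ₗ LinearMap.proj (⟨a, h⟩ : Φ.Nb a')) where
  bd v := by
    change η ((dg fun x : Φ.Nb a' => c0 X.d x.1) v ⟨a, h⟩) = 0
    rw [dg_apply]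
    exact hη.bd _
  B t' e' x hx := by
    change η ((mat fun (b : Φ.Nb a') (c : Φ.Nb t') =>
      ∑ e : G.E c.1 b.1, Φ.chi e e' • c1 X.d e) x ⟨a, h⟩) = 0
    rw [mat_apply, _root_.map_sum]
    refine Finset.sum_eq_zero fun c _ => ?_
    rw [LinearMap.sum_apply, _root_.map_sum]
    refine Finset.sum_eq_zero fun e _ => ?_
    rw [LinearMap.smul_apply, map_smul, hη.B c.1 e (x c), smul_zero]
    have := congrFun hx c
    change (dg fun x : Φ.Nb t' => c0 X.d x.1) x c = 0 at this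
    rwa [dg_apply] at this
  i w := by
    change η ((dg fun x : Φ.Nb a' => Φ.ρ x.1 a' • ci X.d x.1) w ⟨a, h⟩) = 0
    rw [dg_apply, LinearMap.smul_apply, map_smul, hη.i, smul_zero]
  eig v hv := by
    change η ((dg fun x : Φ.Nb a' => c0 p x.1) v ⟨a, h⟩) = μ * η (v ⟨a, h⟩)
    rw [dg_apply]
    refine hη.eig _ ?_
    have := congrFun hv ⟨a, h⟩
    change (dg fun x : Φ.Nb a' => c0 X.d x.1) v ⟨a, h⟩ = 0 at this
    rwa [dg_apply] at this

theorem Cb.hom {X : TOb G k} {p : X.X ⟶ X.X} {a a' : T} (h : Φ.N a a') {μ : k}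
    (hc : Cb X p a μ) : Cb (Φ.tob X) (Φ.hom p) a' μ := by
  obtain ⟨η, hη, v, hv, hne⟩ := hc
  refine ⟨_, hη.hom Φ h, Pi.single (⟨a, h⟩ : Φ.Nb a') v, ?_, ?_⟩
  · change (dg fun x : Φ.Nb a' => c0 X.d x.1) (Pi.single (⟨a, h⟩ : Φ.Nb a') v) = 0
    funext x
    rw [dg_apply]
    by_cases hx : x = ⟨a, h⟩
    · subst hx
      rw [Pi.single_eq_same]
      exact hv
    · rw [Pi.single_eq_of_ne hx, map_zero]
      rfl
  · rw [LinearMap.comp_apply, LinearMap.proj_apply, Pi.single_eq_same]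
    exact hne


end F

end Crest.Agent.R175.FmD_180
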