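import Crest.Agent.R175.GlU_505_Mg
import Crest.Agent.R175.KSb_303
import Crest.Agent.R175.PTM_450
import Crest.Agent.R175.Fm7_27

-- ▼ part R175/GluePT_445
section

/-!
# R175 / GLUE-PT: (P_T) from the analysis of an orthogonal family of minimisers

Objects: all T-framed objects `TOb G k`.  `IsSum X l`: `X` is homotopy equivalent to a direct sum of
the list `l` of minimal indecomposable objects.

`pt_of_D`: for positive real combinations `∑ c_i hT X (Y_i)` and `ht` with `C ht ≤ ∑ c_i lam (Y_i)`,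
the inequality `∑ ht_t lam_t X ≤ ∑ c_i hT X (Y_i)` holds for all `X` provided a family of pairwise
orthogonal single-framed indecomposable objects which is stable under the functors `F m` has a member
with `ht_t ≤ ∑ c_i hT X (Y_i)`.
-/

set_option autoImplicit false
set_option linter.unusedSectionVars false
set_option linter.unusedVariables false

open CategoryTheory Module LinearMap

namespace Crest.Agent.R175.GluePT_445

open Crest.Agent.R175.PTA Crest.Agent.R175.GlB_445 Crest.Agent.R175.GlC_445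
open Crest.Agent.R175.KS_303 (Dec)
open Crest.Agent.R175.KSb_303 (Z0 IsZ Ind Sm SumD)
open Crest.Agent.R175.MinB_445 Crest.Agent.R175.MinF_445

universe u v w w'

variable {T : Type u} {G : MG T} {k : Type v} [Field k] [Fintype T] [DecidableEq T]

/-- minimal indecomposable object -/
structure MInd (X : TOb G k) : Prop where
  mnl : ∀ t, c0 X.d t = 0
  ind : Ind X

/-- `X` is homotopy equivalent to the direct sum of the minimal indecomposable objects of `l` -/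
def IsSum (X : TOb G k) (l : List (TOb G k)) : Prop :=
  ∃ X' : TOb G k, HIso X X' ∧ Dec IsZ Ind Sm X' l ∧ ∀ Y ∈ l, ∀ t, c0 Y.d t = 0

theorem IsSum.mInd {X : TOb G k} {l : List (TOb G k)} (h : IsSum X l) : ∀ Y ∈ l, MInd Y := by
  obtain ⟨X', -, h2, h3⟩ := h
  exact fun Y hY => ⟨h3 Y hY, h2.all_ind Y hY⟩

theorem IsSum.lam_eq {X : TOb G k} {l : List (TOb G k)} (h : IsSum X l) :
    lam X = (l.map lam).sum := by
  obtain ⟨X', h1, h2, h3⟩ := h
  rw [← KSb_303.dec_lam h2]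
  exact funext h1.lam_eq

theorem IsSum.hT_right {X : TOb G k} {l : List (TOb G k)} (h : IsSum X l) (U : TOb G k) :
    hT U X = (l.map (hT U)).sum := by
  obtain ⟨X', h1, h2, h3⟩ := h
  rw [← KSb_303.dec_hT_right h2, h1.hT_right]

theorem IsSum.hT_left {X : TOb G k} {l : List (TOb G k)} (h : IsSum X l) (U : TOb G k) :
    hT X U = (l.map fun Y => hT Y U).sum := by
  obtain ⟨X', h1, h2, h3⟩ := h
  rw [← KSb_303.dec_hT_left h2, h1.hT_left]

theorem IsSum.hD_right {X : TOb G k} {l : List (TOb G k)} (h : IsSum X l) (U : TOb G k) :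
    hD U X = (l.map (hD U)).sum := by
  obtain ⟨X', h1, h2, h3⟩ := h
  rw [← KSb_303.dec_hD_right h2, h1.hD_right]

/-- existence of decompositions, from minimal models -/
theorem exists_sum (h2 : (2 : k) ≠ 0) (X : TOb G k) : ∃ l, IsSum X l := by
  obtain ⟨F, hF⟩ := PTA.exists_min h2 X
  obtain ⟨l, hl⟩ := KSb_303.exists_decF F
  refine ⟨l.map FObj.toTOb, F.toTOb, hF, KSb_303.dec_of_decF hl, ?_⟩
  intro Y hY t
  obtain ⟨F', -, rfl⟩ := List.mem_map.mp hY
  rfl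

/-- members of a strict decomposition are retracts -/
theorem retr_of_dec {X : TOb G k} {l : List (TOb G k)} (h : Dec IsZ Ind Sm X l) :
    ∀ Y ∈ l, ∃ i ∈ Z0 Y X, ∃ p ∈ Z0 X Y, i ≫ p = 𝟙 Y.X := by
  induction h with
  | zero h => intro Y hY; simp at hY
  | @ind X h =>
    intro Y hY
    rw [List.mem_singleton] at hY
    subst hY
    exact ⟨𝟙 _, KSb_303.id_mem _, 𝟙 _, KSb_303.id_mem _, Category.comp_id _⟩
  | @sum X A B l m h h1 h2 ih1 ih2 =>
    intro Y hY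
    obtain ⟨S⟩ := h
    rcases List.mem_append.1 hY with hY | hY
    · obtain ⟨i, hi, p, hp, hip⟩ := ih1 Y hY
      refine ⟨i ≫ S.i1, KSb_303.comp_mem hi S.hi1, S.p1 ≫ p, KSb_303.comp_mem S.hp1 hp, ?_⟩
      rw [Category.assoc, ← Category.assoc S.i1, S.i1p1, Category.id_comp, hip]
    · obtain ⟨i, hi, p, hp, hip⟩ := ih2 Y hY
      refine ⟨i ≫ S.i2, KSb_303.comp_mem hi S.hi2, S.p2 ≫ p, KSb_303.comp_mem S.hp2 hp, ?_⟩
      rw [Category.assoc, ← Category.assoc S.i2, S.i2p2, Category.id_comp, hip]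

theorem IsSum.retr {X : TOb G k} {l : List (TOb G k)} (h : IsSum X l) : ∀ Y ∈ l, Retr Y X := by
  obtain ⟨X', ⟨e⟩, h2, h3⟩ := h
  intro Y hY
  obtain ⟨i, hi, p, hp, hip⟩ := retr_of_dec h2 Y hY
  obtain ⟨bi, Di⟩ := hi
  obtain ⟨bp, Dp⟩ := hp
  refine ⟨i ≫ e.q, e.p ≫ p, i ≫ e.r ≫ p, ?_, ?_, ?_, ?_, ?_⟩
  · rw [bar_comp, bi, e.bq]
  · rw [bar_comp, bp, e.bp]
  · rw [D_comp_left Di, e.Dq, Limits.comp_zero]
  · rw [D_comp_left e.Dp, Dp, Limits.comp_zero]
  · rw [D_comp_left Di, D_comp_right _ Dp bp]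
    have h4 : (i ≫ e.q) ≫ e.p ≫ p = i ≫ (e.q ≫ e.p) ≫ p := by simp only [Category.assoc]
    rw [h4, e.qp, Preadditive.add_comp, Preadditive.comp_add, Category.id_comp, hip]

/-- a nonzero unframed minimal object is not orthogonal to itself -/
theorem hT_self {Q : TOb G k} (hQ : MInd Q) (hl : lam Q = 0) : hT Q Q ≠ 0 := by
  intro h
  have hW : ∀ t, Subsingleton (Q.X.W t) := fun t => finrank_zero_iff.1 (congrFun hl t)
  have h1 : LES_445.hh (DC Q Q) = 0 := h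
  rw [LES_445.hh_eq_zero DC_DC] at h1
  obtain ⟨y, hy⟩ := h1 ⟨𝟙 Q.X, fun t => by
    have := hW t
    ext x
    exact Subsingleton.elim _ _⟩ (Subtype.ext D_id)
  have h2 : D Q Q y.1 = 𝟙 Q.X := congrArg Subtype.val hy
  apply hQ.ind.1
  have hV : ∀ t, Subsingleton (Q.X.V t) := by
    intro t
    have h3 : c0 (D Q Q y.1) t = LinearMap.id := by rw [h2, c0_id]
    rw [D_apply, c0_sub, c0_comp, c0_comp, hQ.mnl t] at h3
    rw [LinearMap.zero_comp, LinearMap.comp_zero, sub_zero] at h3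
    refine ⟨fun a b => ?_⟩
    have ha : (0 : Q.X.V t →ₗ[k] Q.X.V t) a = a := LinearMap.congr_fun h3 a
    have hb : (0 : Q.X.V t →ₗ[k] Q.X.V t) b = b := LinearMap.congr_fun h3 b
    rw [← ha, ← hb]
    rfl
  apply hm_ext
  · intro t
    have := hV t
    ext x
    exact Subsingleton.elim _ _
  · intro t
    have := hW t
    ext x
    exact Subsingleton.elim _ _
  · intro s t a
    rfl
  · intro t
    rfl
  · intro t
    rfl
  · intro t
    rfl

/-- the data of (P_T) -/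
structure Data (G : MG T) (k : Type v) [Field k] (I : Type w) [Fintype I] (M : Type w') where
  c : I → ℝ
  Y : I → TOb G k
  gam : T → ℝ
  om : T → ℝ
  ht : T → ℝ
  c_pos : ∀ i, 0 < c i
  gam_pos : ∀ t, 0 < gam t
  om_pos : ∀ t, 0 < om t
  /-- `C gam = om` -/
  hgam : ∀ s, 2 * gam s - ∑ t, (Fintype.card (G.E s t) : ℝ) * gam t = om s
  /-- `C ht ≤ lam_Y` -/
  hlam : ∀ s, 2 * ht s - ∑ t, (Fintype.card (G.E s t) : ℝ) * ht t ≤ ∑ i, c i * (lam (Y i) s : ℝ)
  F : M → TOb G k → TOb G k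
  N : M → T → T → ℕ
  del : M → ℝ
  lam_F : ∀ m X t, lam (F m X) t = ∑ t', N m t t' * lam X t'
  adj : ∀ m X Y, hT (F m X) Y = hT X (F m Y)
  gam_F : ∀ m t', ∑ t, gam t * (N m t t' : ℝ) = del m * gam t'
  ht_F : ∀ m t', ∑ t, ht t * (N m t t' : ℝ) = del m * ht t'
  /-- the family `Y` is an eigenvector -/
  Y_F : ∀ m X, ∑ i, c i * (hT X (F m (Y i)) : ℝ) = del m * ∑ i, c i * (hT X (Y i) : ℝ)

namespace Data

variable {I : Type w} [Fintype I] {M : Type w'} (Dt : Data G k I M)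

/-- `h(X, Y) = ∑ c_i hT X (Y_i)` -/
noncomputable def hY (X : TOb G k) : ℝ := ∑ i, Dt.c i * (hT X (Dt.Y i) : ℝ)

/-- `Phi X = h(X, Y) - ht . lam X` -/
noncomputable def Phi (X : TOb G k) : ℝ := Dt.hY X - ∑ t, Dt.ht t * (lam X t : ℝ)

theorem hY_nonneg (X : TOb G k) : 0 ≤ Dt.hY X :=
  Finset.sum_nonneg fun i _ => mul_nonneg (Dt.c_pos i).le (Nat.cast_nonneg _)

theorem hY_symm (X : TOb G k) : Dt.hY X = ∑ i, Dt.c i * (hT (Dt.Y i) X : ℝ) :=
  Finset.sum_congr rfl fun i _ => by rw [Dual_338.hT_symm]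

theorem hY_le {U X X' : TOb G k} (h : ∀ Z, hT Z U ≤ hT Z X + hT Z X') :
    Dt.hY U ≤ Dt.hY X + Dt.hY X' := by
  rw [hY_symm, hY_symm, hY_symm, ← Finset.sum_add_distrib]
  refine Finset.sum_le_sum fun i _ => ?_
  rw [← mul_add]
  refine mul_le_mul_of_nonneg_left ?_ (Dt.c_pos i).le
  exact_mod_cast h (Dt.Y i)

theorem Phi_le {U X X' : TOb G k} (h : ∀ Z, hT Z U ≤ hT Z X + hT Z X')
    (hl : ∀ s, lam U s = lam X s + lam X' s) : Dt.Phi U ≤ Dt.Phi X + Dt.Phi X' := by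
  have h1 := Dt.hY_le h
  have h2 : ∑ t, Dt.ht t * (lam U t : ℝ) =
      ∑ t, Dt.ht t * (lam X t : ℝ) + ∑ t, Dt.ht t * (lam X' t : ℝ) := by
    rw [← Finset.sum_add_distrib]
    refine Finset.sum_congr rfl fun t _ => ?_
    rw [hl]
    push_cast
    ring
  unfold Phi
  linarith

theorem Phi_sum {X : TOb G k} {l : List (TOb G k)} (h : IsSum X l) :
    Dt.Phi X = (l.map Dt.Phi).sum := by
  have key : ∀ l : List (TOb G k),
      (∑ i, Dt.c i * (((l.map fun Y => hT Y (Dt.Y i)).sum : ℕ) : ℝ)) -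
        ∑ t, Dt.ht t * (((l.map lam).sum t : ℕ) : ℝ) = (l.map Dt.Phi).sum := by
    intro l
    induction l with
    | nil => simp
    | cons Y l ih =>
      simp only [List.map_cons, List.sum_cons, Pi.add_apply, Nat.cast_add, mul_add,
        Finset.sum_add_distrib]
      rw [← ih]
      unfold Phi hY
      ring
  rw [← key l]
  unfold Phi hY
  rw [← h.lam_eq]
  congr 1
  exact Finset.sum_congr rfl fun i _ => by rw [h.hT_left]

theorem Phi_single {X : TOb G k} {t : T} (h : Sing X t) : Dt.Phi X = Dt.hY X - Dt.ht t := by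
  unfold Phi
  congr 1
  rw [Finset.sum_eq_single t]
  · rw [h, Pi.single_eq_same]; simp
  · intro b _ hb
    rw [h, Pi.single_eq_of_ne hb]; simp
  · intro h'; exact absurd (Finset.mem_univ t) h'

/-- the instance of `PTMinF` -/
noncomputable def toPT [IsAlgClosed k] (h2 : (2 : k) ≠ 0) :
    PTMinF.{max u (v+1), u, w'} T M where
  Ob := TOb G k
  Sim := Sim
  lam := lam
  Phi := Dt.Phi
  hf := hD
  Ind := MInd
  Hz X Y := hT X Y = 0
  gam := Dt.gam
  om := Dt.om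
  K := ∑ t, |Dt.ht t| / Dt.gam t
  gam_pos := Dt.gam_pos
  om_pos := Dt.om_pos
  hf_sim := by
    intro Z X X' h
    rcases h with h | h
    · exact h.hD_right Z
    · rw [h.hD_right Z, Shift_936.hD_sh_right]
  dec := by
    intro X
    obtain ⟨l, hl⟩ := exists_sum h2 X
    exact ⟨l, hl.mInd, hl.lam_eq, Dt.Phi_sum hl, fun Z => hl.hD_right Z⟩
  Phi_zero := by
    intro X hX
    unfold Phi
    rw [hX]
    simp only [Pi.zero_apply, Nat.cast_zero, mul_zero, Finset.sum_const_zero, sub_zero]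
    exact Dt.hY_nonneg X
  Phi_bound := by
    intro X
    exact GlN_445.bound Dt.gam Dt.ht Dt.gam_pos (lam X) (Dt.hY_nonneg X)
  redA := by
    intro Y hY hl
    obtain ⟨C', h3, h4⟩ := StepA_259.redA (Y := Y) h2 (fun e he hD hee => hY.ind.2 e ⟨he, hD⟩ hee) hl
    have hn : ∀ t, lam C' t = ∑ s, Fintype.card (G.E s t) * lam Y s := h4
    refine ⟨C', ?_, GlN_445.wt_adj (fun s t => Fintype.card (G.E s t)) Dt.hgam hn⟩
    have h5 := GlN_445.phi_red (fun s t => Fintype.card (G.E s t)) Dt.c_pos Dt.hlam hn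
      (u := fun i => hT (Dt.Y i) Y) (v := fun i => hT (Dt.Y i) C') (fun i => by
        have h6 := h3 (Dt.Y i)
        have h7 : ∑ s, lam (Dt.Y i) s * lam Y s = ∑ t, lam Y t * lam (Dt.Y i) t :=
          Finset.sum_congr rfl fun s _ => mul_comm _ _
        change hT (Dt.Y i) C' + ∑ s, lam (Dt.Y i) s * lam Y s ≤ 2 * hT (Dt.Y i) Y
        rw [h7]
        omega)
    change Dt.Phi C' ≤ 2 * Dt.Phi Y
    unfold Phi
    rw [hY_symm, hY_symm]
    exact h5
  disc := by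
    intro t x
    refine (GlN_445.disc Dt.c Dt.c_pos (fun (X : TOb G k) i => hT X (Dt.Y i))
      (fun X => lam X = Pi.single t 1) (Dt.ht t) x).subset ?_
    rintro y ⟨hy, X, hX, rfl⟩
    refine ⟨hy, X, hX, ?_⟩
    rw [Dt.Phi_single hX]
    rfl
  uniq := by
    intro t Z Z' iZ iZ' hZ hZ' hns
    rcases red_or_sim h2 (fun e he hD hee => iZ.ind.2 e ⟨he, hD⟩ hee)
      (fun e he hD hee => iZ'.ind.2 e ⟨he, hD⟩ hee) hZ hZ' with h | ⟨C', h3, h4⟩
    · exact absurd h hns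
    · refine ⟨C', ?_, ?_⟩
      · have h5 := GlN_445.phi_red_one (fun s t => Fintype.card (G.E s t)) Dt.c_pos Dt.hlam t h4
          (u := fun i => hT (Dt.Y i) Z) (u' := fun i => hT (Dt.Y i) Z')
          (v := fun i => hT (Dt.Y i) C') (fun i => h3 (Dt.Y i))
        rw [Dt.Phi_single hZ, Dt.Phi_single hZ']
        unfold Phi
        rw [hY_symm, hY_symm, hY_symm]
        exact h5
      · have h6 := GlN_445.wt_adj (fun s t => Fintype.card (G.E s t)) Dt.hgam
          (m := Pi.single t 1) (n := lam C') (fun s => by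
            rw [h4, Finset.sum_eq_single t]
            · rw [Pi.single_eq_same, mul_one]
            · intro b _ hb
              rw [Pi.single_eq_of_ne hb, mul_zero]
            · intro h'; exact absurd (Finset.mem_univ t) h')
        rw [wt_single, wt_single] at h6
        exact h6
  nz := by
    intro t t' Z Z' iZ iZ' hZ hZ' hsim hne
    obtain ⟨U, h3, h4, h5⟩ := nz h2 hZ hZ' hsim hne
    exact ⟨U, funext h3, Dt.Phi_le h4 h3, Z, h5⟩
  IsSum := IsSum
  hT := hT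
  Hz_iff := fun X Y => Iff.rfl
  dec_sum := by
    intro X
    obtain ⟨l, hl⟩ := exists_sum h2 X
    exact ⟨l, hl, hl.mInd⟩
  sum_lam := fun h => h.lam_eq
  sum_Phi := fun h => Dt.Phi_sum h
  sum_hT := fun h Z => h.hT_right Z
  hT_self := fun Q hQ hl => hT_self hQ hl
  orthQ := by
    intro t Q Z hQ iZ hZ hne
    obtain ⟨U, h3, h4, h5⟩ := orthQ h2 (fun s => congrFun hQ s)
      (fun e he hD hee => iZ.ind.2 e ⟨he, hD⟩ hee) hZ hne
    refine ⟨U, funext h3, Dt.Phi_le h4 (fun s => ?_), fun l hl Y hY => h5 Y (hl.retr Y hY)⟩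
    have : lam Q s = 0 := congrFun hQ s
    rw [h3, this, zero_add]
  F := Dt.F
  N := Dt.N
  del := Dt.del
  lam_F := Dt.lam_F
  Phi_F := by
    intro m X
    have h1 : Dt.hY (Dt.F m X) = Dt.del m * Dt.hY X := by
      refine Eq.trans ?_ (Dt.Y_F m X)
      exact Finset.sum_congr rfl fun i _ => by rw [Dt.adj]
    have h3 : ∑ t, Dt.ht t * (lam (Dt.F m X) t : ℝ) = Dt.del m * ∑ t, Dt.ht t * (lam X t : ℝ) := by
      simp only [Dt.lam_F, Nat.cast_sum, Nat.cast_mul, Finset.mul_sum]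
      rw [Finset.sum_comm]
      refine Finset.sum_congr rfl fun t' _ => ?_
      have h4 := Dt.ht_F m t'
      calc ∑ t, Dt.ht t * ((Dt.N m t t' : ℝ) * (lam X t' : ℝ))
          = (∑ t, Dt.ht t * (Dt.N m t t' : ℝ)) * (lam X t' : ℝ) := by
            rw [Finset.sum_mul]
            exact Finset.sum_congr rfl fun t _ => by ring
        _ = Dt.del m * (Dt.ht t' * (lam X t' : ℝ)) := by
            rw [h4]
            ring
    change Dt.Phi (Dt.F m X) = Dt.del m * Dt.Phi X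
    unfold Phi
    rw [h1, h3]
    ring
  gam_F := Dt.gam_F
  adj := Dt.adj

/-- **(P_T)** from the analysis of the family of minimisers -/
theorem pt_of_D [IsAlgClosed k] (h2 : (2 : k) ≠ 0)
    (hD : ∀ (S : Set T) (X : T → TOb G k), S.Nonempty →
      (∀ t ∈ S, MInd (X t)) → (∀ t ∈ S, lam (X t) = Pi.single t 1) →
      (∀ t ∈ S, ∀ t' ∈ S, hT (X t) (X t') = 0) →
      (∀ m, ∀ t ∈ S, ∀ t', Dt.N m t' t ≠ 0 → t' ∈ S) →
      (∀ m, ∀ t ∈ S, ∃ l, IsSum (Dt.F m (X t)) l ∧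
        (∀ Y ∈ l, ∃ t' ∈ S, lam Y = Pi.single t' 1 ∧ MInd Y ∧ Sim Y (X t')) ∧
        ∀ t', (l.map lam).sum t' = Dt.N m t' t) →
      ∃ t ∈ S, Dt.ht t ≤ ∑ i, Dt.c i * (hT (X t) (Dt.Y i) : ℝ)) (X : TOb G k) :
    ∑ t, Dt.ht t * (lam X t : ℝ) ≤ ∑ i, Dt.c i * (hT X (Dt.Y i) : ℝ) := by
  have key := (Dt.toPT h2).Phi_nonneg (fun S Xf hS h3 h4 h5 h6 h7 => by
    obtain ⟨t, ht, h8⟩ := hD S Xf hS h3 h4 h5 h6 h7
    refine ⟨t, ht, ?_⟩
    change 0 ≤ Dt.Phi (Xf t)
    rw [Dt.Phi_single (h4 t ht)]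
    exact sub_nonneg.2 h8) X
  exact sub_nonneg.1 key

end Data

end Crest.Agent.R175.GluePT_445
end

-- ▼ part R175/GlueData_445

/-!
# R175 / GLUE-PT over the unfolding graph `UG M Λ`

`pt_fam`: (P_T) for an `F`-family `Y`, from the inequality for the orthogonal `F`-stable families of
minimisers (`OFam`).
-/

set_option autoImplicit false
set_option linter.unusedSectionVars false
set_option linter.unusedVariables false

open scoped Classical
open CategoryTheory Module LinearMap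

namespace Crest.Agent.R175.GlueData_445

open Crest.GroupTheory
open Crest.Agent.R175.PTA Crest.Agent.R175.GlB_445 Crest.Agent.R175.GluePT_445
open Crest.Agent.R175.Unf_109 Crest.Agent.R175.UG_27 Crest.Agent.R175.Pos_418
open Crest.Agent.R175.Lev_788 Crest.Agent.R175.FmC_180 Crest.Agent.R175.Fm_27

universe v

variable {S : Type} [Fintype S] {M : CoxeterMatrix S} {Λ : Finset ℕ} {k : Type v} [Field k]

theorem nsum_eq_nbs {A : Type*} [AddCommMonoid A] (m : ℕ) (f : J Λ → A) (i : J Λ) :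
    nsum Λ m f i = ∑ j ∈ nbs Λ m i, f j := by
  unfold nsum nbs
  rw [Finset.sum_filter]

/-- the functor `F_m` -/
noncomputable def FF (M : CoxeterMatrix S) (φ : ℝ →+* k) (hΛ : ∀ m ∈ Λ, 4 ≤ m) (m : Λ)
    (X : TOb (UG M Λ) k) : TOb (UG M Λ) k :=
  (Fm M φ m.2 ((by norm_num : 2 ≤ 4).trans (hΛ m.1 m.2))).FT X

theorem lam_FF (φ : ℝ →+* k) (hΛ : ∀ m ∈ Λ, 4 ≤ m) (m : Λ) (X : TOb (UG M Λ) k) (a : S × J Λ) :
    lam (FF M φ hΛ m X) a = ∑ b, NN Λ S m a b * lam X b := by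
  unfold FF
  rw [ADat.lam_FT]
  refine Finset.sum_congr rfl fun b _ => ?_
  rw [NN_symm]
  unfold NN
  by_cases h : b.1 = a.1 ∧ nb Λ m b.2 a.2
  · rw [if_pos h, one_mul]
    exact if_pos h
  · rw [if_neg h, zero_mul]
    exact if_neg h

theorem hT_FF (φ : ℝ →+* k) (hΛ : ∀ m ∈ Λ, 4 ≤ m) (m : Λ) (X Y : TOb (UG M Λ) k) :
    hT (FF M φ hΛ m X) Y = hT X (FF M φ hΛ m Y) := ADat.hT_FT _ _ _

/-- the instance of the data -/
noncomputable def dat (hΛ : Good M Λ) (φ : ℝ →+* k) (Y : J Λ → TOb (UG M Λ) k)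
    (hF : ∀ (m : Λ) i X, hT X (FF M φ hΛ.four m (Y i)) = ∑ j ∈ nbs Λ m i, hT X (Y j))
    (hFl : ∀ (m : Λ) i a, lam (FF M φ hΛ.four m (Y i)) a = ∑ j ∈ nbs Λ m i, lam (Y j) a)
    (h : S → ℝ) (hl : ∀ s, mv (Cr M) h s ≤ ∑ i, wt Λ i * (lam (Y i) (s, jz hΛ.four) : ℝ))
    (c : S → ℝ) (hc : ∀ s, 0 < c s) (hc1 : ∀ s, mv (Cr M) c s = 1) :
    Data (UG M Λ) k (J Λ) Λ where
  c := wt Λ
  Y := Y
  gam a := c a.1 * wt Λ a.2
  om a := wt Λ a.2
  ht a := h a.1 * wt Λ a.2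
  c_pos := wt_pos Λ
  gam_pos a := mul_pos (hc _) (wt_pos Λ _)
  om_pos a := wt_pos Λ _
  hgam a := by rw [GlU_505.mv_hwt hΛ, hc1, one_mul]
  hlam a := by
    refine GlU_505.frame_ineq hΛ (fun i a => lam (Y i) a) (fun s j => ?_) h hl a
    refine pf hΛ.four (fun j i => (lam (Y i) (s, j) : ℝ)) (fun m hm j i => ?_) j
    have h1 := hFl ⟨m, hm⟩ i (s, j)
    rw [lam_FF, sum_NN] at h1
    rw [nsum_eq_nbs m (fun i' => (lam (Y i') (s, j) : ℝ)) i, ← nsum_cast]
    rw [h1]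
    push_cast
    rfl
  F := FF M φ hΛ.four
  N m := NN Λ S m
  del m := 2 * Real.cos (Real.pi / m)
  lam_F m X a := lam_FF φ hΛ.four m X a
  adj m X Z := hT_FF φ hΛ.four m X Z
  gam_F m a := gam_F hΛ.four m.2 c a
  ht_F m a := gam_F hΛ.four m.2 h a
  Y_F m X := by
    rw [← sum_wt_nsum hΛ.four m.2]
    refine Finset.sum_congr rfl fun i _ => ?_
    rw [hF m i X, nsum_eq_nbs]
    push_cast
    rfl

/-- an orthogonal `F`-stable family of minimisers over the vertex `s` -/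
structure OFam (hΛ : ∀ m ∈ Λ, 4 ≤ m) (φ : ℝ →+* k) (s : S) (X : J Λ → TOb (UG M Λ) k) : Prop where
  ind : ∀ j, MInd (X j)
  lam_eq : ∀ j, lam (X j) = Pi.single (s, j) 1
  orth : ∀ i j, hT (X i) (X j) = 0
  sum : ∀ (m : Λ) j, ∃ l, IsSum (FF M φ hΛ m (X j)) l ∧
    (∀ Z ∈ l, ∃ j', nb Λ m j j' ∧ lam Z = Pi.single (s, j') 1 ∧ MInd Z ∧ Sim Z (X j')) ∧
    ∀ j', (l.map lam).sum (s, j') = if nb Λ m j j' then 1 else 0

/-- **(P_T) over the unfolding graph** -/
theorem pt_fam [IsAlgClosed k] (hΛ : Good M Λ) (hM : PDm (Cr M)) (φ : ℝ →+* k)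
    (Y : J Λ → TOb (UG M Λ) k)
    (hF : ∀ (m : Λ) i X, hT X (FF M φ hΛ.four m (Y i)) = ∑ j ∈ nbs Λ m i, hT X (Y j))
    (hFl : ∀ (m : Λ) i a, lam (FF M φ hΛ.four m (Y i)) a = ∑ j ∈ nbs Λ m i, lam (Y j) a)
    (h : S → ℝ) (hl : ∀ s, mv (Cr M) h s ≤ ∑ i, wt Λ i * (lam (Y i) (s, jz hΛ.four) : ℝ))
    (H : ∀ s X, OFam hΛ.four φ s X →
      ∃ j, wt Λ j * h s ≤ ∑ i, wt Λ i * (hT (X j) (Y i) : ℝ)) (X : TOb (UG M Λ) k) :
    ∑ s, ∑ j, wt Λ j * h s * (lam X (s, j) : ℝ) ≤ ∑ i, wt Λ i * (hT X (Y i) : ℝ) := by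
  obtain ⟨c, hc, hc1⟩ := GlU_505.exists_gam hM
  have h2 : (2 : k) ≠ 0 := by
    rw [← map_ofNat φ 2, Ne, map_eq_zero]
    norm_num
  have key := (dat hΛ φ Y hF hFl h hl c hc hc1).pt_of_D h2 (fun S' Xf hS h3 h4 h5 h6 h7 => by
    obtain ⟨⟨s, j0⟩, hs⟩ := hS
    have h8 : ∀ j, (s, j) ∈ S' := by
      intro j
      refine conn hΛ.four (fun j => (s, j) ∈ S') (fun m hm i j hij hi => ?_) hs j
      refine h6 ⟨m, hm⟩ (s, i) hi (s, j) ?_
      change NN Λ S m (s, j) (s, i) ≠ 0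
      rw [NN_ne_zero]
      exact ⟨rfl, hij.symm⟩
    obtain ⟨j, hj⟩ := H s (fun j => Xf (s, j)) ⟨fun j => h3 _ (h8 j), fun j => h4 _ (h8 j),
      fun i j => h5 _ (h8 i) _ (h8 j), fun m j => by
        obtain ⟨l, h9, h10, h11⟩ := h7 m (s, j) (h8 j)
        have h11' : ∀ t', (l.map lam).sum t' = NN Λ S m t' (s, j) := h11
        refine ⟨l, h9, fun Z hZ => ?_, fun j' => ?_⟩
        · obtain ⟨⟨s', j'⟩, h12, h13, h14, h15⟩ := h10 Z hZ
          have h16 : NN Λ S m (s', j') (s, j) ≠ 0 := by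
            rw [← h11']
            obtain ⟨l1, l2, rfl⟩ := List.append_of_mem hZ
            rw [List.map_append, List.map_cons, List.sum_append, List.sum_cons, h13]
            simp only [Pi.add_apply, Pi.single_eq_same]
            omega
          rw [NN_ne_zero] at h16
          obtain ⟨h17, h18⟩ := h16
          change s' = s at h17
          subst h17
          exact ⟨j', h18.symm, h13, h14, h15⟩
        · rw [h11']
          unfold NN
          by_cases hn : nb Λ m j j'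
          · rw [if_pos hn, if_pos ⟨rfl, hn.symm⟩]
          · rw [if_neg hn, if_neg (fun h => hn h.2.symm)]⟩
    refine ⟨(s, j), h8 j, ?_⟩
    change h s * wt Λ j ≤ ∑ i, wt Λ i * (hT (Xf (s, j)) (Y i) : ℝ)
    rw [mul_comm]
    exact hj) X
  refine le_trans (le_of_eq ?_) key
  rw [Fintype.sum_prod_type]
  refine Finset.sum_congr rfl fun s _ => Finset.sum_congr rfl fun j _ => ?_
  change _ = h s * wt Λ j * (lam X (s, j) : ℝ)
  ring

end Crest.Agent.R175.GlueData_445
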