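import Crest.Agent.R175.DDef_145
import Crest.Agent.R175.VdL_527

-- ▼ part R175/WA_527
section

/-!
Coxeter group facts for Track D of row 175 (W1, W1', W5, W5', W6, W7, W10 of `DW_145`),
universe polymorphic, by means of the geometric representation.
-/

set_option autoImplicit false

namespace Crest.Agent.R175.WA_527

open Crest.Agent.R061.GeomFull Crest.Agent.R175.DDef_145 CoxeterSystem
open Crest.Agent.R175.VdL_527 (InX inX_sr Red red_mul mul_eq gam gam_eq)

variable {S W : Type*} [Group W] {M : CoxeterMatrix S} (cs : CoxeterSystem M W)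

/-- prefix (weak) order: `w = u * v` with lengths adding. -/
def PL (u w : W) : Prop := cs.length u + cs.length (u⁻¹ * w) = cs.length w

/-- `W_X`, the standard parabolic subgroup. -/
def WP (X : Set S) : Subgroup W := Subgroup.closure (cs.simple '' X)

/-- `X`-reduced elements: no left descent in `X`. -/
def XRed (X : Set S) (w : W) : Prop := ∀ x ∈ X, ¬ cs.IsLeftDescent w x

theorem leftDescent_iff (w : W) (s : S) :
    cs.IsLeftDescent w s ↔ Pos (-(rep cs w⁻¹ (sr s))) := by
  rw [neg_rep_sr_iff, cs.isRightDescent_inv_iff]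

theorem not_leftDescent_iff (w : W) (s : S) :
    ¬ cs.IsLeftDescent w s ↔ Pos (rep cs w⁻¹ (sr s)) := by
  rw [pos_rep_sr_iff, cs.isRightDescent_inv_iff]

theorem xred_iff (X : Set S) (w : W) : XRed cs X w ↔ ∀ x ∈ X, Pos (rep cs w⁻¹ (sr x)) := by
  constructor
  · intro h x hx; exact (not_leftDescent_iff cs w x).1 (h x hx)
  · intro h x hx; exact (not_leftDescent_iff cs w x).2 (h x hx)

theorem xred_iff_red (X : Set S) (w : W) : XRed cs X w ↔ Red cs X w⁻¹ := xred_iff cs X w


variable {cs}

theorem simple_mem {X : Set S} {x : S} (hx : x ∈ X) : cs.simple x ∈ WP cs X :=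
  Subgroup.subset_closure ⟨x, hx, rfl⟩

/-- induction on elements of `W_X` -/
theorem wp_induction {X : Set S} {P : W → Prop} (h1 : P 1)
    (hm : ∀ x ∈ X, ∀ p ∈ WP cs X, P p → P (cs.simple x * p)) {p : W} (hp : p ∈ WP cs X) : P p := by
  induction hp using Subgroup.closure_induction_left with
  | one => exact h1
  | mul_left x hx y hy ih =>
    obtain ⟨s, hs, rfl⟩ := hx
    exact hm s hs y hy ih
  | inv_mul_cancel x hx y hy ih =>
    obtain ⟨s, hs, rfl⟩ := hx
    rw [cs.inv_simple]
    exact hm s hs y hy ih

/-- elements of `W_X` change a vector by a vector supported on `X` -/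
theorem wp_sub {X : Set S} {p : W} (hp : p ∈ WP cs X) (v : S →₀ ℝ) {b : S} (hb : b ∉ X) :
    (rep cs p v) b = v b := by
  revert v
  refine wp_induction (cs := cs) (P := fun p => ∀ v : S →₀ ℝ, (rep cs p v) b = v b) ?_ ?_ hp
  · intro v; rw [rep_one_apply]
  · intro x hx p _ ih v
    rw [rep_mul_apply, rep_simple, sig_apply, Finsupp.sub_apply, Finsupp.smul_apply,
      Finsupp.single_eq_of_ne (by rintro rfl; exact hb hx), smul_zero, sub_zero, ih v]

theorem inX_wp {X : Set S} {p : W} (hp : p ∈ WP cs X) {v : S →₀ ℝ} (hv : InX X v) :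
    InX X (rep cs p v) := fun b hb => by rw [wp_sub hp v hb, hv b hb]

/-- an element which is positive on the simple roots of `X` is positive on the positive roots
supported on `X` -/
theorem pos_of_inX {X : Set S} {q : W} (hq : ∀ x ∈ X, Pos (rep cs q (sr x))) {v : S →₀ ℝ}
    (hv : InX X v) (hp : Pos v) : Pos (rep cs q v) := by
  refine ⟨fun h => hp.1 (rep_injective_apply cs q h), fun b => ?_⟩
  rw [Crest.Agent.R175.VdL_527.rep_apply_eq_sum]
  apply Finset.sum_nonneg
  intro x hx
  have hxX : x ∈ X := by
    by_contra hn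
    exact (Finsupp.mem_support_iff.1 hx) (hv x hn)
  exact mul_nonneg (hp.2 x) ((hq x hxX).2 b)

theorem neg_of_inX {X : Set S} {q : W} (hq : ∀ x ∈ X, Pos (rep cs q (sr x))) {v : S →₀ ℝ}
    (hv : InX X v) (hp : Pos (-v)) : Pos (-(rep cs q v)) := by
  rw [← map_neg]
  apply pos_of_inX hq _ hp
  intro b hb
  rw [Finsupp.neg_apply, hv b hb, neg_zero]

/-- left descents in `X` of `p * q` -/
theorem leftDescent_mul_iff {X : Set S} {p q : W} (hp : p ∈ WP cs X) (hq : XRed cs X q) {x : S}
    (hx : x ∈ X) : cs.IsLeftDescent (p * q) x ↔ cs.IsLeftDescent p x := by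
  have hq' := (xred_iff cs X q).1 hq
  have hin : InX X (rep cs p⁻¹ (sr x)) := inX_wp ((WP cs X).inv_mem hp) (inX_sr X hx)
  have e : rep cs (p * q)⁻¹ (sr x) = rep cs q⁻¹ (rep cs p⁻¹ (sr x)) := by
    rw [mul_inv_rev, rep_mul_apply]
  constructor
  · intro h
    by_contra hn
    rw [leftDescent_iff, e] at h
    rw [not_leftDescent_iff] at hn
    exact (pos_of_inX hq' hin hn).not_neg h
  · intro h
    rw [leftDescent_iff] at h ⊢
    rw [e]
    exact neg_of_inX hq' hin h

/-- (W5) -/
theorem w5 (X : Set S) (w : W) : ∃ p ∈ WP cs X, ∃ q, XRed cs X q ∧ w = p * q := by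
  induction h : cs.length w using Nat.strong_induction_on generalizing w with
  | _ n ih =>
    by_cases hr : XRed cs X w
    · exact ⟨1, (WP cs X).one_mem, w, hr, by rw [one_mul]⟩
    · simp only [XRed, not_forall, not_not] at hr
      obtain ⟨x, hx, hd⟩ := hr
      have hd' : cs.length (cs.simple x * w) < cs.length w := hd
      obtain ⟨p, hp, q, hq, he⟩ := ih _ (by omega) (cs.simple x * w) rfl
      refine ⟨cs.simple x * p, (WP cs X).mul_mem (simple_mem hx) hp, q, hq, ?_⟩
      rw [mul_assoc, ← he, cs.simple_mul_simple_cancel_left]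

/-- (W5') -/
theorem w5' {X : Set S} {p q : W} (hp : p ∈ WP cs X) (hq : XRed cs X q) :
    cs.length (p * q) = cs.length p + cs.length q := by
  refine wp_induction (cs := cs) (X := X)
    (P := fun p => cs.length (p * q) = cs.length p + cs.length q) ?_ ?_ hp
  · simp
  · intro x hx p hp ih
    have h := leftDescent_mul_iff hp hq hx
    rw [mul_assoc]
    by_cases hd : cs.IsLeftDescent p x
    · have h1 := cs.isLeftDescent_iff.1 hd
      have h2 := cs.isLeftDescent_iff.1 (h.2 hd)
      omega
    · have h1 := cs.not_isLeftDescent_iff.1 hd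
      have h2 := cs.not_isLeftDescent_iff.1 (fun hc => hd (h.1 hc))
      omega

theorem pl_of_wp {X : Set S} {p q : W} (hp : p ∈ WP cs X) (hq : XRed cs X q) :
    PL cs p (p * q) := by
  rw [PL, w5' hp hq, inv_mul_cancel_left]

/-- uniqueness of the decomposition -/
theorem w5_unique {X : Set S} {p q p' q' : W} (hp : p ∈ WP cs X) (hq : XRed cs X q)
    (hp' : p' ∈ WP cs X) (hq' : XRed cs X q') (h : p * q = p' * q') : p = p' ∧ q = q' := by
  have h1 : q' = (p'⁻¹ * p) * q := by rw [mul_assoc, h, inv_mul_cancel_left]
  have h2 : q = (p⁻¹ * p') * q' := by rw [mul_assoc, ← h, inv_mul_cancel_left]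
  have hm1 := (WP cs X).mul_mem ((WP cs X).inv_mem hp') hp
  have hm2 := (WP cs X).mul_mem ((WP cs X).inv_mem hp) hp'
  have l1 := w5' hm1 hq
  have l2 := w5' hm2 hq'
  rw [← h1] at l1
  rw [← h2] at l2
  have h3 : cs.length (p'⁻¹ * p) = 0 := by omega
  rw [cs.length_eq_zero_iff] at h3
  have h4 : p = p' := (inv_mul_eq_one.1 h3).symm
  exact ⟨h4, by rw [h1, h3, one_mul]⟩

/-- (W6) Deodhar's lemma. -/
theorem w6 {X : Set S} {q : W} (s : S) (hq : XRed cs X q) :
    XRed cs X (q * cs.simple s) ∨ ∃ x ∈ X, cs.simple x * q = q * cs.simple s := by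
  by_cases h : ∃ x ∈ X, rep cs q (sr s) = sr x
  · right
    obtain ⟨x, hx, he⟩ := h
    refine ⟨x, hx, ?_⟩
    have he' : rep cs (q⁻¹)⁻¹ (sr s) = sr x := by rw [inv_inv]; exact he
    have h1 := mul_eq cs he'
    have h2 : cs.simple s * q⁻¹ = (q * cs.simple s)⁻¹ := by
      rw [mul_inv_rev, cs.inv_simple]
    have h3 : q⁻¹ * cs.simple x = (cs.simple x * q)⁻¹ := by
      rw [mul_inv_rev, cs.inv_simple]
    rw [h2, h3] at h1
    exact (inv_injective h1).symm
  · left
    push Not at h
    rw [xred_iff_red] at hq ⊢
    rw [mul_inv_rev, cs.inv_simple]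
    exact red_mul cs hq (fun x hx => by rw [inv_inv]; exact h x hx)

/-- a left descent of an element of `W_X` is in `X` -/
theorem mem_of_leftDescent {X : Set S} {p : W} (hp : p ∈ WP cs X) {s : S}
    (h : cs.IsLeftDescent p s) : s ∈ X := by
  by_contra hn
  rw [leftDescent_iff] at h
  have h1 := h.2 s
  rw [Finsupp.neg_apply, wp_sub ((WP cs X).inv_mem hp) _ hn, Finsupp.single_eq_same] at h1
  linarith

theorem leftDescent_cons {i : S} {ω : List S} (h : cs.IsReduced (i :: ω)) :
    cs.IsLeftDescent (cs.wordProd (i :: ω)) i := by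
  rw [CoxeterSystem.IsLeftDescent, cs.wordProd_cons, cs.simple_mul_simple_cancel_left,
    ← cs.wordProd_cons, h.eq]
  have := cs.length_wordProd_le ω
  simp only [List.length_cons]
  omega

theorem reduced_tail {i : S} {ω : List S} (h : cs.IsReduced (i :: ω)) : cs.IsReduced ω := by
  have := h.drop 1
  simpa using this

/-- (W7) reduced words of elements of `W_X` have letters in `X`. -/
theorem w7 {X : Set S} {ω : List S} (hr : cs.IsReduced ω) (h : cs.wordProd ω ∈ WP cs X) :
    ∀ s ∈ ω, s ∈ X := by
  induction ω with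
  | nil => simp
  | cons i ω ih =>
    have hi : i ∈ X := mem_of_leftDescent h (leftDescent_cons hr)
    have h1 : cs.wordProd ω ∈ WP cs X := by
      have := (WP cs X).mul_mem (simple_mem (cs := cs) hi) h
      rwa [cs.wordProd_cons, cs.simple_mul_simple_cancel_left] at this
    intro s hs
    rcases List.mem_cons.1 hs with rfl | hs
    · exact hi
    · exact ih (reduced_tail hr) h1 s hs

theorem wordProd_mem {X : Set S} {ω : List S} (h : ∀ s ∈ ω, s ∈ X) :
    cs.wordProd ω ∈ WP cs X := by
  induction ω with
  | nil => simp [(WP cs X).one_mem]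
  | cons i ω ih =>
    rw [cs.wordProd_cons]
    exact (WP cs X).mul_mem (simple_mem (h i (by simp))) (ih (fun s hs => h s (by simp [hs])))

/-! ### alternating words -/

theorem alt_succ' (i j : S) (k : ℕ) : alt i j (k + 1) = alt i j k ++ [if Even k then i else j] := by
  induction k generalizing i j with
  | zero => simp [alt_succ]
  | succ k ih =>
    rw [alt_succ, ih j i, alt_succ, List.cons_append]
    congr 3
    by_cases h : Even k
    · have h1 : ¬ Even (k + 1) := by simp [h, parity_simps]
      rw [if_pos h, if_neg h1]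
    · have h1 : Even (k + 1) := by simp [h, parity_simps]
      rw [if_neg h, if_pos h1]

theorem rep_alt (k : ℕ) : ∀ i j : S,
    rep cs (cs.wordProd (alt i j k)) (sr (if Even k then i else j)) = gam M i j k := by
  induction k with
  | zero => intro i j; simp [gam]
  | succ k ih =>
    intro i j
    rw [alt_succ, cs.wordProd_cons, rep_mul_apply, rep_simple, gam, ← ih j i]
    congr 3
    by_cases h : Even k
    · have h1 : ¬ Even (k + 1) := by simp [h, parity_simps]
      rw [if_pos h, if_neg h1]
    · have h1 : Even (k + 1) := by simp [h, parity_simps]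
      rw [if_neg h, if_pos h1]

/-- (W1') alternating words of length at most `M i j` are reduced. -/
theorem w1' {i j : S} (hij : i ≠ j) (k : ℕ) (hk : M i j = 0 ∨ k ≤ M i j) :
    cs.length (cs.wordProd (alt i j k)) = k := by
  induction k with
  | zero => simp
  | succ k ih =>
    have ih' := ih (by omega)
    rw [alt_succ', cs.wordProd_append, cs.wordProd_singleton]
    set r := if Even k then i else j with hr
    have hM := M.off_diagonal i j hij
    have hnn : ∀ b, 0 ≤ (gam M i j k) b := by
      intro b
      have q1 := qs_nonneg (M i j) (k + 1) hM (by omega)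
      have q0 := qs_nonneg (M i j) k hM (by omega)
      have a1 := (pos_sr i).2 b
      have a2 := (pos_sr j).2 b
      rw [gam_eq, Finsupp.add_apply, Finsupp.smul_apply, Finsupp.smul_apply, smul_eq_mul,
        smul_eq_mul]
      positivity
    have hp : Pos (rep cs (cs.wordProd (alt i j k)) (sr r)) := by
      refine ⟨fun h => sr_ne_zero r (rep_injective_apply cs _ h), ?_⟩
      rw [hr, rep_alt]
      exact hnn
    have hd := (pos_rep_sr_iff cs).1 hp
    have := cs.not_isRightDescent_iff.1 hd
    omega

theorem alt_comm_word (i j : S) :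
    cs.wordProd (alt i j (M i j)) = cs.wordProd (alt j i (M i j)) := by
  rcases Nat.eq_zero_or_pos (M i j) with h0 | h0
  · rw [h0]; rfl
  have key : ∀ (k : ℕ) (a b : S),
      alt a b k = (if Even k then alternatingWord a b k else alternatingWord b a k) := by
    intro k
    induction k with
    | zero => intro a b; simp [alternatingWord]
    | succ k ih =>
      intro a b
      rw [alt_succ, ih b a]
      by_cases h : Even k
      · have h1 : ¬ Even (k + 1) := by simp [h, parity_simps]
        simp only [if_pos h, if_neg h1]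
        rw [alternatingWord_succ', if_pos h]
      · have h1 : Even (k + 1) := by simp [h, parity_simps]
        simp only [if_neg h, if_pos h1]
        rw [alternatingWord_succ', if_neg h]
  have hb := cs.wordProd_braidWord_eq i j
  rw [braidWord, braidWord, M.symmetric j i] at hb
  rw [key, key]
  by_cases h : Even (M i j)
  · simp only [if_pos h]
    exact hb
  · simp only [if_neg h]
    exact hb.symm

/-- words without repetition in two letters are alternating -/
theorem eq_alt_of_reduced {i j : S} {ω : List S} (hr : cs.IsReduced ω)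
    (h : ∀ s ∈ ω, s = i ∨ s = j) : ω = alt i j ω.length ∨ ω = alt j i ω.length := by
  induction ω with
  | nil => left; rfl
  | cons a ω ih =>
    have ih' := ih (reduced_tail hr) (fun s hs => h s (by simp [hs]))
    cases ω with
    | nil =>
      rcases h a (by simp) with rfl | rfl
      · left; rfl
      · right; rfl
    | cons b ω =>
      have hab : a ≠ b := by
        rintro rfl
        have h1 := hr.eq
        rw [cs.wordProd_cons, cs.wordProd_cons, cs.simple_mul_simple_cancel_left] at h1
        have h2 := cs.length_wordProd_le ω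
        simp only [List.length_cons] at h1
        omega
      have hb : b = i ∨ b = j := h b (by simp)
      have ha : a = i ∨ a = j := h a (by simp)
      rw [List.length_cons, alt_succ, alt_succ]
      rcases ih' with h1 | h1
      · have hbi : b = i := by
          rw [List.length_cons, alt_succ] at h1
          exact (List.cons.inj h1).1
        right
        have haj : a = j := by
          rcases ha with rfl | rfl
          · exact absurd hbi.symm hab
          · rfl
        rw [← h1, haj]
      · have hbj : b = j := by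
          rw [List.length_cons, alt_succ] at h1
          exact (List.cons.inj h1).1
        left
        have hai : a = i := by
          rcases ha with rfl | rfl
          · rfl
          · exact absurd hbj.symm hab
        rw [← h1, hai]

theorem alt_add (m n : ℕ) : ∀ i j : S, alt i j (m + n) = alt i j m ++
    (if Even m then alt i j n else alt j i n) := by
  induction m with
  | zero => intro i j; simp
  | succ m ih =>
    intro i j
    rw [show m + 1 + n = (m + n) + 1 by ring, alt_succ, alt_succ, ih j i]
    rw [List.cons_append]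
    congr 2
    by_cases h : Even m
    · have h1 : ¬ Even (m + 1) := by simp [h, parity_simps]
      rw [if_pos h, if_neg h1]
    · have h1 : Even (m + 1) := by simp [h, parity_simps]
      rw [if_neg h, if_pos h1]

theorem length_alt_lt {i j : S} {k : ℕ} (hM : M i j ≠ 0) (hk : M i j < k) :
    cs.length (cs.wordProd (alt i j k)) < k := by
  obtain ⟨n, rfl⟩ : ∃ n, k = (M i j + 1) + n := ⟨k - (M i j + 1), by omega⟩
  rw [alt_add, cs.wordProd_append]
  have h1 : cs.length (cs.wordProd (alt i j (M i j + 1))) ≤ M i j - 1 := by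
    have e : cs.wordProd (alt i j (M i j + 1)) = cs.wordProd (alt j i (M i j - 1)) := by
      obtain ⟨m, hm⟩ : ∃ m, M i j = m + 1 := ⟨M i j - 1, by omega⟩
      have hc := alt_comm_word (cs := cs) i j
      rw [hm] at hc ⊢
      rw [alt_succ i j (m + 1), cs.wordProd_cons, ← hc, alt_succ i j m, cs.wordProd_cons,
        cs.simple_mul_simple_cancel_left, Nat.add_sub_cancel]
    rw [e]
    refine (cs.length_wordProd_le _).trans ?_
    simp
  have h2 : cs.length (cs.wordProd (if Even (M i j + 1) then alt i j n else alt j i n)) ≤ n := by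
    refine (cs.length_wordProd_le _).trans ?_
    split_ifs <;> simp
  have h3 := cs.length_mul_le (cs.wordProd (alt i j (M i j + 1)))
    (cs.wordProd (if Even (M i j + 1) then alt i j n else alt j i n))
  omega

theorem pl_refl (w : W) : PL cs w w := by simp [PL]

theorem pl_one (w : W) : PL cs 1 w := by simp [PL]

theorem PL.le {u w : W} (h : PL cs u w) : cs.length u ≤ cs.length w := by
  rw [PL] at h; omega

theorem PL.trans {u v w : W} (h : PL cs u v) (h' : PL cs v w) : PL cs u w := by
  rw [PL] at *
  have h1 := cs.length_mul_le (u⁻¹ * v) (v⁻¹ * w)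
  have h2 : u⁻¹ * v * (v⁻¹ * w) = u⁻¹ * w := by group
  rw [h2] at h1
  have h3 := cs.length_mul_le u (u⁻¹ * w)
  rw [mul_inv_cancel_left] at h3
  omega

theorem PL.antisymm {u v : W} (h : PL cs u v) (h' : PL cs v u) : u = v := by
  have h1 := h.le
  have h2 := h'.le
  rw [PL] at h
  have h3 : cs.length (u⁻¹ * v) = 0 := by omega
  rw [cs.length_eq_zero_iff] at h3
  exact inv_mul_eq_one.1 h3

/-- `u ≤ u v` when lengths add -/
theorem pl_mul_iff {u v : W} : PL cs u (u * v) ↔ cs.length (u * v) = cs.length u + cs.length v := by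
  rw [PL, inv_mul_cancel_left, eq_comm]

/-- the middle term of a reduced factorisation -/
theorem PL.mul_left {a u w : W} (h : PL cs a (a * w)) (h' : PL cs u w) : PL cs (a * u) (a * w) := by
  rw [pl_mul_iff] at h
  rw [PL] at *
  have h1 : (a * u)⁻¹ * (a * w) = u⁻¹ * w := by group
  have h2 := cs.length_mul_le a u
  have h3 := cs.length_mul_le (a * u) (u⁻¹ * w)
  have h4 : a * u * (u⁻¹ * w) = a * w := by group
  rw [h4] at h3
  rw [h1]
  omega

theorem PL.cancel_left {a u w : W} (h : PL cs (a * u) (a * w)) (h' : PL cs a (a * u)) :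
    PL cs u w := by
  rw [pl_mul_iff] at h'
  rw [PL] at *
  have h1 : (a * u)⁻¹ * (a * w) = u⁻¹ * w := by group
  rw [h1] at h
  have h2 := cs.length_mul_le u (u⁻¹ * w)
  rw [mul_inv_cancel_left] at h2
  have h3 := cs.length_mul_le a w
  omega

theorem pl_simple_iff {i : S} {w : W} : PL cs (cs.simple i) w ↔ cs.IsLeftDescent w i := by
  rw [PL, cs.length_simple, cs.inv_simple, cs.isLeftDescent_iff, add_comm]

/-- elements of a rank two parabolic subgroup are alternating words -/
theorem eq_alt_of_mem {i j : S} (p : W) (hp : p ∈ WP cs {i, j}) :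
    p = cs.wordProd (alt i j (cs.length p)) ∨ p = cs.wordProd (alt j i (cs.length p)) := by
  obtain ⟨ω, hr, rfl⟩ := cs.exists_isReduced p
  have hl := hr.eq
  have h := w7 hr hp
  rcases eq_alt_of_reduced (i := i) (j := j) hr (by
    intro s hs
    simpa using h s hs) with h1 | h1
  · left; rw [hl, ← h1]
  · right; rw [hl, ← h1]

/-- (W1) two left descents. -/
theorem w1 {w : W} {i j : S} (hij : i ≠ j) (hi : cs.IsLeftDescent w i)
    (hj : cs.IsLeftDescent w j) : M i j ≠ 0 ∧ PL cs (cs.wordProd (alt i j (M i j))) w := by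
  obtain ⟨p, hp, q, hq, rfl⟩ := w5 (cs := cs) {i, j} w
  rw [leftDescent_mul_iff hp hq (by simp)] at hi hj
  have hi' := cs.isLeftDescent_iff.1 hi
  have hj' := cs.isLeftDescent_iff.1 hj
  have key : ∀ a b : S, a ≠ b → M a b = M i j → p = cs.wordProd (alt a b (cs.length p)) →
      cs.length (cs.simple b * p) + 1 = cs.length p → M i j ≠ 0 ∧ cs.length p = M i j := by
    intro a b hab hM hpa hd
    have hle : M a b ≠ 0 → cs.length p ≤ M a b := by
      intro h0
      by_contra hlt
      have := length_alt_lt (cs := cs) h0 (not_le.1 hlt)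
      rw [← hpa] at this
      omega
    have h1 : ¬ (M b a = 0 ∨ cs.length p + 1 ≤ M b a) := by
      intro hc
      have h2 := w1' (cs := cs) hab.symm (cs.length p + 1) hc
      rw [alt_succ, cs.wordProd_cons, ← hpa] at h2
      omega
    rw [M.symmetric b a] at h1
    push Not at h1
    have h3 := hle h1.1
    rw [← hM]
    exact ⟨h1.1, by omega⟩
  rcases eq_alt_of_mem p hp with h | h
  · obtain ⟨h1, h2⟩ := key i j hij rfl h hj'
    refine ⟨h1, ?_⟩
    rw [h2] at h
    rw [← h]
    exact pl_of_wp hp hq
  · obtain ⟨h1, h2⟩ := key j i hij.symm (M.symmetric j i) h hi'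
    refine ⟨h1, ?_⟩
    rw [h2] at h
    rw [alt_comm_word, ← h]
    exact pl_of_wp hp hq


end Crest.Agent.R175.WA_527
end

-- ▼ part R175/WB_527

/-!
Coxeter group facts for Track D of row 175 (W4 = Matsumoto, W8, W9, W2, W3 of `DW_145`),
universe polymorphic.
-/

set_option autoImplicit false

namespace Crest.Agent.R175.WB_527

open Crest.Agent.R061.GeomFull Crest.Agent.R175.DDef_145 CoxeterSystem
open Crest.Agent.R175.WA_527

variable {S W : Type*} [Group W] {M : CoxeterMatrix S} {cs : CoxeterSystem M W}

theorem reduced_append {ω ν : List S} (h : cs.IsReduced ω) (h' : cs.IsReduced ν)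
    (hl : PL cs (cs.wordProd ω) (cs.wordProd ω * cs.wordProd ν)) : cs.IsReduced (ω ++ ν) := by
  rw [pl_mul_iff, h.eq, h'.eq] at hl
  rw [CoxeterSystem.IsReduced, cs.wordProd_append, hl, List.length_append]

theorem reduced_alt {i j : S} (hij : i ≠ j) {k : ℕ} (hk : M i j = 0 ∨ k ≤ M i j) :
    cs.IsReduced (alt i j k) := by
  rw [CoxeterSystem.IsReduced, w1' hij k hk, length_alt]

/-- (W4) Matsumoto: a function satisfying the braid relations has a well defined value on reduced
words. -/
theorem w4 {N : Type*} [Monoid N] {f : S → N} (hf : Braid M f) : ∀ (ω ω' : List S),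
    cs.IsReduced ω → cs.IsReduced ω' → cs.wordProd ω = cs.wordProd ω' →
    (ω.map f).prod = (ω'.map f).prod := by
  intro ω
  induction hn : ω.length using Nat.strong_induction_on generalizing ω with
  | _ n ih =>
    intro ω' hr hr' he
    have hlen : ω.length = ω'.length := by rw [← hr.eq, ← hr'.eq, he]
    cases ω with
    | nil =>
      have : ω' = [] := List.length_eq_zero_iff.1 hlen.symm
      rw [this]
    | cons i ω1 =>
      cases ω' with
      | nil => simp at hlen
      | cons j ω2 =>
        have hr1 := reduced_tail hr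
        have hr2 := reduced_tail hr'
        simp only [List.length_cons] at hn hlen
        by_cases hij : i = j
        · subst hij
          rw [cs.wordProd_cons, cs.wordProd_cons] at he
          rw [List.map_cons, List.map_cons, List.prod_cons, List.prod_cons,
            ih _ (by omega) ω1 rfl ω2 hr1 hr2 (mul_left_cancel he)]
        · set w := cs.wordProd (i :: ω1) with hw
          have hi : cs.IsLeftDescent w i := leftDescent_cons hr
          have hj : cs.IsLeftDescent w j := by rw [he]; exact leftDescent_cons hr'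
          obtain ⟨hM, hpl⟩ := w1 hij hi hj
          obtain ⟨m, hm⟩ : ∃ m, M i j = m + 1 := ⟨M i j - 1, by omega⟩
          obtain ⟨ν, hν, hνe⟩ := cs.exists_isReduced ((cs.wordProd (alt i j (M i j)))⁻¹ * w)
          have hwe : w = cs.wordProd (alt i j (M i j)) * cs.wordProd ν := by
            rw [← hνe, mul_inv_cancel_left]
          have hwe' : w = cs.wordProd (alt j i (M i j)) * cs.wordProd ν := by
            rw [hwe, alt_comm_word]
          have hMs := M.symmetric j i
          have ha : cs.IsReduced (alt i j (M i j) ++ ν) := by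
            apply reduced_append (reduced_alt hij (Or.inr le_rfl)) hν
            rw [← hwe]; exact hpl
          have hb : cs.IsReduced (alt j i (M i j) ++ ν) := by
            apply reduced_append (reduced_alt (Ne.symm hij) (Or.inr (by rw [hMs]))) hν
            rw [← hwe', ← alt_comm_word]; exact hpl
          have hwa : cs.wordProd (alt i j (M i j) ++ ν) = w := by
            rw [cs.wordProd_append, ← hwe]
          have hwb : cs.wordProd (alt j i (M i j) ++ ν) = w := by
            rw [cs.wordProd_append, ← hwe']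
          have e1 : ((i :: ω1).map f).prod = ((alt i j (M i j) ++ ν).map f).prod := by
            rw [hm, alt_succ, List.cons_append] at ha hwa ⊢
            rw [List.map_cons, List.map_cons, List.prod_cons, List.prod_cons]
            congr 1
            apply ih _ (by omega) ω1 rfl _ hr1 (reduced_tail ha)
            rw [hw, cs.wordProd_cons, cs.wordProd_cons] at hwa
            exact (mul_left_cancel hwa).symm
          have e2 : ((j :: ω2).map f).prod = ((alt j i (M i j) ++ ν).map f).prod := by
            rw [hm, alt_succ, List.cons_append] at hb hwb ⊢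
            rw [List.map_cons, List.map_cons, List.prod_cons, List.prod_cons]
            congr 1
            apply ih ω2.length (by omega) ω2 rfl _ hr2 (reduced_tail hb)
            rw [he, cs.wordProd_cons, cs.wordProd_cons] at hwb
            exact (mul_left_cancel hwb).symm
          rw [e1, e2, List.map_append, List.map_append, List.prod_append, List.prod_append,
            hf i j hM]

/-- a cover in the weak order projects to a cover or an equality -/
theorem proj_cover {X : Set S} {p q : W} (hp : p ∈ WP cs X) (hq : XRed cs X q) {s : S}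
    (hs : ¬ cs.IsRightDescent (p * q) s) : ∃ p' ∈ WP cs X, ∃ q', XRed cs X q' ∧
      p * q * cs.simple s = p' * q' ∧ PL cs q q' := by
  rcases w6 (cs := cs) s hq with h | ⟨x, hx, he⟩
  · refine ⟨p, hp, q * cs.simple s, h, by rw [mul_assoc], ?_⟩
    rw [pl_mul_iff, cs.length_simple]
    have h1 := cs.not_isRightDescent_iff.1 hs
    rw [mul_assoc, w5' hp h, w5' hp hq] at h1
    omega
  · refine ⟨p * cs.simple x, (WP cs X).mul_mem hp (simple_mem hx), q, hq, ?_, pl_refl q⟩
    rw [mul_assoc, mul_assoc, ← he]

theorem exists_rightDescent_of_pl {u w : W} (h : PL cs u w) (hne : u ≠ w) :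
    ∃ s, PL cs u (w * cs.simple s) ∧ cs.IsRightDescent w s := by
  have h1 : u⁻¹ * w ≠ 1 := fun h' => hne (inv_mul_eq_one.1 h')
  obtain ⟨s, hs⟩ := cs.exists_rightDescent_of_ne_one h1
  refine ⟨s, ?_, ?_⟩
  · have h2 := cs.isRightDescent_iff.1 hs
    have h3 : u⁻¹ * (w * cs.simple s) = u⁻¹ * w * cs.simple s := by rw [mul_assoc]
    have h4 := cs.length_mul_le u (u⁻¹ * w * cs.simple s)
    have h5 : u * (u⁻¹ * w * cs.simple s) = w * cs.simple s := by group
    rw [h5] at h4
    have h6 := cs.length_mul_simple w s
    rw [PL] at *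
    rw [h3]
    omega
  · have h2 := cs.isRightDescent_iff.1 hs
    have h4 := cs.length_mul_le u (u⁻¹ * w * cs.simple s)
    have h5 : u * (u⁻¹ * w * cs.simple s) = w * cs.simple s := by group
    rw [h5] at h4
    rw [PL] at h
    show cs.length (w * cs.simple s) < cs.length w
    omega

/-- (W9) the projection to the `X`-reduced part is monotone for the prefix order. -/
theorem w9 {X : Set S} {p q p' q' : W} (hp : p ∈ WP cs X) (hq : XRed cs X q)
    (hp' : p' ∈ WP cs X) (hq' : XRed cs X q') (h : PL cs (p * q) (p' * q')) : PL cs q q' := by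
  induction hn : cs.length (p' * q') using Nat.strong_induction_on generalizing p' q' with
  | _ n ih =>
    by_cases hne : p * q = p' * q'
    · obtain ⟨-, rfl⟩ := w5_unique hp hq hp' hq' hne
      exact pl_refl _
    · obtain ⟨s, h1, h2⟩ := exists_rightDescent_of_pl h hne
      obtain ⟨p1, hp1, q1, hq1, he1⟩ := w5 (cs := cs) X (p' * q' * cs.simple s)
      rw [he1] at h1
      have h3 := cs.isRightDescent_iff.1 h2
      have hnd : ¬ cs.IsRightDescent (p1 * q1) s := by
        rw [← he1]
        exact cs.isRightDescent_iff_not_isRightDescent_mul.1 h2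
      obtain ⟨p2, hp2, q2, hq2, he2, hpl⟩ := proj_cover hp1 hq1 hnd
      rw [← he1, cs.simple_mul_simple_cancel_right] at he2
      obtain ⟨-, rfl⟩ := w5_unique hp' hq' hp2 hq2 he2
      rw [he1] at h3
      exact (ih _ (by omega) hp1 hq1 h1 rfl).trans hpl

/-- (W8) if `w` is `X`-reduced, `p ∈ W_X` and `w ≤ p w` then every letter of `p` is conjugated to
a simple reflection by `w`. -/
theorem w8 {X : Set S} {w p : W} (hw : XRed cs X w) (hp : p ∈ WP cs X) (h : PL cs w (p * w)) :
    p ∈ WP cs {x ∈ X | ∃ s, cs.simple x * w = w * cs.simple s} := by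
  induction hn : cs.length (p * w) using Nat.strong_induction_on generalizing p with
  | _ n ih =>
    by_cases hne : w = p * w
    · have : p = 1 := by
        have h1 : 1 * w = p * w := by rw [one_mul]; exact hne
        exact (mul_right_cancel h1).symm
      rw [this]
      exact Subgroup.one_mem _
    · obtain ⟨s, h1, h2⟩ := exists_rightDescent_of_pl h hne
      have h3 := cs.isRightDescent_iff.1 h2
      obtain ⟨p1, hp1, q1, hq1, he1⟩ := w5 (cs := cs) X (p * w * cs.simple s)
      have hnd : ¬ cs.IsRightDescent (p1 * q1) s := by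
        rw [← he1]
        exact cs.isRightDescent_iff_not_isRightDescent_mul.1 h2
      obtain ⟨p2, hp2, q2, hq2, he2, hpl⟩ := proj_cover hp1 hq1 hnd
      rw [← he1, cs.simple_mul_simple_cancel_right] at he2
      obtain ⟨rfl, rfl⟩ := w5_unique hp hw hp2 hq2 he2
      have hq1w : PL cs w q1 := by
        apply w9 (Subgroup.one_mem (WP cs X)) hw hp1 hq1
        rw [one_mul, ← he1]; exact h1
      have hq1e : q1 = w := hpl.antisymm hq1w
      subst hq1e
      -- `p w s = p1 w`, so `w s = (p⁻¹ p1) w`
      have hws : q1 * cs.simple s = (p⁻¹ * p1) * q1 := by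
        rw [mul_assoc, ← he1]; group
      have hin := ih _ (by rw [← he1]; omega) hp1 (by rw [← he1]; exact h1) rfl
      rcases w6 (cs := cs) s hw with h4 | ⟨x, hx, he⟩
      · exfalso
        have hm := (WP cs X).mul_mem ((WP cs X).inv_mem hp) hp1
        have h5 : (1 : W) * (q1 * cs.simple s) = (p⁻¹ * p1) * q1 := by rw [one_mul, hws]
        obtain ⟨-, h6⟩ := w5_unique (Subgroup.one_mem (WP cs X)) h4 hm hw h5
        have h7 := cs.length_mul_simple_ne q1 s
        rw [h6] at h7
        exact h7 rfl
      · have h8 : p⁻¹ * p1 = cs.simple x := by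
          rw [hws] at he
          exact (mul_right_cancel he).symm
        have h9 : p = p1 * cs.simple x := by
          rw [← cs.inv_simple, ← h8]; group
        rw [h9]
        exact Subgroup.mul_mem _ hin (simple_mem ⟨hx, s, he⟩)

/-- (W2) the longest element of a finite Coxeter group is the largest one. -/
theorem w2 [Finite W] : ∃ w0 : W, ∀ w, PL cs w w0 := by
  classical
  obtain ⟨w0, hw0⟩ : ∃ w0 : W, ∀ w, cs.length w ≤ cs.length w0 := by
    have := Finite.exists_max (fun w : W => cs.length w)
    exact this
  refine ⟨w0, fun w => ?_⟩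
  have hd : ∀ s, cs.IsLeftDescent w0 s := by
    intro s
    by_contra hn
    have h1 := cs.not_isLeftDescent_iff.1 hn
    have h2 := hw0 (cs.simple s * w0)
    omega
  have hneg : ∀ v : S →₀ ℝ, Pos v → Pos (-(rep cs w0⁻¹ v)) := by
    intro v hv
    refine ⟨fun h => hv.1 (rep_injective_apply cs w0⁻¹ (neg_eq_zero.1 h)), fun b => ?_⟩
    rw [Finsupp.neg_apply, Crest.Agent.R175.VdL_527.rep_apply_eq_sum]
    rw [neg_nonneg]
    apply Finset.sum_nonpos
    intro x _
    have h1 := ((leftDescent_iff cs w0 x).1 (hd x)).2 b
    rw [Finsupp.neg_apply] at h1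
    exact mul_nonpos_of_nonneg_of_nonpos (hv.2 x) (by linarith)
  induction hn : cs.length w generalizing w with
  | zero =>
    rw [cs.length_eq_zero_iff] at hn
    rw [hn]; exact pl_one w0
  | succ n ih =>
    have hw1 : w ≠ 1 := by
      rintro rfl
      rw [cs.length_one] at hn
      omega
    obtain ⟨s, hs⟩ := cs.exists_rightDescent_of_ne_one hw1
    have h1 := cs.isRightDescent_iff.1 hs
    have h2 := ih (w * cs.simple s) (by omega)
    have h3 : Pos (rep cs (w * cs.simple s) (sr s)) := by
      rw [pos_rep_sr_iff]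
      exact cs.isRightDescent_iff_not_isRightDescent_mul.1 hs
    have h4 := hneg _ h3
    have h5 : cs.IsLeftDescent ((w * cs.simple s)⁻¹ * w0) s := by
      rw [leftDescent_iff, mul_inv_rev, inv_inv, rep_mul_apply]
      exact h4
    have h6 := cs.isLeftDescent_iff.1 h5
    have h7 : cs.simple s * ((w * cs.simple s)⁻¹ * w0) = w⁻¹ * w0 := by
      rw [mul_inv_rev, cs.inv_simple, mul_assoc, cs.simple_mul_simple_cancel_left]
    rw [h7] at h6
    rw [PL] at *
    omega

/-- upper bounds of two covers -/
theorem pl_alt_of_covers {z w : W} {i j : S} (hij : i ≠ j) (hi : ¬ cs.IsRightDescent z i)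
    (hj : ¬ cs.IsRightDescent z j) (h1 : PL cs (z * cs.simple i) w)
    (h2 : PL cs (z * cs.simple j) w) :
    M i j ≠ 0 ∧ PL cs (z * cs.wordProd (alt i j (M i j))) w := by
  have hzi : PL cs z (z * cs.simple i) := by
    rw [pl_mul_iff, cs.length_simple]; exact cs.not_isRightDescent_iff.1 hi
  have hzj : PL cs z (z * cs.simple j) := by
    rw [pl_mul_iff, cs.length_simple]; exact cs.not_isRightDescent_iff.1 hj
  have hzw : PL cs z w := hzi.trans h1
  obtain ⟨v, rfl⟩ : ∃ v, w = z * v := ⟨z⁻¹ * w, by rw [mul_inv_cancel_left]⟩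
  have hi' := pl_simple_iff.1 (h1.cancel_left hzi)
  have hj' := pl_simple_iff.1 (h2.cancel_left hzj)
  obtain ⟨hM, hpl⟩ := w1 hij hi' hj'
  exact ⟨hM, hzw.mul_left hpl⟩

theorem pl_covers_alt {z : W} {i j : S} {m : ℕ} (hm : 0 < m)
    (h : PL cs z (z * cs.wordProd (alt i j m)))
    (hr : cs.length (cs.wordProd (alt i j m)) = m) :
    PL cs (z * cs.simple i) (z * cs.wordProd (alt i j m)) := by
  apply h.mul_left
  rw [pl_simple_iff]
  obtain ⟨k, rfl⟩ : ∃ k, m = k + 1 := ⟨m - 1, by omega⟩
  rw [alt_succ]
  apply leftDescent_cons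
  rw [CoxeterSystem.IsReduced, ← alt_succ, hr, length_alt]

theorem exists_cover {z x : W} (h : PL cs z x) (hne : z ≠ x) :
    ∃ s, ¬ cs.IsRightDescent z s ∧ PL cs (z * cs.simple s) x := by
  have h1 : z⁻¹ * x ≠ 1 := fun h' => hne (inv_mul_eq_one.1 h')
  obtain ⟨s, hs⟩ := cs.exists_leftDescent_of_ne_one h1
  have hx : z * (z⁻¹ * x) = x := mul_inv_cancel_left z x
  have h2 : PL cs (z * cs.simple s) (z * (z⁻¹ * x)) := by
    apply PL.mul_left
    · rw [hx]; exact h
    · rw [pl_simple_iff]; exact hs
  rw [hx] at h2
  refine ⟨s, ?_, h2⟩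
  intro hd
  have h3 := cs.isRightDescent_iff.1 hd
  have h4 := cs.isLeftDescent_iff.1 hs
  have h5 : (z * cs.simple s)⁻¹ * x = cs.simple s * (z⁻¹ * x) := by
    rw [mul_inv_rev, cs.inv_simple, mul_assoc]
  rw [PL, h5] at h2
  rw [PL] at h
  omega

/-- (W3) for bounded pairs, any Coxeter group -/
theorem w3_bdd (u v b : W) (hub : PL cs u b) (hvb : PL cs v b) : ∃ j, PL cs u j ∧ PL cs v j ∧
    ∀ w, PL cs u w → PL cs v w → PL cs j w := by
  suffices H : ∀ (n : ℕ) (z x y : W), cs.length b - cs.length z ≤ n → PL cs z x → PL cs z y →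
      PL cs x b → PL cs y b → ∃ j, PL cs x j ∧ PL cs y j ∧ ∀ w, PL cs x w → PL cs y w →
        PL cs j w from
    H (cs.length b) 1 u v (by omega) (pl_one u) (pl_one v) hub hvb
  intro n
  induction n with
  | zero =>
    intro z x y hn hzx hzy hxb hyb
    have hzb := hzx.trans hxb
    have h1 : z = b := by
      have h2 := hzb
      rw [PL] at h2
      have h3 : cs.length (z⁻¹ * b) = 0 := by omega
      rw [cs.length_eq_zero_iff] at h3
      exact inv_mul_eq_one.1 h3
    subst h1
    have hx := hzx.antisymm hxb
    have hy := hzy.antisymm hyb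
    subst hx
    exact ⟨z, pl_refl _, by rw [← hy]; exact pl_refl _, fun w h _ => h⟩
  | succ n ih =>
    intro z x y hn hzx hzy hxb hyb
    by_cases hzx' : z = x
    · subst hzx'
      exact ⟨y, hzy, pl_refl _, fun w _ h => h⟩
    by_cases hzy' : z = y
    · subst hzy'
      exact ⟨x, pl_refl _, hzx, fun w h _ => h⟩
    obtain ⟨i, hi, hix⟩ := exists_cover hzx hzx'
    obtain ⟨j, hj, hjy⟩ := exists_cover hzy hzy'
    have hli := cs.not_isRightDescent_iff.1 hi
    have hlj := cs.not_isRightDescent_iff.1 hj
    by_cases hij : i = j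
    · subst hij
      exact ih _ x y (by omega) hix hjy hxb hyb
    · obtain ⟨hM, hab⟩ := pl_alt_of_covers hij hi hj (hix.trans hxb) (hjy.trans hyb)
      set a := z * cs.wordProd (alt i j (M i j)) with ha
      have hza : PL cs z a := by
        -- lengths add
        have hzb := hzx.trans hxb
        obtain ⟨v, hv⟩ : ∃ v, b = z * v := ⟨z⁻¹ * b, by rw [mul_inv_cancel_left]⟩
        have hzi : PL cs z (z * cs.simple i) := by
          rw [pl_mul_iff, cs.length_simple]; exact hli
        have hzj : PL cs z (z * cs.simple j) := by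
          rw [pl_mul_iff, cs.length_simple]; exact hlj
        have h1 := hix.trans hxb
        have h2 := hjy.trans hyb
        rw [hv] at h1 h2 hzb
        have hi' := pl_simple_iff.1 (h1.cancel_left hzi)
        have hj' := pl_simple_iff.1 (h2.cancel_left hzj)
        obtain ⟨-, hpl⟩ := w1 hij hi' hj'
        rw [pl_mul_iff] at hzb
        have h3 := cs.length_mul_le z (cs.wordProd (alt i j (M i j)))
        have h4 := cs.length_mul_le (z * cs.wordProd (alt i j (M i j)))
          ((cs.wordProd (alt i j (M i j)))⁻¹ * v)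
        have h5 : z * cs.wordProd (alt i j (M i j)) * ((cs.wordProd (alt i j (M i j)))⁻¹ * v)
            = z * v := by group
        rw [h5] at h4
        rw [PL] at hpl
        rw [ha, pl_mul_iff]
        omega
      have hr := w1' (cs := cs) hij (M i j) (Or.inr le_rfl)
      have hia : PL cs (z * cs.simple i) a := pl_covers_alt (by omega) hza hr
      have hja : PL cs (z * cs.simple j) a := by
        have ha' : a = z * cs.wordProd (alt j i (M i j)) := by rw [ha, alt_comm_word]
        rw [ha']
        apply pl_covers_alt (by omega) (by rw [← ha']; exact hza)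
        rw [← alt_comm_word, hr]
      obtain ⟨c, hxc, hac, hc⟩ := ih (z * cs.simple i) x a (by omega) hix hia hxb hab
      have hcb := hc b hxb hab
      obtain ⟨d, hcd, hyd, hd⟩ := ih (z * cs.simple j) c y (by omega) (hja.trans hac) hjy hcb hyb
      refine ⟨d, hxc.trans hcd, hyd, ?_⟩
      intro w hxw hyw
      have haw : PL cs a w := (pl_alt_of_covers hij hi hj (hix.trans hxw) (hjy.trans hyw)).2
      exact hd w (hc w hxw haw) hyw

/-- (W3) joins in the weak order of a finite Coxeter group. -/
theorem w3 [Finite W] (u v : W) : ∃ j, PL cs u j ∧ PL cs v j ∧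
    ∀ w, PL cs u w → PL cs v w → PL cs j w := by
  obtain ⟨w0, h0⟩ := w2 (cs := cs)
  exact w3_bdd u v w0 (h0 u) (h0 v)

end Crest.Agent.R175.WB_527
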