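import Crest.Agent.R175.GMon_145
import Mathlib.GroupTheory.OreLocalization.Basic
import Mathlib
import Crest.Agent.R175.WB_527

-- ▼ part R175/GLat_145
section

/-!
Row 175, Track D: least common multiples and greatest common divisors in the Artin monoid,
standard parabolic submonoids, the Garside element (helper145).
-/

set_option autoImplicit false

namespace Crest.Agent.R175.GLat_145

open Crest.Agent.R175.DDef_145 Crest.Agent.R175.DW_145 Crest.Agent.R175.GPL_145
open Crest.Agent.R175.GMon_145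

variable {S : Type*} {M : CoxeterMatrix S} {W : Type*} [Group W] {cs : CoxeterSystem M W}
variable (D : Dat cs)

/-! ### Parabolic submonoids -/

open Classical in
/-- indicator homomorphism of the letters in `X` -/
noncomputable def chi (M : CoxeterMatrix S) (X : Set S) : AM M →* ℕ :=
  amLift (fun s => if s ∈ X then 1 else 0) (by
    intro s t h
    by_cases hst : s = t
    · subst hst; rfl
    have h1 : M s t ≠ 1 := M.off_diagonal s t hst
    obtain ⟨m, hm⟩ : ∃ m, M s t = m + 2 := ⟨M s t - 2, by omega⟩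
    rw [hm]
    have key : ∀ (f : S → ℕ), (∀ a, f a = 0 ∨ f a = 1) → ∀ (m : ℕ) (s t : S),
        ((alt s t (m + 2)).map f).prod = f s * f t := by
      intro f hf m
      induction m with
      | zero => intro s t; simp [alt_succ]
      | succ m ih =>
        intro s t
        rw [alt_succ, List.map_cons, List.prod_cons, ih t s]
        rcases hf s with h | h <;> rcases hf t with h' | h' <;> simp [h, h']
    rw [key _ (fun a => by by_cases h : a ∈ X <;> simp [h]) m s t,
      key _ (fun a => by by_cases h : a ∈ X <;> simp [h]) m t s, mul_comm])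

open Classical in
theorem chi_at (X : Set S) (s : S) : chi M X (at' M s) = if s ∈ X then 1 else 0 := by
  unfold chi; rw [amLift_at]

/-- the parabolic submonoid -/
def PM (M : CoxeterMatrix S) (X : Set S) : Submonoid (AM M) := Submonoid.closure (at' M '' X)

theorem at_mem_PM {X : Set S} {s : S} (h : s ∈ X) : at' M s ∈ PM M X :=
  Submonoid.subset_closure ⟨s, h, rfl⟩

theorem mem_PM_iff {X : Set S} {z : AM M} : z ∈ PM M X ↔ chi M X z = 1 := by
  constructor
  · intro h
    induction h using Submonoid.closure_induction with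
    | mem x hx =>
      obtain ⟨s, hs, rfl⟩ := hx
      rw [chi_at, if_pos hs]
    | one => exact map_one _
    | mul x y _ _ hx hy => rw [map_mul, hx, hy, mul_one]
  · obtain ⟨l, rfl⟩ := exists_list z
    intro h
    induction l with
    | nil => exact Submonoid.one_mem _
    | cons a l ih =>
      rw [List.map_cons, List.prod_cons] at h ⊢
      rw [map_mul] at h
      have h1 := Nat.eq_one_of_mul_eq_one_right h
      have h2 := Nat.eq_one_of_mul_eq_one_left h
      refine Submonoid.mul_mem _ (at_mem_PM ?_) (ih h2)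
      by_contra hn
      rw [chi_at, if_neg hn] at h1
      exact absurd h1 (by norm_num)

theorem mul_mem_PM_iff {X : Set S} {x y : AM M} : x * y ∈ PM M X ↔ x ∈ PM M X ∧ y ∈ PM M X := by
  constructor
  · intro h
    rw [mem_PM_iff, map_mul] at h
    exact ⟨mem_PM_iff.2 (Nat.eq_one_of_mul_eq_one_right h),
      mem_PM_iff.2 (Nat.eq_one_of_mul_eq_one_left h)⟩
  · rintro ⟨h1, h2⟩
    exact Submonoid.mul_mem _ h1 h2

theorem at_mem_PM_iff {X : Set S} {s : S} : at' M s ∈ PM M X ↔ s ∈ X := by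
  refine ⟨fun h => ?_, at_mem_PM⟩
  by_contra hn
  rw [mem_PM_iff, chi_at, if_neg hn] at h
  exact absurd h (by norm_num)




theorem alt_mem_PM {X : Set S} {s t : S} (hs : s ∈ X) (ht : t ∈ X) (m : ℕ) :
    ((alt s t m).map (at' M)).prod ∈ PM M X := by
  induction m generalizing s t with
  | zero => exact Submonoid.one_mem _
  | succ m ih =>
    rw [alt_succ, List.map_cons, List.prod_cons]
    exact Submonoid.mul_mem _ (at_mem_PM hs) (ih ht hs)

theorem rev_mem_PM {X : Set S} {z : AM M} (h : z ∈ PM M X) : rev z ∈ PM M X := by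
  induction h using Submonoid.closure_induction with
  | mem x hx =>
    obtain ⟨s, hs, rfl⟩ := hx
    rw [rev_at]; exact at_mem_PM hs
  | one => rw [rev_one]; exact Submonoid.one_mem _
  | mul x y _ _ hx hy => rw [rev_mul]; exact Submonoid.mul_mem _ hy hx

/-! ### Divisibility -/

include D in
theorem mul_dvd_mul_left_iff {z x y : AM M} : z * x ∣ z * y ↔ x ∣ y := by
  constructor
  · rintro ⟨c, hc⟩
    rw [mul_assoc] at hc
    exact ⟨c, mul_left_cancel' D hc⟩
  · rintro ⟨c, rfl⟩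
    exact ⟨c, by rw [mul_assoc]⟩

theorem deg_le_of_dvd {x y : AM M} (h : x ∣ y) : deg x ≤ deg y := by
  obtain ⟨c, rfl⟩ := h; simp

theorem eq_of_dvd_of_deg {x y : AM M} (h : x ∣ y) (h' : deg y ≤ deg x) : x = y := by
  obtain ⟨c, rfl⟩ := h
  rw [deg_mul] at h'
  rw [eq_one_of_deg (z := c) (by omega), mul_one]


include D in
/-- least common multiples -/
theorem exists_lcm (t x y : AM M) (hx : x ∣ t) (hy : y ∣ t) :
    ∃ j, x ∣ j ∧ y ∣ j ∧ (∀ e, x ∣ e → y ∣ e → j ∣ e) ∧
      ∀ X : Set S, x ∈ PM M X → y ∈ PM M X → j ∈ PM M X := by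
  induction hn : deg t using Nat.strong_induction_on generalizing t x y with
  | _ n IH =>
  subst hn
  by_cases hx1 : x = 1
  · subst hx1
    exact ⟨y, one_dvd y, dvd_rfl, fun e _ h => h, fun X _ h => h⟩
  by_cases hy1 : y = 1
  · subst hy1
    exact ⟨x, dvd_rfl, one_dvd x, fun e h _ => h, fun X h _ => h⟩
  obtain ⟨a, x', rfl⟩ := exists_at_mul hx1
  obtain ⟨b, y', rfl⟩ := exists_at_mul hy1
  have hat : at' M a ∣ t := (Dvd.intro _ rfl).trans hx
  have hbt : at' M b ∣ t := (Dvd.intro _ rfl).trans hy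
  obtain ⟨ta, hta⟩ := hat
  have hda : deg ta < deg t := by rw [hta]; simp
  obtain ⟨tb, htb⟩ := hbt
  have hdb : deg tb < deg t := by rw [htb]; simp
  by_cases hab : a = b
  · subst hab
    rw [hta, mul_dvd_mul_left_iff D] at hx hy
    obtain ⟨j, h1, h2, h3, h4⟩ := IH _ hda ta x' y' hx hy rfl
    refine ⟨at' M a * j, (mul_dvd_mul_left_iff D).2 h1, (mul_dvd_mul_left_iff D).2 h2, ?_, ?_⟩
    · rintro e ⟨c, rfl⟩ he
      rw [mul_assoc] at he ⊢
      rw [mul_dvd_mul_left_iff D] at he ⊢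
      exact h3 _ (Dvd.intro _ rfl) he
    · intro X hX hY
      exact Submonoid.mul_mem _ (mul_mem_PM_iff.1 hX).1
        (h4 X (mul_mem_PM_iff.1 hX).2 (mul_mem_PM_iff.1 hY).2)
  · obtain ⟨hM0, hct⟩ := two_atoms D hab ⟨ta, hta⟩ ⟨tb, htb⟩
    obtain ⟨m, hm⟩ : ∃ m, M a b = m + 1 := ⟨M a b - 1, by omega⟩
    set c := ((alt a b (M a b)).map (at' M)).prod with hc
    have hca : c = at' M a * ((alt b a m).map (at' M)).prod := by
      rw [hc, hm, alt_succ, List.map_cons, List.prod_cons]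
    have hcb : c = at' M b * ((alt a b m).map (at' M)).prod := by
      rw [hc, braid_at a b hM0, hm, alt_succ, List.map_cons, List.prod_cons]
    have hcmin : ∀ e, at' M a ∣ e → at' M b ∣ e → c ∣ e := fun e h1 h2 =>
      (two_atoms D hab h1 h2).2
    set ca := ((alt b a m).map (at' M)).prod with hca'
    set cb := ((alt a b m).map (at' M)).prod with hcb'
    -- join of x and c
    have h1 : x' ∣ ta := by rwa [hta, mul_dvd_mul_left_iff D] at hx
    have h2 : ca ∣ ta := by rwa [hca, hta, mul_dvd_mul_left_iff D] at hct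
    obtain ⟨d, hd1, hd2, hd3, hd4⟩ := IH _ hda ta x' ca h1 h2 rfl
    have hdt : at' M a * d ∣ t := by
      rw [hta, mul_dvd_mul_left_iff D]; exact hd3 _ h1 h2
    have hcd : c ∣ at' M a * d := by rw [hca, mul_dvd_mul_left_iff D]; exact hd2
    have hbd : at' M b ∣ at' M a * d := (by rw [hcb]; exact Dvd.intro _ rfl : at' M b ∣ c).trans hcd
    obtain ⟨d', hd'⟩ := hbd
    have h3 : d' ∣ tb := by rwa [hd', htb, mul_dvd_mul_left_iff D] at hdt
    have h4 : y' ∣ tb := by rwa [htb, mul_dvd_mul_left_iff D] at hy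
    obtain ⟨j, hj1, hj2, hj3, hj4⟩ := IH _ hdb tb d' y' h3 h4 rfl
    refine ⟨at' M b * j, ?_, (mul_dvd_mul_left_iff D).2 hj2, ?_, ?_⟩
    · exact ((mul_dvd_mul_left_iff D).2 hd1).trans (by rw [hd', mul_dvd_mul_left_iff D]; exact hj1)
    · intro e he1 he2
      have hae : at' M a ∣ e := (Dvd.intro _ rfl).trans he1
      have hbe : at' M b ∣ e := (Dvd.intro _ rfl).trans he2
      have hce := hcmin e hae hbe
      obtain ⟨e', rfl⟩ := hae
      have h5 : at' M a * d ∣ at' M a * e' := by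
        rw [mul_dvd_mul_left_iff D]
        refine hd3 _ (by rwa [mul_dvd_mul_left_iff D] at he1) ?_
        rwa [hca, mul_dvd_mul_left_iff D] at hce
      obtain ⟨e'', he''⟩ := hbe
      rw [he'', mul_dvd_mul_left_iff D]
      refine hj3 _ ?_ ?_
      · rwa [hd', he'', mul_dvd_mul_left_iff D] at h5
      · rwa [he'', mul_dvd_mul_left_iff D] at he2
    · intro X hX hY
      have haX := at_mem_PM_iff.1 (mul_mem_PM_iff.1 hX).1
      have hbX := at_mem_PM_iff.1 (mul_mem_PM_iff.1 hY).1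
      have h6 : d ∈ PM M X := hd4 X (mul_mem_PM_iff.1 hX).2 (alt_mem_PM hbX haX m)
      have h7 : d' ∈ PM M X := by
        have : at' M b * d' ∈ PM M X := by
          rw [← hd']; exact Submonoid.mul_mem _ (at_mem_PM haX) h6
        exact (mul_mem_PM_iff.1 this).2
      exact Submonoid.mul_mem _ (at_mem_PM hbX) (hj4 X h7 (mul_mem_PM_iff.1 hY).2)

include D in
/-- greatest common divisors -/
theorem exists_gcd (x y : AM M) :
    ∃ d, d ∣ x ∧ d ∣ y ∧ ∀ e, e ∣ x → e ∣ y → e ∣ d := by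
  classical
  let P : ℕ → Prop := fun n => ∃ d : AM M, d ∣ x ∧ d ∣ y ∧ deg d = n
  have hP0 : P 0 := ⟨1, one_dvd _, one_dvd _, deg_one⟩
  obtain ⟨d, hdx, hdy, hd⟩ := Nat.findGreatest_spec (P := P) (Nat.zero_le (deg x)) hP0
  refine ⟨d, hdx, hdy, fun e hex hey => ?_⟩
  obtain ⟨j, hj1, hj2, hj3, -⟩ := exists_lcm D x d e hdx hex
  have hjx := hj3 x hdx hex
  have hjy := hj3 y hdy hey
  have h1 : deg j ≤ deg d := by
    rw [hd]
    exact Nat.le_findGreatest (deg_le_of_dvd hjx) ⟨j, hjx, hjy, rfl⟩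
  rw [eq_of_dvd_of_deg hj1 h1]
  exact hj2

include D in
/-- gcds are left invariant -/
theorem gcd_mul_left {c x y d : AM M} (hx : d ∣ x) (hy : d ∣ y)
    (hd : ∀ e, e ∣ x → e ∣ y → e ∣ d) {e : AM M} (h1 : e ∣ c * x) (h2 : e ∣ c * y) :
    e ∣ c * d := by
  obtain ⟨g, hg1, hg2, hg3⟩ := exists_gcd D (c * x) (c * y)
  obtain ⟨h, rfl⟩ := hg3 c (Dvd.intro _ rfl) (Dvd.intro _ rfl)
  rw [mul_dvd_mul_left_iff D] at hg1 hg2
  exact (hg3 e h1 h2).trans ((mul_dvd_mul_left_iff D).2 (hd _ hg1 hg2))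

/-! ### The Garside element -/

/-- the Garside element -/
noncomputable def Dl : AM M := sg cs D.w0

theorem w0_mul_self : D.w0 * D.w0 = 1 := by
  have h1 := D.top D.w0⁻¹
  have h2 : D.w0⁻¹ = D.w0 := h1.eq_of_length (by rw [cs.length_inv])
  calc D.w0 * D.w0 = D.w0⁻¹ * D.w0 := by rw [h2]
    _ = 1 := inv_mul_cancel _

theorem w0_inv : D.w0⁻¹ = D.w0 := inv_eq_of_mul_eq_one_left (w0_mul_self D)

theorem exists_star (s : S) : ∃ t : S, cs.simple s * D.w0 = D.w0 * cs.simple t := by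
  have h1 := D.top (cs.simple s)
  have h2 := D.top (cs.simple s * D.w0)
  unfold PL at h1 h2
  rw [cs.length_simple, cs.inv_simple] at h1
  have h3 : cs.length ((cs.simple s * D.w0)⁻¹ * D.w0) = 1 := by omega
  obtain ⟨t, ht⟩ := cs.length_eq_one_iff.1 h3
  refine ⟨t, ?_⟩
  rw [mul_inv_rev, cs.inv_simple, w0_inv] at ht
  rw [← ht]
  calc cs.simple s * D.w0 = (D.w0 * D.w0) * (cs.simple s * D.w0) := by rw [w0_mul_self, one_mul]
    _ = _ := by simp only [mul_assoc]

/-- the involution of the atoms -/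
noncomputable def star (s : S) : S := (exists_star D s).choose

theorem star_spec (s : S) : cs.simple s * D.w0 = D.w0 * cs.simple (star D s) :=
  (exists_star D s).choose_spec

theorem at_mul_Dl (s : S) : at' M s * Dl D = Dl D * at' M (star D s) := by
  have h1 : PL cs (cs.simple s) D.w0 := D.top _
  have h2 : Dl D = at' M s * sg cs (cs.simple s * D.w0) := by
    unfold Dl
    conv_lhs => rw [sg_PL D h1, cs.inv_simple, sg_simple D]
  have h3 : PL cs (cs.simple s * D.w0) D.w0 := D.top _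
  have h4 : Dl D = sg cs (cs.simple s * D.w0) * at' M (star D s) := by
    unfold Dl
    conv_lhs => rw [sg_PL D h3]
    rw [← sg_simple D]
    congr 2
    rw [star_spec, mul_inv_rev, cs.inv_simple, mul_assoc, inv_mul_cancel, mul_one]
  conv_lhs => rw [h4]
  conv_rhs => rw [h2]
  rw [mul_assoc]

theorem star_star (s : S) : cs.simple (star D (star D s)) = cs.simple s := by
  have h1 := star_spec D s
  have h2 := star_spec D (star D s)
  have h3 : cs.simple (star D (star D s)) = D.w0 * (cs.simple (star D s) * D.w0) := by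
    rw [h2, ← mul_assoc, w0_mul_self, one_mul]
  rw [h3, ← mul_assoc, ← h1, mul_assoc, w0_mul_self, mul_one]

theorem at_star_star (s : S) : at' M (star D (star D s)) = at' M s := by
  rw [← sg_simple D, star_star, sg_simple D]

/-- conjugation by the Garside element -/
theorem exists_mul_Dl (z : AM M) : ∃ z', z * Dl D = Dl D * z' := by
  induction z using induction_left with
  | h1 => exact ⟨1, by simp⟩
  | h2 s z ih =>
    obtain ⟨z', hz'⟩ := ih
    exact ⟨at' M (star D s) * z', by rw [mul_assoc, hz', ← mul_assoc, at_mul_Dl, mul_assoc]⟩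

theorem Dl_mul_at (s : S) : Dl D * at' M s = at' M (star D s) * Dl D := by
  rw [at_mul_Dl, at_star_star]

theorem simple_star (s : S) : cs.simple (star D s) = D.w0 * cs.simple s * D.w0 := by
  rw [mul_assoc, star_spec, ← mul_assoc, w0_mul_self, one_mul]

theorem wordProd_star (ω : List S) :
    cs.wordProd (ω.map (star D)) = D.w0 * cs.wordProd ω * D.w0 := by
  induction ω with
  | nil => simp [w0_mul_self]
  | cons a ω ih =>
    rw [List.map_cons, cs.wordProd_cons, ih, cs.wordProd_cons, simple_star]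
    calc D.w0 * cs.simple a * D.w0 * (D.w0 * cs.wordProd ω * D.w0) =
        D.w0 * cs.simple a * (D.w0 * D.w0) * cs.wordProd ω * D.w0 := by simp only [mul_assoc]
      _ = _ := by rw [w0_mul_self]; simp only [mul_assoc, one_mul, mul_one]

theorem length_conj (w : W) : cs.length (D.w0 * w * D.w0) = cs.length w := by
  have key : ∀ w : W, cs.length (D.w0 * w * D.w0) ≤ cs.length w := by
    intro w
    obtain ⟨ω, hω, rfl⟩ := cs.exists_isReduced w
    rw [← wordProd_star, hω.eq]
    simpa using cs.length_wordProd_le (ω.map (star D))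
  refine le_antisymm (key w) ?_
  have h := key (D.w0 * w * D.w0)
  have h2 : D.w0 * (D.w0 * w * D.w0) * D.w0 = w := by
    calc _ = (D.w0 * D.w0) * w * (D.w0 * D.w0) := by simp only [mul_assoc]
      _ = w := by rw [w0_mul_self]; simp
  rwa [h2] at h

theorem Dl_mul_list (l : List S) :
    Dl D * (l.map (at' M)).prod = ((l.map (star D)).map (at' M)).prod * Dl D := by
  induction l with
  | nil => simp
  | cons a l ih =>
    rw [List.map_cons, List.prod_cons, ← mul_assoc, Dl_mul_at D a, mul_assoc, ih, List.map_cons,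
      List.map_cons, List.prod_cons, mul_assoc]

theorem Dl_mul_sg (a : W) : Dl D * sg cs a = sg cs (D.w0 * a * D.w0) * Dl D := by
  obtain ⟨ω, hω, rfl⟩ := cs.exists_isReduced a
  have h1 : cs.IsReduced (ω.map (star D)) := by
    unfold CoxeterSystem.IsReduced
    rw [wordProd_star, length_conj, hω.eq, List.length_map]
  rw [← wordProd_star, sg_wordProd D hω, sg_wordProd D h1, Dl_mul_list]


/-- the central element -/
noncomputable def Om : AM M := Dl D * Dl D

theorem Om_central (z : AM M) : z * Om D = Om D * z := by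
  unfold Om
  induction z using induction_left with
  | h1 => simp
  | h2 s z ih =>
    calc at' M s * z * (Dl D * Dl D) = at' M s * (z * (Dl D * Dl D)) := by rw [mul_assoc]
      _ = (at' M s * Dl D) * Dl D * z := by rw [ih]; simp only [mul_assoc]
      _ = Dl D * (at' M (star D s) * Dl D) * z := by rw [at_mul_Dl]; simp only [mul_assoc]
      _ = Dl D * Dl D * (at' M s * z) := by rw [at_mul_Dl, at_star_star]; simp only [mul_assoc]

theorem sg_dvd_Dl (u : W) : sg cs u ∣ Dl D := by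
  unfold Dl
  rw [sg_PL D (D.top u)]
  exact Dvd.intro _ rfl

theorem at_dvd_Dl (s : S) : at' M s ∣ Dl D := by
  rw [← sg_simple D]; exact sg_dvd_Dl D _

theorem exists_mul_Dl_pow (z : AM M) (r : ℕ) : ∃ z', z * Dl D ^ r = Dl D ^ r * z' := by
  induction r generalizing z with
  | zero => exact ⟨z, by simp⟩
  | succ r ih =>
    obtain ⟨z', h⟩ := exists_mul_Dl D z
    obtain ⟨z'', h'⟩ := ih z'
    exact ⟨z'', by rw [pow_succ', ← mul_assoc, h, mul_assoc, h', mul_assoc]⟩


/-- right factors of a power of the Garside element are left divisors -/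
theorem dvd_of_mul_eq_pow {x y : AM M} {r : ℕ} (h : x * y = Dl D ^ r) : y ∣ Dl D ^ r := by
  obtain ⟨x', hx'⟩ := exists_mul_Dl_pow D x r
  refine ⟨x', ?_⟩
  apply mul_left_cancel' D (z := x)
  rw [← mul_assoc, h, hx']

theorem mul_dvd_pow {x y : AM M} {r : ℕ} (h : x * y ∣ Dl D ^ r) : y ∣ Dl D ^ r := by
  obtain ⟨z, hz⟩ := h
  rw [mul_assoc] at hz
  exact (Dvd.intro _ rfl).trans (dvd_of_mul_eq_pow D hz.symm)

/-- a simple element times a divisor of `Δ^r` divides `Δ^(r+1)` -/
theorem sg_mul_dvd {u : W} {z : AM M} {r : ℕ} (h : z ∣ Dl D ^ r) : sg cs u * z ∣ Dl D ^ (r + 1) := by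
  obtain ⟨t, ht⟩ := h
  obtain ⟨v, hv⟩ := sg_dvd_Dl D u
  obtain ⟨v', hv'⟩ := exists_mul_Dl_pow D v r
  refine ⟨t * v', ?_⟩
  calc Dl D ^ (r + 1) = Dl D * Dl D ^ r := pow_succ' _ _
    _ = (sg cs u * v) * Dl D ^ r := by rw [← hv]
    _ = sg cs u * (v * Dl D ^ r) := by rw [mul_assoc]
    _ = sg cs u * z * (t * v') := by rw [hv', ht]; simp only [mul_assoc]

theorem dvd_Dl_pow (z : AM M) : z ∣ Dl D ^ (deg z) := by
  induction z using induction_left with
  | h1 => simp
  | h2 s z ih =>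
    rw [deg_mul, deg_at, add_comm, ← sg_simple D]
    exact sg_mul_dvd D ih

theorem Dl_pow_dvd {r r' : ℕ} (h : r ≤ r') : Dl D ^ r ∣ Dl D ^ r' := pow_dvd_pow _ h

/-- products of simple elements -/
theorem dvd_pow_iff {z : AM M} {r : ℕ} :
    z ∣ Dl D ^ r ↔ ∃ l : List W, l.length = r ∧ z = (l.map (sg cs)).prod := by
  constructor
  · induction r generalizing z with
    | zero =>
      rintro ⟨y, hy⟩
      rw [pow_zero] at hy
      have h1 : deg (1 : AM M) = deg (z * y) := by rw [hy]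
      rw [deg_one, deg_mul] at h1
      exact ⟨[], rfl, by rw [eq_one_of_deg (z := z) (by omega)]; simp⟩
    | succ r ih =>
      rintro ⟨t, ht⟩
      -- head of `z * t` is `w0`
      have h1 : Dl D ∣ z * sg cs (hd D t) := by
        unfold Dl
        rw [sg_dvd_iff D, ← hd_mul, ← sg_dvd_iff D, ← ht, pow_succ']
        exact Dvd.intro _ rfl
      obtain ⟨v, hv⟩ := h1
      have h2 : v * tl D t = Dl D ^ r := by
        apply mul_left_cancel' D (z := Dl D)
        rw [← mul_assoc, ← hv, mul_assoc, hd_tl, ← pow_succ', ht]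
      obtain ⟨l, hl, hl'⟩ := ih ⟨_, h2.symm⟩
      -- `Δ v = v' Δ`
      obtain ⟨u', hu'⟩ : ∃ u' : W, Dl D = sg cs u' * sg cs (hd D t) := by
        refine ⟨D.w0 * (hd D t)⁻¹, ?_⟩
        have hr : Rd cs (D.w0 * (hd D t)⁻¹) (hd D t) := by
          have h3 := D.top (hd D t)⁻¹
          unfold Rd
          unfold PL at h3
          rw [inv_inv, cs.length_inv] at h3
          rw [inv_mul_cancel_right]
          have h4 : cs.length (D.w0 * (hd D t)⁻¹) = cs.length (hd D t * D.w0) := by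
            rw [← cs.length_inv, mul_inv_rev, inv_inv, w0_inv]
          omega
        unfold Dl
        rw [← sg_mul D hr, inv_mul_cancel_right]
      have key : ∀ l : List W, ∃ l' : List W, l'.length = l.length ∧
          Dl D * (l.map (sg cs)).prod = (l'.map (sg cs)).prod * Dl D := by
        intro l
        induction l with
        | nil => exact ⟨[], rfl, by simp⟩
        | cons a l ihl =>
          obtain ⟨l', h3, h4⟩ := ihl
          refine ⟨(D.w0 * a * D.w0) :: l', by simp [h3], ?_⟩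
          have h5 := Dl_mul_sg D a
          calc Dl D * ((a :: l).map (sg cs)).prod = (Dl D * sg cs a) * (l.map (sg cs)).prod := by
                rw [List.map_cons, List.prod_cons, mul_assoc]
            _ = sg cs (D.w0 * a * D.w0) * (Dl D * (l.map (sg cs)).prod) := by rw [h5, mul_assoc]
            _ = _ := by rw [h4, List.map_cons, List.prod_cons]; exact (mul_assoc _ _ _).symm
      obtain ⟨l', hl1, hl2⟩ := key l
      refine ⟨l' ++ [u'], by simp [hl1, hl], ?_⟩
      apply mul_right_cancel'' D (z := sg cs (hd D t))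
      rw [hv, hl', hl2, List.map_append, List.prod_append, mul_assoc]
      simp only [List.map_cons, List.map_nil, List.prod_cons, List.prod_nil, mul_one]
      rw [← hu']
  · rintro ⟨l, hl, rfl⟩
    induction l generalizing r with
    | nil => simp
    | cons a l ih =>
      rw [List.length_cons] at hl
      subst hl
      rw [List.map_cons, List.prod_cons]
      exact sg_mul_dvd D (ih rfl)

/-- the tail of a divisor of `Δ^(r+1)` divides `Δ^r` -/
theorem tl_dvd {z : AM M} {r : ℕ} (h : z ∣ Dl D ^ (r + 1)) : tl D z ∣ Dl D ^ r := by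
  obtain ⟨l, hl, hz⟩ := (dvd_pow_iff D).1 h
  cases l with
  | nil => simp at hl
  | cons a l =>
    rw [List.length_cons] at hl
    have h1 : (l.map (sg cs)).prod ∣ Dl D ^ r := (dvd_pow_iff D).2 ⟨l, by omega, rfl⟩
    rw [List.map_cons, List.prod_cons] at hz
    have h2 : PL cs a (hd D z) := by
      rw [← sg_dvd_iff D, hz]; exact Dvd.intro _ rfl
    obtain ⟨b, hb, hr⟩ := h2.exists_eq
    have h3 := hd_tl D z
    rw [hb, sg_mul D hr, mul_assoc] at h3
    have h4 : sg cs b * tl D z = (l.map (sg cs)).prod := by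
      apply mul_left_cancel' D (z := sg cs a)
      rw [h3]; exact hz
    rw [← h4] at h1
    exact mul_dvd_pow D h1

end Crest.Agent.R175.GLat_145
end

-- ▼ part R175/GGrp_145
section

/-!
Row 175, Track D: the Artin monoid of spherical type embeds in the Artin group; the lattice order
of the group (helper145).
-/

set_option autoImplicit false

namespace Crest.Agent.R175.GGrp_145

open Crest.GroupTheory
open Crest.Agent.R175.DDef_145 Crest.Agent.R175.DW_145 Crest.Agent.R175.GPL_145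
open Crest.Agent.R175.GMon_145 Crest.Agent.R175.GLat_145

variable {S : Type*} {M : CoxeterMatrix S} {W : Type*} [Group W] {cs : CoxeterSystem M W}
variable (D : Dat cs)

/-- the natural map from the monoid to the group -/
def toG (M : CoxeterMatrix S) : AM M →* ArtinGroup M := amLift (artinGen M) (braid_artinGen M)

@[simp] theorem toG_at (s : S) : toG M (at' M s) = artinGen M s := amLift_at _ _ _

/-! ### Injectivity -/

@[reducible] noncomputable def oreC : OreLocalization.OreSet (Submonoid.powers (Om D)) where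
  ore_right_cancel r₁ r₂ s h := ⟨s, by rw [mul_right_cancel'' D h]⟩
  oreNum r _ := r
  oreDenom _ s := s
  ore_eq r s := by
    obtain ⟨s, n, rfl⟩ := s
    have h : Commute r (Om D) := Om_central D r
    exact ((h.pow_right n).eq).symm

theorem at_unit [OreLocalization.OreSet (Submonoid.powers (Om D))] (s : S) :
    IsUnit (OreLocalization.numeratorHom (at' M s) :
      OreLocalization (Submonoid.powers (Om D)) (AM M)) := by
  obtain ⟨c, hc⟩ : at' M s ∣ Om D := (at_dvd_Dl D s).trans (Dvd.intro _ rfl)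
  have hc' : c * at' M s = Om D := by
    apply mul_left_cancel' D (z := at' M s)
    rw [← mul_assoc, ← hc, Om_central]
  have hu : IsUnit (OreLocalization.numeratorHom (Om D) :
      OreLocalization (Submonoid.powers (Om D)) (AM M)) :=
    OreLocalization.numerator_isUnit (S := Submonoid.powers (Om D)) ⟨Om D, Submonoid.mem_powers _⟩
  obtain ⟨u, hu⟩ := hu
  rw [isUnit_iff_exists_and_exists]
  constructor
  · refine ⟨OreLocalization.numeratorHom c *
      ((u⁻¹ : (OreLocalization (Submonoid.powers (Om D)) (AM M))ˣ) :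
        OreLocalization (Submonoid.powers (Om D)) (AM M)), ?_⟩
    rw [← mul_assoc, ← map_mul, ← hc, ← hu, Units.mul_inv]
  · refine ⟨((u⁻¹ : (OreLocalization (Submonoid.powers (Om D)) (AM M))ˣ) :
        OreLocalization (Submonoid.powers (Om D)) (AM M)) *
        OreLocalization.numeratorHom c, ?_⟩
    rw [mul_assoc, ← map_mul, hc', ← hu, Units.inv_mul]

include D in
theorem toG_injective : Function.Injective (toG M) := by
  letI := oreC D
  let H := OreLocalization (Submonoid.powers (Om D)) (AM M)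
  let num : AM M →* H := OreLocalization.numeratorHom
  let f : S → Hˣ := fun s => (at_unit D s).unit
  have hf : ∀ s, ((f s : Hˣ) : H) = num (at' M s) := fun s => (at_unit D s).unit_spec
  have hb : Braid M f := by
    intro s t h
    apply Units.ext
    have e : ∀ l : List S, (((l.map f).prod : Hˣ) : H) = num ((l.map (at' M)).prod) := by
      intro l
      induction l with
      | nil => simp
      | cons a l ih => simp only [List.map_cons, List.prod_cons, Units.val_mul, map_mul, ih, hf]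
    rw [e, e, braid_at s t h]
  have hcomp : ∀ z, ((artinLift M f hb (toG M z) : Hˣ) : H) = num z := by
    intro z
    induction z using induction_left with
    | h1 => simp
    | h2 s z ih =>
      rw [map_mul, map_mul, Units.val_mul, ih, toG_at, artinLift_gen, hf, map_mul]
  intro x y hxy
  have h1 : num x = num y := by rw [← hcomp x, hxy, hcomp y]
  change OreLocalization.numeratorHom x = OreLocalization.numeratorHom y at h1
  rw [OreLocalization.numeratorHom_apply, OreLocalization.numeratorHom_apply,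
    OreLocalization.oreDiv_eq_iff] at h1
  obtain ⟨u, v, h2, h3⟩ := h1
  have h4 : (u : AM M) = v := by simpa using h3
  have h5 : (u : AM M) * y = v * x := h2
  rw [← h4] at h5
  exact (mul_left_cancel' D h5).symm

/-! ### The order of the group -/

/-- `x ≤ y` iff `x⁻¹ y` is positive -/
def Gle (x y : ArtinGroup M) : Prop := ∃ z : AM M, y = x * toG M z

theorem Gle.refl (x : ArtinGroup M) : Gle x x := ⟨1, by simp⟩

theorem Gle.trans {x y z : ArtinGroup M} (h : Gle x y) (h' : Gle y z) : Gle x z := by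
  obtain ⟨a, rfl⟩ := h
  obtain ⟨b, rfl⟩ := h'
  exact ⟨a * b, by rw [map_mul, mul_assoc]⟩

theorem Gle_mul_left {c x y : ArtinGroup M} : Gle (c * x) (c * y) ↔ Gle x y := by
  constructor
  · rintro ⟨z, hz⟩
    exact ⟨z, mul_left_cancel (by rw [hz, mul_assoc])⟩
  · rintro ⟨z, rfl⟩
    exact ⟨z, by rw [mul_assoc]⟩

include D in
theorem toG_Gle_iff {x y : AM M} : Gle (toG M x) (toG M y) ↔ x ∣ y := by
  constructor
  · rintro ⟨z, hz⟩
    rw [← map_mul] at hz
    exact ⟨z, toG_injective D hz⟩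
  · rintro ⟨z, rfl⟩
    exact ⟨z, map_mul _ _ _⟩


/-- the central element of the group -/
noncomputable def OmG : ArtinGroup M := toG M (Om D)

theorem closure_gen : Subgroup.closure (Set.range (artinGen M)) = ⊤ :=
  PresentedGroup.closure_range_of _

theorem OmG_central (g : ArtinGroup M) : Commute g (OmG D) := by
  have h : g ∈ Subgroup.closure (Set.range (artinGen M)) := by rw [closure_gen]; trivial
  induction h using Subgroup.closure_induction with
  | mem x hx =>
    obtain ⟨s, rfl⟩ := hx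
    unfold OmG Commute SemiconjBy
    rw [← toG_at, ← map_mul, ← map_mul, Om_central]
  | one => exact Commute.one_left _
  | mul x y _ _ hx hy => exact hx.mul_left hy
  | inv x _ hx => exact hx.inv_left

theorem OmG_pow_mul (g : ArtinGroup M) (n : ℕ) : OmG D ^ n * g = g * OmG D ^ n :=
  ((OmG_central D g).pow_right n).eq.symm

/-- every element becomes positive after multiplication by a power of the central element -/
theorem exists_pos (g : ArtinGroup M) : ∃ (n : ℕ) (z : AM M), OmG D ^ n * g = toG M z := by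
  have h : g ∈ Subgroup.closure (Set.range (artinGen M)) := by rw [closure_gen]; trivial
  induction h using Subgroup.closure_induction'' with
  | mem x hx =>
    obtain ⟨s, rfl⟩ := hx
    exact ⟨0, at' M s, by simp⟩
  | inv_mem x hx =>
    obtain ⟨s, rfl⟩ := hx
    obtain ⟨c, hc⟩ : at' M s ∣ Om D := (at_dvd_Dl D s).trans (Dvd.intro _ rfl)
    refine ⟨1, c, ?_⟩
    rw [pow_one, ← (OmG_central D _).eq]
    unfold OmG
    rw [hc, map_mul, toG_at, inv_mul_cancel_left]
  | one => exact ⟨0, 1, by simp⟩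
  | mul x y _ _ hx hy =>
    obtain ⟨n, a, ha⟩ := hx
    obtain ⟨m, b, hb⟩ := hy
    refine ⟨n + m, a * b, ?_⟩
    rw [pow_add, map_mul, ← ha, ← hb, mul_assoc, ← mul_assoc (OmG D ^ m) x y,
      OmG_pow_mul D x m]
    simp only [mul_assoc]

/-- simultaneous version with a larger exponent -/
theorem exists_pos_of_le {g : ArtinGroup M} {n : ℕ} {z : AM M} (h : OmG D ^ n * g = toG M z)
    (m : ℕ) : OmG D ^ (m + n) * g = toG M (Om D ^ m * z) := by
  rw [pow_add, mul_assoc, h, map_mul, map_pow]; rfl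

theorem exists_pos₃ (x y e : ArtinGroup M) : ∃ (n : ℕ) (a b c : AM M),
    OmG D ^ n * x = toG M a ∧ OmG D ^ n * y = toG M b ∧ OmG D ^ n * e = toG M c := by
  obtain ⟨n1, a, ha⟩ := exists_pos D x
  obtain ⟨n2, b, hb⟩ := exists_pos D y
  obtain ⟨n3, c, hc⟩ := exists_pos D e
  refine ⟨n1 + n2 + n3, Om D ^ (n2 + n3) * a, Om D ^ (n1 + n3) * b, Om D ^ (n1 + n2) * c,
    ?_, ?_, ?_⟩
  · rw [← exists_pos_of_le D ha]; congr 2; ring
  · rw [← exists_pos_of_le D hb]; congr 2; ring
  · rw [← exists_pos_of_le D hc]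

include D in
/-- greatest lower bounds in the group -/
theorem exists_glb (x y : ArtinGroup M) : ∃ m, Gle m x ∧ Gle m y ∧
    ∀ e, Gle e x → Gle e y → Gle e m := by
  obtain ⟨n, a, b, -, ha, hb, -⟩ := exists_pos₃ D x y 1
  obtain ⟨d, hd1, hd2, hd3⟩ := exists_gcd D a b
  have hx : x = (OmG D ^ n)⁻¹ * toG M a := by rw [← ha]; group
  have hy : y = (OmG D ^ n)⁻¹ * toG M b := by rw [← hb]; group
  refine ⟨(OmG D ^ n)⁻¹ * toG M d, ?_, ?_, fun e hex hey => ?_⟩
  · rw [hx, Gle_mul_left, toG_Gle_iff D]; exact hd1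
  · rw [hy, Gle_mul_left, toG_Gle_iff D]; exact hd2
  · obtain ⟨k, c, hc⟩ := exists_pos D e
    -- exponents `k + n`
    have h1 : OmG D ^ (n + k) * e = toG M (Om D ^ n * c) := exists_pos_of_le D hc n
    have h2 : OmG D ^ (n + k) * x = toG M (Om D ^ k * a) := by
      rw [add_comm]; exact exists_pos_of_le D ha k
    have h3 : OmG D ^ (n + k) * y = toG M (Om D ^ k * b) := by
      rw [add_comm]; exact exists_pos_of_le D hb k
    have h4 : Om D ^ n * c ∣ Om D ^ k * a := by
      rw [← toG_Gle_iff D, ← h1, ← h2, Gle_mul_left]; exact hex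
    have h5 : Om D ^ n * c ∣ Om D ^ k * b := by
      rw [← toG_Gle_iff D, ← h1, ← h3, Gle_mul_left]; exact hey
    have h6 := gcd_mul_left D hd1 hd2 hd3 h4 h5
    rw [← toG_Gle_iff D, ← h1, map_mul, map_pow] at h6
    change Gle (OmG D ^ (n + k) * e) (OmG D ^ k * toG M d) at h6
    rw [← Gle_mul_left (c := OmG D ^ (n + k))]
    have h7 : OmG D ^ (n + k) * ((OmG D ^ n)⁻¹ * toG M d) = OmG D ^ k * toG M d := by
      rw [add_comm, pow_add]; group
    rw [h7]; exact h6

include D in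
/-- least upper bounds in the group -/
theorem exists_lub (x y : ArtinGroup M) : ∃ j, Gle x j ∧ Gle y j ∧
    ∀ e, Gle x e → Gle y e → Gle j e := by
  obtain ⟨n, a, b, -, ha, hb, -⟩ := exists_pos₃ D x y 1
  have hx : x = (OmG D ^ n)⁻¹ * toG M a := by rw [← ha]; group
  have hy : y = (OmG D ^ n)⁻¹ * toG M b := by rw [← hb]; group
  have h1 : a ∣ Dl D ^ (deg a + deg b) :=
    (dvd_Dl_pow D a).trans (Dl_pow_dvd D (Nat.le_add_right _ _))
  have h2 : b ∣ Dl D ^ (deg a + deg b) :=
    (dvd_Dl_pow D b).trans (Dl_pow_dvd D (Nat.le_add_left _ _))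
  obtain ⟨j, hj1, hj2, hj3, -⟩ := exists_lcm D _ a b h1 h2
  refine ⟨(OmG D ^ n)⁻¹ * toG M j, ?_, ?_, fun e hxe hye => ?_⟩
  · rw [hx, Gle_mul_left, toG_Gle_iff D]; exact hj1
  · rw [hy, Gle_mul_left, toG_Gle_iff D]; exact hj2
  · -- `e = x * positive`, so `Ω^n e` is positive
    obtain ⟨z, hz⟩ := hxe
    have h3 : OmG D ^ n * e = toG M (a * z) := by rw [hz, ← mul_assoc, ha, map_mul]
    have h4 : b ∣ a * z := by
      rw [← toG_Gle_iff D, ← h3, ← hb, Gle_mul_left]; exact hye
    have h5 := hj3 (a * z) (Dvd.intro _ rfl) h4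
    rw [← toG_Gle_iff D, ← h3] at h5
    rw [← Gle_mul_left (c := OmG D ^ n), mul_inv_cancel_left]
    exact h5



/-! ### Standard parabolic subgroups -/

theorem toG_mem_of_PM {X : Set S} {z : AM M} (h : z ∈ PM M X) : toG M z ∈ stdParabolic M X := by
  induction h using Submonoid.closure_induction with
  | mem x hx =>
    obtain ⟨s, hs, rfl⟩ := hx
    rw [toG_at]
    exact Subgroup.subset_closure ⟨s, hs, rfl⟩
  | one => rw [map_one]; exact Subgroup.one_mem _
  | mul x y _ _ hx hy => rw [map_mul]; exact Subgroup.mul_mem _ hx hy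

include D in
/-- common left multiples inside a parabolic submonoid -/
theorem exists_left_mult {X : Set S} {a b : AM M} (ha : a ∈ PM M X) (hb : b ∈ PM M X) :
    ∃ c ∈ PM M X, ∃ d ∈ PM M X, c * a = d * b := by
  have h1 : rev a ∣ Dl D ^ (deg (rev a) + deg (rev b)) :=
    (dvd_Dl_pow D _).trans (Dl_pow_dvd D (Nat.le_add_right _ _))
  have h2 : rev b ∣ Dl D ^ (deg (rev a) + deg (rev b)) :=
    (dvd_Dl_pow D _).trans (Dl_pow_dvd D (Nat.le_add_left _ _))
  obtain ⟨j, ⟨c, hc⟩, ⟨d, hd⟩, -, hj4⟩ := exists_lcm D _ (rev a) (rev b) h1 h2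
  have hj := hj4 X (rev_mem_PM ha) (rev_mem_PM hb)
  have hcX : c ∈ PM M X := by rw [hc] at hj; exact (mul_mem_PM_iff.1 hj).2
  have hdX : d ∈ PM M X := by rw [hd] at hj; exact (mul_mem_PM_iff.1 hj).2
  refine ⟨rev c, rev_mem_PM hcX, rev d, rev_mem_PM hdX, ?_⟩
  have h3 : rev (rev a * c) = rev (rev b * d) := by rw [← hc, hd]
  simpa using h3

include D in
/-- elements of a standard parabolic subgroup are fractions -/
theorem exists_frac {X : Set S} {g : ArtinGroup M} (h : g ∈ stdParabolic M X) :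
    ∃ a ∈ PM M X, ∃ b ∈ PM M X, toG M a * g = toG M b := by
  unfold stdParabolic at h
  induction h using Subgroup.closure_induction'' with
  | mem x hx =>
    obtain ⟨s, hs, rfl⟩ := hx
    exact ⟨1, Submonoid.one_mem _, at' M s, at_mem_PM hs, by simp⟩
  | inv_mem x hx =>
    obtain ⟨s, hs, rfl⟩ := hx
    exact ⟨at' M s, at_mem_PM hs, 1, Submonoid.one_mem _, by simp⟩
  | one => exact ⟨1, Submonoid.one_mem _, 1, Submonoid.one_mem _, by simp⟩
  | mul x y _ _ hx hy =>
    obtain ⟨a, ha, b, hb, hab⟩ := hx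
    obtain ⟨c, hc, d, hd, hcd⟩ := hy
    -- a x = b, c y = d ; choose e b = f c, then (e a) x y = e b y = f c y = f d
    obtain ⟨e, he, f, hf, hef⟩ := exists_left_mult D hb hc
    refine ⟨e * a, Submonoid.mul_mem _ he ha, f * d, Submonoid.mul_mem _ hf hd, ?_⟩
    calc toG M (e * a) * (x * y) = toG M e * (toG M a * x) * y := by
          rw [map_mul]; simp only [mul_assoc]
      _ = toG M (e * b) * y := by rw [hab, map_mul]
      _ = toG M f * (toG M c * y) := by rw [hef, map_mul, mul_assoc]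
      _ = toG M (f * d) := by rw [hcd, map_mul]

include D in
/-- positive elements of a standard parabolic subgroup -/
theorem toG_mem_iff {X : Set S} {z : AM M} : toG M z ∈ stdParabolic M X ↔ z ∈ PM M X := by
  refine ⟨fun h => ?_, toG_mem_of_PM⟩
  obtain ⟨a, ha, b, hb, hab⟩ := exists_frac D h
  rw [← map_mul] at hab
  have := toG_injective D hab
  rw [← this] at hb
  exact (mul_mem_PM_iff.1 hb).2

include D in
/-- meets of elements of `A_X` are in `A_X` -/
theorem glb_mem {X : Set S} {x y m : ArtinGroup M} (hx : x ∈ stdParabolic M X)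
    (hy : y ∈ stdParabolic M X) (hm1 : Gle m x) (hm2 : Gle m y)
    (hm3 : ∀ e, Gle e x → Gle e y → Gle e m) : m ∈ stdParabolic M X := by
  -- common lower bound in `A_X`
  obtain ⟨a, ha, b, hb, hab⟩ := exists_frac D (Subgroup.mul_mem _ (Subgroup.inv_mem _ hx) hy)
  -- a x⁻¹ y = b, so c := x a⁻¹ is a common lower bound
  have h1 : Gle (x * (toG M a)⁻¹) x := ⟨a, by group⟩
  have h2 : Gle (x * (toG M a)⁻¹) y := ⟨b, by rw [← hab]; group⟩
  obtain ⟨z, hz⟩ := hm3 _ h1 h2
  obtain ⟨z', hz'⟩ := hm1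
  have h3 : a = z * z' := by
    apply toG_injective D
    have h4 : x = x * (toG M a)⁻¹ * toG M z * toG M z' := by rw [← hz]; exact hz'
    have h5 : toG M a * x⁻¹ * x = toG M a * x⁻¹ * (x * (toG M a)⁻¹ * toG M z * toG M z') := by
      rw [← h4]
    rw [map_mul]
    calc toG M a = toG M a * x⁻¹ * x := by group
      _ = _ := h5
      _ = _ := by group
  rw [hz]
  refine Subgroup.mul_mem _ (Subgroup.mul_mem _ hx (Subgroup.inv_mem _ (toG_mem_of_PM ha)))
    (toG_mem_of_PM ?_)
  rw [h3] at ha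
  exact (mul_mem_PM_iff.1 ha).1

include D in
/-- joins of elements of `A_X` are in `A_X` -/
theorem lub_mem {X : Set S} {x y j : ArtinGroup M} (hx : x ∈ stdParabolic M X)
    (hy : y ∈ stdParabolic M X) (hj1 : Gle x j) (hj2 : Gle y j)
    (hj3 : ∀ e, Gle x e → Gle y e → Gle j e) : j ∈ stdParabolic M X := by
  obtain ⟨a, ha, b, hb, hab⟩ := exists_frac D (Subgroup.mul_mem _ (Subgroup.inv_mem _ hx) hy)
  -- x⁻¹ y = a⁻¹ b ; lcm of a and b
  have h1 : a ∣ Dl D ^ (deg a + deg b) :=
    (dvd_Dl_pow D a).trans (Dl_pow_dvd D (Nat.le_add_right _ _))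
  have h2 : b ∣ Dl D ^ (deg a + deg b) :=
    (dvd_Dl_pow D b).trans (Dl_pow_dvd D (Nat.le_add_left _ _))
  obtain ⟨l, hl1, hl2, hl3, hl4⟩ := exists_lcm D _ a b h1 h2
  have hl := hl4 X ha hb
  have h3 : Gle x (x * (toG M a)⁻¹ * toG M l) := by
    rw [mul_assoc]
    nth_rewrite 1 [← mul_one x]
    rw [Gle_mul_left]
    obtain ⟨c, hc⟩ := hl1
    exact ⟨c, by rw [hc, map_mul]; group⟩
  have h4 : Gle y (x * (toG M a)⁻¹ * toG M l) := by
    obtain ⟨c, hc⟩ := hl2
    refine ⟨c, ?_⟩
    rw [hc, map_mul, ← hab]; group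
  obtain ⟨z, hz⟩ := hj3 _ h3 h4
  -- `j` divides an element of `A_X`, relative to `x`
  obtain ⟨z', hz'⟩ := hj1
  have h5 : toG M (z' * z) ∈ stdParabolic M X := by
    have : toG M (z' * z) = (toG M a)⁻¹ * toG M l := by
      rw [hz'] at hz
      have h6 : x * ((toG M a)⁻¹ * toG M l) = x * (toG M z' * toG M z) := by
        rw [← mul_assoc, hz, mul_assoc]
      rw [map_mul]
      exact (mul_left_cancel h6).symm
    rw [this]
    exact Subgroup.mul_mem _ (Subgroup.inv_mem _ (toG_mem_of_PM ha)) (toG_mem_of_PM hl)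
  rw [toG_mem_iff D] at h5
  rw [hz']
  exact Subgroup.mul_mem _ hx (toG_mem_of_PM (mul_mem_PM_iff.1 h5).1)


end Crest.Agent.R175.GGrp_145
end

-- ▼ part R175/DF_184
section

/-!
# R175, Track D, node D-f (post #2460 of helper145): intersections of parabolic subgroups in a
Garside group, abstract form

`Gars G` collects the facts about an Artin group of finite type used in the proof.
`Gars.inter`: `A_X ∩ g A_Y g⁻¹ = h A_Z h⁻¹` with `h ∈ A_X`, `Z ⊆ X`.
-/

set_option autoImplicit false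

namespace Crest.Agent.R175.DF_184

/-- Garside data with parabolic subgroups. `x ≼ y` is `x⁻¹ * y ∈ P`. -/
structure Gars (G : Type*) [Group G] where
  /-- atoms -/
  S : Set G
  /-- positive elements -/
  P : Submonoid G
  /-- Garside element -/
  Δ : G
  /-- length -/
  len : G →* Multiplicative ℤ
  /-- meet -/
  meet : G → G → G
  S_pos : S ⊆ P
  /-- positive elements are words in the atoms -/
  gen : P ≤ Submonoid.closure S
  len_atom : ∀ s ∈ S, len s = Multiplicative.ofAdd 1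
  len_pos : ∀ g ∈ P, g ≠ 1 → 0 < (len g).toAdd
  meet_left : ∀ x y, (meet x y)⁻¹ * x ∈ P
  meet_right : ∀ x y, (meet x y)⁻¹ * y ∈ P
  le_meet : ∀ x y z, z⁻¹ * x ∈ P → z⁻¹ * y ∈ P → z⁻¹ * meet x y ∈ P
  Δ_pos : Δ ∈ P
  Δ_conj : ∀ g ∈ P, Δ⁻¹ * g * Δ ∈ P
  Δ_cen : ∃ m : ℕ, 0 < m ∧ ∀ g, Commute (Δ ^ m) g
  /-- every element is bounded by a power of `Δ` -/
  Δ_cof : ∀ g : G, ∃ n : ℕ, g⁻¹ * Δ ^ n ∈ P
  /-- finitely many divisors of `Δ ^ n` -/
  fin_div : ∀ n : ℕ, {g : G | g ∈ P ∧ g⁻¹ * Δ ^ n ∈ P}.Finite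
  atom_le : ∀ s ∈ S, s⁻¹ * Δ ∈ P
  /-- positive elements of a parabolic subgroup are positive words in its atoms -/
  par_pos : ∀ X ⊆ S, ∀ g ∈ Subgroup.closure X, g ∈ P → g ∈ Submonoid.closure X
  /-- divisors of positive elements of a parabolic subgroup -/
  par_div : ∀ X ⊆ S, ∀ a ∈ P, ∀ b ∈ P, a * b ∈ Subgroup.closure X → a ∈ Subgroup.closure X
  par_meet : ∀ X ⊆ S, ∀ x ∈ Subgroup.closure X, ∀ y ∈ Subgroup.closure X,
    meet x y ∈ Subgroup.closure X
  par_join : ∀ X ⊆ S, ∀ x ∈ Subgroup.closure X, ∀ y ∈ Subgroup.closure X, ∀ z : G,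
    x⁻¹ * z ∈ P → y⁻¹ * z ∈ P → ∃ j ∈ Subgroup.closure X, x⁻¹ * j ∈ P ∧ y⁻¹ * j ∈ P ∧ j⁻¹ * z ∈ P
  /-- (0a): the projection to `X`-reduced elements is monotone on simple elements -/
  proj_mono : ∀ X ⊆ S, ∀ a b p q : G, a ∈ P → a⁻¹ * b ∈ P → b⁻¹ * Δ ∈ P →
    p ∈ Subgroup.closure X → p ∈ P → p⁻¹ * a ∈ P →
    (∀ e ∈ Subgroup.closure X, e ∈ P → e⁻¹ * a ∈ P → e⁻¹ * p ∈ P) →
    q ∈ Subgroup.closure X → q ∈ P → q⁻¹ * b ∈ P →
    (∀ e ∈ Subgroup.closure X, e ∈ P → e⁻¹ * b ∈ P → e⁻¹ * q ∈ P) →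
    (p⁻¹ * a)⁻¹ * (q⁻¹ * b) ∈ P
  /-- (0b) -/
  par_shift : ∀ X ⊆ S, ∀ w p : G, w ∈ P → w⁻¹ * Δ ∈ P → (∀ x ∈ X, x⁻¹ * w ∉ P) →
    p ∈ Subgroup.closure X → p ∈ P → (p * w)⁻¹ * Δ ∈ P → w⁻¹ * (p * w) ∈ P →
    p ∈ Subgroup.closure {x | x ∈ X ∧ w⁻¹ * x * w ∈ S}

namespace Gars

variable {G : Type*} [Group G] (D : Gars G)

/-- prefix order -/
def le (x y : G) : Prop := x⁻¹ * y ∈ D.P

variable {D}

lemma le_refl (x : G) : D.le x x := by
  unfold le; rw [inv_mul_cancel]; exact D.P.one_mem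

lemma le_trans {x y z : G} (h : D.le x y) (h' : D.le y z) : D.le x z := by
  unfold le at *
  have := D.P.mul_mem h h'
  rwa [show x⁻¹ * y * (y⁻¹ * z) = x⁻¹ * z by group] at this

lemma le_mul (g : G) {x y : G} : D.le (g * x) (g * y) ↔ D.le x y := by
  unfold le; rw [show (g * x)⁻¹ * (g * y) = x⁻¹ * y by group]

lemma len_nonneg {g : G} (h : g ∈ D.P) : 0 ≤ (D.len g).toAdd := by
  by_cases h1 : g = 1
  · rw [h1, map_one]; simp
  · exact (D.len_pos g h h1).le

lemma eq_one_of_len {g : G} (h : g ∈ D.P) (h0 : (D.len g).toAdd ≤ 0) : g = 1 := by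
  by_contra h1
  exact absurd (D.len_pos g h h1) (not_lt.2 h0)

lemma eq_one_of_inv {g : G} (h : g ∈ D.P) (h' : g⁻¹ ∈ D.P) : g = 1 := by
  apply eq_one_of_len h
  have := len_nonneg h'
  rw [map_inv, toAdd_inv] at this
  linarith

lemma le_antisymm {x y : G} (h : D.le x y) (h' : D.le y x) : x = y := by
  have h1 : (x⁻¹ * y)⁻¹ ∈ D.P := by
    rw [show (x⁻¹ * y)⁻¹ = y⁻¹ * x by group]; exact h'
  have := eq_one_of_inv h h1
  rwa [inv_mul_eq_one] at this

lemma one_le {x : G} : D.le 1 x ↔ x ∈ D.P := by unfold le; simp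

lemma le_mul_right {x p : G} (hp : p ∈ D.P) : D.le x (x * p) := by
  unfold le; rwa [inv_mul_cancel_left]

lemma meet_le_left (x y : G) : D.le (D.meet x y) x := D.meet_left x y
lemma meet_le_right (x y : G) : D.le (D.meet x y) y := D.meet_right x y
lemma le_meet' {x y z : G} (h : D.le z x) (h' : D.le z y) : D.le z (D.meet x y) :=
  D.le_meet x y z h h'

lemma mul_meet (g x y : G) : g * D.meet x y = D.meet (g * x) (g * y) := by
  apply le_antisymm
  · exact le_meet' ((le_mul g).2 (meet_le_left _ _)) ((le_mul g).2 (meet_le_right _ _))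
  · have h1 : D.le (g⁻¹ * D.meet (g * x) (g * y)) x := by
      rw [← le_mul g, mul_inv_cancel_left]; exact meet_le_left _ _
    have h2 : D.le (g⁻¹ * D.meet (g * x) (g * y)) y := by
      rw [← le_mul g, mul_inv_cancel_left]; exact meet_le_right _ _
    have := (le_mul g).2 (le_meet' h1 h2)
    rwa [mul_inv_cancel_left] at this

lemma conj_mem {g : G} (h : g ∈ D.P) (r : ℕ) : (D.Δ ^ r)⁻¹ * g * D.Δ ^ r ∈ D.P := by
  induction r with
  | zero => simpa using h
  | succ r ih =>
    have := D.Δ_conj _ ih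
    rwa [show (D.Δ ^ (r+1))⁻¹ * g * D.Δ ^ (r+1) = D.Δ⁻¹ * ((D.Δ ^ r)⁻¹ * g * D.Δ ^ r) * D.Δ by
      rw [pow_succ]; group]

lemma pow_Δ_mem (r : ℕ) : D.Δ ^ r ∈ D.P := D.P.pow_mem D.Δ_pos r

/-- `x ≤ x Δ`-type fact: `Δ ≤ a Δ` for `a` positive. -/
lemma Δ_le_mul {a : G} (ha : a ∈ D.P) : D.le D.Δ (a * D.Δ) := by
  unfold le
  rw [← mul_assoc]; exact D.Δ_conj a ha

/-- head -/
def head (D : Gars G) (g : G) : G := D.meet g D.Δ

lemma head_le (g : G) : D.le (D.head g) g := meet_le_left _ _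
lemma head_le_Δ (g : G) : D.le (D.head g) D.Δ := meet_le_right _ _
lemma le_head {z g : G} (h : D.le z g) (h' : D.le z D.Δ) : D.le z (D.head g) := le_meet' h h'

lemma head_mem {g : G} (h : g ∈ D.P) : D.head g ∈ D.P :=
  one_le.1 (le_head (one_le.2 h) (one_le.2 D.Δ_pos))

lemma head_mono {g g' : G} (h : D.le g g') : D.le (D.head g) (D.head g') :=
  le_head (le_trans (head_le g) h) (head_le_Δ g)

lemma head_mul {a : G} (b : G) (ha : a ∈ D.P) : D.head (a * b) = D.head (a * D.head b) := by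
  apply le_antisymm
  · refine le_head ?_ (head_le_Δ _)
    unfold head at *
    rw [mul_meet]
    exact le_meet' (meet_le_left _ _) (le_trans (meet_le_right _ _) (Δ_le_mul ha))
  · exact head_mono ((le_mul a).2 (head_le b))

/-! ### parabolic parts -/

variable (D) in
/-- `p` is the `X`-part of the positive element `g`. -/
structure IsPart (X : Set G) (g p : G) : Prop where
  mem : p ∈ Subgroup.closure X
  pos : p ∈ D.P
  le : D.le p g
  max : ∀ e ∈ Subgroup.closure X, e ∈ D.P → D.le e g → D.le e p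

variable {X Y : Set G}

lemma IsPart.unique {g p q : G} (hp : D.IsPart X g p) (hq : D.IsPart X g q) : p = q :=
  le_antisymm (hq.max p hp.mem hp.pos hp.le) (hp.max q hq.mem hq.pos hq.le)

lemma exists_part (hX : X ⊆ D.S) {g : G} (hg : g ∈ D.P) : ∃ p, D.IsPart X g p := by
  classical
  -- maximal length
  let Q : ℕ → Prop := fun n => ∃ p ∈ Subgroup.closure X, p ∈ D.P ∧ D.le p g ∧
    (D.len p).toAdd = n
  have hQ0 : Q 0 := ⟨1, one_mem _, one_mem _, one_le.2 hg, by simp⟩
  have hb : ∀ n, Q n → n ≤ ((D.len g).toAdd).toNat := by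
    rintro n ⟨p, _, _, h3, h4⟩
    have h5 := len_nonneg (D := D) h3
    rw [map_mul, map_inv, toAdd_mul, toAdd_inv] at h5
    omega
  obtain ⟨n, ⟨p, h1, h2, h3, h4⟩, hmax⟩ : ∃ n, Q n ∧ ∀ m, Q m → m ≤ n := by
    refine ⟨Nat.findGreatest Q ((D.len g).toAdd).toNat, Nat.findGreatest_spec (Nat.zero_le _) hQ0,
      fun m hm => Nat.le_findGreatest (hb m hm) hm⟩
  refine ⟨p, h1, h2, h3, fun e he1 he2 he3 => ?_⟩
  obtain ⟨j, j1, j2, j3, j4⟩ := D.par_join X hX p h1 e he1 g h3 he3
  have hjP : j ∈ D.P := one_le.1 (le_trans (one_le.2 h2) j2)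
  have hj0 := len_nonneg hjP
  have := hmax ((D.len j).toAdd).toNat ⟨j, j1, hjP, j4, by omega⟩
  have h5 : p⁻¹ * j = 1 := by
    apply eq_one_of_len (D := D) j2
    rw [map_mul, map_inv, toAdd_mul, toAdd_inv]
    omega
  have h6 : p = j := by rwa [inv_mul_eq_one] at h5
  rw [h6]; exact j3

/-- `X`-reduced -/
def Red (D : Gars G) (X : Set G) (g : G) : Prop := ∀ x ∈ X, ¬ D.le x g

lemma closure_cases {X : Set G} {q : G} (hq : q ∈ Submonoid.closure X) :
    q = 1 ∨ ∃ x ∈ X, ∃ q' ∈ Submonoid.closure X, q = x * q' := by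
  induction hq using Submonoid.closure_induction with
  | mem x hx => exact Or.inr ⟨x, hx, 1, one_mem _, (mul_one x).symm⟩
  | one => exact Or.inl rfl
  | mul a b ha hb iha ihb =>
    rcases iha with rfl | ⟨x, hx, a', ha', rfl⟩
    · rw [one_mul]; exact ihb
    · exact Or.inr ⟨x, hx, a' * b, mul_mem ha' hb, by rw [mul_assoc]⟩

lemma closure_le_P {X : Set G} (hX : X ⊆ D.S) : Submonoid.closure X ≤ D.P :=
  Submonoid.closure_le.2 (hX.trans D.S_pos)

lemma sub_closure {X : Set G} {a : G} (ha : a ∈ Submonoid.closure X) : a ∈ Subgroup.closure X :=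
  Subgroup.le_closure_toSubmonoid X ha

/-- an atom in `A_X` is in `X` -/
lemma atom_mem (hX : X ⊆ D.S) {s : G} (hs : s ∈ D.S) (h : s ∈ Subgroup.closure X) : s ∈ X := by
  have h1 := D.par_pos X hX s h (D.S_pos hs)
  have hl := D.len_atom s hs
  rcases closure_cases h1 with h2 | ⟨x, hx, q, hq, e⟩
  · rw [h2, map_one] at hl
    have := congrArg Multiplicative.toAdd hl
    simp at this
  · have hqP := closure_le_P (D := D) hX hq
    have : q = 1 := by
      apply eq_one_of_len hqP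
      rw [e, map_mul, D.len_atom x (hX hx)] at hl
      have := congrArg Multiplicative.toAdd hl
      simp at this
      rw [this]; simp
    rw [this, mul_one] at e
    rw [e]; exact hx

lemma part_one_of_red (hX : X ⊆ D.S) {g : G} (hr : D.Red X g) (hg : g ∈ D.P) :
    D.IsPart X g 1 := by
  obtain ⟨p, hp⟩ := exists_part hX hg
  have h1 := D.par_pos X hX p hp.mem hp.pos
  have : p = 1 := by
    by_contra hne
    rcases closure_cases h1 with h | ⟨x, hx, q', hq', e⟩
    · exact hne h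
    · apply hr x hx
      refine le_trans ?_ hp.le
      rw [e]
      apply le_mul_right
      have : Submonoid.closure X ≤ D.P := Submonoid.closure_le.2 (hX.trans D.S_pos)
      exact this hq'
  rw [this] at hp; exact hp

lemma red_of_part_one {g : G} (hX : X ⊆ D.S) (h : D.IsPart X g 1) : D.Red X g := by
  intro x hx hle
  have h1 := h.max x (Subgroup.subset_closure hx) (D.S_pos (hX hx)) hle
  have h2 : x = 1 := le_antisymm h1 (one_le.2 (D.S_pos (hX hx)))
  have h3 := D.len_atom x (hX hx)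
  rw [h2, map_one] at h3
  have := congrArg Multiplicative.toAdd h3
  simp at this


/-- the `X`-part of `a g`, `a ∈ A_X⁺` -/
lemma IsPart.mul {g p a : G} (hp : D.IsPart X g p) (ha : a ∈ Subgroup.closure X)
    (haP : a ∈ D.P) (hX : X ⊆ D.S) (hg : g ∈ D.P) : D.IsPart X (a * g) (a * p) := by
  obtain ⟨q, hq⟩ := exists_part hX (mul_mem haP hg)
  have h1 : D.le (a * p) q := hq.max _ (mul_mem ha hp.mem) (mul_mem haP hp.pos)
    ((le_mul a).2 hp.le)
  have h2 : D.le a q := hq.max _ ha haP (le_mul_right hg)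
  have h3 : D.le (a⁻¹ * q) p := hp.max _ (mul_mem (inv_mem ha) hq.mem) h2 (by
    rw [← le_mul a, mul_inv_cancel_left]; exact hq.le)
  have h4 : D.le q (a * p) := by
    rw [← le_mul a, mul_inv_cancel_left] at h3; exact h3
  rw [le_antisymm h1 h4]; exact hq

/-- (0a) -/
lemma mono_rest (hX : X ⊆ D.S) {a b p q : G} (ha : a ∈ D.P) (hab : D.le a b)
    (hb : D.le b D.Δ) (hp : D.IsPart X a p) (hq : D.IsPart X b q) :
    D.le (p⁻¹ * a) (q⁻¹ * b) :=
  D.proj_mono X hX a b p q ha hab hb hp.mem hp.pos hp.le hp.max hq.mem hq.pos hq.le hq.max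

/-- **Lemma A**. -/
lemma lemmaA (hX : X ⊆ D.S) {w : G} (hw : w ∈ D.P) (hwΔ : D.le w D.Δ) (hwr : D.IsPart X w 1) :
    ∀ a ∈ Submonoid.closure X, ∀ p, D.IsPart X (D.head (a * w)) p →
      D.le (p⁻¹ * D.head (a * w)) w := by
  have hXP : Submonoid.closure X ≤ D.P := Submonoid.closure_le.2 (hX.trans D.S_pos)
  have hXA : ∀ a ∈ Submonoid.closure X, a ∈ Subgroup.closure X := fun a ha =>
    Subgroup.le_closure_toSubmonoid X ha
  intro a ha
  induction ha using Submonoid.closure_induction_left with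
  | one =>
    intro p hp
    rw [one_mul] at hp ⊢
    have h1 : D.head w = w := le_antisymm (head_le w) (le_head (le_refl w) hwΔ)
    rw [h1] at hp ⊢
    rw [hp.unique hwr]; simpa using le_refl w
  | mul_left x hx a ha ih =>
    intro p hp
    have haP := hXP ha
    have hxP : x ∈ D.P := D.S_pos (hX hx)
    have hxA : x ∈ Subgroup.closure X := Subgroup.subset_closure hx
    -- head of `a w`
    obtain ⟨p1, hp1⟩ := exists_part hX (head_mem (D := D) (mul_mem haP hw))
    have ih1 := ih p1 hp1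
    have e1 : D.head (x * a * w) = D.head (x * D.head (a * w)) := by
      rw [mul_assoc, head_mul _ hxP]
    set h1 := D.head (a * w) with hh1
    have hh1P : h1 ∈ D.P := head_mem (mul_mem haP hw)
    rw [e1] at hp ⊢
    -- `x ≤ head (x h1)`
    have hx1 : D.le x (D.head (x * h1)) := le_head (le_mul_right hh1P) (D.atom_le x (hX hx))
    set h2 := x⁻¹ * D.head (x * h1) with hh2
    have hh2P : h2 ∈ D.P := hx1
    have e2 : D.head (x * h1) = x * h2 := by rw [hh2, mul_inv_cancel_left]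
    have h21 : D.le h2 h1 := by
      rw [← le_mul x, ← e2]; exact head_le _
    obtain ⟨p2, hp2⟩ := exists_part hX hh2P
    rw [e2] at hp ⊢
    have e3 := hp.unique (hp2.mul hxA hxP hX hh2P)
    rw [e3, show (x * p2)⁻¹ * (x * h2) = p2⁻¹ * h2 by group]
    exact le_trans (mono_rest hX hh2P h21 (head_le_Δ _) hp2 hp1) ih1

/-- `X_w` -/
def shift (D : Gars G) (X : Set G) (w : G) : Set G := {x | x ∈ X ∧ w⁻¹ * x * w ∈ D.S}

lemma shift_sub (X : Set G) (w : G) : D.shift X w ⊆ X := fun _ h => h.1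

/-- for `p ∈ A⁺_{X_w}`: `w ≤ p w` -/
lemma le_of_shift {w p : G} (hp : p ∈ Submonoid.closure (D.shift X w)) :
    D.le w (p * w) := by
  induction hp using Submonoid.closure_induction with
  | mem x hx =>
    unfold le
    rw [← mul_assoc]; exact D.S_pos hx.2
  | one => rw [one_mul]; exact le_refl w
  | mul a b _ _ iha ihb =>
    unfold le at *
    have := D.P.mul_mem iha ihb
    rwa [show w⁻¹ * (a * w) * (w⁻¹ * (b * w)) = w⁻¹ * (a * b * w) by group] at this

/-- **Lemma C**. -/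
lemma lemmaC (hX : X ⊆ D.S) {w : G} (hw : w ∈ D.P) (hwΔ : D.le w D.Δ) (hwr : D.IsPart X w 1) :
    ∀ a ∈ Submonoid.closure X, D.le w (a * w) → a ∈ Subgroup.closure (D.shift X w) := by
  have hXP : Submonoid.closure X ≤ D.P := Submonoid.closure_le.2 (hX.trans D.S_pos)
  have hXA : ∀ a ∈ Submonoid.closure X, a ∈ Subgroup.closure X := fun a ha =>
    Subgroup.le_closure_toSubmonoid X ha
  have hsX : D.shift X w ⊆ D.S := (shift_sub X w).trans hX
  intro a ha
  induction ha using Submonoid.closure_induction_left with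
  | one => intro _; exact one_mem _
  | mul_left x hx a ha ih =>
    intro hle
    have haP := hXP ha
    have hxP : x ∈ D.P := D.S_pos (hX hx)
    have hxA : x ∈ Subgroup.closure X := Subgroup.subset_closure hx
    have hxaP : x * a ∈ D.P := mul_mem hxP haP
    set h := D.head (x * a * w) with hh
    have hhP : h ∈ D.P := head_mem (mul_mem hxaP hw)
    obtain ⟨p, hp⟩ := exists_part hX hhP
    have hxaX : x * a ∈ Submonoid.closure X := mul_mem (Submonoid.subset_closure hx) ha
    have h1 : D.le (p⁻¹ * h) w := lemmaA hX hw hwΔ hwr _ hxaX p hp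
    have h2 : D.le w h := le_head hle hwΔ
    have h3 : D.le w (p⁻¹ * h) := by
      have := mono_rest hX hw h2 (head_le_Δ _) hwr hp
      simpa using this
    have e : h = p * w := by
      have := le_antisymm h1 h3
      rw [← this, mul_inv_cancel_left]
    -- `x ≤ p`
    have hxp : D.le x p := hp.max x hxA hxP (le_head (by
      rw [mul_assoc]; exact le_mul_right (mul_mem haP hw)) (D.atom_le x (hX hx)))
    have hps : p ∈ Subgroup.closure (D.shift X w) :=
      D.par_shift X hX w p hw hwΔ (red_of_part_one hX hwr) hp.mem hp.pos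
        (by rw [← e]; exact head_le_Δ _) (by rw [← e]; exact h2)
    have hxp' : x ∈ Subgroup.closure (D.shift X w) :=
      D.par_div _ hsX x hxP (x⁻¹ * p) hxp (by rwa [mul_inv_cancel_left])
    have hx1 : x ∈ D.shift X w := atom_mem hsX (hX hx) hxp'
    have hp' : x⁻¹ * p ∈ Submonoid.closure (D.shift X w) :=
      D.par_pos _ hsX _ (mul_mem (inv_mem hxp') hps) hxp
    have h4 : D.le w (x⁻¹ * p * w) := le_of_shift hp'
    have h5 : D.le (x⁻¹ * p * w) (a * w) := by
      rw [← le_mul x, show x * (x⁻¹ * p * w) = p * w by group, ← e, ← mul_assoc]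
      exact head_le _
    exact mul_mem hxp' (ih (le_trans h4 h5))

/-! ### the ribbon lemma -/

lemma Red.mono {g g' : G} (h : D.Red X g) (h' : D.le g' g) : D.Red X g' :=
  fun x hx hle => h x hx (le_trans hle h')

lemma shift_one (hX : X ⊆ D.S) : D.shift X 1 = X := by
  ext x
  simp only [shift, Set.mem_ofPred_eq, inv_one, one_mul, mul_one]
  exact ⟨fun h => h.1, fun h => ⟨h, hX h⟩⟩

lemma exists_atom {g : G} (hg : g ∈ D.P) (h1 : g ≠ 1) : ∃ s ∈ D.S, D.le s g := by
  rcases closure_cases (D.gen hg) with h | ⟨s, hs, q, hq, e⟩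
  · exact absurd h h1
  · refine ⟨s, hs, ?_⟩
    rw [e]; exact le_mul_right (closure_le_P (Set.Subset.refl D.S) hq)

lemma head_ne_one {g : G} (hg : g ∈ D.P) (h1 : g ≠ 1) : D.head g ≠ 1 := by
  obtain ⟨s, hs, hsg⟩ := exists_atom hg h1
  intro h
  have h2 : D.le s 1 := by
    rw [← h]; exact le_head hsg (D.atom_le s hs)
  have h3 : s = 1 := le_antisymm h2 (one_le.2 (D.S_pos hs))
  have h4 := D.len_atom s hs
  rw [h3, map_one] at h4
  have := congrArg Multiplicative.toAdd h4
  simp at this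

/-- **Ribbon lemma**. -/
lemma ribbon : ∀ n : ℕ, ∀ X ⊆ D.S, ∀ g ∈ D.P, (D.len g).toAdd ≤ n → D.Red X g →
    ∀ a ∈ Submonoid.closure X, D.le g (a * g) → a ∈ Subgroup.closure (D.shift X g) := by
  intro n
  induction n with
  | zero =>
    intro X hX g hg hl _ a ha _
    rw [eq_one_of_len hg (by simpa using hl), shift_one hX]
    exact sub_closure ha
  | succ n ih =>
    intro X hX g hg hl hred a ha hle
    by_cases h1 : g = 1
    · rw [h1, shift_one hX]; exact sub_closure ha
    have haP := closure_le_P hX ha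
    have hrP : D.head g ∈ D.P := head_mem hg
    have hr1 : D.head g ≠ 1 := head_ne_one hg h1
    set r := D.head g with hr
    have hrred : D.Red X r := hred.mono (head_le g)
    have hrle : D.le r (a * r) := by
      have h2 : D.le r (D.head (a * g)) := le_head (le_trans (head_le g) hle) (head_le_Δ g)
      rw [head_mul _ haP] at h2
      exact le_trans h2 (head_le _)
    have h3 : a ∈ Subgroup.closure (D.shift X r) :=
      lemmaC hX hrP (head_le_Δ g) (part_one_of_red hX hrred hrP) a ha hrle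
    have hsX : D.shift X r ⊆ D.S := (shift_sub X r).trans hX
    have h4 : a ∈ Submonoid.closure (D.shift X r) := D.par_pos _ hsX a h3 haP
    -- the conjugated set
    set Y : Set G := (fun x => r⁻¹ * x * r) '' D.shift X r with hY
    have hYS : Y ⊆ D.S := by
      rintro _ ⟨x, hx, rfl⟩
      exact hx.2
    have hconj : ∀ b ∈ Submonoid.closure (D.shift X r), r⁻¹ * b * r ∈ Submonoid.closure Y := by
      intro b hb
      induction hb using Submonoid.closure_induction with
      | mem x hx => exact Submonoid.subset_closure ⟨x, hx, rfl⟩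
      | one => rw [mul_one, inv_mul_cancel]; exact one_mem _
      | mul b c _ _ ihb ihc =>
        rw [show r⁻¹ * (b * c) * r = (r⁻¹ * b * r) * (r⁻¹ * c * r) by group]
        exact mul_mem ihb ihc
    have hg' : r⁻¹ * g ∈ D.P := head_le g
    have hl' : (D.len (r⁻¹ * g)).toAdd ≤ n := by
      have h5 := D.len_pos r hrP hr1
      rw [map_mul, map_inv, toAdd_mul, toAdd_inv]
      push_cast at hl
      omega
    have hred' : D.Red Y (r⁻¹ * g) := by
      rintro _ ⟨x, hx, rfl⟩ hle'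
      apply hred x hx.1
      rw [← le_mul r, mul_inv_cancel_left] at hle'
      refine le_trans ?_ hle'
      rw [show r * (r⁻¹ * x * r) = x * r by group]
      exact le_mul_right hrP
    have hle' : D.le (r⁻¹ * g) ((r⁻¹ * a * r) * (r⁻¹ * g)) := by
      rw [← le_mul r, show r * ((r⁻¹ * a * r) * (r⁻¹ * g)) = a * g by group, mul_inv_cancel_left]
      exact hle
    have h6 := ih Y hYS (r⁻¹ * g) hg' hl' hred' _ (hconj a h4) hle'
    have hback : ∀ b ∈ Subgroup.closure (D.shift Y (r⁻¹ * g)),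
        r * b * r⁻¹ ∈ Subgroup.closure (D.shift X g) := by
      intro b hb
      induction hb using Subgroup.closure_induction with
      | mem y hy =>
        obtain ⟨⟨x, hx, rfl⟩, hy2⟩ := hy
        apply Subgroup.subset_closure
        have e1 : r * (r⁻¹ * x * r) * r⁻¹ = x := by group
        simp only [e1]
        refine ⟨hx.1, ?_⟩
        have e2 : (r⁻¹ * g)⁻¹ * (r⁻¹ * x * r) * (r⁻¹ * g) = g⁻¹ * x * g := by group
        simp only [e2] at hy2
        exact hy2
      | one => rw [mul_one, mul_inv_cancel]; exact one_mem _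
      | mul b c _ _ ihb ihc =>
        rw [show r * (b * c) * r⁻¹ = (r * b * r⁻¹) * (r * c * r⁻¹) by group]
        exact mul_mem ihb ihc
      | inv b _ ihb =>
        rw [show r * b⁻¹ * r⁻¹ = (r * b * r⁻¹)⁻¹ by group]
        exact inv_mem ihb
    have := hback _ h6
    rwa [show r * (r⁻¹ * a * r) * r⁻¹ = a by group] at this

/-- positive elements of `A_X ∩ g A_Y g⁻¹` for `g` positive and `X`-reduced with
`g⁻¹ κ g` positive. -/
lemma posK (hX : X ⊆ D.S) (hY : Y ⊆ D.S) {g : G} (hg : g ∈ D.P) (hred : D.Red X g) {a : G}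
    (ha : a ∈ Subgroup.closure X) (haP : a ∈ D.P) (hle : g⁻¹ * a * g ∈ D.P)
    (haY : g⁻¹ * a * g ∈ Subgroup.closure Y) :
    a ∈ Subgroup.closure {x | x ∈ X ∧ g⁻¹ * x * g ∈ Y} := by
  have h1 : a ∈ Subgroup.closure (D.shift X g) := by
    refine ribbon ((D.len g).toAdd).toNat X hX g hg ?_ hred a (D.par_pos X hX a ha haP) ?_
    · have := len_nonneg hg
      omega
    · unfold le; rwa [← mul_assoc]
  have hsX : D.shift X g ⊆ D.S := (shift_sub X g).trans hX
  have h2 : a ∈ Submonoid.closure (D.shift X g) := D.par_pos _ hsX a h1 haP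
  clear ha haP hle h1
  -- letters
  induction h2 using Submonoid.closure_induction_left with
  | one => exact one_mem _
  | mul_left x hx b hb ih =>
    have e : g⁻¹ * (x * b) * g = (g⁻¹ * x * g) * (g⁻¹ * b * g) := by group
    have hxS : g⁻¹ * x * g ∈ D.S := hx.2
    have hbP : g⁻¹ * b * g ∈ D.P := by
      have := le_of_shift hb
      unfold le at this
      rwa [← mul_assoc] at this
    rw [e] at haY
    have h3 : g⁻¹ * x * g ∈ Subgroup.closure Y :=
      D.par_div Y hY _ (D.S_pos hxS) _ hbP haY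
    have h4 : g⁻¹ * x * g ∈ Y := atom_mem hY hxS h3
    have h5 : g⁻¹ * b * g ∈ Subgroup.closure Y := by
      have := mul_mem (inv_mem h3) haY
      rwa [inv_mul_cancel_left] at this
    exact mul_mem (Subgroup.subset_closure ⟨hx.1, h4⟩) (ih h5)

/-! ### closed pairs -/

/-- minimal upper bounds exist -/
lemma exists_join (a b : G) (h : ∃ z, D.le a z ∧ D.le b z) :
    ∃ j, D.le a j ∧ D.le b j ∧ ∀ z, D.le a z → D.le b z → D.le j z := by
  classical
  let Q : ℕ → Prop := fun n => ∃ z, D.le a z ∧ D.le b z ∧ (D.len (a⁻¹ * z)).toAdd = n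
  have hQ : ∃ n, Q n := by
    obtain ⟨z, h1, h2⟩ := h
    have := len_nonneg h1
    exact ⟨((D.len (a⁻¹ * z)).toAdd).toNat, z, h1, h2, by omega⟩
  obtain ⟨j, j1, j2, j3⟩ := Nat.find_spec hQ
  refine ⟨j, j1, j2, fun z h1 h2 => ?_⟩
  have m1 : D.le a (D.meet j z) := le_meet' j1 h1
  have m2 : D.le b (D.meet j z) := le_meet' j2 h2
  have m0 := len_nonneg m1
  have h3 := Nat.find_min' hQ ⟨D.meet j z, m1, m2, (by omega :
    (D.len (a⁻¹ * D.meet j z)).toAdd = (((D.len (a⁻¹ * D.meet j z)).toAdd).toNat : ℕ))⟩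
  have h4 : (D.meet j z)⁻¹ * j = 1 := by
    apply eq_one_of_len (D := D) (meet_le_left j z)
    rw [map_mul, map_inv, toAdd_mul, toAdd_inv] at j3 m0 h3 ⊢
    omega
  rw [inv_mul_eq_one] at h4
  rw [← h4]; exact meet_le_right j z

lemma exists_ub (a b : G) : ∃ z, D.le a z ∧ D.le b z := by
  obtain ⟨n, hn⟩ := D.Δ_cof a
  obtain ⟨m, hm⟩ := D.Δ_cof b
  refine ⟨D.Δ ^ (n + m), ?_, ?_⟩
  · refine le_trans hn ?_
    rw [pow_add]; exact le_mul_right (pow_Δ_mem m)
  · refine le_trans hm ?_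
    rw [add_comm, pow_add]; exact le_mul_right (pow_Δ_mem n)

variable (D) in
/-- closed pairs -/
structure CP (X Y : Set G) (h x y : G) : Prop where
  hx : x ∈ Subgroup.closure X
  hy : h⁻¹ * y ∈ Subgroup.closure Y
  le : D.le x y
  max : ∀ a ∈ Subgroup.closure X, D.le a y → D.le a x
  min : ∀ b, h⁻¹ * b ∈ Subgroup.closure Y → D.le x b → D.le y b

lemma exists_max (hX : X ⊆ D.S) {a0 b : G} (ha0 : a0 ∈ Subgroup.closure X) (hab : D.le a0 b) :
    ∃ x ∈ Subgroup.closure X, D.le x b ∧ ∀ a ∈ Subgroup.closure X, D.le a b → D.le a x := by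
  obtain ⟨p, hp⟩ := exists_part (D := D) hX hab
  refine ⟨a0 * p, mul_mem ha0 hp.mem, ?_, fun a ha hle => ?_⟩
  · have := (le_mul (D := D) a0).2 hp.le
    rwa [mul_inv_cancel_left] at this
  · obtain ⟨j, j1, j2, j3, j4⟩ := D.par_join X hX a0 ha0 a ha b hab hle
    refine le_trans j3 ?_
    have h1 := hp.max (a0⁻¹ * j) (mul_mem (inv_mem ha0) j1) j2 ((le_mul _).2 j4)
    rw [← le_mul a0, mul_inv_cancel_left] at h1
    exact h1

lemma exists_min (hY : Y ⊆ D.S) {h x b0 : G} (hb0 : h⁻¹ * b0 ∈ Subgroup.closure Y)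
    (hxb : D.le x b0) :
    ∃ y, h⁻¹ * y ∈ Subgroup.closure Y ∧ D.le x y ∧
      ∀ b, h⁻¹ * b ∈ Subgroup.closure Y → D.le x b → D.le y b := by
  classical
  let Q : ℕ → Prop := fun n => ∃ z, h⁻¹ * z ∈ Subgroup.closure Y ∧ D.le x z ∧
    (D.len (x⁻¹ * z)).toAdd = n
  have hQ : ∃ n, Q n := by
    have := len_nonneg hxb
    exact ⟨((D.len (x⁻¹ * b0)).toAdd).toNat, b0, hb0, hxb, by omega⟩
  obtain ⟨j, j1, j2, j3⟩ := Nat.find_spec hQ
  refine ⟨j, j1, j2, fun z h1 h2 => ?_⟩
  have m1 : h⁻¹ * D.meet j z ∈ Subgroup.closure Y := by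
    rw [mul_meet]; exact D.par_meet Y hY _ j1 _ h1
  have m2 : D.le x (D.meet j z) := le_meet' j2 h2
  have m0 := len_nonneg m2
  have h3 := Nat.find_min' hQ ⟨D.meet j z, m1, m2, (by omega :
    (D.len (x⁻¹ * D.meet j z)).toAdd = (((D.len (x⁻¹ * D.meet j z)).toAdd).toNat : ℕ))⟩
  have h4 : (D.meet j z)⁻¹ * j = 1 := by
    apply eq_one_of_len (D := D) (meet_le_left j z)
    rw [map_mul, map_inv, toAdd_mul, toAdd_inv] at j3 m0 h3 ⊢
    omega
  rw [inv_mul_eq_one] at h4
  rw [← h4]; exact meet_le_right j z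

/-- closing up -/
lemma exists_CP (hX : X ⊆ D.S) (hY : Y ⊆ D.S) {h a0 b : G} (ha0 : a0 ∈ Subgroup.closure X)
    (hb : h⁻¹ * b ∈ Subgroup.closure Y) (hab : D.le a0 b) :
    ∃ x y, D.CP X Y h x y ∧ D.le y b ∧ ∀ a ∈ Subgroup.closure X, D.le a b → D.le a x := by
  obtain ⟨x, hx1, hx2, hx3⟩ := exists_max hX ha0 hab
  obtain ⟨y, hy1, hy2, hy3⟩ := exists_min hY hb hx2
  refine ⟨x, y, ⟨hx1, hy1, hy2, fun a ha hle => hx3 a ha (le_trans hle (hy3 b hb hx2)), hy3⟩,
    hy3 b hb hx2, hx3⟩

/-- closed pairs are directed -/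
lemma CP.directed (hX : X ⊆ D.S) (hY : Y ⊆ D.S) {h x y x' y' : G} (hc : D.CP X Y h x y)
    (hc' : D.CP X Y h x' y') :
    ∃ x'' y'', D.CP X Y h x'' y'' ∧ D.le x x'' ∧ D.le y y'' ∧ D.le x' x'' ∧ D.le y' y'' := by
  obtain ⟨z, z1, z2⟩ := exists_ub (D := D) (h⁻¹ * y) (h⁻¹ * y')
  obtain ⟨j, j1, j2, j3, j4⟩ := D.par_join Y hY _ hc.hy _ hc'.hy z z1 z2
  have k1 : D.le y (h * j) := by
    have := (le_mul (D := D) h).2 j2
    rwa [mul_inv_cancel_left] at this
  have k2 : D.le y' (h * j) := by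
    have := (le_mul (D := D) h).2 j3
    rwa [mul_inv_cancel_left] at this
  obtain ⟨x'', y'', hc'', h1, h2⟩ := exists_CP (D := D) (b := h * j) (h := h) hX hY hc.hx
    (by rwa [inv_mul_cancel_left]) (le_trans hc.le k1)
  have e1 := h2 x hc.hx (le_trans hc.le k1)
  have e2 := h2 x' hc'.hx (le_trans hc'.le k2)
  exact ⟨x'', y'', hc'', e1, hc.min y'' hc''.hy (le_trans e1 hc''.le), e2,
    hc'.min y'' hc''.hy (le_trans e2 hc''.le)⟩

lemma CP.red (hX : X ⊆ D.S) {h x y : G} (hc : D.CP X Y h x y) : D.Red X (x⁻¹ * y) := by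
  intro s hs hle
  have h1 : D.le (x * s) y := by
    rw [← le_mul x, mul_inv_cancel_left] at hle; exact hle
  have h2 := hc.max _ (mul_mem hc.hx (Subgroup.subset_closure hs)) h1
  have h3 : D.le s 1 := by rw [← le_mul x, mul_one]; exact h2
  have h4 : s = 1 := le_antisymm h3 (one_le.2 (D.S_pos (hX hs)))
  have h5 := D.len_atom s (hX hs)
  rw [h4, map_one] at h5
  have := congrArg Multiplicative.toAdd h5
  simp at this

/-- translation by `K` -/
lemma CP.smul {h x y k : G} (hc : D.CP X Y h x y) (hk : k ∈ Subgroup.closure X)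
    (hk' : h⁻¹ * k * h ∈ Subgroup.closure Y) : D.CP X Y h (k * x) (k * y) where
  hx := mul_mem hk hc.hx
  hy := by
    rw [show h⁻¹ * (k * y) = (h⁻¹ * k * h) * (h⁻¹ * y) by group]
    exact mul_mem hk' hc.hy
  le := (le_mul k).2 hc.le
  max a ha hle := by
    have := hc.max (k⁻¹ * a) (mul_mem (inv_mem hk) ha) (by
      rw [← le_mul k, mul_inv_cancel_left]; exact hle)
    rw [← le_mul k, mul_inv_cancel_left] at this; exact this
  min b hb hle := by
    have := hc.min (k⁻¹ * b) (by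
      rw [show h⁻¹ * (k⁻¹ * b) = (h⁻¹ * k * h)⁻¹ * (h⁻¹ * b) by group]
      exact mul_mem (inv_mem hk') hb) (by
      rw [← le_mul k, mul_inv_cancel_left]; exact hle)
    rw [← le_mul k, mul_inv_cancel_left] at this; exact this

/-- widths above a given pair are bounded by the same power of `Δ`. -/
lemma CP.width (_hX : X ⊆ D.S) (hY : Y ⊆ D.S) {h x y x' y' : G} (hc : D.CP X Y h x y)
    (hc' : D.CP X Y h x' y') (h1 : D.le x x') (h2 : D.le y y') {n : ℕ}
    (hn : D.le (x⁻¹ * y) (D.Δ ^ n)) : D.le (x'⁻¹ * y') (D.Δ ^ n) := by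
  -- `e = y⁻¹ y'`, `g' = x'⁻¹ y'`, `v = g'⁻¹ Δ ^ n`
  have heP : y⁻¹ * y' ∈ D.P := h2
  have heY : y⁻¹ * y' ∈ Subgroup.closure Y := by
    have := mul_mem (inv_mem hc.hy) hc'.hy
    rwa [show (h⁻¹ * y)⁻¹ * (h⁻¹ * y') = y⁻¹ * y' by group] at this
  set v := (x'⁻¹ * y')⁻¹ * D.Δ ^ n with hv
  have hgv : (x'⁻¹ * y') * v ∈ D.P := by
    rw [hv, mul_inv_cancel_left]; exact pow_Δ_mem n
  have hev : (y⁻¹ * y') * v ∈ D.P := by
    have h3 : D.le (x⁻¹ * y) (x⁻¹ * x' * D.Δ ^ n) := by
      refine le_trans hn ?_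
      unfold Gars.le
      rw [← mul_assoc]; exact conj_mem h1 n
    unfold Gars.le at h3
    rw [hv]
    rwa [show y⁻¹ * y' * ((x'⁻¹ * y')⁻¹ * D.Δ ^ n) = (x⁻¹ * y)⁻¹ * (x⁻¹ * x' * D.Δ ^ n) by group]
  obtain ⟨j, j1, j2, j3⟩ := exists_join (D := D) (y⁻¹ * y')⁻¹ (x'⁻¹ * y')⁻¹
    ⟨1, by unfold Gars.le; simpa using heP, by unfold Gars.le; rw [inv_inv, mul_one]; exact hc'.le⟩
  have hj1 : D.le j 1 := j3 1 (by unfold Gars.le; simpa using heP) (by unfold Gars.le; rw [inv_inv, mul_one]; exact hc'.le)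
  have hjP : j⁻¹ ∈ D.P := by unfold Gars.le at hj1; simpa using hj1
  unfold Gars.le at j1 j2
  rw [inv_inv] at j1 j2
  have hjY : j ∈ Subgroup.closure Y := by
    have := D.par_div Y hY _ j1 _ hjP (by rwa [mul_inv_cancel_right])
    have := mul_mem (inv_mem heY) this
    rwa [inv_mul_cancel_left] at this
  have h4 : D.le y' (y' * j) := by
    apply hc'.min
    · rw [← mul_assoc]; exact mul_mem hc'.hy hjY
    · unfold Gars.le; rwa [← mul_assoc]
  have h5 : j ∈ D.P := by unfold Gars.le at h4; rwa [inv_mul_cancel_left] at h4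
  have h6 : j = 1 := eq_one_of_inv h5 hjP
  have h7 := j3 v (by unfold Gars.le; rwa [inv_inv]) (by unfold Gars.le; rwa [inv_inv])
  rw [h6, one_le] at h7
  exact h7

/-- **pigeonhole**: some width is cofinal. -/
lemma exists_width (hX : X ⊆ D.S) (hY : Y ⊆ D.S) {h x0 y0 : G} (hc0 : D.CP X Y h x0 y0) :
    ∃ g, ∀ x y, D.CP X Y h x y → ∃ x' y', D.CP X Y h x' y' ∧ D.le x x' ∧ D.le y y' ∧
      x'⁻¹ * y' = g := by
  classical
  by_contra hcon
  push Not at hcon
  obtain ⟨n, hn⟩ := D.Δ_cof (x0⁻¹ * y0)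
  have key : ∀ F : Finset G, ∃ x y, D.CP X Y h x y ∧ D.le x0 x ∧ D.le y0 y ∧
      ∀ g ∈ F, ∀ x' y', D.CP X Y h x' y' → D.le x x' → D.le y y' → x'⁻¹ * y' ≠ g := by
    intro F
    induction F using Finset.induction_on with
    | empty => exact ⟨x0, y0, hc0, le_refl _, le_refl _, by simp⟩
    | insert g F _ ih =>
      obtain ⟨x, y, hc, e1, e2, e3⟩ := ih
      obtain ⟨x', y', hc', e'⟩ := hcon g
      obtain ⟨x'', y'', hc'', f1, f2, f3, f4⟩ := hc.directed hX hY hc'
      refine ⟨x'', y'', hc'', le_trans e1 f1, le_trans e2 f2, ?_⟩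
      intro g' hg' a b hab ha hb
      rcases Finset.mem_insert.1 hg' with rfl | hg''
      · exact e' a b hab (le_trans f3 ha) (le_trans f4 hb)
      · exact e3 g' hg'' a b hab (le_trans f1 ha) (le_trans f2 hb)
  obtain ⟨x, y, hc, e1, e2, e3⟩ := key (D.fin_div n).toFinset
  refine e3 (x⁻¹ * y) ?_ x y hc (le_refl _) (le_refl _) rfl
  rw [Set.Finite.mem_toFinset]
  exact ⟨hc.le, hc0.width hX hY hc e1 e2 hn⟩

/-- the intersection theorem for positive `h`. -/
lemma inter_pos (hX : X ⊆ D.S) (hY : Y ⊆ D.S) {h : G} (hh : h ∈ D.P) :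
    ∃ x ∈ Subgroup.closure X, ∃ Z ⊆ X, ∀ k : G,
      (k ∈ Subgroup.closure X ∧ h⁻¹ * k * h ∈ Subgroup.closure Y) ↔
        x⁻¹ * k * x ∈ Subgroup.closure Z := by
  obtain ⟨x0, y0, hc0, -, -⟩ := exists_CP (D := D) (h := h) (a0 := 1) (b := h) hX hY (one_mem _)
    (by rw [inv_mul_cancel]; exact one_mem _) (one_le.2 hh)
  obtain ⟨g, hg⟩ := exists_width hX hY hc0
  obtain ⟨x1, y1, hc1, -, -, hg1⟩ := hg x0 y0 hc0
  have hgP : g ∈ D.P := by rw [← hg1]; exact hc1.le
  have hgred : D.Red X g := by rw [← hg1]; exact hc1.red hX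
  have hy1 : y1 = x1 * g := by rw [← hg1, mul_inv_cancel_left]
  refine ⟨x1, hc1.hx, {z | z ∈ X ∧ g⁻¹ * z * g ∈ Y}, fun z hz => hz.1, fun k => ⟨?_, ?_⟩⟩
  · rintro ⟨hk1, hk2⟩
    have hc2 := hc1.smul hk1 hk2
    obtain ⟨x2, y2, hc3, a1, a2, a3, a4⟩ := hc1.directed hX hY hc2
    obtain ⟨x, y, hc, b1, b2, b3⟩ := hg x2 y2 hc3
    have hy : y = x * g := by rw [← b3, mul_inv_cancel_left]
    have i1 : D.le x1 x := le_trans a1 b1
    have i2 : D.le y1 y := le_trans a2 b2
    have i3 : D.le (k * x1) x := le_trans a3 b1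
    have i4 : D.le (k * y1) y := le_trans a4 b2
    have p1 : x1⁻¹ * x ∈ Subgroup.closure {z | z ∈ X ∧ g⁻¹ * z * g ∈ Y} := by
      apply posK hX hY hgP hgred (mul_mem (inv_mem hc1.hx) hc.hx) i1
      · have : g⁻¹ * (x1⁻¹ * x) * g = y1⁻¹ * y := by rw [hy1, hy]; group
        rw [this]; exact i2
      · have : g⁻¹ * (x1⁻¹ * x) * g = (h⁻¹ * y1)⁻¹ * (h⁻¹ * y) := by rw [hy1, hy]; group
        rw [this]; exact mul_mem (inv_mem hc1.hy) hc.hy
    have p2 : (k * x1)⁻¹ * x ∈ Subgroup.closure {z | z ∈ X ∧ g⁻¹ * z * g ∈ Y} := by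
      apply posK hX hY hgP hgred (mul_mem (inv_mem hc2.hx) hc.hx) i3
      · have : g⁻¹ * ((k * x1)⁻¹ * x) * g = (k * y1)⁻¹ * y := by rw [hy1, hy]; group
        rw [this]; exact i4
      · have : g⁻¹ * ((k * x1)⁻¹ * x) * g = (h⁻¹ * (k * y1))⁻¹ * (h⁻¹ * y) := by
          rw [hy1, hy]; group
        rw [this]; exact mul_mem (inv_mem hc2.hy) hc.hy
    have := mul_mem p1 (inv_mem p2)
    rwa [show x1⁻¹ * x * ((k * x1)⁻¹ * x)⁻¹ = x1⁻¹ * k * x1 by group] at this
  · intro hk
    have key : ∀ b ∈ Subgroup.closure {z | z ∈ X ∧ g⁻¹ * z * g ∈ Y},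
        b ∈ Subgroup.closure X ∧ g⁻¹ * b * g ∈ Subgroup.closure Y := by
      intro b hb
      induction hb using Subgroup.closure_induction with
      | mem z hz => exact ⟨Subgroup.subset_closure hz.1, Subgroup.subset_closure hz.2⟩
      | one => exact ⟨one_mem _, by rw [mul_one, inv_mul_cancel]; exact one_mem _⟩
      | mul b c _ _ ihb ihc =>
        refine ⟨mul_mem ihb.1 ihc.1, ?_⟩
        rw [show g⁻¹ * (b * c) * g = (g⁻¹ * b * g) * (g⁻¹ * c * g) by group]
        exact mul_mem ihb.2 ihc.2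
      | inv b _ ihb =>
        refine ⟨inv_mem ihb.1, ?_⟩
        rw [show g⁻¹ * b⁻¹ * g = (g⁻¹ * b * g)⁻¹ by group]
        exact inv_mem ihb.2
    obtain ⟨k1, k2⟩ := key _ hk
    constructor
    · have := mul_mem (mul_mem hc1.hx k1) (inv_mem hc1.hx)
      rwa [show x1 * (x1⁻¹ * k * x1) * x1⁻¹ = k by group] at this
    · have := mul_mem (mul_mem hc1.hy k2) (inv_mem hc1.hy)
      rwa [show h⁻¹ * y1 * (g⁻¹ * (x1⁻¹ * k * x1) * g) * (h⁻¹ * y1)⁻¹ = h⁻¹ * k * h by
        rw [hy1]; group] at this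

/-- **The intersection theorem** (Cumplido–Gebhardt–González-Meneses–Wiest), abstract form. -/
theorem inter (D : Gars G) (X Y : Set G) (hX : X ⊆ D.S) (hY : Y ⊆ D.S) (g : G) :
    ∃ x ∈ Subgroup.closure X, ∃ Z ⊆ X, ∀ k : G,
      (k ∈ Subgroup.closure X ∧ g⁻¹ * k * g ∈ Subgroup.closure Y) ↔
        x⁻¹ * k * x ∈ Subgroup.closure Z := by
  obtain ⟨m, hm, hcen⟩ := D.Δ_cen
  obtain ⟨n, hn⟩ := D.Δ_cof g⁻¹
  rw [inv_inv] at hn
  have hP : g * (D.Δ ^ m) ^ n ∈ D.P := by
    have h1 : g * (D.Δ ^ m) ^ n = g * D.Δ ^ n * D.Δ ^ ((m - 1) * n) := by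
      rw [← pow_mul, mul_assoc, ← pow_add]
      congr 2
      obtain ⟨m', rfl⟩ : ∃ m', m = m' + 1 := ⟨m - 1, by omega⟩
      simp; ring
    rw [h1]; exact mul_mem hn (pow_Δ_mem _)
  have hcen' : ∀ k, Commute ((D.Δ ^ m) ^ n) k := fun k => (hcen k).pow_left n
  obtain ⟨x, hx, Z, hZ, H⟩ := inter_pos hX hY hP
  refine ⟨x, hx, Z, hZ, fun k => ?_⟩
  rw [← H k]
  have : (g * (D.Δ ^ m) ^ n)⁻¹ * k * (g * (D.Δ ^ m) ^ n) = g⁻¹ * k * g := by
    have e := (hcen' (g⁻¹ * k * g)).eq
    rw [show (g * (D.Δ ^ m) ^ n)⁻¹ * k * (g * (D.Δ ^ m) ^ n) =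
      ((D.Δ ^ m) ^ n)⁻¹ * ((g⁻¹ * k * g) * (D.Δ ^ m) ^ n) by group, ← e, inv_mul_cancel_left]
  rw [this]

end Gars

end Crest.Agent.R175.DF_184
end

-- ▼ part R175/GSph_145

/-!
Row 175, Track D: the Garside structure of an Artin group of spherical type, and the theorem of
Cumplido, Gebhardt, Gonzalez-Meneses, Wiest (intersections of parabolic subgroups) (helper145).
-/

set_option autoImplicit false

namespace Crest.Agent.R175.GSph_145

open Crest.GroupTheory
open Crest.Agent.R175.DDef_145 Crest.Agent.R175.DW_145 Crest.Agent.R175.GPL_145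
open Crest.Agent.R175.GMon_145 Crest.Agent.R175.GLat_145 Crest.Agent.R175.GGrp_145

universe u v

variable {S : Type u} {M : CoxeterMatrix S} {W : Type v} [Group W] {cs : CoxeterSystem M W}

/-- the data of a finite Coxeter group -/
noncomputable def dat [Finite W] (cs : CoxeterSystem M W) : Dat cs where
  w0 := (WB_527.w2 (cs := cs)).choose
  top := (WB_527.w2 (cs := cs)).choose_spec
  join := fun u v => WB_527.w3 (cs := cs) u v
  mats := fun ω ω' h h' he => WB_527.w4 (cs := cs) braid_at ω ω' h h' he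
  alt_red := fun _ _ k hij hk => WA_527.w1' (cs := cs) hij k hk
  two := fun _ _ _ hij hi hj => WA_527.w1 (cs := cs) hij hi hj

variable (D : Dat cs)

/-! ### Simple elements -/

theorem eq_sg {z : AM M} (h : z ∣ Dl D) : z = sg cs (hd D z) := by
  have h1 : tl D z ∣ Dl D ^ 0 := tl_dvd D (by simpa using h)
  have h2 : deg (tl D z) = 0 := by
    have := deg_le_of_dvd h1
    simpa using this
  have h3 := hd_tl D z
  rw [eq_one_of_deg h2, mul_one] at h3
  exact h3.symm

include D in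
theorem sg_dvd_sg {u w : W} : sg cs u ∣ sg cs w ↔ PL cs u w := by
  rw [sg_dvd_iff D, hd_sg]

include D in
theorem sg_inj {u w : W} (h : sg cs u = sg cs w) : u = w := by
  rw [← hd_sg D u, h, hd_sg]

include D in
theorem eq_mul_of_sg {u v w : W} (h : sg cs u * sg cs v = sg cs w) : w = u * v ∧ Rd cs u v := by
  have h1 : PL cs u w := (sg_dvd_sg D).1 ⟨_, h.symm⟩
  obtain ⟨w1, hw, hr⟩ := h1.exists_eq
  subst hw
  rw [sg_mul D hr] at h
  have h2 := sg_inj D (mul_left_cancel' D h)
  subst h2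
  exact ⟨rfl, hr⟩

theorem list_mem_PM {X : Set S} {l : List S} (h : ∀ s ∈ l, s ∈ X) :
    (l.map (at' M)).prod ∈ PM M X := by
  apply Submonoid.list_prod_mem
  intro x hx
  obtain ⟨s, hs, rfl⟩ := List.mem_map.1 hx
  exact at_mem_PM (h s hs)

theorem sg_mem_PM {X : Set S} {u : W} (h : u ∈ WP cs X) : sg cs u ∈ PM M X := by
  unfold sg
  apply list_mem_PM
  exact WA_527.w7 (cs := cs) (redWord_red u) (by rw [redWord_prod]; exact h)

theorem list_mem_of_PM {X : Set S} {l : List S} (h : (l.map (at' M)).prod ∈ PM M X) :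
    ∀ s ∈ l, s ∈ X := by
  induction l with
  | nil => simp
  | cons a l ih =>
    rw [List.map_cons, List.prod_cons] at h
    obtain ⟨h1, h2⟩ := mul_mem_PM_iff.1 h
    intro s hs
    rcases List.mem_cons.1 hs with rfl | hs
    · exact at_mem_PM_iff.1 h1
    · exact ih h2 s hs

theorem mem_WP_of_PM {X : Set S} {u : W} (h : sg cs u ∈ PM M X) : u ∈ WP cs X := by
  have h1 := list_mem_of_PM (l := redWord cs u) h
  rw [← redWord_prod (cs := cs) u]
  exact WA_527.wordProd_mem (cs := cs) h1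

/-! ### The order through the submonoid of positive elements -/

theorem mem_P_iff {g : ArtinGroup M} : g ∈ MonoidHom.mrange (toG M) ↔ ∃ z, toG M z = g := Iff.rfl

theorem le_iff {x y : ArtinGroup M} : x⁻¹ * y ∈ MonoidHom.mrange (toG M) ↔ Gle x y := by
  rw [mem_P_iff]
  constructor
  · rintro ⟨z, hz⟩; exact ⟨z, by rw [hz]; group⟩
  · rintro ⟨z, rfl⟩; exact ⟨z, by group⟩

include D in
theorem toG_le_iff {x y : AM M} : (toG M x)⁻¹ * toG M y ∈ MonoidHom.mrange (toG M) ↔ x ∣ y := by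
  rw [le_iff, toG_Gle_iff D]

/-- length on the group -/
noncomputable def lenG (M : CoxeterMatrix S) : ArtinGroup M →* Multiplicative ℤ :=
  artinLift M (fun _ => Multiplicative.ofAdd 1) (by intro s t h; simp)

theorem lenG_toG (z : AM M) : (lenG M (toG M z)).toAdd = (deg z : ℤ) := by
  induction z using induction_left with
  | h1 => simp
  | h2 s z ih =>
    rw [map_mul, map_mul, toAdd_mul, ih, toG_at, deg_mul, deg_at]
    simp [lenG]

/-- the set of generators of a subset of `Set.range (artinGen M)` -/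
theorem image_of_subset {X : Set (ArtinGroup M)} (h : X ⊆ Set.range (artinGen M)) :
    artinGen M '' (artinGen M ⁻¹' X) = X := Set.image_preimage_eq_of_subset h

theorem closure_eq {X : Set (ArtinGroup M)} (h : X ⊆ Set.range (artinGen M)) :
    Subgroup.closure X = stdParabolic M (artinGen M ⁻¹' X) := by
  unfold stdParabolic
  rw [image_of_subset h]

theorem finite_deg [Finite S] (N : ℕ) : {z : AM M | deg z ≤ N}.Finite := by
  have h1 : {l : List S | l.length ≤ N}.Finite := List.finite_length_le S N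
  refine (h1.image (fun l => (l.map (at' M)).prod)).subset ?_
  intro z hz
  obtain ⟨l, rfl⟩ := exists_list z
  refine ⟨l, ?_, rfl⟩
  rw [Set.mem_setOf_eq, deg_list] at hz
  exact hz

include D in
/-- the parabolic part of a simple element -/
theorem part_eq {X : Set S} {a p : W} {q : W} (hq : XRed cs X q) (hp : p ∈ WP cs X)
    (ha : a = p * q) {p' : AM M} (hp' : p' ∈ PM M X) (hd' : p' ∣ sg cs a)
    (hmax : ∀ e ∈ PM M X, e ∣ sg cs a → e ∣ p') : p' = sg cs p := by
  have hr : Rd cs p q := WA_527.w5' (cs := cs) hp hq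
  have h1 : sg cs p ∣ p' := hmax _ (sg_mem_PM hp) (by
    rw [sg_dvd_sg D, ha]; exact PL_mul hr)
  have h2 : p' = sg cs (hd D p') := eq_sg D (hd'.trans (sg_dvd_Dl D a))
  have h3 : hd D p' ∈ WP cs X := mem_WP_of_PM (by rw [← h2]; exact hp')
  obtain ⟨c, hc⟩ := h1
  -- `c ∣ sg q`, `c ∈ PM X`, so `c = 1`
  have h4 : c ∣ sg cs q := by
    rw [hc, ha, sg_mul D hr] at hd'
    exact (mul_dvd_mul_left_iff D).1 hd'
  have h5 : c ∈ PM M X := by rw [hc] at hp'; exact (mul_mem_PM_iff.1 hp').2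
  by_cases hc1 : c = 1
  · rw [hc, hc1, mul_one]
  · exfalso
    obtain ⟨s, c', rfl⟩ := exists_at_mul hc1
    have h6 : s ∈ X := at_mem_PM_iff.1 (mul_mem_PM_iff.1 h5).1
    have h7 : at' M s ∣ sg cs q := (Dvd.intro _ rfl).trans h4
    rw [at_dvd_iff D, hd_sg] at h7
    exact hq s h6 h7

/-! ### The Garside structure -/

variable [Finite S]

/-- The Garside structure of an Artin group of spherical type. -/
noncomputable def gars : DF_184.Gars (ArtinGroup M) where
  S := Set.range (artinGen M)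
  P := MonoidHom.mrange (toG M)
  Δ := toG M (Dl D)
  len := lenG M
  meet := fun x y => (exists_glb D x y).choose
  S_pos := by
    rintro _ ⟨s, rfl⟩
    exact ⟨at' M s, toG_at s⟩
  gen := by
    rintro _ ⟨z, rfl⟩
    induction z using induction_left with
    | h1 => rw [map_one]; exact Submonoid.one_mem _
    | h2 s z ih =>
      rw [map_mul, toG_at]
      exact Submonoid.mul_mem _ (Submonoid.subset_closure ⟨s, rfl⟩) ih
  len_atom := by
    rintro _ ⟨s, rfl⟩
    simp [lenG]
  len_pos := by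
    rintro _ ⟨z, rfl⟩ h
    rw [lenG_toG]
    have h1 : deg z ≠ 0 := fun h0 => h (by rw [eq_one_of_deg h0, map_one])
    omega
  meet_left := fun x y => le_iff.2 (exists_glb D x y).choose_spec.1
  meet_right := fun x y => le_iff.2 (exists_glb D x y).choose_spec.2.1
  le_meet := fun x y z hx hy =>
    le_iff.2 ((exists_glb D x y).choose_spec.2.2 z (le_iff.1 hx) (le_iff.1 hy))
  Δ_pos := ⟨Dl D, rfl⟩
  Δ_conj := by
    rintro _ ⟨z, rfl⟩
    obtain ⟨z', hz'⟩ := exists_mul_Dl D z
    refine ⟨z', ?_⟩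
    rw [mul_assoc, ← map_mul, hz', map_mul, inv_mul_cancel_left]
  Δ_cen := by
    refine ⟨2, by norm_num, fun g => ?_⟩
    have h := OmG_central D g
    have h1 : toG M (Dl D) ^ 2 = OmG D := by
      unfold OmG Om
      rw [map_mul, pow_two]
    rw [h1]
    exact h.symm
  Δ_cof := fun g => by
    obtain ⟨n, z, h⟩ := exists_pos D g⁻¹
    refine ⟨2 * n, z, ?_⟩
    have h1 : toG M (Dl D) ^ (2 * n) = OmG D ^ n := by
      unfold OmG Om
      rw [map_mul, ← pow_two, ← pow_mul]
    rw [h1, ← OmG_pow_mul, h]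
  fin_div := fun n => by
    refine ((finite_deg (M := M) (deg (Dl D ^ n))).image (toG M)).subset ?_
    rintro _ ⟨⟨z, rfl⟩, hz⟩
    refine ⟨z, ?_, rfl⟩
    rw [← map_pow, toG_le_iff D] at hz
    exact deg_le_of_dvd hz
  atom_le := by
    rintro _ ⟨s, rfl⟩
    rw [← toG_at, toG_le_iff D]
    exact at_dvd_Dl D s
  par_pos := by
    rintro X hX _ hg ⟨z, rfl⟩
    rw [closure_eq hX, toG_mem_iff D] at hg
    induction hg using Submonoid.closure_induction with
    | mem x hx =>
      obtain ⟨s, hs, rfl⟩ := hx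
      rw [toG_at]
      exact Submonoid.subset_closure hs
    | one => rw [map_one]; exact Submonoid.one_mem _
    | mul x y _ _ hx hy => rw [map_mul]; exact Submonoid.mul_mem _ hx hy
  par_div := by
    rintro X hX _ ⟨a, rfl⟩ _ ⟨b, rfl⟩ h
    rw [closure_eq hX] at h ⊢
    rw [← map_mul, toG_mem_iff D] at h
    rw [toG_mem_iff D]
    exact (mul_mem_PM_iff.1 h).1
  par_meet := by
    intro X hX x hx y hy
    rw [closure_eq hX] at hx hy ⊢
    obtain ⟨h1, h2, h3⟩ := (exists_glb D x y).choose_spec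
    exact glb_mem D hx hy h1 h2 h3
  par_join := by
    intro X hX x hx y hy z hxz hyz
    rw [closure_eq hX] at hx hy ⊢
    obtain ⟨j, h1, h2, h3⟩ := exists_lub D x y
    exact ⟨j, lub_mem D hx hy h1 h2 h3, le_iff.2 h1, le_iff.2 h2,
      le_iff.2 (h3 z (le_iff.1 hxz) (le_iff.1 hyz))⟩
  proj_mono := by
    rintro X hX a b p q ⟨a, rfl⟩ hab hb hp ⟨p, rfl⟩ hpa hpmax hq ⟨q, rfl⟩ hqb hqmax
    obtain ⟨b, rfl⟩ : ∃ b', toG M b' = b := by
      obtain ⟨c, hc⟩ := hab
      exact ⟨a * c, by rw [map_mul, hc, mul_inv_cancel_left]⟩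
    rw [closure_eq hX] at hp hq hpmax hqmax
    rw [toG_mem_iff D] at hp hq
    rw [toG_le_iff D] at hab hb hpa hqb
    have ha1 := eq_sg D (hab.trans hb)
    have hb1 := eq_sg D hb
    obtain ⟨pa, hpa1, qa, hqa1, ha2⟩ :=
      WA_527.w5 (cs := cs) (artinGen M ⁻¹' X) (hd D a)
    obtain ⟨pb, hpb1, qb, hqb1, hb2⟩ :=
      WA_527.w5 (cs := cs) (artinGen M ⁻¹' X) (hd D b)
    have hp1 : p = sg cs pa := part_eq D hqa1 hpa1 ha2 hp (by rw [← ha1]; exact hpa)
      (fun e he hed => by
        rw [← ha1] at hed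
        have := hpmax (toG M e) ((toG_mem_iff D).2 he) ⟨e, rfl⟩ ((toG_le_iff D).2 hed)
        exact (toG_le_iff D).1 this)
    have hq1 : q = sg cs pb := part_eq D hqb1 hpb1 hb2 hq (by rw [← hb1]; exact hqb)
      (fun e he hed => by
        rw [← hb1] at hed
        have := hqmax (toG M e) ((toG_mem_iff D).2 he) ⟨e, rfl⟩ ((toG_le_iff D).2 hed)
        exact (toG_le_iff D).1 this)
    have hra : Rd cs pa qa := WA_527.w5' (cs := cs) hpa1 hqa1
    have hrb : Rd cs pb qb := WA_527.w5' (cs := cs) hpb1 hqb1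
    have ha3 : a = sg cs pa * sg cs qa := by rw [ha1, ha2, sg_mul D hra]
    have hb3 : b = sg cs pb * sg cs qb := by rw [hb1, hb2, sg_mul D hrb]
    have hab' : PL cs (pa * qa) (pb * qb) := by
      rw [← ha2, ← hb2, ← sg_dvd_sg D, ← ha1, ← hb1]; exact hab
    have h9 : PL cs qa qb := WB_527.w9 (cs := cs) hpa1 hqa1 hpb1 hqb1 hab'
    have e1 : (toG M p)⁻¹ * toG M a = toG M (sg cs qa) := by
      rw [hp1, ha3, map_mul, inv_mul_cancel_left]
    have e2 : (toG M q)⁻¹ * toG M b = toG M (sg cs qb) := by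
      rw [hq1, hb3, map_mul, inv_mul_cancel_left]
    rw [e1, e2, toG_le_iff D, sg_dvd_sg D]
    exact h9
  par_shift := by
    rintro X hX _ _ ⟨w, rfl⟩ hw hwX hp ⟨p, rfl⟩ hpw hwp
    rw [closure_eq hX, toG_mem_iff D] at hp
    rw [toG_le_iff D] at hw
    rw [← map_mul, toG_le_iff D] at hpw
    rw [← map_mul, toG_le_iff D] at hwp
    have hw1 := eq_sg D hw
    have hpw1 := eq_sg D hpw
    have hp1 := eq_sg D ((Dvd.intro _ rfl).trans hpw : p ∣ Dl D)
    set w' := hd D w with hw'
    set p' := hd D p with hp'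
    have hxr : XRed cs (artinGen M ⁻¹' X) w' := by
      intro x hx hdx
      refine hwX (artinGen M x) hx ?_
      rw [← toG_at, toG_le_iff D, at_dvd_iff D]
      exact hdx
    have h1 : sg cs p' * sg cs w' = sg cs (hd D (p * w)) := by
      rw [← hp1, ← hw1, ← hpw1]
    obtain ⟨h2, h3⟩ := eq_mul_of_sg D h1
    have h4 : p' ∈ WP cs (artinGen M ⁻¹' X) := mem_WP_of_PM (by rw [← hp1]; exact hp)
    have h5 : PL cs w' (p' * w') := by
      rw [← h2, ← sg_dvd_sg D, ← hpw1, ← hw1]; exact hwp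
    have h6 := WB_527.w8 (cs := cs) hxr h4 h5
    have h7 : p ∈ PM M {x ∈ artinGen M ⁻¹' X | ∃ s, cs.simple x * w' = w' * cs.simple s} := by
      rw [hp1]; exact sg_mem_PM h6
    have h8 := toG_mem_of_PM h7
    unfold stdParabolic at h8
    refine Subgroup.closure_mono ?_ h8
    rintro _ ⟨x, ⟨hx, s, hs⟩, rfl⟩
    refine ⟨hx, s, ?_⟩
    have hr1 : Rd cs (cs.simple x) w' := Rd_simple_iff.2 (hxr x hx)
    have hr2 : Rd cs w' (cs.simple s) := by
      unfold Rd at hr1 ⊢
      rw [← hs, hr1, cs.length_simple, cs.length_simple, add_comm]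
    have h9 : at' M x * w = w * at' M s := by
      rw [hw1, ← sg_simple D x, ← sg_simple D s, ← sg_mul D hr1, ← sg_mul D hr2, hs]
    have h10 : artinGen M x * toG M w = toG M w * artinGen M s := by
      rw [← toG_at, ← toG_at, ← map_mul, ← map_mul, h9]
    rw [mul_assoc, h10, inv_mul_cancel_left]

/-- **Cumplido-Gebhardt-Gonzalez-Meneses-Wiest**: in an Artin group of spherical type
`A_X ∩ g A_Y g⁻¹ = h A_Z h⁻¹` with `h ∈ A_X`, `Z ⊆ X`. -/
theorem relInt_of_dat (D : Dat cs) : RelInt M := by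
  intro X Y g
  obtain ⟨x, hx, Z, hZ, h⟩ := (gars D).inter (artinGen M '' X) (artinGen M '' Y)
    (Set.image_subset_range _ _) (Set.image_subset_range _ _) g
  refine ⟨x, hx, X ∩ artinGen M ⁻¹' Z, Set.inter_subset_left, ?_⟩
  have h1 : artinGen M '' (X ∩ artinGen M ⁻¹' Z) = Z := by
    rw [Set.image_inter_preimage, Set.inter_eq_right.2 hZ]
  ext k
  rw [Subgroup.mem_inf, mem_cj, mem_cj]
  unfold stdParabolic
  rw [h1]
  exact h k

/-- (D2) spherical type, any universe. -/
theorem relInt_of_finite (M : CoxeterMatrix S) [Finite M.Group] : RelInt M :=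
  relInt_of_dat (dat M.toCoxeterSystem)


end Crest.Agent.R175.GSph_145
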