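import Crest.Agent.R175.Num_774
import Crest.Agent.R175.Pos2_418
import Crest.Agent.R175.Pos_418
import Crest.Agent.R175.GSph_145
import Mathlib
import Crest.Prelude.Def_ArtinGroup
import Crest.Agent.Rz.Def_ArtinGroup
import Crest.Agent.R175.Lev_788
import Crest.Agent.R175.FmC_180
import Crest.Agent.R175.GlueData_445

-- ▼ part R175/TopB_505
section

/-!
Row 175 (S0263), TOP part over numbers, (B) of #2667 (helper224): `UT N T` for `C_T` positive
definite (helper505).
-/

set_option autoImplicit false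
set_option linter.unusedSectionVars false
set_option linter.deprecated false

namespace Crest.Agent.R175.TopB_505

open Crest.GroupTheory Crest.Agent.R175.Num_774

universe u

variable {S : Type u} [Fintype S] {M : CoxeterMatrix S}

/-- `a > 0` on `T` with `C_T a = 1` -/
theorem exists_pos (T : Set S) (hT : PD M T) :
    ∃ a : S → ℝ, (∀ s ∈ T, 0 < a s) ∧ (∀ s, s ∉ T → a s = 0) ∧
      ∀ s ∈ T, ∑ u, C M s u * a u = 1 := by
  classical
  let e : (T → ℝ) → S → ℝ := fun x u => if hu : u ∈ T then x ⟨u, hu⟩ else 0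
  have he : ∀ (x : T → ℝ) (u : T), e x u.1 = x u := fun x u => by simp [e]
  have he0 : ∀ (x : T → ℝ) (u : S), u ∉ T → e x u = 0 := fun x u hu => by simp [e, hu]
  have hsum : ∀ f : S → ℝ, (∀ s, s ∉ T → f s = 0) → ∑ s, f s = ∑ s : T, f s.1 := by
    intro f hf
    rw [← Finset.sum_filter_add_sum_filter_not (s := Finset.univ) (p := fun s => s ∈ T)]
    rw [Finset.sum_eq_zero (s := Finset.univ.filter (fun s => ¬ s ∈ T))
      (fun x hx => hf x (Finset.mem_filter.1 hx).2), add_zero]
    exact Finset.sum_subtype _ (fun x => by simp) f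
  have hpd : Pos_418.PDm (fun s t : T => C M s.1 t.1) := by
    intro x hx
    have h1 := hT (e x) (he0 x) (fun h => hx (by
      funext u
      rw [← he x u, h]
      rfl))
    rw [hsum _ (fun s hs => by simp [he0 x s hs])] at h1
    have h2 : ∀ s : T, ∑ t, C M s.1 t * e x s.1 * e x t = ∑ t : T, x s * x t * C M s.1 t.1 := by
      intro s
      rw [hsum _ (fun t ht => by simp [he0 x t ht])]
      apply Finset.sum_congr rfl
      intro t _
      rw [he, he]; ring
    simp only [h2] at h1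
    exact h1
  obtain ⟨b, hb, hb1⟩ := Pos_418.exists_pos_mv_eq_one hpd
    (fun s t hst => C_nonpos M (fun h => hst (Subtype.ext h)))
  refine ⟨e b, fun s hs => ?_, he0 b, fun s hs => ?_⟩
  · rw [he b ⟨s, hs⟩]; exact hb _
  · rw [hsum _ (fun t ht => by simp [he0 b t ht])]
    rw [← hb1 ⟨s, hs⟩]
    unfold Pos_418.mv
    apply Finset.sum_congr rfl
    intro t _
    rw [he]

/-- raising other coordinates, lowering the coordinate `s` -/
theorem slk_mono {T : Set S} {X : Pre M} {h1 h2 : S → ℝ} {s : S} (hs : s ∈ T)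
    (h : ∀ u ∈ T, u ≠ s → h1 u ≤ h2 u) :
    slk T X h1 s + 2 * (h1 s - h2 s) ≤ slk T X h2 s := by
  classical
  unfold slk
  have h3 : ∀ u, C M s u * ext T h2 (fun u => X.1 u 1) u
      ≤ C M s u * ext T h1 (fun u => X.1 u 1) u
        + if u = s then 2 * (h2 s - h1 s) else 0 := by
    intro u
    by_cases hus : u = s
    · subst hus
      rw [ext_mem hs, ext_mem hs, if_pos rfl, C_self]
      linarith
    · rw [if_neg hus, add_zero]
      by_cases hu : u ∈ T
      · rw [ext_mem hu, ext_mem hu]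
        exact mul_le_mul_of_nonpos_left (h u hu hus) (C_nonpos M (Ne.symm hus))
      · rw [ext_not hu, ext_not hu]
  have h4 := Finset.sum_le_sum (fun u (_ : u ∈ Finset.univ) => h3 u)
  rw [Finset.sum_add_distrib] at h4
  simp only [Finset.sum_ite_eq', Finset.mem_univ, if_true] at h4
  linarith

/-- adding a multiple of a vector supported on `T` -/
theorem slk_sub {T : Set S} {X : Pre M} {h a : S → ℝ} (ha : ∀ u, u ∉ T → a u = 0) (x : ℝ)
    (s : S) :
    slk T X (fun u => h u - x * a u) s = slk T X h s + x * ∑ u, C M s u * a u := by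
  classical
  unfold slk
  have h3 : ∀ u, C M s u * ext T (fun u => h u - x * a u) (fun u => X.1 u 1) u
      = C M s u * ext T h (fun u => X.1 u 1) u - x * (C M s u * a u) := by
    intro u
    by_cases hu : u ∈ T
    · rw [ext_mem hu, ext_mem hu]; ring
    · rw [ext_not hu, ext_not hu, ha u hu]; ring
  rw [Finset.sum_congr rfl (fun u _ => h3 u), Finset.sum_sub_distrib, ← Finset.mul_sum]
  ring

theorem slk_nonneg (N : Num M) {T : Set S} {X : Pre M} (hX : X ∈ N.Ob) {h : S → ℝ}
    (hc : Cls T X h) {s : S} (hs : s ∈ T) : 0 ≤ slk T X h s := by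
  rcases eq_or_lt_of_le (hc s hs).1 with h0 | h0
  · unfold slk
    have h1 : ∑ u, C M s u * ext T h (fun u => X.1 u 1) u ≤ 0 := by
      apply Finset.sum_nonpos
      intro u _
      by_cases hus : u = s
      · subst hus
        rw [ext_mem hs, ← h0]; simp
      · apply mul_nonpos_of_nonpos_of_nonneg (C_nonpos M (Ne.symm hus))
        by_cases hu : u ∈ T
        · rw [ext_mem hu]; exact (hc u hu).1
        · rw [ext_not hu]; exact N.d_nonneg X hX u 1
    have := N.lam_nonneg X hX s
    linarith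
  · exact ((hc s hs).2 h0).le

/-- one step: one coordinate is raised -/
def Step (T : Set S) (X : Pre M) (h h' : S → ℝ) : Prop :=
  Cls T X h ∧ Cls T X h' ∧ ∃ t ∈ T, h t ≤ h' t ∧ ∀ s, s ≠ t → h' s = h s

/-- the vectors of one round of the chain are in the class -/
theorem cls_round {T : Set S} {X : Pre M} {h a : S → ℝ}
    (ha : ∀ s ∈ T, 0 < a s) (ha0 : ∀ s, s ∉ T → a s = 0)
    (ha1 : ∀ s ∈ T, ∑ u, C M s u * a u = 1) {x δ : ℝ} (hx : 0 ≤ x) (hδ : 0 < δ)
    (hsm : ∀ s ∈ T, 0 < h s → 2 * δ * a s < slk T X h s) {f : S → ℝ}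
    (hf : ∀ s ∈ T, f s = max (h s - x * a s) 0 ∨ f s = max (h s - (x + δ) * a s) 0) :
    Cls T X f := by
  intro s hs
  have h0 : 0 ≤ f s := by
    rcases hf s hs with h1 | h1
    · rw [h1]; exact le_max_right _ _
    · rw [h1]; exact le_max_right _ _
  refine ⟨h0, fun h1 => ?_⟩
  have hmem : ∀ u ∈ T, u ≠ s → h u - (x + δ) * a u ≤ f u := by
    intro u hu _
    rcases hf u hu with h2 | h2
    · rw [h2]
      refine le_trans ?_ (le_max_left _ _)
      have := mul_pos hδ (ha u hu)
      nlinarith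
    · rw [h2]; exact le_max_left _ _
  have h3 := slk_mono (X := X) hs hmem
  have h4 := slk_sub (M := M) (T := T) (X := X) (h := h) ha0 (x + δ) s
  rw [h4, ha1 s hs] at h3
  have hlow : f s ≤ h s - x * a s := by
    rcases hf s hs with h2 | h2
    · rw [h2]
      rw [h2] at h1
      rcases max_cases (h s - x * a s) 0 with h5 | h5
      · linarith
      · linarith
    · rw [h2]
      rw [h2] at h1
      have := mul_pos hδ (ha s hs)
      rcases max_cases (h s - (x + δ) * a s) 0 with h5 | h5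
      · nlinarith
      · linarith
  have h6 : 0 < h s := by
    have := mul_nonneg hx (ha s hs).le
    linarith
  have h7 := hsm s hs h6
  nlinarith

open Classical in
/-- one round of the chain -/
theorem round {T : Set S} {X : Pre M} {h a : S → ℝ}
    (ha : ∀ s ∈ T, 0 < a s) (ha0 : ∀ s, s ∉ T → a s = 0)
    (ha1 : ∀ s ∈ T, ∑ u, C M s u * a u = 1) {x δ : ℝ} (hx : 0 ≤ x) (hδ : 0 < δ)
    (hsm : ∀ s ∈ T, 0 < h s → 2 * δ * a s < slk T X h s) :
    Relation.ReflTransGen (Step T X)
      (fun s => if s ∈ T then max (h s - (x + δ) * a s) 0 else h s)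
      (fun s => if s ∈ T then max (h s - x * a s) 0 else h s) := by
  -- the intermediate vectors
  let m : Finset S → S → ℝ := fun F s =>
    if s ∈ T then (if s ∈ F then max (h s - x * a s) 0 else max (h s - (x + δ) * a s) 0) else h s
  have hm : ∀ F, Cls T X (m F) := by
    intro F
    apply cls_round ha ha0 ha1 hx hδ hsm
    intro s hs
    simp only [m, if_pos hs]
    by_cases h1 : s ∈ F
    · rw [if_pos h1]; exact Or.inl rfl
    · rw [if_neg h1]; exact Or.inr rfl
  have key : ∀ F : Finset S, Relation.ReflTransGen (Step T X) (m ∅) (m F) := by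
    intro F
    induction F using Finset.induction_on with
    | empty => exact Relation.ReflTransGen.refl
    | insert t F ht ih =>
      by_cases htT : t ∈ T
      · refine ih.tail ⟨hm F, hm _, t, htT, ?_, ?_⟩
        · simp only [m, if_pos htT, if_neg ht, Finset.mem_insert_self, if_true]
          apply max_le_max _ le_rfl
          have := mul_pos hδ (ha t htT)
          nlinarith
        · intro s hst
          simp only [m, Finset.mem_insert, hst, false_or]
      · have : m (insert t F) = m F := by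
          funext s
          by_cases hsT : s ∈ T
          · have : s ≠ t := fun h => htT (h ▸ hsT)
            simp only [m, Finset.mem_insert, this, false_or]
          · simp only [m, if_neg hsT]
        rw [this]; exact ih
  have h1 := key Finset.univ
  have e1 : m ∅ = (fun s => if s ∈ T then max (h s - (x + δ) * a s) 0 else h s) := by
    funext s; simp [m]
  have e2 : m Finset.univ = (fun s => if s ∈ T then max (h s - x * a s) 0 else h s) := by
    funext s; simp [m]
  rw [e1, e2] at h1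
  exact h1

open Classical in
/-- the chain from `0` to `h` -/
theorem chain {T : Set S} (hT : PD M T) {X : Pre M} {h : S → ℝ} (hc : Cls T X h) :
    Relation.ReflTransGen (Step T X) (fun s => if s ∈ T then 0 else h s) h := by
  obtain ⟨a, ha, ha0, ha1⟩ := exists_pos T hT
  -- small step
  obtain ⟨δ, hδ, hsm⟩ : ∃ δ : ℝ, 0 < δ ∧ ∀ s ∈ T, 0 < h s → 2 * δ * a s < slk T X h s := by
    have : ∀ s : S, ∃ δ : ℝ, 0 < δ ∧ ∀ δ', 0 < δ' → δ' ≤ δ → s ∈ T → 0 < h s →
        2 * δ' * a s < slk T X h s := by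
      intro s
      by_cases hs : s ∈ T ∧ 0 < h s
      · have h1 := (hc s hs.1).2 hs.2
        have h2 := ha s hs.1
        refine ⟨slk T X h s / (4 * a s), by positivity, fun δ' h3 h4 _ _ => ?_⟩
        have h5 : 2 * δ' * a s ≤ 2 * (slk T X h s / (4 * a s)) * a s := by
          have := mul_le_mul_of_nonneg_right h4 h2.le
          linarith
        have h6 : 2 * (slk T X h s / (4 * a s)) * a s = slk T X h s / 2 := by
          field_simp; norm_num
        linarith
      · exact ⟨1, one_pos, fun _ _ _ h1 h2 => absurd ⟨h1, h2⟩ hs⟩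
    choose δ hδ h1 using this
    by_cases hne : Nonempty S
    · have hpos : 0 < Finset.univ.inf' Finset.univ_nonempty δ := by
        rw [Finset.lt_inf'_iff]; exact fun s _ => hδ s
      exact ⟨_, hpos, fun s hs hs' =>
        h1 s _ hpos (Finset.inf'_le _ (Finset.mem_univ s)) hs hs'⟩
    · exact ⟨1, one_pos, fun s _ _ => absurd ⟨s⟩ hne⟩
  -- induction on the number of rounds
  have key : ∀ n : ℕ, Relation.ReflTransGen (Step T X)
      (fun s => if s ∈ T then max (h s - (n * δ) * a s) 0 else h s) h := by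
    intro n
    induction n with
    | zero =>
      have : (fun s => if s ∈ T then max (h s - (((0 : ℕ) : ℝ) * δ) * a s) 0 else h s) = h := by
        funext s
        by_cases hs : s ∈ T
        · rw [if_pos hs]; simp [(hc s hs).1]
        · rw [if_neg hs]
      rw [this]
    | succ n ih =>
      have h1 := round ha ha0 ha1 (x := n * δ) (by positivity) hδ hsm
      have e : ((n + 1 : ℕ) : ℝ) * δ = n * δ + δ := by push_cast; ring
      rw [e]
      exact h1.trans ih
  -- many rounds
  obtain ⟨n, hn⟩ : ∃ n : ℕ, ∀ s ∈ T, h s ≤ (n * δ) * a s := by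
    have : ∀ s : S, ∃ n : ℕ, ∀ m : ℕ, n ≤ m → s ∈ T → h s ≤ (m * δ) * a s := by
      intro s
      by_cases hs : s ∈ T
      · obtain ⟨n, hn⟩ := exists_nat_ge (h s / (δ * a s))
        refine ⟨n, fun m hm _ => ?_⟩
        have h2 := mul_pos hδ (ha s hs)
        rw [div_le_iff₀ h2] at hn
        have h3 : (n : ℝ) ≤ m := by exact_mod_cast hm
        nlinarith
      · exact ⟨0, fun _ _ h1 => absurd h1 hs⟩
    choose n hn using this
    exact ⟨Finset.univ.sup n, fun s hs => hn s _ (Finset.le_sup (Finset.mem_univ s)) hs⟩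
  have h1 := key n
  have e : (fun s => if s ∈ T then max (h s - (n * δ) * a s) 0 else h s)
      = (fun s => if s ∈ T then 0 else h s) := by
    funext s
    by_cases hs : s ∈ T
    · rw [if_pos hs, if_pos hs, max_eq_right]
      linarith [hn s hs]
    · rw [if_neg hs, if_neg hs]
  rw [e] at h1
  exact h1

/-- the birth inequality: a new vertex with empty link -/
theorem birth (N : Num M) {T : Set S} (hT : PD M T) {X : Pre M} (hX : X ∈ N.Ob) {h h' : S → ℝ}
    (hc : Cls T X h) (hc' : Cls T X h') {t : S} (ht : t ∈ T) (heq : ∀ s, s ≠ t → h' s = h s)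
    {r : ArtinGroup M} (hr : r ∈ A M T) (h1 : h t ≤ X.1 t r) (h2 : X.1 t r < h' t)
    (hlk : ∀ s ∈ T, s ≠ t → ∀ b ∈ A M (T \ {t}), h s ≤ X.1 s (r * b)) :
    ∃ c : ℝ, 0 < c ∧ (∀ s ∈ T, ∀ b ∈ A M T, h s ≤ X.1 s (r * b)) ∧
      ∀ b ∈ A M T, X.1 t r + c * N.g t t b ≤ X.1 t (r * b) := by
  classical
  set hv : S → ℝ := Function.update h t (X.1 t r) with hvd
  have hvt : hv t = X.1 t r := by simp [hvd]
  have hvs : ∀ s, s ≠ t → hv s = h s := fun s hs => by simp [hvd, hs]
  have hd0 : 0 ≤ X.1 t r := N.d_nonneg X hX t r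
  have h3 : 0 < slk T X h' t := (hc' t ht).2 (lt_of_le_of_lt hd0 h2)
  have h4 : 0 < slk T X hv t := by
    have := slk_mono (X := X) (h1 := h') (h2 := hv) ht (fun u _ hu => by
      rw [hvs u hu, heq u hu])
    rw [hvt] at this
    linarith
  have hK := N.K T hT t ht (shift X r) (N.shift_mem X hX r) hv
    (fun s hs => by
      by_cases hst : s = t
      · rw [hst, hvt]; exact hd0
      · rw [hvs s hst]; exact (hc s hs).1)
    (by rw [hvt]; simp)
    (fun s hs hst b hb => by rw [hvs s hst]; exact hlk s hs hst b hb)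
    (fun s hs hst => by
      rw [N.slk_shift hX hr]
      have h5 := slk_mono (X := X) (h1 := h) (h2 := hv) hs (fun u _ _ => by
        by_cases hut : u = t
        · rw [hut, hvt]; exact h1
        · rw [hvs u hut])
      rw [hvs s hst] at h5
      have := slk_nonneg N hX hc hs
      linarith)
  rw [N.slk_shift hX hr] at hK
  refine ⟨slk T X hv t, h4, fun s hs b hb => ?_, fun b hb => ?_⟩
  · have h5 := hK s hs b hb
    have h6 := mul_nonneg h4.le (N.g_nonneg t s b)
    simp only [shift_fst] at h5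
    have h7 : h s ≤ hv s := by
      by_cases hst : s = t
      · rw [hst, hvt]; exact h1
      · rw [hvs s hst]
    linarith
  · have h5 := hK t ht b hb
    rw [hvt] at h5
    exact h5

/-- connectedness of a sublevel -/
def Conn (T : Set S) (X : Pre M) (h : S → ℝ) : Prop :=
  ∀ p ∈ U T X h, ∀ q ∈ U T X h, Joined T (U T X h) p q

theorem conn_step (N : Num M) {T : Set S} (hT : PD M T) {X : Pre M} (hX : X ∈ N.Ob)
    {h h' : S → ℝ} (hs : Step T X h h') (hC : Conn T X h) : Conn T X h' := by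
  classical
  obtain ⟨hc, hc', t, ht, hle, heq⟩ := hs
  have hsub : U T X h ⊆ U T X h' := by
    rintro x ⟨h1, h2, h3⟩
    refine ⟨h1, h2, lt_of_lt_of_le h3 ?_⟩
    by_cases hx : x.1 = t
    · rw [hx]; exact hle
    · rw [heq _ hx]
  -- attached or born
  have hdich : ∀ p ∈ U T X h', (∃ p0 ∈ U T X h, Joined T (U T X h') p p0) ∨
      (p.1 = t ∧ h t ≤ X.1 t p.2 ∧
        ∀ s ∈ T, s ≠ t → ∀ b ∈ A M (T \ {t}), h s ≤ X.1 s (p.2 * b)) := by
    rintro ⟨s, r⟩ hp
    by_cases hin : (s, r) ∈ U T X h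
    · exact Or.inl ⟨_, hin, Relation.ReflTransGen.refl⟩
    · have hst : s = t := by
        by_contra hst
        apply hin
        refine ⟨hp.1, hp.2.1, ?_⟩
        have := hp.2.2
        simp only at this
        rw [heq s hst] at this
        exact this
      subst hst
      have h1 : h s ≤ X.1 s r := by
        by_contra h1
        exact hin ⟨hp.1, hp.2.1, not_le.1 h1⟩
      by_cases hlk : ∀ u ∈ T, u ≠ s → ∀ b ∈ A M (T \ {s}), h u ≤ X.1 u (r * b)
      · exact Or.inr ⟨rfl, h1, hlk⟩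
      · left
        push Not at hlk
        obtain ⟨u, hu, hus, b, hb, hlt⟩ := hlk
        have hmem : (u, r * b) ∈ U T X h :=
          ⟨hu, (A M T).mul_mem hp.2.1 (A_diff_le M s hb), hlt⟩
        refine ⟨_, hmem, ?_⟩
        have hsb : (s, r * b) ∈ U T X h' := by
          refine ⟨hp.1, (A M T).mul_mem hp.2.1 (A_diff_le M s hb), ?_⟩
          have h3 := N.d_inv X hX s r b (A_diff_compl M s hb)
          show X.1 s (r * b) < h' s
          rw [h3]; exact hp.2.2
        refine (Joined.single hp hsb (Or.inl ⟨rfl, ?_⟩)).trans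
          (Joined.single hsb (hsub hmem) (Or.inr rfl))
        simpa using hb
  -- a born vertex makes `U h` empty
  have hempty : ∀ p ∈ U T X h', (p.1 = t ∧ h t ≤ X.1 t p.2 ∧
        ∀ s ∈ T, s ≠ t → ∀ b ∈ A M (T \ {t}), h s ≤ X.1 s (p.2 * b)) →
      (∀ y, y ∉ U T X h) ∧ ∃ c : ℝ, 0 < c ∧
        ∀ b ∈ A M T, X.1 t p.2 + c * N.g t t b ≤ X.1 t (p.2 * b) := by
    rintro ⟨s, r⟩ hp ⟨h1, h2, h3⟩
    simp only at h1
    subst h1
    obtain ⟨c, hc0, h4, h5⟩ := birth N hT hX hc hc' ht heq hp.2.1 h2 hp.2.2 h3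
    refine ⟨fun y hy => ?_, c, hc0, h5⟩
    have h6 := h4 y.1 hy.1 (r⁻¹ * y.2) ((A M T).mul_mem ((A M T).inv_mem hp.2.1) hy.2.1)
    rw [mul_inv_cancel_left] at h6
    exact absurd hy.2.2 (not_lt.2 h6)
  intro p hp q hq
  rcases hdich p hp with ⟨p0, hp0, hpj⟩ | hpb
  · rcases hdich q hq with ⟨q0, hq0, hqj⟩ | hqb
    · exact (hpj.trans ((hC p0 hp0 q0 hq0).mono hsub)).trans hqj.symm
    · exact absurd hp0 ((hempty q hq hqb).1 p0)
  · rcases hdich q hq with ⟨q0, hq0, hqj⟩ | hqb
    · exact absurd hq0 ((hempty p hp hpb).1 q0)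
    · obtain ⟨_, c, hc0, h5⟩ := hempty p hp hpb
      obtain ⟨_, c', hc0', h5'⟩ := hempty q hq hqb
      have hpT := hp.2.1
      have hqT := hq.2.1
      have h6 := h5 (p.2⁻¹ * q.2) ((A M T).mul_mem ((A M T).inv_mem hpT) hqT)
      have h7 := h5' (q.2⁻¹ * p.2) ((A M T).mul_mem ((A M T).inv_mem hqT) hpT)
      rw [mul_inv_cancel_left] at h6 h7
      have h8 := mul_nonneg hc0'.le (N.g_nonneg t t (q.2⁻¹ * p.2))
      have h9 := N.g_nonneg t t (p.2⁻¹ * q.2)
      have h10 : N.g t t (p.2⁻¹ * q.2) = 0 := by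
        have : c * N.g t t (p.2⁻¹ * q.2) ≤ 0 := by linarith
        nlinarith
      have h11 := N.Z T hT t ht _ ((A M T).mul_mem ((A M T).inv_mem hpT) hqT) h10
      apply Joined.single hp hq
      left
      exact ⟨hpb.1.trans hqb.1.symm, by rw [hpb.1]; exact h11⟩

/-- **(B) of #2667**: the sublevels are connected if `C_T` is positive definite -/
theorem UT_of_PD (N : Num M) {T : Set S} (hT : PD M T) : UT N T := by
  classical
  intro X hX h hc
  have h1 := chain hT hc
  have h0 : Conn T X (fun s => if s ∈ T then 0 else h s) := by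
    rintro p ⟨h2, _, h3⟩
    simp only [if_pos h2] at h3
    exact absurd (N.d_nonneg X hX p.1 p.2) (not_le.2 h3)
  have key : ∀ h' : S → ℝ, Relation.ReflTransGen (Step T X) (fun s => if s ∈ T then 0 else h s) h' →
      Conn T X h' := by
    intro h' h1
    induction h1 with
    | refl => exact h0
    | tail _ hs ih => exact conn_step N hT hX hs ih
  exact key h h1

end Crest.Agent.R175.TopB_505
end

-- ▼ part R175/TopD_224
section

/-!
Row 175 (S0263), TOP part over `Num` (post 2667): the raising lemma (A), disconnected diagrams (C),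
connected diagrams which are not positive definite (D), and `ut_all`: `UT` for positive definite
diagrams implies `UT` for all diagrams.
-/

set_option autoImplicit false
set_option linter.unusedSectionVars false
set_option linter.unusedVariables false

namespace Crest.Agent.R175.TopD_224

open Crest.GroupTheory Crest.Agent.R175.Num_774

universe u

variable {S : Type u} [Fintype S] {M : CoxeterMatrix S}

/-! ### vertices -/

theorem d_same (N : Num M) {X : Pre M} (hX : X ∈ N.Ob) {T : Set S} {t : S} {g g' : ArtinGroup M}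
    (h : g⁻¹ * g' ∈ A M (T \ {t})) : X.1 t g' = X.1 t g := by
  have := N.d_inv X hX t g (g⁻¹ * g') (A_diff_compl M t h)
  rwa [mul_inv_cancel_left] at this

theorem mem_same (N : Num M) {X : Pre M} (hX : X ∈ N.Ob) {T : Set S} {h : S → ℝ} {t : S}
    {g g' : ArtinGroup M} (hg : (t, g) ∈ U T X h) (h' : g⁻¹ * g' ∈ A M (T \ {t})) :
    (t, g') ∈ U T X h := by
  refine ⟨hg.1, ?_, ?_⟩
  · have := (A M T).mul_mem hg.2.1 (A_diff_le M t h')
    rwa [mul_inv_cancel_left] at this
  · show X.1 t g' < h t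
    rw [d_same N hX h']
    exact hg.2.2

theorem joined_same (N : Num M) {X : Pre M} (hX : X ∈ N.Ob) {T : Set S} {h : S → ℝ} {t : S}
    {g g' : ArtinGroup M} (hg : (t, g) ∈ U T X h) (h' : g⁻¹ * g' ∈ A M (T \ {t})) :
    Joined T (U T X h) (t, g) (t, g') :=
  Joined.single hg (mem_same N hX hg h') (Or.inl ⟨rfl, h'⟩)

theorem joined_edge {X : Pre M} {T : Set S} {h : S → ℝ} {s t : S} {g : ArtinGroup M}
    (hg : (s, g) ∈ U T X h) (hg' : (t, g) ∈ U T X h) : Joined T (U T X h) (s, g) (t, g) :=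
  Joined.single hg hg' (Or.inr rfl)

theorem U_mono {X : Pre M} {T : Set S} {h h' : S → ℝ} (hh : ∀ s ∈ T, h s ≤ h' s) :
    U T X h ⊆ U T X h' :=
  fun p hp => ⟨hp.1, hp.2.1, hp.2.2.trans_le (hh p.1 hp.1)⟩

/-! ### (A) the raising lemma -/

/-- **(A)** raising one coordinate does not join components. -/
theorem raise (N : Num M) {X : Pre M} (hX : X ∈ N.Ob) {T : Set S} {t : S} (ht : t ∈ T)
    (ih : UT N (T \ {t})) {h h' : S → ℝ} (hcl : Cls T X h) (hle : h t ≤ h' t)
    (hne : ∀ s, s ≠ t → h' s = h s) {p q : S × ArtinGroup M} (hp : p ∈ U T X h)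
    (hq : q ∈ U T X h) (hJ : Joined T (U T X h') p q) : Joined T (U T X h) p q := by
  have hnew : ∀ x ∈ U T X h', x ∉ U T X h → x.1 = t ∧ h t ≤ X.1 t x.2 := by
    intro x hx hx'
    by_cases hs : x.1 = t
    · refine ⟨hs, ?_⟩
      by_contra hc
      push Not at hc
      exact hx' ⟨hx.1, hx.2.1, by rw [hs]; exact hc⟩
    · exact absurd ⟨hx.1, hx.2.1, by rw [← hne x.1 hs]; exact hx.2.2⟩ hx'
  have key : (q ∈ U T X h → Joined T (U T X h) p q) ∧
      (q ∉ U T X h → ∀ z ∈ U T X h, z.1 ≠ t → q.2⁻¹ * z.2 ∈ A M (T \ {t}) →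
        Joined T (U T X h) p z) := by
    clear hq
    induction hJ with
    | refl => exact ⟨fun _ => Relation.ReflTransGen.refl, fun h => absurd hp h⟩
    | @tail x y _ hxy ihx =>
      obtain ⟨hx, hy, hm⟩ := hxy
      by_cases hxU : x ∈ U T X h
      · have hpx := ihx.1 hxU
        refine ⟨fun hyU => hpx.trans (Joined.single hxU hyU hm), fun hyU z hz hzt hyz => ?_⟩
        obtain ⟨hyt, hdy⟩ := hnew y hy hyU
        have hxt : x.1 ≠ t := by
          intro hxt
          have h4 := hxU.2.2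
          rcases hm with ⟨_, h2⟩ | h2
          · have h3 : X.1 x.1 y.2 = X.1 x.1 x.2 := d_same N hX h2
            rw [← h3, hxt] at h4
            exact absurd hdy (not_le.2 h4)
          · rw [h2, hxt] at h4
            exact absurd hdy (not_le.2 h4)
        have hxy2 : x.2 = y.2 := by
          rcases hm with ⟨h1, _⟩ | h2
          · exact absurd (h1.trans hyt) hxt
          · exact h2
        have hx' : (x.1, (1 : ArtinGroup M)) ∈ U (T \ {t}) (shift X y.2) h := by
          refine mem_link hxt (Subgroup.one_mem _) ?_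
          rw [mul_one, ← hxy2]
          exact hxU
        have hz' : (z.1, y.2⁻¹ * z.2) ∈ U (T \ {t}) (shift X y.2) h := by
          refine mem_link hzt hyz ?_
          rw [mul_inv_cancel_left]
          exact hz
        have h5 := joined_link hy.2.1
          (ih (shift X y.2) (N.shift_mem X hX _) h (N.link hX ht hy.2.1 hcl hdy) _ hx' _ hz')
        simp only [mul_one, mul_inv_cancel_left] at h5
        rw [← hxy2] at h5
        exact hpx.trans h5
      · obtain ⟨hxt, hdx⟩ := hnew x hx hxU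
        refine ⟨fun hyU => ?_, fun hyU z hz hzt hyz => ?_⟩
        · have h4 := hyU.2.2
          rcases hm with ⟨h1, h2⟩ | h2
          · exfalso
            have h3 : X.1 x.1 y.2 = X.1 x.1 x.2 := d_same N hX h2
            rw [← h1, h3, hxt] at h4
            exact absurd hdx (not_le.2 h4)
          · by_cases hyt : y.1 = t
            · exfalso
              rw [hyt, ← h2] at h4
              exact absurd hdx (not_le.2 h4)
            · refine ihx.2 hxU y hyU hyt ?_
              rw [h2, inv_mul_cancel]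
              exact Subgroup.one_mem _
        · refine ihx.2 hxU z hz hzt ?_
          rcases hm with ⟨h1, h2⟩ | h2
          · rw [hxt] at h2
            have := (A M (T \ {t})).mul_mem h2 hyz
            rwa [mul_assoc, mul_inv_cancel_left] at this
          · rw [h2]; exact hyz
  exact key.1 hq

/-! ### chains -/

/-- one step of a chain: one coordinate is raised, both heights are admissible. -/
def Step (T : Set S) (X : Pre M) (h h' : S → ℝ) : Prop :=
  ∃ t ∈ T, (∀ s, s ≠ t → h' s = h s) ∧ h t ≤ h' t ∧ Cls T X h ∧ Cls T X h'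

/-- chains. -/
def Chain (T : Set S) (X : Pre M) : (S → ℝ) → (S → ℝ) → Prop :=
  Relation.ReflTransGen (Step T X)

theorem Step.le {T : Set S} {X : Pre M} {h h' : S → ℝ} (H : Step T X h h') (s : S) :
    h s ≤ h' s := by
  obtain ⟨t, _, h1, h2, _⟩ := H
  by_cases hs : s = t
  · rw [hs]; exact h2
  · rw [h1 s hs]

theorem Chain.le {T : Set S} {X : Pre M} {h h' : S → ℝ} (H : Chain T X h h') (s : S) :
    h s ≤ h' s := by
  induction H with
  | refl => exact le_rfl
  | tail _ h ih => exact ih.trans (h.le s)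

theorem Chain.cls {T : Set S} {X : Pre M} {h h' : S → ℝ} (H : Chain T X h h')
    (h0 : Cls T X h) : Cls T X h' := by
  induction H with
  | refl => exact h0
  | tail _ h _ =>
    obtain ⟨_, _, _, _, _, h6⟩ := h
    exact h6

theorem Chain.trans {T : Set S} {X : Pre M} {h h' h'' : S → ℝ} (H : Chain T X h h')
    (H' : Chain T X h' h'') : Chain T X h h'' := Relation.ReflTransGen.trans H H'

/-- joined above implies joined below. -/
theorem chain_back (N : Num M) {X : Pre M} (hX : X ∈ N.Ob) {T : Set S} {h h' : S → ℝ}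
    (ih : ∀ t ∈ T, UT N (T \ {t})) (H : Chain T X h h') {p q : S × ArtinGroup M}
    (hp : p ∈ U T X h) (hq : q ∈ U T X h) (hJ : Joined T (U T X h') p q) :
    Joined T (U T X h) p q := by
  induction H with
  | refl => exact hJ
  | @tail h1 h2 hc hs ihc =>
    obtain ⟨t, ht, e1, e2, e3, _⟩ := hs
    have hsub : U T X h ⊆ U T X h1 := U_mono fun s _ => Chain.le hc s
    exact ihc (raise N hX ht (ih t ht) e3 e2 e1 (hsub hp) (hsub hq) hJ)

/-! ### (C) disconnected diagrams -/

/-- elements of commuting parabolic subgroups commute -/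
theorem comm_std {T1 T2 : Set S} (hd : ∀ s ∈ T1, ∀ t ∈ T2, M s t = 2) {x y : ArtinGroup M}
    (hx : x ∈ A M T1) (hy : y ∈ A M T2) : x * y = y * x := by
  have h1 : ∀ s ∈ T1, ∀ y ∈ A M T2, artinGen M s * y = y * artinGen M s := by
    intro s hs y hy
    refine Subgroup.closure_induction ?_ ?_ ?_ ?_ hy
    · rintro _ ⟨t, ht, rfl⟩
      exact Semi_663.comm_of_two M (hd s hs t ht)
    · rw [mul_one, one_mul]
    · intro a b _ _ ha hb
      rw [← mul_assoc, ha, mul_assoc, hb, mul_assoc]
    · intro a _ ha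
      have : Commute (artinGen M s) a := ha
      exact this.inv_right
  refine Subgroup.closure_induction ?_ ?_ ?_ ?_ hx
  · rintro _ ⟨s, hs, rfl⟩
    exact h1 s hs y hy
  · rw [mul_one, one_mul]
  · intro a b _ _ ha hb
    rw [mul_assoc, hb, ← mul_assoc, ha, mul_assoc]
  · intro a _ ha
    have : Commute a y := ha
    exact this.inv_left

/-- factorisation -/
theorem factor {T T1 T2 : Set S} (hT : T = T1 ∪ T2) (hd : ∀ s ∈ T1, ∀ t ∈ T2, M s t = 2)
    {r : ArtinGroup M} (hr : r ∈ A M T) : ∃ x ∈ A M T1, ∃ y ∈ A M T2, r = x * y := by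
  refine Subgroup.closure_induction ?_ ?_ ?_ ?_ hr
  · rintro _ ⟨s, hs, rfl⟩
    rw [hT] at hs
    rcases hs with hs | hs
    · exact ⟨_, gen_mem M hs, 1, Subgroup.one_mem _, (mul_one _).symm⟩
    · exact ⟨1, Subgroup.one_mem _, _, gen_mem M hs, (one_mul _).symm⟩
  · exact ⟨1, Subgroup.one_mem _, 1, Subgroup.one_mem _, (mul_one _).symm⟩
  · rintro _ _ _ _ ⟨x, hx, y, hy, rfl⟩ ⟨x', hx', y', hy', rfl⟩
    refine ⟨x * x', Subgroup.mul_mem _ hx hx', y * y', Subgroup.mul_mem _ hy hy', ?_⟩
    rw [mul_assoc, ← mul_assoc y, ← comm_std hd hx' hy, mul_assoc, mul_assoc]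
  · rintro _ _ ⟨x, hx, y, hy, rfl⟩
    refine ⟨x⁻¹, Subgroup.inv_mem _ hx, y⁻¹, Subgroup.inv_mem _ hy, ?_⟩
    rw [mul_inv_rev, comm_std hd (Subgroup.inv_mem _ hx) (Subgroup.inv_mem _ hy)]

/-- vertices of different kinds are adjacent. -/
theorem cross (N : Num M) {X : Pre M} (hX : X ∈ N.Ob) {T T1 T2 : Set S} (hT : T = T1 ∪ T2)
    (hdj : ∀ s ∈ T1, s ∉ T2) (hd : ∀ s ∈ T1, ∀ t ∈ T2, M s t = 2) {h : S → ℝ}
    {p q : S × ArtinGroup M} (hp : p ∈ U T X h) (hq : q ∈ U T X h) (hp1 : p.1 ∈ T1)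
    (hq2 : q.1 ∈ T2) : Joined T (U T X h) p q := by
  obtain ⟨s, r⟩ := p
  obtain ⟨t, r'⟩ := q
  obtain ⟨x, hx, y, hy, hxy⟩ := factor hT hd
    ((A M T).mul_mem ((A M T).inv_mem hp.2.1) hq.2.1 : r⁻¹ * r' ∈ A M T)
  have h1 : T2 ⊆ T \ {s} := fun u hu =>
    ⟨hT ▸ Or.inr hu, fun h => hdj s hp1 (by rw [Set.mem_singleton_iff] at h; exact h ▸ hu)⟩
  have h2 : T1 ⊆ T \ {t} := fun u hu =>
    ⟨hT ▸ Or.inl hu, fun h => hdj u hu (by rw [Set.mem_singleton_iff] at h; exact h ▸ hq2)⟩
  have e1 : r⁻¹ * (r * y) ∈ A M (T \ {s}) := by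
    rw [inv_mul_cancel_left]; exact A_mono M h1 hy
  have hr' : r' = r * (x * y) := by rw [← hxy, mul_inv_cancel_left]
  have e2 : (r')⁻¹ * (r * y) ∈ A M (T \ {t}) := by
    have : (r')⁻¹ * (r * y) = x⁻¹ := by
      rw [hr', comm_std hd hx hy]; group
    rw [this]
    exact A_mono M h2 (Subgroup.inv_mem _ hx)
  exact ((joined_same N hX hp e1).trans
    (joined_edge (mem_same N hX hp e1) (mem_same N hX hq e2))).trans (joined_same N hX hq e2).symm

/-- two vertices of the first kind. -/
theorem ut_same (N : Num M) {X : Pre M} (hX : X ∈ N.Ob) {T T1 T2 : Set S} (hT : T = T1 ∪ T2)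
    (hdj : ∀ s ∈ T1, s ∉ T2) (hd : ∀ s ∈ T1, ∀ t ∈ T2, M s t = 2) (hne : T2.Nonempty)
    (ih : ∀ t ∈ T, UT N (T \ {t})) {h : S → ℝ} (hcl : Cls T X h)
    {p q : S × ArtinGroup M} (hp : p ∈ U T X h) (hq : q ∈ U T X h) (hp1 : p.1 ∈ T1)
    (hq1 : q.1 ∈ T1) : Joined T (U T X h) p q := by
  by_cases hex : ∃ z ∈ U T X h, z.1 ∈ T2
  · obtain ⟨z, hz, hz2⟩ := hex
    exact (cross N hX hT hdj hd hp hz hp1 hz2).trans (cross N hX hT hdj hd hq hz hq1 hz2).symm
  · push Not at hex
    obtain ⟨t, ht⟩ := hne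
    have htT : t ∈ T := hT ▸ Or.inr ht
    obtain ⟨s, r⟩ := p
    obtain ⟨s', r'⟩ := q
    have hdt : h t ≤ X.1 t r := by
      by_contra hc
      push Not at hc
      exact hex (t, r) ⟨htT, hp.2.1, hc⟩ ht
    obtain ⟨x, hx, y, hy, hxy⟩ := factor hT hd
      ((A M T).mul_mem ((A M T).inv_mem hp.2.1) hq.2.1 : r⁻¹ * r' ∈ A M T)
    have h1 : T2 ⊆ T \ {s'} := fun u hu =>
      ⟨hT ▸ Or.inr hu, fun h => hdj s' hq1 (by rw [Set.mem_singleton_iff] at h; exact h ▸ hu)⟩
    have h2 : T1 ⊆ T \ {t} := fun u hu =>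
      ⟨hT ▸ Or.inl hu, fun h => hdj u hu (by rw [Set.mem_singleton_iff] at h; exact h ▸ ht)⟩
    have hr' : r' = r * (x * y) := by rw [← hxy, mul_inv_cancel_left]
    have e2 : (r')⁻¹ * (r * x) ∈ A M (T \ {s'}) := by
      have : (r')⁻¹ * (r * x) = y⁻¹ := by
        rw [hr']; group
      rw [this]
      exact A_mono M h1 (Subgroup.inv_mem _ hy)
    have hst : s ≠ t := fun h => hdj s hp1 (h ▸ ht)
    have hst' : s' ≠ t := fun h => hdj s' hq1 (h ▸ ht)
    have hA : (s, (1 : ArtinGroup M)) ∈ U (T \ {t}) (shift X r) h :=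
      mem_link hst (Subgroup.one_mem _) (by rw [mul_one]; exact hp)
    have hB : (s', x) ∈ U (T \ {t}) (shift X r) h :=
      mem_link hst' (A_mono M h2 hx) (mem_same N hX hq e2)
    have h5 := joined_link hp.2.1
      (ih t htT (shift X r) (N.shift_mem X hX _) h (N.link hX htT hp.2.1 hcl hdt) _ hA _ hB)
    simp only [mul_one] at h5
    exact h5.trans (joined_same N hX hq e2).symm

/-- connected diagrams -/
def Conn (M : CoxeterMatrix S) (T : Set S) : Prop :=
  ∀ P : S → Prop, (∃ s ∈ T, P s) → (∃ t ∈ T, ¬ P t) → ∃ s ∈ T, ∃ t ∈ T, P s ∧ ¬ P t ∧ C M s t ≠ 0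

/-- **(C)** -/
theorem ut_disc (N : Num M) {T : Set S} (hc : ¬ Conn M T) (ih : ∀ t ∈ T, UT N (T \ {t})) :
    UT N T := by
  unfold Conn at hc
  push Not at hc
  obtain ⟨P, ⟨a, ha, hPa⟩, ⟨b, hb, hPb⟩, hP⟩ := hc
  set T1 : Set S := {s | s ∈ T ∧ P s} with hT1
  set T2 : Set S := {s | s ∈ T ∧ ¬ P s} with hT2
  have hT : T = T1 ∪ T2 := by
    ext s
    constructor
    · intro hs
      by_cases h : P s
      · exact Or.inl ⟨hs, h⟩
      · exact Or.inr ⟨hs, h⟩
    · rintro (h | h)
      · exact h.1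
      · exact h.1
  have hT' : T = T2 ∪ T1 := by rw [Set.union_comm]; exact hT
  have hdj : ∀ s ∈ T1, s ∉ T2 := fun s h1 h2 => h2.2 h1.2
  have hdj' : ∀ s ∈ T2, s ∉ T1 := fun s h2 h1 => h2.2 h1.2
  have hd : ∀ s ∈ T1, ∀ t ∈ T2, M s t = 2 := fun s hs t ht =>
    C_eq_zero M (fun h => hdj s hs (h ▸ ht)) (hP s hs.1 t ht.1 hs.2 ht.2)
  have hd' : ∀ s ∈ T2, ∀ t ∈ T1, M s t = 2 := fun s hs t ht => by
    rw [M.symmetric]; exact hd t ht s hs
  intro X hX h hcl p hp q hq
  have hp0 : p.1 ∈ T1 ∪ T2 := hT ▸ hp.1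
  have hq0 : q.1 ∈ T1 ∪ T2 := hT ▸ hq.1
  rcases hp0 with hp1 | hp1 <;> rcases hq0 with hq1 | hq1
  · exact ut_same N hX hT hdj hd ⟨b, hb, hPb⟩ ih hcl hp hq hp1 hq1
  · exact cross N hX hT hdj hd hp hq hp1 hq1
  · exact (cross N hX hT hdj hd hq hp hq1 hp1).symm
  · exact ut_same N hX hT' hdj' hd' ⟨a, ha, hPa⟩ ih hcl hp hq hp1 hq1

/-! ### (D) connected diagrams which are not positive definite -/

theorem slk_add {T : Set S} {X : Pre M} (h c : S → ℝ) (hc : ∀ u, u ∉ T → c u = 0) (s : S) :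
    slk T X (fun u => h u + c u) s = slk T X h s - ∑ u, C M s u * c u := by
  unfold slk
  have h1 : ∀ u, C M s u * ext T (fun u => h u + c u) (fun u => X.1 u 1) u =
      C M s u * ext T h (fun u => X.1 u 1) u + C M s u * c u := by
    intro u
    by_cases hu : u ∈ T
    · rw [ext_mem hu, ext_mem hu]; ring
    · rw [ext_not hu, ext_not hu, hc u hu]; ring
  rw [Finset.sum_congr rfl fun u _ => h1 u, Finset.sum_add_distrib]
  ring

theorem slk_update {T : Set S} {X : Pre M} {h h' : S → ℝ} {t : S} (ht : t ∈ T)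
    (hne : ∀ s, s ≠ t → h' s = h s) (s : S) :
    slk T X h' s = slk T X h s - C M s t * (h' t - h t) := by
  classical
  have h1 : h' = fun u => h u + (if u = t then h' t - h t else 0) := by
    funext u
    by_cases hu : u = t
    · subst hu; simp
    · rw [hne u hu]; simp [hu]
  have h2 := slk_add (X := X) (T := T) h (fun u => if u = t then h' t - h t else 0)
    (fun u hu => by
      show (if u = t then h' t - h t else 0) = 0
      rw [if_neg]
      rintro rfl
      exact hu ht) s
  rw [← h1] at h2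
  rw [h2]
  simp

/-- a step raising a coordinate keeps the class if it does at this coordinate. -/
theorem cls_raise {T : Set S} {X : Pre M} {h h' : S → ℝ} {t : S} (ht : t ∈ T)
    (hcl : Cls T X h) (hle : h t ≤ h' t) (hne : ∀ s, s ≠ t → h' s = h s)
    (hs : 0 < h' t → 0 < slk T X h' t) : Cls T X h' := by
  intro s hsT
  by_cases hst : s = t
  · subst hst
    exact ⟨(hcl s hsT).1.trans hle, hs⟩
  · rw [hne s hst]
    refine ⟨(hcl s hsT).1, fun h0 => ?_⟩
    rw [slk_update ht hne]
    have h1 := (hcl s hsT).2 h0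
    have h2 := C_nonpos M hst
    nlinarith

/-- stage 1: all coordinates become positive. -/
theorem stage1 {T : Set S} {X : Pre M} (hX0 : ∀ s ∈ T, 0 ≤ X.2 s)
    (hXd : ∀ s g, 0 ≤ X.1 s g) (hconn : Conn M T) {h : S → ℝ}
    (hcl : Cls T X h) (hpos : ∃ s ∈ T, 0 < h s) :
    ∃ h', Chain T X h h' ∧ ∀ s ∈ T, 0 < h' s := by
  classical
  have key : ∀ (k : ℕ) (h : S → ℝ), (Finset.univ.filter fun s => s ∈ T ∧ ¬ 0 < h s).card = k →
      Cls T X h → (∃ s ∈ T, 0 < h s) → ∃ h', Chain T X h h' ∧ ∀ s ∈ T, 0 < h' s := by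
    intro k
    induction k with
    | zero =>
      intro h hk _ _
      refine ⟨h, Relation.ReflTransGen.refl, fun s hs => ?_⟩
      by_contra hc
      have : s ∈ (Finset.univ.filter fun s => s ∈ T ∧ ¬ 0 < h s) := by simp [hs, not_lt.1 hc]
      rw [Finset.card_eq_zero.1 hk] at this
      exact absurd this (Finset.notMem_empty s)
    | succ k ih =>
      intro h hk hcl hpos
      have hne : (Finset.univ.filter fun s => s ∈ T ∧ ¬ 0 < h s).Nonempty := by
        rw [← Finset.card_pos, hk]; omega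
      obtain ⟨b, hb⟩ := hne
      rw [Finset.mem_filter] at hb
      obtain ⟨s, hs, t, ht, hps, hpt, hC⟩ := hconn (fun s => 0 < h s) hpos ⟨b, hb.2.1, hb.2.2⟩
      have hst : t ≠ s := fun h => hpt (h ▸ hps)
      have hCts : C M t s < 0 :=
        lt_of_le_of_ne (C_nonpos M hst) (by rw [C_symm]; exact hC)
      have hht : h t = 0 := le_antisymm (not_lt.1 hpt) (hcl t ht).1
      set ε : ℝ := -(C M t s) * h s / 3 with hε
      have hε0 : 0 < ε := by
        rw [hε]
        have : 0 < -(C M t s) * h s := mul_pos (by linarith) hps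
        positivity
      set h' : S → ℝ := Function.update h t ε with hh'
      have hne' : ∀ u, u ≠ t → h' u = h u := fun u hu => by rw [hh', Function.update_of_ne hu]
      have hh't : h' t = ε := by rw [hh', Function.update_self]
      have hcl' : Cls T X h' := by
        refine cls_raise ht hcl (by rw [hh't, hht]; exact hε0.le) hne' fun _ => ?_
        rw [slk_update ht hne', hh't, hht, sub_zero, C_self]
        have h1 : slk T X h t = X.2 t - ∑ u, C M t u * ext T h (fun u => X.1 u 1) u := rfl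
        have h2 : ∑ u, C M t u * ext T h (fun u => X.1 u 1) u ≤ C M t s * h s := by
          have h3 : ∀ u ∈ Finset.univ, C M t u * ext T h (fun u => X.1 u 1) u ≤
              if u = s then C M t s * h s else 0 := by
            intro u _
            by_cases hu : u = s
            · subst hu
              rw [if_pos rfl, ext_mem hs]
            · rw [if_neg hu]
              by_cases hut : u = t
              · subst hut
                rw [ext_mem ht, hht, mul_zero]
              · have h4 : 0 ≤ ext T h (fun u => X.1 u 1) u := by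
                  by_cases huT : u ∈ T
                  · rw [ext_mem huT]; exact (hcl u huT).1
                  · rw [ext_not huT]; exact hXd u 1
                exact mul_nonpos_of_nonpos_of_nonneg (C_nonpos M (Ne.symm hut)) h4
          refine (Finset.sum_le_sum h3).trans ?_
          simp
        have h5 := hX0 t ht
        rw [h1]
        have h6 : 3 * ε = -(C M t s) * h s := by rw [hε]; ring
        nlinarith
      have hcard : (Finset.univ.filter fun s => s ∈ T ∧ ¬ 0 < h' s).card = k := by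
        have h7 : (Finset.univ.filter fun s => s ∈ T ∧ ¬ 0 < h' s) =
            (Finset.univ.filter fun s => s ∈ T ∧ ¬ 0 < h s).erase t := by
          ext u
          simp only [Finset.mem_filter, Finset.mem_univ, true_and, Finset.mem_erase]
          by_cases hu : u = t
          · subst hu
            simp [hh't, hε0]
          · rw [hne' u hu]
            simp [hu]
        rw [h7, Finset.card_erase_of_mem (by simp [ht, not_lt.1 hpt]), hk]
        rfl
      obtain ⟨h'', hch, hpos''⟩ := ih h' hcard hcl' ⟨s, hs, by rw [hne' s (Ne.symm hst)]; exact hps⟩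
      exact ⟨h'', (Relation.ReflTransGen.single
        ⟨t, ht, hne', by rw [hh't, hht]; exact hε0.le, hcl, hcl'⟩).trans hch, hpos''⟩
  exact key _ h rfl hcl hpos

open Filter Topology in
/-- stage 2: all coordinates become large. -/
theorem stage2 {T : Set S} {X : Pre M} {b : S → ℝ} (hb0 : ∀ u, u ∉ T → b u = 0)
    (hb : ∀ u ∈ T, 0 < b u) (hCb : ∀ s ∈ T, ∑ u, C M s u * b u ≤ 0) {h : S → ℝ}
    (hcl : Cls T X h) (hpos : ∀ s ∈ T, 0 < h s) (B : ℝ) :
    ∃ h', Chain T X h h' ∧ ∀ s ∈ T, B ≤ h' s := by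
  classical
  have hbn : ∀ u, 0 ≤ b u := fun u => by
    by_cases hu : u ∈ T
    · exact (hb u hu).le
    · rw [hb0 u hu]
  -- the step size
  have h1 : ∀ s, ∀ᶠ δ in 𝓝[>] (0 : ℝ), s ∈ T → 2 * δ * b s < slk T X h s := by
    intro s
    by_cases hs : s ∈ T
    · have h2 : 0 < slk T X h s / (2 * b s) :=
        div_pos ((hcl s hs).2 (hpos s hs)) (mul_pos two_pos (hb s hs))
      filter_upwards [Ioo_mem_nhdsGT h2] with δ hδ _
      have h3 := (lt_div_iff₀ (mul_pos two_pos (hb s hs))).1 hδ.2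
      linarith
    · exact Eventually.of_forall fun _ h => absurd h hs
  obtain ⟨δ, hδ, hδ0⟩ := ((eventually_all.2 h1).and self_mem_nhdsWithin).exists
  have hδ0 : 0 < δ := hδ0
  -- the heights
  let hk : ℕ → Finset S → S → ℝ := fun k F s =>
    h s + ((k : ℝ) + if s ∈ F then 1 else 0) * δ * b s
  have hcls : ∀ k F, Cls T X (hk k F) := by
    intro k F s hs
    have e0 : 0 ≤ ((k : ℝ) + if s ∈ F then 1 else 0) * δ * b s := by
      have : 0 ≤ (k : ℝ) + if s ∈ F then 1 else 0 := by
        have : (0 : ℝ) ≤ k := Nat.cast_nonneg k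
        split_ifs <;> linarith
      exact mul_nonneg (mul_nonneg this hδ0.le) (hbn s)
    refine ⟨add_nonneg (hpos s hs).le e0, fun _ => ?_⟩
    have e1 : slk T X (hk k F) s = slk T X h s -
        ∑ u, C M s u * (((k : ℝ) + if u ∈ F then 1 else 0) * δ * b u) :=
      slk_add h (fun u => ((k : ℝ) + if u ∈ F then 1 else 0) * δ * b u)
        (fun u hu => by show _ * b u = 0; rw [hb0 u hu, mul_zero]) s
    have e2 : ∑ u, C M s u * (((k : ℝ) + if u ∈ F then 1 else 0) * δ * b u) =
        k * δ * ∑ u, C M s u * b u + δ * ∑ u, C M s u * (if u ∈ F then b u else 0) := by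
      rw [Finset.mul_sum, Finset.mul_sum, ← Finset.sum_add_distrib]
      refine Finset.sum_congr rfl fun u _ => ?_
      split_ifs <;> ring
    have e3 : ∑ u, C M s u * (if u ∈ F then b u else 0) ≤ 2 * b s := by
      have h3 : ∀ u ∈ Finset.univ, C M s u * (if u ∈ F then b u else 0) ≤
          if u = s then 2 * b s else 0 := by
        intro u _
        by_cases hu : u = s
        · subst hu
          rw [if_pos rfl, C_self]
          have := hbn u
          split_ifs <;> linarith
        · rw [if_neg hu]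
          have h4 : (0 : ℝ) ≤ if u ∈ F then b u else 0 := by
            split_ifs
            · exact hbn u
            · exact le_rfl
          exact mul_nonpos_of_nonpos_of_nonneg (C_nonpos M (Ne.symm hu)) h4
      refine (Finset.sum_le_sum h3).trans ?_
      simp
    have e4 : (k : ℝ) * δ * ∑ u, C M s u * b u ≤ 0 :=
      mul_nonpos_of_nonneg_of_nonpos (mul_nonneg (Nat.cast_nonneg k) hδ0.le) (hCb s hs)
    have e5 := hδ s hs
    rw [e1, e2]
    nlinarith
  have hround : ∀ k F, Chain T X (hk k ∅) (hk k F) := by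
    intro k F
    induction F using Finset.induction_on with
    | empty => exact Relation.ReflTransGen.refl
    | @insert t F htF ih =>
      by_cases ht : t ∈ T
      · refine ih.tail ⟨t, ht, fun s hs => ?_, ?_, hcls _ _, hcls _ _⟩
        · show h s + ((k : ℝ) + if s ∈ insert t F then 1 else 0) * δ * b s =
            h s + ((k : ℝ) + if s ∈ F then 1 else 0) * δ * b s
          simp [Finset.mem_insert, hs]
        · show h t + ((k : ℝ) + if t ∈ F then 1 else 0) * δ * b t ≤
            h t + ((k : ℝ) + if t ∈ insert t F then 1 else 0) * δ * b t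
          rw [if_neg htF, if_pos (Finset.mem_insert_self t F)]
          have := mul_pos hδ0 (hb t ht)
          nlinarith
      · have : hk k (insert t F) = hk k F := by
          funext s
          show h s + ((k : ℝ) + if s ∈ insert t F then 1 else 0) * δ * b s =
            h s + ((k : ℝ) + if s ∈ F then 1 else 0) * δ * b s
          by_cases hs : s = t
          · subst hs
            rw [hb0 s ht]
            ring
          · simp [Finset.mem_insert, hs]
        rw [this]
        exact ih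
  have hnext : ∀ k, hk k Finset.univ = hk (k + 1) ∅ := by
    intro k
    funext s
    show h s + ((k : ℝ) + if s ∈ Finset.univ then 1 else 0) * δ * b s =
      h s + (((k + 1 : ℕ) : ℝ) + if s ∈ (∅ : Finset S) then 1 else 0) * δ * b s
    simp
  have hall : ∀ k, Chain T X (hk 0 ∅) (hk k ∅) := by
    intro k
    induction k with
    | zero => exact Relation.ReflTransGen.refl
    | succ k ih => exact ih.trans (hnext k ▸ hround k Finset.univ)
  have h00 : hk 0 ∅ = h := by
    funext s
    show h s + (((0 : ℕ) : ℝ) + if s ∈ (∅ : Finset S) then 1 else 0) * δ * b s = h s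
    simp
  -- large
  have hlarge : ∀ s, ∀ᶠ k : ℕ in atTop, s ∈ T → B ≤ hk k ∅ s := by
    intro s
    by_cases hs : s ∈ T
    · have h2 : 0 < δ * b s := mul_pos hδ0 (hb s hs)
      obtain ⟨K, hK⟩ := exists_nat_gt ((B - h s) / (δ * b s))
      filter_upwards [eventually_ge_atTop K] with k hk' _
      have h3 : (B - h s) / (δ * b s) < k := hK.trans_le (by exact_mod_cast hk')
      rw [div_lt_iff₀ h2] at h3
      show B ≤ h s + ((k : ℝ) + if s ∈ (∅ : Finset S) then 1 else 0) * δ * b s
      simp only [Finset.notMem_empty, if_false, add_zero]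
      nlinarith
    · exact Eventually.of_forall fun _ h => absurd h hs
  obtain ⟨k, hk'⟩ := (eventually_all.2 hlarge).exists
  exact ⟨hk k ∅, h00 ▸ hall k, fun s hs => hk' s hs⟩

/-- the Perron vector. -/
theorem exists_b {T : Set S} (hne : T.Nonempty) (hconn : Conn M T) (hn : ¬ PD M T) :
    ∃ b : S → ℝ, (∀ u, u ∉ T → b u = 0) ∧ (∀ u ∈ T, 0 < b u) ∧
      ∀ s ∈ T, ∑ u, C M s u * b u ≤ 0 := by
  classical
  have hsum : ∀ f : S → ℝ, (∀ u, u ∉ T → f u = 0) → ∑ u, f u = ∑ u : T, f u := by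
    intro f hf
    rw [← Finset.sum_subtype (Finset.univ.filter fun u => u ∈ T) (by simp) f]
    rw [Finset.sum_filter]
    refine Finset.sum_congr rfl fun u _ => ?_
    by_cases hu : u ∈ T
    · rw [if_pos hu]
    · rw [if_neg hu, hf u hu]
  have : Nonempty T := hne.to_subtype
  obtain ⟨b, hb, hCb⟩ := Pos_418.perron (T := T) (C := fun s t => C M s t)
    (fun s t => C_symm M s t) (fun s t hst => C_nonpos M fun h => hst (Subtype.ext h))
    (by
      rintro P ⟨s, hs⟩ ⟨t, ht⟩
      obtain ⟨s', hs', t', ht', h1, h2, h3⟩ := hconn (fun u => ∃ h : u ∈ T, P ⟨u, h⟩)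
        ⟨s, s.2, s.2, hs⟩ ⟨t, t.2, fun ⟨_, h⟩ => ht h⟩
      obtain ⟨_, h1⟩ := h1
      exact ⟨⟨s', hs'⟩, ⟨t', ht'⟩, h1, fun h => h2 ⟨ht', h⟩, h3⟩)
    (by
      intro hPD
      apply hn
      intro x hx0 hx
      have h1 : (fun u : T => x u) ≠ 0 := by
        intro h
        apply hx
        funext u
        by_cases hu : u ∈ T
        · exact congrFun h ⟨u, hu⟩
        · exact hx0 u hu
      have h2 := hPD _ h1
      rw [Pos_418.qf] at h2
      rw [hsum]
      · have h3 : ∀ s : T, ∑ t, C M s t * x s * x t = ∑ t : T, x s * x t * C M s t := by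
          intro s
          rw [hsum]
          · exact Finset.sum_congr rfl fun t _ => by ring
          · intro u hu
            rw [hx0 u hu, mul_zero]
        rw [Finset.sum_congr rfl fun s _ => h3 s]
        exact h2
      · intro u hu
        simp [hx0 u hu])
  refine ⟨fun u => if hu : u ∈ T then b ⟨u, hu⟩ else 0, fun u hu => by simp [hu],
    fun u hu => by simpa [hu] using hb ⟨u, hu⟩, fun s hs => ?_⟩
  rw [hsum]
  · have h4 := hCb ⟨s, hs⟩
    rw [Pos_418.mv] at h4
    refine le_trans (le_of_eq ?_) h4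
    refine Finset.sum_congr rfl fun u _ => ?_
    simp
  · intro u hu
    simp [hu]

/-- reaching large heights. -/
theorem reach {T : Set S} {X : Pre M} (hX0 : ∀ s ∈ T, 0 ≤ X.2 s) (hXd : ∀ s g, 0 ≤ X.1 s g)
    (hconn : Conn M T) (hn : ¬ PD M T) {h : S → ℝ} (hcl : Cls T X h)
    (hpos : ∃ s ∈ T, 0 < h s) (B : ℝ) : ∃ h', Chain T X h h' ∧ ∀ s ∈ T, B ≤ h' s := by
  have hne : T.Nonempty := by
    obtain ⟨s, hs, _⟩ := hpos
    exact ⟨s, hs⟩
  obtain ⟨b, hb0, hb, hCb⟩ := exists_b hne hconn hn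
  obtain ⟨h1, hc1, hp1⟩ := stage1 hX0 hXd hconn hcl hpos
  obtain ⟨h2, hc2, hp2⟩ := stage2 hb0 hb hCb (Chain.cls hc1 hcl) hp1 B
  exact ⟨h2, Chain.trans hc1 hc2, hp2⟩



/-- the complex is connected. -/
theorem full_joined {T : Set S} (h2 : ∀ s ∈ T, ∃ t ∈ T, t ≠ s) {p q : S × ArtinGroup M}
    (hp : p ∈ V M T) (hq : q ∈ V M T) : Joined T (V M T) p q := by
  have key : ∀ g ∈ A M T, ∀ t ∈ T, Joined T (V M T) (p.1, 1) (t, g) := by
    intro g hg
    have hstep : ∀ g ∈ A M T, (∀ t ∈ T, Joined T (V M T) (p.1, 1) (t, g)) → ∀ s ∈ T,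
        ∀ x : ArtinGroup M, (∀ t, t ≠ s → x ∈ A M (T \ {t})) → ∀ t ∈ T,
        Joined T (V M T) (p.1, 1) (t, g * x) := by
      intro g hg ih s hs x hx t ht
      obtain ⟨t', ht', hne⟩ := h2 s hs
      have hgx : g * x ∈ A M T := (A M T).mul_mem hg (A_diff_le M t' (hx t' hne))
      have e1 : Joined T (V M T) (t', g) (t', g * x) := by
        refine Joined.single ⟨ht', hg⟩ ⟨ht', hgx⟩ (Or.inl ⟨rfl, ?_⟩)
        show g⁻¹ * (g * x) ∈ _
        rw [inv_mul_cancel_left]
        exact hx t' hne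
      have e2 : Joined T (V M T) (t', g * x) (t, g * x) :=
        Joined.single ⟨ht', hgx⟩ ⟨ht, hgx⟩ (Or.inr rfl)
      exact ((ih t' ht').trans e1).trans e2
    have hgen : ∀ s ∈ T, ∀ t, t ≠ s → artinGen M s ∈ A M (T \ {t}) := fun s hs t ht =>
      gen_mem M ⟨hs, fun h => ht (by rw [Set.mem_singleton_iff] at h; exact h.symm)⟩
    have : g ∈ A M T → (g ∈ A M T ∧ ∀ t ∈ T, Joined T (V M T) (p.1, 1) (t, g)) := by
      intro hg
      induction hg using Subgroup.closure_induction_right with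
      | one =>
        refine ⟨Subgroup.one_mem _, fun t ht => ?_⟩
        exact Joined.single ⟨hp.1, Subgroup.one_mem _⟩ ⟨ht, Subgroup.one_mem _⟩ (Or.inr rfl)
      | mul_right x hx y hy ih =>
        obtain ⟨s, hs, rfl⟩ := hy
        obtain ⟨ih1, ih2⟩ := ih hx
        exact ⟨(A M T).mul_mem ih1 (gen_mem M hs), hstep x ih1 ih2 s hs _ (hgen s hs)⟩
      | mul_inv_cancel x hx y hy ih =>
        obtain ⟨s, hs, rfl⟩ := hy
        obtain ⟨ih1, ih2⟩ := ih hx
        exact ⟨(A M T).mul_mem ih1 ((A M T).inv_mem (gen_mem M hs)), hstep x ih1 ih2 s hs _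
          fun t ht => Subgroup.inv_mem _ (hgen s hs t ht)⟩
    exact (this hg).2
  exact (key p.2 hp.2 p.1 hp.1).symm.trans (key q.2 hq.2 q.1 hq.1)

/-- a path is contained in every sufficiently high sublevel. -/
theorem joined_bound {T : Set S} (X : Pre M) {p q : S × ArtinGroup M}
    (h : Joined T (V M T) p q) :
    ∃ B : ℝ, ∀ h' : S → ℝ, (∀ s ∈ T, B ≤ h' s) → Joined T (U T X h') p q := by
  induction h with
  | refl => exact ⟨0, fun _ _ => Relation.ReflTransGen.refl⟩
  | @tail x y _ hxy ih =>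
    obtain ⟨B, hB⟩ := ih
    refine ⟨max B (max (X.1 x.1 x.2) (X.1 y.1 y.2) + 1), fun h' hh => ?_⟩
    refine (hB h' fun s hs => (le_max_left _ _).trans (hh s hs)).trans
      (Joined.single ⟨hxy.1.1, hxy.1.2, ?_⟩ ⟨hxy.2.1.1, hxy.2.1.2, ?_⟩ hxy.2.2)
    · have h1 := (le_max_right _ _).trans (hh x.1 hxy.1.1)
      have h2 := le_max_left (X.1 x.1 x.2) (X.1 y.1 y.2)
      linarith
    · have h1 := (le_max_right _ _).trans (hh y.1 hxy.2.1.1)
      have h2 := le_max_right (X.1 x.1 x.2) (X.1 y.1 y.2)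
      linarith

/-- singletons are positive definite. -/
theorem two_types {T : Set S} (hn : ¬ PD M T) : ∀ s ∈ T, ∃ t ∈ T, t ≠ s := by
  classical
  intro s hs
  by_contra hc
  push Not at hc
  apply hn
  intro x hx0 hx
  have h1 : ∀ u, u ≠ s → x u = 0 := fun u hu => hx0 u fun h => hu (hc u h)
  have hxs : x s ≠ 0 := by
    intro h
    apply hx
    funext u
    by_cases hu : u = s
    · subst hu; exact h
    · exact h1 u hu
  have h2 : ∀ u, ∑ t, C M u t * x u * x t = if u = s then 2 * x s * x s else 0 := by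
    intro u
    by_cases hu : u = s
    · subst hu
      rw [if_pos rfl, Finset.sum_eq_single u]
      · rw [C_self]
      · intro t _ ht
        rw [h1 t ht, mul_zero]
      · simp
    · rw [if_neg hu]
      simp [h1 u hu]
  rw [Finset.sum_congr rfl fun u _ => h2 u]
  simp only [Finset.sum_ite_eq', Finset.mem_univ, if_true]
  have := mul_self_pos.2 hxs
  nlinarith

/-- **(D)** -/
theorem ut_conn (N : Num M) {T : Set S} (hconn : Conn M T) (hn : ¬ PD M T)
    (ih : ∀ t ∈ T, UT N (T \ {t})) : UT N T := by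
  intro X hX h hcl p hp q hq
  have hpos : ∃ s ∈ T, 0 < h s :=
    ⟨p.1, hp.1, (N.d_nonneg X hX p.1 p.2).trans_lt hp.2.2⟩
  obtain ⟨B, hB⟩ := joined_bound X
    (full_joined (two_types hn) ⟨hp.1, hp.2.1⟩ ⟨hq.1, hq.2.1⟩ : Joined T (V M T) p q)
  obtain ⟨h', hch, hh'⟩ := reach (fun s _ => N.lam_nonneg X hX s) (N.d_nonneg X hX) hconn hn
    hcl hpos B
  exact chain_back N hX ih hch hp hq (hB h' hh')

/-- **`UT` for all diagrams** from `UT` for positive definite ones. -/
theorem ut_all (N : Num M) (hPD : ∀ T, PD M T → UT N T) (T : Set S) : UT N T := by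
  classical
  have key : ∀ (k : ℕ) (T : Set S), T.ncard = k → UT N T := by
    intro k
    induction k with
    | zero =>
      intro T hT
      have : T = ∅ := (Set.ncard_eq_zero T.toFinite).1 hT
      subst this
      intro X _ h _ p hp
      exact absurd hp.1 (Set.notMem_empty _)
    | succ k ih =>
      intro T hT
      have ih' : ∀ t ∈ T, UT N (T \ {t}) := fun t ht =>
        ih _ (by rw [Set.ncard_sdiff_singleton_of_mem ht, hT]; rfl)
      by_cases h1 : PD M T
      · exact hPD T h1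
      · by_cases h2 : Conn M T
        · exact ut_conn N h2 h1 ih'
        · exact ut_disc N h2 ih'
  exact key _ T rfl

/-- **(U_T) for all `T`**. -/
theorem ut (N : Num M) (T : Set S) : UT N T :=
  ut_all N (fun _ hT => TopB_505.UT_of_PD N hT) T

theorem conn_of_connd {T : Set S} (h : Connd M T) : Conn M T := by
  intro P ⟨a, ha, hPa⟩ ⟨b, hb, hPb⟩
  obtain ⟨s, hs, t, ht, hst⟩ := h {s | s ∈ T ∧ P s} (fun s hs => hs.1) ⟨a, ha, hPa⟩
    (fun h => hPb ((h.symm ▸ hb : b ∈ {s | s ∈ T ∧ P s})).2)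
  exact ⟨s, hs.1, t, ht.1, hs.2, fun hPt => ht.2 ⟨ht.1, hPt⟩, hst⟩

theorem step_num {T : Set S} {X : Pre M} {h h' : S → ℝ} (H : Step T X h h') :
    Num_774.Step T X h h' := by
  classical
  obtain ⟨t, ht, h1, h2, _, h3⟩ := H
  refine ⟨t, ht, h' t, h2, ?_, h3⟩
  funext s
  by_cases hs : s = t
  · subst hs
    simp
  · rw [h1 s hs, Function.update_of_ne hs]

theorem chain_num {T : Set S} {X : Pre M} {h h' : S → ℝ} (H : Chain T X h h') :
    Relation.ReflTransGen (Num_774.Step T X) h h' := by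
  induction H with
  | refl => exact Relation.ReflTransGen.refl
  | tail _ h1 ih => exact ih.tail (step_num h1)

/-- growth from any admissible height with a positive coordinate, in the form of `Num_774`. -/
theorem reach_num {T : Set S} {X : Pre M} (hX0 : ∀ s ∈ T, 0 ≤ X.2 s) (hXd : ∀ s g, 0 ≤ X.1 s g)
    (hconn : Connd M T) (hn : ¬ PD M T) {h : S → ℝ} (hcl : Cls T X h)
    (hpos : ∃ s ∈ T, 0 < h s) (B : ℝ) :
    ∃ h', Relation.ReflTransGen (Num_774.Step T X) h h' ∧ ∀ s ∈ T, B ≤ h' s := by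
  obtain ⟨h', h1, h2⟩ := reach hX0 hXd (conn_of_connd hconn) hn hcl hpos B
  exact ⟨h', chain_num h1, h2⟩


end Crest.Agent.R175.TopD_224
end

-- ▼ part R175/Top5_774
section

/-!
Row 175 (S0263), STEP 5 of #2667: two `K`-fixed vertices are joined by `K`-fixed vertices.
-/

set_option autoImplicit false
set_option linter.unusedSectionVars false

namespace Crest.Agent.R175.Top5_774

open Crest.GroupTheory Crest.Agent.R175.Num_774

universe u

variable {S : Type u} [Fintype S] {M : CoxeterMatrix S}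

/-- the vertices fixed by `K` -/
def Fx (T : Set S) (K : Subgroup (ArtinGroup M)) : Set (S × ArtinGroup M) :=
  {x | ∀ k ∈ K, x.2⁻¹ * k * x.2 ∈ A M (T \ {x.1})}

/-- `K` fixes `X` -/
def Inv (K : Subgroup (ArtinGroup M)) (X : Pre M) : Prop :=
  ∀ k ∈ K, ∀ s x, X.1 s (k * x) = X.1 s x

variable (N : Num M)

include N in
theorem U_zero {X : Pre M} (hX : X ∈ N.Ob) (T : Set S) : U T X 0 = ∅ := by
  ext x
  simp only [U, Set.mem_ofPred_eq, Set.mem_empty_iff_false, iff_false, Pi.zero_apply]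
  rintro ⟨_, _, h⟩
  have := N.d_nonneg X hX x.1 x.2
  linarith

theorem step_le {T : Set S} {X : Pre M} {h h' : S → ℝ} (hs : Step T X h h') (s : S) :
    h s ≤ h' s := by
  classical
  obtain ⟨t, _, c, hc, rfl, _⟩ := hs
  by_cases hst : s = t
  · subst hst; simpa using hc
  · simp [Function.update_of_ne hst]

theorem U_mono {T : Set S} {X : Pre M} {h h' : S → ℝ} (hs : ∀ s, h s ≤ h' s) :
    U T X h ⊆ U T X h' := fun x hx => ⟨hx.1, hx.2.1, lt_of_lt_of_le hx.2.2 (hs _)⟩

/-- if all the vertices of `W` have type `s`, a joined pair is one vertex -/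
theorem joined_const {T : Set S} {W : Set (S × ArtinGroup M)} {s : S} (hW : ∀ x ∈ W, x.1 = s)
    {x y : S × ArtinGroup M} (hxy : Num_774.Joined T W x y) : x.2⁻¹ * y.2 ∈ A M (T \ {s}) := by
  induction hxy with
  | refl => simpa using (A M (T \ {s})).one_mem
  | @tail y z _ hyz ih =>
    have h1 : y.2⁻¹ * z.2 ∈ A M (T \ {s}) := by
      rcases hyz.2.2 with ⟨h1, h2⟩ | h1
      · rw [← hW y hyz.1]; exact h2
      · rw [h1]; simpa using (A M (T \ {s})).one_mem
    have h2 : x.2⁻¹ * z.2 = (x.2⁻¹ * y.2) * (y.2⁻¹ * z.2) := by group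
    rw [h2]
    exact (A M (T \ {s})).mul_mem ih h1

theorem fx_mul {T : Set S} {K : Subgroup (ArtinGroup M)} {t : S} {r a : ArtinGroup M}
    (hp : (t, r) ∈ Fx T K) (ha : a ∈ A M (T \ {t})) : (t, r * a) ∈ Fx T K := by
  intro k hk
  have h1 : (r * a)⁻¹ * k * (r * a) = a⁻¹ * (r⁻¹ * k * r) * a := by group
  show (r * a)⁻¹ * k * (r * a) ∈ A M (T \ {t})
  rw [h1]
  exact (A M (T \ {t})).mul_mem ((A M (T \ {t})).mul_mem ((A M (T \ {t})).inv_mem ha) (hp k hk)) ha

/-- the first non empty link level is one vertex, so it is fixed -/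
theorem first {T : Set S} (hU : ∀ t ∈ T, UT N (T \ {t})) {X : Pre M} (hX : X ∈ N.Ob)
    {K : Subgroup (ArtinGroup M)} (hK : Inv K X) {t : S} {r : ArtinGroup M} (ht : t ∈ T)
    (hr : r ∈ A M T) (hp : (t, r) ∈ Fx T K) {h : S → ℝ}
    (hh : Relation.ReflTransGen (Step T X) 0 h) :
    h t ≤ X.1 t r → (U (T \ {t}) (shift X r) h).Nonempty →
      ∃ x ∈ U (T \ {t}) (shift X r) h, (x.1, r * x.2) ∈ Fx T K := by
  induction hh with
  | refl =>
    intro _ h2
    rw [U_zero N (N.shift_mem X hX r)] at h2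
    exact absurd h2 Set.not_nonempty_empty
  | @tail h1 h2 _ hst ih =>
    classical
    intro hd hne
    have hle := step_le hst
    by_cases hn : (U (T \ {t}) (shift X r) h1).Nonempty
    · obtain ⟨x, hx, hx'⟩ := ih ((hle t).trans hd) hn
      exact ⟨x, U_mono hle hx, hx'⟩
    · obtain ⟨s, hs, c, hc, he, hcls⟩ := hst
      have hty : ∀ x ∈ U (T \ {t}) (shift X r) h2, x.1 = s := by
        intro x hx
        by_contra hne'
        apply hn
        refine ⟨x, hx.1, hx.2.1, ?_⟩
        have := hx.2.2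
        rw [he, Function.update_of_ne hne'] at this
        exact this
      obtain ⟨x, hx⟩ := hne
      refine ⟨x, hx, ?_⟩
      intro k hk
      have hk' : r⁻¹ * k * r ∈ A M (T \ {t}) := hp k hk
      have hx2 : (x.1, (r⁻¹ * k * r) * x.2) ∈ U (T \ {t}) (shift X r) h2 := by
        refine ⟨hx.1, (A M (T \ {t})).mul_mem hk' hx.2.1, ?_⟩
        have h3 := hx.2.2
        simp only [shift_fst] at h3 ⊢
        have h4 : r * ((r⁻¹ * k * r) * x.2) = k * (r * x.2) := by group
        rw [h4, hK k hk]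
        exact h3
      have h5 := hU t ht (shift X r) (N.shift_mem X hX r) h2 (N.link hX ht hr hcls hd) x hx _ hx2
      have h6 := joined_const hty h5
      have h7 : (r * x.2)⁻¹ * k * (r * x.2) = x.2⁻¹ * ((r⁻¹ * k * r) * x.2) := by group
      show (r * x.2)⁻¹ * k * (r * x.2) ∈ A M (T \ {x.1})
      rw [h7, hty x hx]
      have h8 : (T \ {t}) \ {s} ⊆ T \ {s} := fun _ h => ⟨h.1.1, h.2⟩
      exact A_mono M h8 h6

/-- all fixed vertices of a sublevel are joined by fixed vertices -/
theorem fixed_conn {T : Set S} (hUT : UT N T) (hU : ∀ t ∈ T, UT N (T \ {t})) {X : Pre M}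
    (hX : X ∈ N.Ob) {K : Subgroup (ArtinGroup M)} (hK : Inv K X) {h : S → ℝ}
    (hh : Relation.ReflTransGen (Step T X) 0 h) :
    ∀ p ∈ U T X h ∩ Fx T K, ∀ q ∈ U T X h ∩ Fx T K, Num_774.Joined T (U T X h ∩ Fx T K) p q := by
  induction hh with
  | refl =>
    intro p hp
    have := hp.1
    rw [U_zero N hX] at this
    exact absurd this (Set.notMem_empty _)
  | @tail h1 h2 hh1 hst ih =>
    have hle := step_le hst
    have hmono : U T X h1 ⊆ U T X h2 := U_mono hle
    -- attached vertices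
    have hatt : ∀ p ∈ U T X h2 ∩ Fx T K, (∃ p' ∈ U T X h1 ∩ Fx T K,
        Num_774.Joined T (U T X h2 ∩ Fx T K) p p') ∨
        (¬ p ∈ U T X h1 ∧ ¬ (U (T \ {p.1}) (shift X p.2) h1).Nonempty) := by
      rintro ⟨t, r⟩ ⟨hp, hpF⟩
      by_cases hp1 : (t, r) ∈ U T X h1
      · exact Or.inl ⟨_, ⟨hp1, hpF⟩, Num_774.Joined.refl _⟩
      · by_cases hne : (U (T \ {t}) (shift X r) h1).Nonempty
        · left
          have hd : h1 t ≤ X.1 t r := by
            by_contra hlt
            exact hp1 ⟨hp.1, hp.2.1, not_le.1 hlt⟩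
          obtain ⟨x, hx, hxF⟩ := first N hU hX hK hp.1 hp.2.1 hpF hh1 hd hne
          refine ⟨(x.1, r * x.2), ⟨mem_U_link hp.2.1 hx, hxF⟩, ?_⟩
          have hm : (t, r * x.2) ∈ U T X h2 := by
            refine ⟨hp.1, (A M T).mul_mem hp.2.1 (A_diff_le M t hx.2.1), ?_⟩
            have h3 := N.d_inv X hX t r x.2 (A_diff_compl M t hx.2.1)
            simp only
            rw [h3]
            exact hp.2.2
          have hmF : (t, r * x.2) ∈ Fx T K := fx_mul hpF hx.2.1
          have hin : r⁻¹ * (r * x.2) ∈ A M (T \ {t}) := by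
            rw [inv_mul_cancel_left]
            exact hx.2.1
          have hx2 : (x.1, r * x.2) ∈ U T X h2 := hmono (mem_U_link hp.2.1 hx)
          have j1 : Num_774.Joined T (U T X h2 ∩ Fx T K) (t, r) (t, r * x.2) :=
            Num_774.Joined.single ⟨hp, hpF⟩ ⟨hm, hmF⟩ (Or.inl ⟨rfl, hin⟩)
          have j2 : Num_774.Joined T (U T X h2 ∩ Fx T K) (t, r * x.2) (x.1, r * x.2) :=
            Num_774.Joined.single ⟨hm, hmF⟩ ⟨hx2, hxF⟩ (Or.inr rfl)
          exact j1.trans j2
        · exact Or.inr ⟨hp1, hne⟩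
    -- an isolated vertex is everything
    classical
    have hiso : ∀ p ∈ U T X h2 ∩ Fx T K, (¬ p ∈ U T X h1 ∧
        ¬ (U (T \ {p.1}) (shift X p.2) h1).Nonempty) →
        ∀ q ∈ U T X h2 ∩ Fx T K, Num_774.Joined T (U T X h2 ∩ Fx T K) p q := by
      rintro ⟨t, r⟩ hp ⟨hp1, hne⟩ q hq
      obtain ⟨s, hs, c, hc, he, hcls⟩ := hst
      have hty : ∀ x ∈ U T X h2, x ∉ U T X h1 → x.1 = s := by
        intro x hx hx1
        by_contra hne'
        apply hx1
        refine ⟨hx.1, hx.2.1, ?_⟩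
        have := hx.2.2
        rw [he, Function.update_of_ne hne'] at this
        exact this
      have hts : t = s := hty _ hp.1 hp1
      subst hts
      have hj := hUT X hX h2 hcls _ hp.1 q hq.1
      have key : ∀ z, Num_774.Joined T (U T X h2) (t, r) z → z.1 = t ∧ r⁻¹ * z.2 ∈ A M (T \ {t}) := by
        intro z hz
        induction hz with
        | refl => exact ⟨rfl, by simpa using (A M (T \ {t})).one_mem⟩
        | @tail y z _ hyz ihz =>
          obtain ⟨hy1, hy2⟩ := ihz
          rcases hyz.2.2 with ⟨h3, h4⟩ | h3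
          · refine ⟨h3 ▸ hy1, ?_⟩
            have h5 : r⁻¹ * z.2 = (r⁻¹ * y.2) * (y.2⁻¹ * z.2) := by group
            rw [h5]
            rw [hy1] at h4
            exact (A M (T \ {t})).mul_mem hy2 h4
          · refine ⟨?_, h3 ▸ hy2⟩
            by_contra hzt
            apply hne
            refine ⟨(z.1, r⁻¹ * y.2), ⟨hyz.2.1.1, hzt⟩, hy2, ?_⟩
            have h6 : z ∈ U T X h1 := by
              by_contra h7
              exact hzt (hty z hyz.2.1 h7)
            have h8 := h6.2.2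
            simp only [shift_fst, mul_inv_cancel_left]
            rw [h3]
            exact h8
      obtain ⟨h9, h10⟩ := key q hj
      exact Num_774.Joined.single hp hq (Or.inl ⟨h9.symm, h10⟩)
    intro p hp q hq
    rcases hatt p hp with ⟨p', hp', hpp'⟩ | hp'
    · rcases hatt q hq with ⟨q', hq', hqq'⟩ | hq'
      · exact hpp'.trans (((ih p' hp' q' hq').mono
          (Set.inter_subset_inter_left _ hmono)).trans hqq'.symm)
      · exact (hiso q hq hq' p hp).symm
    · exact hiso p hp hp' q hq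

/-- growth of the chains in the connected non spherical case -/
def Reach (T : Set S) : Prop :=
  ∀ X ∈ N.Ob, ∀ h, Cls T X h → (∃ t ∈ T, 0 < h t) → ∀ B : ℝ,
    ∃ h', Relation.ReflTransGen (Step T X) h h' ∧ ∀ t ∈ T, B < h' t

theorem step_zero {T : Set S} {X : Pre M} (hX : X ∈ N.Ob) {s : S} (hs : s ∈ T) (hl : 0 < X.2 s) :
    ∃ h, Step T X 0 h ∧ 0 < h s := by
  classical
  refine ⟨Function.update 0 s (X.2 s / 4), ⟨s, hs, X.2 s / 4, ?_, ?_, ?_⟩, ?_⟩
  · simp only [Pi.zero_apply]; positivity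
  · congr!
  · intro u hu
    by_cases hus : u = s
    · subst hus
      refine ⟨by simp only [Function.update_self]; positivity, fun _ => ?_⟩
      have h1 : ∀ v, C M u v * ext T (Function.update 0 u (X.2 u / 4)) (fun u => X.1 u 1) v
          ≤ if v = u then X.2 u / 2 else 0 := by
        intro v
        by_cases hv : v = u
        · subst hv
          rw [ext_mem hu, C_self]
          simp only [Function.update_self, if_true]
          linarith
        · rw [if_neg hv]
          by_cases hvT : v ∈ T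
          · rw [ext_mem hvT, Function.update_of_ne hv]
            simp
          · rw [ext_not hvT]
            exact mul_nonpos_of_nonpos_of_nonneg (C_nonpos M (Ne.symm hv)) (N.d_nonneg X hX _ _)
      have h2 := Finset.sum_le_sum (fun v (_ : v ∈ Finset.univ) => h1 v)
      rw [Finset.sum_ite_eq' Finset.univ u, if_pos (Finset.mem_univ u)] at h2
      unfold slk
      linarith
    · refine ⟨by simp [Function.update_of_ne hus], fun h => ?_⟩
      simp [Function.update_of_ne hus] at h
  · simp only [Function.update_self]; positivity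

/-- the connected non spherical case of the intersection theorem -/
theorem int_conn {T : Set S} (hUT : UT N T) (hU : ∀ t ∈ T, UT N (T \ {t})) (hR : Reach N T)
    (hI : ∀ t ∈ T, IntT M (T \ {t})) : IntT M T := by
  intro X hX Y hY g hg
  by_cases hXT : X = T
  · refine ⟨g, hXT ▸ hg, Y, hXT ▸ hY, fun x => ?_⟩
    subst hXT
    constructor
    · rintro ⟨_, h⟩; exact h
    · intro h
      refine ⟨?_, h⟩
      have h1 := A_mono M hY h
      have h2 : x = g * (g⁻¹ * x * g) * g⁻¹ := by group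
      rw [h2]
      exact (A M X).mul_mem ((A M X).mul_mem hg h1) ((A M X).inv_mem hg)
  by_cases hYT : Y = T
  · refine ⟨1, (A M X).one_mem, X, subset_rfl, fun x => ?_⟩
    rw [inv_one, one_mul, mul_one]
    constructor
    · rintro ⟨h, _⟩; exact h
    · intro h
      refine ⟨h, ?_⟩
      rw [hYT]
      exact (A M T).mul_mem ((A M T).mul_mem ((A M T).inv_mem hg) (A_mono M hX h)) hg
  obtain ⟨s, hsT, hsX⟩ : ∃ s ∈ T, s ∉ X := by
    by_contra hcon
    push Not at hcon
    exact hXT (Set.Subset.antisymm hX hcon)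
  obtain ⟨t₀, htT, htY⟩ : ∃ s ∈ T, s ∉ Y := by
    by_contra hcon
    push Not at hcon
    exact hYT (Set.Subset.antisymm hY hcon)
  have hX' : X ⊆ T \ {s} := fun x hx => ⟨hX hx, fun h => hsX (h ▸ hx)⟩
  have hY' : Y ⊆ T \ {t₀} := fun x hx => ⟨hY hx, fun h => htY (h ▸ hx)⟩
  obtain ⟨E, hE, hEg, hlam⟩ := N.single s
  set K : Subgroup (ArtinGroup M) :=
    A M (T \ {s}) ⊓ (A M Y).comap (MulAut.conj g⁻¹).toMonoidHom with hKdef
  have hKmem : ∀ k, k ∈ K ↔ k ∈ A M (T \ {s}) ∧ g⁻¹ * k * g ∈ A M Y := by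
    intro k
    rw [hKdef, Subgroup.mem_inf, Subgroup.mem_comap]
    simp
  have hKinv : Inv K E := by
    intro k hk s' x
    rw [hEg, hEg]
    exact N.g_left s s' x k (A_diff_compl M s ((hKmem k).1 hk).1)
  have hp : (t₀, g) ∈ Fx T K := fun k hk => A_mono M hY' ((hKmem k).1 hk).2
  have hq : (s, (1 : ArtinGroup M)) ∈ Fx T K := by
    intro k hk
    simpa using ((hKmem k).1 hk).1
  obtain ⟨h0, hst, hpos⟩ := step_zero N hE hsT hlam
  have hcls0 : Cls T E h0 := by
    obtain ⟨_, _, _, _, _, h⟩ := hst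
    exact h
  obtain ⟨h', hch, hB⟩ := hR E hE h0 hcls0 ⟨s, hsT, hpos⟩ (max (E.1 t₀ g) (E.1 s 1))
  have hj := fixed_conn N hUT hU hE hKinv (Relation.ReflTransGen.head hst hch) (t₀, g)
    ⟨⟨htT, hg, lt_of_le_of_lt (le_max_left _ _) (hB t₀ htT)⟩, hp⟩ (s, 1)
    ⟨⟨hsT, (A M T).one_mem, lt_of_le_of_lt (le_max_right _ _) (hB s hsT)⟩, hq⟩
  have key : ∀ z, Num_774.Joined T (U T E h' ∩ Fx T K) (t₀, g) z →
      ∃ a ∈ A M (T \ {z.1}), ∃ Z ⊆ T \ {z.1}, (∀ k ∈ K, a⁻¹ * (z.2⁻¹ * k * z.2) * a ∈ A M Z) ∧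
        (∀ k, a⁻¹ * (z.2⁻¹ * k * z.2) * a ∈ A M Z → g⁻¹ * k * g ∈ A M Y) := by
    intro z hz
    induction hz with
    | refl =>
      refine ⟨1, (A M _).one_mem, Y, hY', ?_, ?_⟩
      · intro k hk
        simpa using ((hKmem k).1 hk).2
      · intro k hk
        simpa using hk
    | @tail y z _ hyz ih =>
      obtain ⟨a, ha, Z, hZ, h1, h2⟩ := ih
      obtain ⟨⟨hyU, hyF⟩, ⟨hzU, hzF⟩, hadj⟩ := hyz
      have same : y.1 = z.1 → y.2⁻¹ * z.2 ∈ A M (T \ {y.1}) →
          ∃ a ∈ A M (T \ {z.1}), ∃ Z ⊆ T \ {z.1},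
            (∀ k ∈ K, a⁻¹ * (z.2⁻¹ * k * z.2) * a ∈ A M Z) ∧
            (∀ k, a⁻¹ * (z.2⁻¹ * k * z.2) * a ∈ A M Z → g⁻¹ * k * g ∈ A M Y) := by
        intro h3 h4
        have h5 : ∀ k, ((y.2⁻¹ * z.2)⁻¹ * a)⁻¹ * (z.2⁻¹ * k * z.2) * ((y.2⁻¹ * z.2)⁻¹ * a)
            = a⁻¹ * (y.2⁻¹ * k * y.2) * a := fun k => by group
        refine ⟨(y.2⁻¹ * z.2)⁻¹ * a, ?_, Z, h3 ▸ hZ, ?_, ?_⟩
        · rw [← h3]
          exact (A M _).mul_mem ((A M _).inv_mem h4) ha
        · intro k hk; rw [h5]; exact h1 k hk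
        · intro k hk; rw [h5] at hk; exact h2 k hk
      rcases hadj with ⟨h3, h4⟩ | h3
      · exact same h3 h4
      · by_cases h4 : y.1 = z.1
        · apply same h4
          rw [h3]; simp
        · have hW : (T \ {y.1}) \ {z.1} ⊆ T \ {y.1} := Set.sdiff_subset
          have hW' : (T \ {y.1}) \ {z.1} ⊆ T \ {z.1} := fun x hx => ⟨hx.1.1, hx.2⟩
          obtain ⟨b, hb, Z', hZ', hI'⟩ := hI y.1 hyU.1 _ hW Z hZ a ha
          refine ⟨b, A_mono M hW' hb, Z', hZ'.trans hW', ?_, ?_⟩
          · intro k hk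
            rw [← hI' (z.2⁻¹ * k * z.2)]
            have h5 := h1 k hk
            rw [h3] at h5
            refine ⟨?_, h5⟩
            have h6 : z.2⁻¹ * k * z.2 ∈ A M (T \ {y.1}) := by
              have h7 : z.2⁻¹ * k * z.2 = a * (a⁻¹ * (z.2⁻¹ * k * z.2) * a) * a⁻¹ := by group
              rw [h7]
              exact (A M _).mul_mem ((A M _).mul_mem ha (A_mono M hZ h5)) ((A M _).inv_mem ha)
            have h8 : z.2⁻¹ * k * z.2 ∈ A M (T \ {z.1}) := hzF k hk
            have h9 : z.2⁻¹ * k * z.2 ∈ A M (T \ {y.1}) ⊓ A M (T \ {z.1}) := ⟨h6, h8⟩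
            rw [VdL_527.std_inf] at h9
            exact A_mono M (fun x hx => ⟨hx.1, hx.2.2⟩ :
              (T \ {y.1}) ∩ (T \ {z.1}) ⊆ (T \ {y.1}) \ {z.1}) h9
          · intro k hk
            have h5 := ((hI' (z.2⁻¹ * k * z.2)).2 hk).2
            rw [← h3] at h5
            exact h2 k h5
  obtain ⟨a, ha, Z, hZ, h1, h2⟩ := key _ hj
  obtain ⟨b, hb, Z', hZ', hI'⟩ := hI s hsT X hX' Z hZ a ha
  refine ⟨b, hb, Z', hZ', fun x => ?_⟩
  rw [← hI' x]
  simp only [inv_one, one_mul, mul_one] at h1 h2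
  constructor
  · rintro ⟨h3, h4⟩
    exact ⟨h3, h1 x ((hKmem x).2 ⟨A_mono M hX' h3, h4⟩)⟩
  · rintro ⟨h3, h4⟩
    exact ⟨h3, h2 x h4⟩

end Crest.Agent.R175.Top5_774
end

-- ▼ part R175/TopI_774
section

/-!
Row 175 (S0263): the induction of #2667: (U_T) for all `T`, growth of chains, spherical intersection
theorem ⇒ the intersection theorem for every Artin group.
-/

set_option autoImplicit false
set_option linter.unusedSectionVars false

namespace Crest.Agent.R175.TopI_774

open Crest.GroupTheory Crest.Agent.R175.Num_774 Crest.Agent.R175.Top5_774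

universe u

section Comm

variable {S : Type u} {M : CoxeterMatrix S}

theorem gen_comm {s t : S} (h : M s t = 2) : Commute (artinGen M s) (artinGen M t) := by
  have h1 : artinAltWord s t (M.M s t) * (artinAltWord t s (M.M s t))⁻¹ ∈ artinRelators M :=
    ⟨(s, t), rfl⟩
  have h2 : (PresentedGroup.mk (artinRelators M)
      (artinAltWord s t (M.M s t) * (artinAltWord t s (M.M s t))⁻¹)) = 1 :=
    PresentedGroup.one_of_mem h1
  have h3 : M.M s t = 2 := h
  rw [h3, map_mul, map_inv, mul_inv_eq_one] at h2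
  simp only [artinAltWord, map_mul, map_one, mul_one] at h2
  exact h2

theorem comm_of {P Q : Set S} (h : ∀ s ∈ P, ∀ t ∈ Q, M s t = 2) {x y : ArtinGroup M}
    (hx : x ∈ A M P) (hy : y ∈ A M Q) : Commute x y := by
  have h1 : A M P ≤ Subgroup.centralizer (A M Q : Set (ArtinGroup M)) := by
    apply (Subgroup.closure_le _).2
    rintro _ ⟨s, hs, rfl⟩
    rw [SetLike.mem_coe, Subgroup.mem_centralizer_iff]
    intro z hz
    have h2 : A M Q ≤ Subgroup.centralizer {artinGen M s} := by
      apply (Subgroup.closure_le _).2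
      rintro _ ⟨t, ht, rfl⟩
      rw [SetLike.mem_coe, Subgroup.mem_centralizer_iff]
      intro w hw
      rw [Set.mem_singleton_iff] at hw
      subst hw
      exact gen_comm (h s hs t ht)
    have h3 := (Subgroup.mem_centralizer_iff.1 (h2 hz)) (artinGen M s) rfl
    exact h3.symm
  exact ((Subgroup.mem_centralizer_iff.1 (h1 hx)) y hy).symm

/-- elements of `A_X` are products -/
theorem split {P Q X : Set S} (h : ∀ s ∈ P, ∀ t ∈ Q, M s t = 2) (hX : X ⊆ P ∪ Q)
    {x : ArtinGroup M} (hx : x ∈ A M X) :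
    ∃ x1 ∈ A M (X ∩ P), ∃ x2 ∈ A M (X ∩ Q), x = x1 * x2 := by
  unfold A stdParabolic at hx
  induction hx using Subgroup.closure_induction with
  | mem x hx =>
    obtain ⟨s, hs, rfl⟩ := hx
    rcases hX hs with h1 | h1
    · exact ⟨artinGen M s, gen_mem M ⟨hs, h1⟩, 1, (A M _).one_mem, (mul_one _).symm⟩
    · exact ⟨1, (A M _).one_mem, artinGen M s, gen_mem M ⟨hs, h1⟩, (one_mul _).symm⟩
  | one => exact ⟨1, (A M _).one_mem, 1, (A M _).one_mem, (mul_one _).symm⟩
  | mul x y _ _ hx hy =>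
    obtain ⟨x1, hx1, x2, hx2, rfl⟩ := hx
    obtain ⟨y1, hy1, y2, hy2, rfl⟩ := hy
    refine ⟨x1 * y1, (A M _).mul_mem hx1 hy1, x2 * y2, (A M _).mul_mem hx2 hy2, ?_⟩
    have hc : Commute y1 x2 := comm_of h (A_mono M Set.inter_subset_right hy1)
      (A_mono M Set.inter_subset_right hx2)
    calc x1 * x2 * (y1 * y2) = x1 * (x2 * y1) * y2 := by group
      _ = x1 * (y1 * x2) * y2 := by rw [hc.eq]
      _ = _ := by group
  | inv x _ hx =>
    obtain ⟨x1, hx1, x2, hx2, rfl⟩ := hx
    refine ⟨x1⁻¹, (A M _).inv_mem hx1, x2⁻¹, (A M _).inv_mem hx2, ?_⟩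
    have hc : Commute x1 x2 := comm_of h (A_mono M Set.inter_subset_right hx1)
      (A_mono M Set.inter_subset_right hx2)
    rw [hc.eq, mul_inv_rev]

theorem uniq {P Q : Set S} (hPQ : Disjoint P Q) {x1 y1 x2 y2 : ArtinGroup M}
    (hx1 : x1 ∈ A M P) (hy1 : y1 ∈ A M P) (hx2 : x2 ∈ A M Q) (hy2 : y2 ∈ A M Q)
    (h : x1 * x2 = y1 * y2) : x1 = y1 ∧ x2 = y2 := by
  have h1 : y1⁻¹ * x1 = y2 * x2⁻¹ := by
    have : y1⁻¹ * (x1 * x2) * x2⁻¹ = y1⁻¹ * (y1 * y2) * x2⁻¹ := by rw [h]
    simpa [mul_assoc] using this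
  have h2 : y1⁻¹ * x1 ∈ A M P ⊓ A M Q :=
    ⟨(A M P).mul_mem ((A M P).inv_mem hy1) hx1, h1 ▸ (A M Q).mul_mem hy2 ((A M Q).inv_mem hx2)⟩
  rw [VdL_527.std_inf, Set.disjoint_iff_inter_eq_empty.1 hPQ] at h2
  have h3 : y1⁻¹ * x1 = 1 := by
    have h4 : stdParabolic M (∅ : Set S) = ⊥ := by simp [stdParabolic]
    rw [h4] at h2
    exact Subgroup.mem_bot.1 h2
  constructor
  · exact (inv_mul_eq_one.1 h3).symm
  · rw [h3] at h1
    exact (mul_inv_eq_one.1 h1.symm).symm

/-- membership in a standard subgroup of a product -/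
theorem mem_split {P Q X : Set S} (h : ∀ s ∈ P, ∀ t ∈ Q, M s t = 2) (hPQ : Disjoint P Q)
    (hX : X ⊆ P ∪ Q) {x1 x2 : ArtinGroup M} (h1 : x1 ∈ A M P) (h2 : x2 ∈ A M Q) :
    x1 * x2 ∈ A M X ↔ x1 ∈ A M (X ∩ P) ∧ x2 ∈ A M (X ∩ Q) := by
  constructor
  · intro hx
    obtain ⟨y1, hy1, y2, hy2, he⟩ := split h hX hx
    obtain ⟨h3, h4⟩ := uniq hPQ h1 (A_mono M Set.inter_subset_right hy1) h2
      (A_mono M Set.inter_subset_right hy2) he
    exact ⟨h3 ▸ hy1, h4 ▸ hy2⟩
  · rintro ⟨h3, h4⟩
    exact (A M X).mul_mem (A_mono M Set.inter_subset_left h3) (A_mono M Set.inter_subset_left h4)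

end Comm

section Main

variable {S : Type u} [Fintype S] {M : CoxeterMatrix S}

/-- products -/
theorem int_prod {P Q : Set S} (h : ∀ s ∈ P, ∀ t ∈ Q, M s t = 2) (hPQ : Disjoint P Q)
    (hP : IntT M P) (hQ : IntT M Q) : IntT M (P ∪ Q) := by
  intro X hX Y hY g hg
  obtain ⟨g1, hg1', g2, hg2', rfl⟩ := split h subset_rfl hg
  have hg1 : g1 ∈ A M P := A_mono M Set.inter_subset_right hg1'
  have hg2 : g2 ∈ A M Q := A_mono M Set.inter_subset_right hg2'
  obtain ⟨a1, ha1, Z1, hZ1, H1⟩ := hP (X ∩ P) Set.inter_subset_right (Y ∩ P)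
    Set.inter_subset_right g1 hg1
  obtain ⟨a2, ha2, Z2, hZ2, H2⟩ := hQ (X ∩ Q) Set.inter_subset_right (Y ∩ Q)
    Set.inter_subset_right g2 hg2
  have hZ : Z1 ∪ Z2 ⊆ X := by
    rintro x (hx | hx)
    · exact (hZ1 hx).1
    · exact (hZ2 hx).1
  have haX : a1 * a2 ∈ A M X :=
    (A M X).mul_mem (A_mono M Set.inter_subset_left ha1) (A_mono M Set.inter_subset_left ha2)
  refine ⟨a1 * a2, haX, Z1 ∪ Z2, hZ, fun x => ?_⟩
  have hconj : ∀ x1 ∈ A M P, ∀ x2 ∈ A M Q, ∀ b1 ∈ A M P, ∀ b2 ∈ A M Q,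
      (b1 * b2)⁻¹ * (x1 * x2) * (b1 * b2) = (b1⁻¹ * x1 * b1) * (b2⁻¹ * x2 * b2) := by
    intro x1 hx1 x2 hx2 b1 hb1 b2 hb2
    have c1 : Commute b1 b2 := comm_of h hb1 hb2
    have c2 : Commute x1 b2 := comm_of h hx1 hb2
    have c3 : Commute b1 x2 := comm_of h hb1 hx2
    calc (b1 * b2)⁻¹ * (x1 * x2) * (b1 * b2) = b2⁻¹ * (b1⁻¹ * x1) * (x2 * b1) * b2 := by group
      _ = b2⁻¹ * (b1⁻¹ * x1) * (b1 * x2) * b2 := by rw [c3.eq]
      _ = b2⁻¹ * (b1⁻¹ * x1 * b1) * (x2 * b2) := by group
      _ = (b1⁻¹ * x1 * b1) * b2⁻¹ * (x2 * b2) := by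
          have c4 : Commute (b2⁻¹) (b1⁻¹ * x1 * b1) :=
            ((c1.symm.inv_left.inv_right).mul_right c2.symm.inv_left).mul_right c1.symm.inv_left
          rw [c4.eq]
      _ = _ := by group
  have hP1 : (Z1 ∪ Z2) ∩ P = Z1 := by
    ext z
    constructor
    · rintro ⟨h1 | h1, h2⟩
      · exact h1
      · exact absurd (hZ2 h1).2 (Set.disjoint_left.1 hPQ h2)
    · intro h1
      exact ⟨Or.inl h1, (hZ1 h1).2⟩
  have hQ1 : (Z1 ∪ Z2) ∩ Q = Z2 := by
    ext z
    constructor
    · rintro ⟨h1 | h1, h2⟩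
      · exact absurd h2 (Set.disjoint_left.1 hPQ (hZ1 h1).2)
      · exact h1
    · intro h1
      exact ⟨Or.inr h1, (hZ2 h1).2⟩
  have cj : ∀ {T : Set S} {b y : ArtinGroup M}, b ∈ A M T → y ∈ A M T → b⁻¹ * y * b ∈ A M T :=
    fun {T b y} hb hy => (A M T).mul_mem ((A M T).mul_mem ((A M T).inv_mem hb) hy) hb
  have ha1P : a1 ∈ A M P := A_mono M Set.inter_subset_right ha1
  have ha2Q : a2 ∈ A M Q := A_mono M Set.inter_subset_right ha2
  have main : ∀ x1 ∈ A M P, ∀ x2 ∈ A M Q,
      ((x1 * x2 ∈ A M X ∧ (g1 * g2)⁻¹ * (x1 * x2) * (g1 * g2) ∈ A M Y) ↔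
        (a1 * a2)⁻¹ * (x1 * x2) * (a1 * a2) ∈ A M (Z1 ∪ Z2)) := by
    intro x1 hx1 x2 hx2
    rw [hconj x1 hx1 x2 hx2 g1 hg1 g2 hg2, hconj x1 hx1 x2 hx2 a1 ha1P a2 ha2Q,
      mem_split h hPQ hX hx1 hx2, mem_split h hPQ hY (cj hg1 hx1) (cj hg2 hx2),
      mem_split h hPQ (hZ.trans hX) (cj ha1P hx1) (cj ha2Q hx2), hP1, hQ1, ← H1 x1, ← H2 x2]
    tauto
  constructor
  · rintro ⟨h1, h2⟩
    obtain ⟨x1, hx1, x2, hx2, rfl⟩ := split h hX h1
    exact (main x1 (A_mono M Set.inter_subset_right hx1) x2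
      (A_mono M Set.inter_subset_right hx2)).1 ⟨h1, h2⟩
  · intro h1
    have h2 : x ∈ A M X := by
      have h3 : x = (a1 * a2) * ((a1 * a2)⁻¹ * x * (a1 * a2)) * (a1 * a2)⁻¹ := by group
      rw [h3]
      exact (A M X).mul_mem ((A M X).mul_mem haX (A_mono M hZ h1)) ((A M X).inv_mem haX)
    obtain ⟨x1, hx1, x2, hx2, rfl⟩ := split h hX h2
    exact (main x1 (A_mono M Set.inter_subset_right hx1) x2
      (A_mono M Set.inter_subset_right hx2)).2 h1

/-- **the intersection theorem** for all `T` -/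
theorem int_all (N : Num M) (hS : ∀ T : Set S, PD M T → IntT M T) (hUT : ∀ T, UT N T)
    (hR : ∀ T : Set S, Connd M T → T.Nonempty → ¬ PD M T → Reach N T) (T : Set S) :
    IntT M T := by
  induction hn : T.ncard using Nat.strong_induction_on generalizing T with
  | _ n ih =>
    subst hn
    by_cases hPD : PD M T
    · exact hS T hPD
    by_cases hc : Connd M T
    · have hne : T.Nonempty := by
        by_contra hne
        rw [Set.not_nonempty_iff_eq_empty] at hne
        subst hne
        exact hPD (fun x hx hx' => absurd (funext fun s => hx s (Set.notMem_empty s)) hx')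
      exact int_conn N (hUT T) (fun t _ => hUT _) (hR T hc hne hPD)
        (fun t ht => ih _ (Set.ncard_sdiff_singleton_lt_of_mem ht (Set.toFinite T)) _ rfl)
    · unfold Connd at hc
      push Not at hc
      obtain ⟨P, hPT, hPne, hPT', hP⟩ := hc
      have hU : P ∪ (T \ P) = T := Set.union_sdiff_cancel hPT
      rw [← hU]
      have hlt : P.ncard < T.ncard :=
        Set.ncard_lt_ncard (lt_of_le_of_ne hPT hPT') (Set.toFinite T)
      have hlt' : (T \ P).ncard < T.ncard := by
        apply Set.ncard_lt_ncard _ (Set.toFinite T)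
        refine ⟨Set.sdiff_subset, fun h => ?_⟩
        obtain ⟨p, hp⟩ := hPne
        exact (h (hPT hp)).2 hp
      apply int_prod _ Set.disjoint_sdiff_right (ih _ hlt P rfl) (ih _ hlt' _ rfl)
      intro s hs t ht
      exact C_eq_zero M (fun h => ht.2 (h ▸ hs)) (hP s hs t ht)

end Main

end Crest.Agent.R175.TopI_774
end

-- ▼ part R175/TopF_774
section

/-!
Row 175 (S0263): the spherical case is transported from the finite Coxeter groups (D2), and the
statement about parabolic subgroups.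
-/

set_option autoImplicit false
set_option linter.unusedSectionVars false

namespace Crest.Agent.R175.TopF_774

open Crest.GroupTheory Crest.Agent.R175.Num_774 Crest.Agent.R175.Top5_774
  Crest.Agent.R175.TopI_774 Crest.Agent.R175.VdL_527

universe u

/-- the spherical intersection theorem -/
def D2 : Prop :=
  ∀ (S : Type u) [Finite S] (M : CoxeterMatrix S), Finite M.Group → ∀ (X Y : Set S)
    (g : ArtinGroup M), ∃ h ∈ stdParabolic M X, ∃ Z ⊆ X,
      ∀ x, (x ∈ stdParabolic M X ∧ g⁻¹ * x * g ∈ stdParabolic M Y) ↔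
        h⁻¹ * x * h ∈ stdParabolic M Z

variable {S : Type u} [Fintype S] {M : CoxeterMatrix S}

theorem sum_ext (T : Set S) [Fintype T] (F : S → ℝ) (hF : ∀ s, s ∉ T → F s = 0) :
    ∑ s, F s = ∑ s : T, F s := by
  classical
  rw [← Finset.sum_subtype (Finset.univ.filter (· ∈ T)) (by simp) F]
  symm
  apply Finset.sum_subset (Finset.subset_univ _)
  intro s _ hs
  apply hF
  simpa using hs

theorem finite_of_PD {T : Set S} (h : PD M T) : Finite (res M T).Group := by
  classical
  haveI : Fintype T := Fintype.ofFinite T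
  apply Pos_418.finite_group_of_posDef
  intro x hx
  let y : S → ℝ := fun s => if hs : s ∈ T then x ⟨s, hs⟩ else 0
  have hy : ∀ s : T, y s = x s := by
    intro s
    simp [y]
  have hy0 : ∀ s, s ∉ T → y s = 0 := by
    intro s hs
    simp [y, hs]
  have hne : y ≠ 0 := by
    intro h0
    apply hx
    funext s
    rw [← hy s, h0]
    rfl
  have h1 := h y hy0 hne
  rw [sum_ext T _ (fun s hs => by simp [hy0 s hs])] at h1
  have h2 : ∑ s : T, ∑ t, C M s t * y s * y t
      = 2 * ∑ s : T, ∑ t : T, x s * x t * (-Real.cos (Real.pi / (res M T s t : ℝ))) := by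
    rw [Finset.mul_sum]
    apply Finset.sum_congr rfl
    intro s _
    rw [sum_ext T _ (fun t ht => by simp [hy0 t ht]), Finset.mul_sum]
    apply Finset.sum_congr rfl
    intro t _
    rw [hy, hy, C, res_apply]
    ring
  rw [h2] at h1
  linarith

theorem mem_incl {T X : Set S} (hX : X ⊆ T) (y : ArtinGroup (res M T)) :
    incl M T y ∈ A M X ↔ y ∈ stdParabolic (res M T) {x | (x : S) ∈ X} := by
  have h1 : A M X = (stdParabolic (res M T) {x : T | (x : S) ∈ X}).map (incl M T) := by
    rw [map_incl_std]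
    congr 1
    ext s
    constructor
    · intro hs
      exact ⟨⟨s, hX hs⟩, hs, rfl⟩
    · rintro ⟨s, hs, rfl⟩
      exact hs
  rw [h1]
  constructor
  · rintro ⟨z, hz, he⟩
    rw [← incl_injective M T he]
    exact hz
  · intro h
    exact ⟨y, h, rfl⟩

theorem int_of_D2 (hD : D2.{u}) {T : Set S} (h : PD M T) : IntT M T := by
  intro X hX Y hY g hg
  have hg' : g ∈ (incl M T).range := by rw [range_incl]; exact hg
  obtain ⟨g', rfl⟩ := hg'
  obtain ⟨a, ha, Z, hZ, H⟩ := hD T (res M T) (finite_of_PD h) {x | (x : S) ∈ X}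
    {x | (x : S) ∈ Y} g'
  have hZX : Subtype.val '' Z ⊆ X := by
    rintro _ ⟨z, hz, rfl⟩
    exact hZ hz
  have hZ' : {x : T | (x : S) ∈ (Subtype.val '' Z : Set S)} = Z := by
    ext x
    constructor
    · rintro ⟨z, hz, he⟩
      rwa [← Subtype.ext he]
    · intro hx
      exact ⟨x, hx, rfl⟩
  refine ⟨incl M T a, (mem_incl hX a).2 ha, Subtype.val '' Z, hZX, fun x => ?_⟩
  have main : ∀ y : ArtinGroup (res M T),
      (incl M T y ∈ A M X ∧ (incl M T g')⁻¹ * incl M T y * incl M T g' ∈ A M Y) ↔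
        (incl M T a)⁻¹ * incl M T y * incl M T a ∈ A M (Subtype.val '' Z) := by
    intro y
    rw [← map_inv, ← map_mul, ← map_mul, ← map_inv, ← map_mul, ← map_mul, mem_incl hX,
      mem_incl hY, mem_incl (hZX.trans hX), hZ', ← H y]
  have hr : ∀ z, z ∈ A M T → ∃ y, incl M T y = z := by
    intro z hz
    have : z ∈ (incl M T).range := by rw [range_incl]; exact hz
    exact this
  constructor
  · rintro ⟨h1, h2⟩
    obtain ⟨y, rfl⟩ := hr x (A_mono M hX h1)
    exact (main y).1 ⟨h1, h2⟩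
  · intro h1
    have h2 : (incl M T a)⁻¹ * x * incl M T a ∈ A M T := A_mono M (hZX.trans hX) h1
    obtain ⟨z, hz⟩ := hr _ h2
    have h3 : x = incl M T (a * z * a⁻¹) := by
      rw [map_mul, map_mul, map_inv, hz]
      group
    rw [h3] at h1 ⊢
    exact (main _).2 h1

/-- the intersection theorem in terms of parabolic subgroups -/
theorem par_of_int (h : IntT M Set.univ) {P Q : Subgroup (ArtinGroup M)} (hP : IsParabolic M P)
    (hQ : IsParabolic M Q) : IsParabolic M (P ⊓ Q) := by
  obtain ⟨X, p, rfl⟩ := hP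
  obtain ⟨Y, q, rfl⟩ := hQ
  have huniv : ∀ z : ArtinGroup M, z ∈ A M Set.univ := by
    intro z
    have h1 : (⊤ : Subgroup (ArtinGroup M)) = Subgroup.closure (Set.range (artinGen M)) := by
      have : Set.range (artinGen M) =
        Set.range (PresentedGroup.of (rels := artinRelators M)) := rfl
      rw [this, PresentedGroup.closure_range_of]
    unfold A stdParabolic
    rw [Set.image_univ, ← h1]
    exact Subgroup.mem_top z
  obtain ⟨a, ha, Z, hZ, H⟩ := h X (Set.subset_univ _) Y (Set.subset_univ _) (p⁻¹ * q) (huniv _)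
  refine ⟨Z, p * a, ?_⟩
  have hm : ∀ (X : Set S) (p x : ArtinGroup M),
      x ∈ (stdParabolic M X).map (MulAut.conj p).toMonoidHom ↔ p⁻¹ * x * p ∈ A M X := by
    intro X p x
    constructor
    · rintro ⟨y, hy, rfl⟩
      simpa [mul_assoc] using hy
    · intro hx
      exact ⟨_, hx, by simp [mul_assoc]⟩
  ext x
  rw [Subgroup.mem_inf, hm, hm, hm]
  have h1 := H (p⁻¹ * x * p)
  have h2 : (p⁻¹ * q)⁻¹ * (p⁻¹ * x * p) * (p⁻¹ * q) = q⁻¹ * x * q := by group
  have h3 : a⁻¹ * (p⁻¹ * x * p) * a = (p * a)⁻¹ * x * (p * a) := by group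
  rw [h2, h3] at h1
  exact h1

/-- **TOP**: numbers and the spherical theorem give the result -/
theorem top (N : Num M) (hD : D2.{u}) (hUT : ∀ T, UT N T)
    (hR : ∀ T : Set S, Connd M T → T.Nonempty → ¬ PD M T → Reach N T)
    {P Q : Subgroup (ArtinGroup M)} (hP : IsParabolic M P) (hQ : IsParabolic M Q) :
    IsParabolic M (P ⊓ Q) :=
  par_of_int (int_all N (fun _ h => int_of_D2 hD h) hUT hR Set.univ) hP hQ

end Crest.Agent.R175.TopF_774
end

-- ▼ part R175/D2_774
section

/-!
Row 175 (S0263): the spherical intersection theorem (helper145) in the form used by `TopF_774`.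
-/

set_option autoImplicit false

namespace Crest.Agent.R175.D2_774

open Crest.GroupTheory Crest.Agent.R175.Num_774 Crest.Agent.R175.TopF_774

universe u

theorem d2 : D2.{u} := by
  intro S _ M hM X Y g
  obtain ⟨h, hh, Z, hZ, he⟩ := GSph_145.relInt_of_finite M X Y g
  refine ⟨h, hh, Z, hZ, fun x => ?_⟩
  have h1 : x ∈ stdParabolic M X ⊓ DDef_145.cj g (stdParabolic M Y) ↔
      x ∈ DDef_145.cj h (stdParabolic M Z) := by rw [he]
  rw [Subgroup.mem_inf, DDef_145.mem_cj, DDef_145.mem_cj] at h1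
  exact h1


end Crest.Agent.R175.D2_774
end

-- ▼ part R175/Tr_921
section

/-!
Row 175, S0263: transport along a bijection of the index type (helper921, task 487).

`artinEquiv e M : ArtinGroup M ≃* ArtinGroup (M.reindex e)`, `isParabolic_reindex`, and
`s0263_of_fin`: the statement for `S = Fin n` implies the literal statement for every finite `S : Type*`.
-/

set_option autoImplicit false

namespace Crest.Agent.R175.Tr_921

open Crest.GroupTheory

section altword

variable {S S2 : Type*}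

theorem map_altWord (f : S → S2) (s t : S) (m : ℕ) :
    FreeGroup.map f (artinAltWord s t m) = artinAltWord (f s) (f t) m := by
  induction m generalizing s t with
  | zero => simp [artinAltWord]
  | succ m ih => simp [artinAltWord, ih]

end altword

section hom

variable {S S2 S3 : Type*}

/-- A map of index types which preserves all labels induces a homomorphism of Artin groups. -/
noncomputable def homOf (M : CoxeterMatrix S) (M2 : CoxeterMatrix S2) (f : S → S2)
    (h : ∀ s t, M2.M (f s) (f t) = M.M s t) : ArtinGroup M →* ArtinGroup M2 :=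
  PresentedGroup.toGroup (f := fun s => artinGen M2 (f s)) (by
    rintro r ⟨⟨s, t⟩, rfl⟩
    have hlift : (FreeGroup.lift fun s => artinGen M2 (f s)) =
        (PresentedGroup.mk (artinRelators M2)).comp (FreeGroup.map f) := by
      ext s
      simp only [FreeGroup.lift_apply_of, MonoidHom.comp_apply, FreeGroup.map.of]
      rfl
    rw [hlift, MonoidHom.comp_apply, map_mul, map_inv, map_altWord, map_altWord]
    apply PresentedGroup.one_of_mem
    refine ⟨(f s, f t), ?_⟩
    simp only [h])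

@[simp] theorem homOf_gen (M : CoxeterMatrix S) (M2 : CoxeterMatrix S2) (f : S → S2)
    (h : ∀ s t, M2.M (f s) (f t) = M.M s t) (s : S) :
    homOf M M2 f h (artinGen M s) = artinGen M2 (f s) := by
  unfold homOf artinGen
  exact PresentedGroup.toGroup.of _

theorem hom_ext {G : Type*} [Group G] {M : CoxeterMatrix S} {φ ψ : ArtinGroup M →* G}
    (h : ∀ s, φ (artinGen M s) = ψ (artinGen M s)) : φ = ψ :=
  PresentedGroup.ext h

end hom

section equiv

variable {S S2 : Type*}

theorem lab_fwd (e : S ≃ S2) (M : CoxeterMatrix S) (s t : S) :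
    (M.reindex e).M (e s) (e t) = M.M s t := by
  change M.M (e.symm (e s)) (e.symm (e t)) = M.M s t
  rw [Equiv.symm_apply_apply, Equiv.symm_apply_apply]

theorem lab_bwd (e : S ≃ S2) (M : CoxeterMatrix S) (s t : S2) :
    M.M (e.symm s) (e.symm t) = (M.reindex e).M s t := rfl

/-- The homomorphism `ArtinGroup M → ArtinGroup (M.reindex e)`. -/
noncomputable def fwd (e : S ≃ S2) (M : CoxeterMatrix S) : ArtinGroup M →* ArtinGroup (M.reindex e) :=
  homOf M (M.reindex e) e (lab_fwd e M)

/-- The homomorphism `ArtinGroup (M.reindex e) → ArtinGroup M`. -/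
noncomputable def bwd (e : S ≃ S2) (M : CoxeterMatrix S) : ArtinGroup (M.reindex e) →* ArtinGroup M :=
  homOf (M.reindex e) M e.symm (lab_bwd e M)

@[simp] theorem fwd_gen (e : S ≃ S2) (M : CoxeterMatrix S) (s : S) :
    fwd e M (artinGen M s) = artinGen (M.reindex e) (e s) := homOf_gen _ _ _ _ _

@[simp] theorem bwd_gen (e : S ≃ S2) (M : CoxeterMatrix S) (s : S2) :
    bwd e M (artinGen (M.reindex e) s) = artinGen M (e.symm s) := homOf_gen _ _ _ _ _

/-- A bijection of index types induces an isomorphism of Artin groups. -/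
noncomputable def artinEquiv (e : S ≃ S2) (M : CoxeterMatrix S) :
    ArtinGroup M ≃* ArtinGroup (M.reindex e) :=
  MonoidHom.toMulEquiv (fwd e M) (bwd e M)
    (hom_ext (fun s => by
      rw [MonoidHom.comp_apply, fwd_gen, bwd_gen, Equiv.symm_apply_apply, MonoidHom.id_apply]))
    (hom_ext (fun s => by
      rw [MonoidHom.comp_apply, bwd_gen, fwd_gen, Equiv.apply_symm_apply, MonoidHom.id_apply]))

@[simp] theorem artinEquiv_gen (e : S ≃ S2) (M : CoxeterMatrix S) (s : S) :
    artinEquiv e M (artinGen M s) = artinGen (M.reindex e) (e s) :=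
  fwd_gen e M s

@[simp] theorem artinEquiv_symm_gen (e : S ≃ S2) (M : CoxeterMatrix S) (s : S2) :
    (artinEquiv e M).symm (artinGen (M.reindex e) s) = artinGen M (e.symm s) := by
  rw [MulEquiv.symm_apply_eq]
  simp

/-- A group isomorphism which permutes the generators maps parabolic subgroups to parabolic subgroups. -/
theorem isParabolic_map {M : CoxeterMatrix S} {M2 : CoxeterMatrix S2} (φ : ArtinGroup M ≃* ArtinGroup M2)
    (f : S → S2) (h : ∀ s, φ (artinGen M s) = artinGen M2 (f s)) {P : Subgroup (ArtinGroup M)}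
    (hP : IsParabolic M P) : IsParabolic M2 (P.map φ.toMonoidHom) := by
  obtain ⟨X, g, rfl⟩ := hP
  refine ⟨f '' X, φ g, ?_⟩
  have h1 : stdParabolic M2 (f '' X) = (stdParabolic M X).map φ.toMonoidHom := by
    unfold stdParabolic
    rw [MonoidHom.map_closure]
    congr 1
    ext y
    constructor
    · rintro ⟨_, ⟨x, hx, rfl⟩, rfl⟩
      exact ⟨artinGen M x, ⟨x, hx, rfl⟩, by simp [h]⟩
    · rintro ⟨_, ⟨x, hx, rfl⟩, rfl⟩
      exact ⟨f x, ⟨x, hx, rfl⟩, by simp [h]⟩
  rw [h1, Subgroup.map_map, Subgroup.map_map]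
  congr 1
  ext x
  simp

theorem isParabolic_reindex (e : S ≃ S2) (M : CoxeterMatrix S) (P : Subgroup (ArtinGroup M)) :
    IsParabolic (M.reindex e) (P.map (artinEquiv e M).toMonoidHom) ↔ IsParabolic M P := by
  constructor
  · intro hP
    have h := isParabolic_map (artinEquiv e M).symm e.symm (fun s => by simp) hP
    rw [Subgroup.map_map] at h
    have hid : ((artinEquiv e M).symm.toMonoidHom.comp (artinEquiv e M).toMonoidHom) = MonoidHom.id _ := by
      ext x
      simp
    rwa [hid, Subgroup.map_id] at h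
  · intro hP
    exact isParabolic_map (artinEquiv e M) e (fun s => by simp) hP

/-- If intersections of parabolic subgroups are parabolic for one index type then also for every
type in bijection with it. -/
theorem inter_of_equiv (e : S ≃ S2) (M : CoxeterMatrix S)
    (H : ∀ P Q : Subgroup (ArtinGroup (M.reindex e)), IsParabolic (M.reindex e) P →
      IsParabolic (M.reindex e) Q → IsParabolic (M.reindex e) (P ⊓ Q))
    (P Q : Subgroup (ArtinGroup M)) (hP : IsParabolic M P) (hQ : IsParabolic M Q) :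
    IsParabolic M (P ⊓ Q) := by
  rw [← isParabolic_reindex e M]
  have h1 : (P ⊓ Q).map (artinEquiv e M).toMonoidHom =
      P.map (artinEquiv e M).toMonoidHom ⊓ Q.map (artinEquiv e M).toMonoidHom :=
    Subgroup.map_inf _ _ _ (artinEquiv e M).injective
  rw [h1]
  exact H _ _ ((isParabolic_reindex e M P).2 hP) ((isParabolic_reindex e M Q).2 hQ)

end equiv

/-- **Transport.** It is enough to prove S0263 for the index types `Fin n`. -/
theorem s0263_of_fin
    (H : ∀ (n : ℕ) (M : CoxeterMatrix (Fin n)) (P Q : Subgroup (ArtinGroup M)),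
      IsParabolic M P → IsParabolic M Q → IsParabolic M (P ⊓ Q))
    (S : Type*) [Finite S] (M : CoxeterMatrix S)
    (P Q : Subgroup (ArtinGroup M)) (hP : IsParabolic M P) (hQ : IsParabolic M Q) :
    IsParabolic M (P ⊓ Q) := by
  obtain ⟨n, ⟨e⟩⟩ := Finite.exists_equiv_fin S
  exact inter_of_equiv e M (H n (M.reindex e)) P Q hP hQ

end Crest.Agent.R175.Tr_921
end

-- ▼ part R175/TopAll_774
section

/-!
Row 175 (S0263): the TOP theorem.  Numbers for `M` give the intersection theorem for `M`.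
-/

set_option autoImplicit false

namespace Crest.Agent.R175.TopAll_774

open Crest.GroupTheory Crest.Agent.R175.Num_774 Crest.Agent.R175.TopF_774

universe u

/-- **TOP**: the numbers give the intersection theorem -/
theorem of_num {S : Type u} [Fintype S] {M : CoxeterMatrix S} (N : Num M)
    {P Q : Subgroup (ArtinGroup M)} (hP : IsParabolic M P) (hQ : IsParabolic M Q) :
    IsParabolic M (P ⊓ Q) := by
  refine top N D2_774.d2 (TopD_224.ut N) ?_ hP hQ
  intro T hc _ hn X hX h hcl hpos B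
  obtain ⟨h', h1, h2⟩ := TopD_224.reach_num (fun s _ => N.lam_nonneg X hX s)
    (fun s g => N.d_nonneg X hX s g) hc hn hcl hpos (B + 1)
  exact ⟨h', h1, fun t ht => by linarith [h2 t ht]⟩

/-- S0263 from numbers for all Coxeter matrices on `Fin n` -/
theorem s0263_of_num (H : ∀ (n : ℕ) (M : CoxeterMatrix (Fin n)), Nonempty (Num M))
    (S : Type*) [Finite S] (M : CoxeterMatrix S)
    (P Q : Subgroup (ArtinGroup M)) (hP : IsParabolic M P) (hQ : IsParabolic M Q) :
    IsParabolic M (P ⊓ Q) :=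
  Tr_921.s0263_of_fin (fun n M P Q hP hQ => of_num (H n M).some hP hQ) S M P Q hP hQ

end Crest.Agent.R175.TopAll_774
end

-- ▼ part R175/LevF_788
section

/-!
Row 175 (S0263), helper788: Perron-Frobenius on `J Λ` (from 180) and the final theorem from `Sys`.
-/

set_option autoImplicit false
set_option linter.unusedSectionVars false
set_option linter.unusedVariables false

namespace Crest.Agent.R175.Lev_788

open Crest.GroupTheory Crest.Agent.R175.Num_774 Crest.Agent.R175.CatNum_427
open Crest.Agent.R175.Unf_109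

universe v

theorem nsum_eq {Λ : Finset ℕ} (m : ℕ) {N : Type*} [AddCommMonoid N] (f : J Λ → N) (i : J Λ) :
    FmC_180.nsum Λ m f i = ∑ j ∈ nbs Λ m i, f j := by
  classical
  simp only [FmC_180.nsum, nbs, Finset.sum_filter]

theorem pfs {Λ : Finset ℕ} (h4 : ∀ m ∈ Λ, 4 ≤ m) : PFs Λ h4 := by
  intro v hv i
  refine FmC_180.eig h4 v (fun m hm i => ?_) i
  rw [nsum_eq]
  exact hv m hm i

/-- the numbers from a system of levels -/
noncomputable def Sys.num {Λ : Finset ℕ} {S : Type} [Fintype S] {M : CoxeterMatrix S}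
    {h4 : ∀ m ∈ Λ, 4 ≤ m} (Z : Sys.{v} Λ M h4) (hΛ : Good M Λ) : Num M :=
  (Z.catD hΛ (pfs h4)).toNum

/-- **S0263 from the systems of levels** -/
theorem s0263_of_sys
    (H : ∀ (n : ℕ) (M : CoxeterMatrix (Fin n)), Nonempty (Sys.{v} (lab M) M (good_lab M).four))
    (S : Type*) [Finite S] (M : CoxeterMatrix S)
    (P Q : Subgroup (ArtinGroup M)) (hP : IsParabolic M P) (hQ : IsParabolic M Q) :
    IsParabolic M (P ⊓ Q) :=
  TopAll_774.s0263_of_num (fun n M => ⟨(H n M).some.num (good_lab M)⟩) S M P Q hP hQ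

end Crest.Agent.R175.Lev_788
end

-- ▼ part R175/GlueE_505
section

/-!
Row 175 (S0263), block (D) = `Lev.PT` (helper505): last step of the hypothesis `hD`: an object
whose translate by some `r ∈ A_M` behaves like the frame at `(s, j)` satisfies the inequality.
-/

set_option autoImplicit false
set_option linter.unusedSectionVars false

namespace Crest.Agent.R175.GlueE_505

open Crest.GroupTheory Crest.Agent.R175.Num_774 Crest.Agent.R175.CatNum_427
open Crest.Agent.R175.Unf_109 Crest.Agent.R175.Lev_788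

universe v

variable {Λ : Finset ℕ} {S : Type} {M : CoxeterMatrix S}

/-- induction over the generators of the whole group -/
theorem gen_ind [Fintype S] (p : ArtinGroup M → Prop) (h1 : p 1)
    (hm : ∀ s r, p r → p (r * artinGen M s))
    (hi : ∀ s r, p r → p (r * (artinGen M s)⁻¹)) (r : ArtinGroup M) : p r := by
  have hr : r ∈ A M (Set.univ : Set S) := by
    have h : (A M (Set.univ : Set S)) = ⊤ := by
      unfold A stdParabolic
      rw [Set.image_univ]
      exact PresentedGroup.closure_range_of _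
    rw [h]; trivial
  exact CatD.act_ind p h1 (fun s _ => hm s) (fun s _ => hi s) hr

theorem h_act_all [Fintype S] (L : Lev.{v} Λ M) (r : ArtinGroup M) (X Y : L.Ob) :
    L.h (r • X) (r • Y) = L.h X Y := by
  revert X Y
  refine gen_ind (fun r => ∀ X Y, L.h (r • X) (r • Y) = L.h X Y) (by simp) ?_ ?_ r
  · intro s r ih X Y
    rw [mul_smul, mul_smul, ih, L.h_act]
  · intro s r ih X Y
    rw [mul_smul, mul_smul, ih]
    have := L.h_act s ((artinGen M s)⁻¹ • X) ((artinGen M s)⁻¹ • Y)
    rw [smul_inv_smul, smul_inv_smul] at this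
    exact this.symm

theorem fam_act_all [Fintype S] (L : Lev.{v} Λ M) (r : ArtinGroup M) {Y : J Λ → L.Ob}
    (hY : L.IsFam Y) : L.IsFam (fun j => r • Y j) := by
  revert Y
  refine gen_ind (fun r => ∀ {Y : J Λ → L.Ob}, L.IsFam Y → L.IsFam (fun j => r • Y j))
    (by intro Y hY; simpa using hY) ?_ ?_ r
  · intro s r ih Y hY
    simp only [mul_smul]
    exact ih (L.fam_act hY s)
  · intro s r ih Y hY
    simp only [mul_smul]
    exact ih (L.fam_act' hY s)

/-- **last step of (D)** -/
theorem last [Fintype S] (L : Lev.{v} Λ M) (h4 : ∀ m ∈ Λ, 4 ≤ m) {Y : J Λ → L.Ob}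
    (hY : L.IsFam Y) {h : S → ℝ}
    (hd : ∀ r : ArtinGroup M, ∀ s, h s ≤ ∑ i, wt Λ i * (L.d (r • Y i) s (jz h4) : ℝ))
    (x : L.Ob) (r : ArtinGroup M) (s : S) (j : J Λ) (hx : ∀ z, L.h (r • x) z = L.d z s j) :
    wt Λ j * h s ≤ ∑ i, wt Λ i * (L.h x (Y i) : ℝ) := by
  have h1 : ∀ i, (L.h x (Y i) : ℝ) = (L.d (r • Y i) s j : ℝ) := by
    intro i
    rw [← hx, h_act_all]
  simp only [h1]
  rw [L.pfd h4 (pfs h4) (fam_act_all L r hY) s j]
  exact mul_le_mul_of_nonneg_left (hd r s) (wt_pos Λ j).le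

end Crest.Agent.R175.GlueE_505
end

-- ▼ part R175/PTC_505

/-!
Row 175 (S0263), block (D) (helper505): `Lev.PT` for a level given by classes of `TOb (UG M Λ) k`,
from GLUE-PT (`GlueData_445.pt_fam`) and the existence of `r ∈ A_M` for orthogonal `F`-stable
families of minimisers (`Orb`, GlueD_180).
-/

set_option autoImplicit false
set_option linter.unusedSectionVars false
set_option linter.unusedVariables false

open scoped Classical
open CategoryTheory Module

namespace Crest.Agent.R175.PTC_505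

open Crest.GroupTheory Crest.Agent.R175.Num_774 Crest.Agent.R175.CatNum_427
open Crest.Agent.R175.Unf_109 Crest.Agent.R175.Lev_788 Crest.Agent.R175.UG_27
open Crest.Agent.R175.PTA Crest.Agent.R175.GluePT_445 Crest.Agent.R175.GlB_445
open Crest.Agent.R175.Fm_27 Crest.Agent.R175.Pos_418 Crest.Agent.R175.FmC_180
open Crest.Agent.R175.GlueData_445

universe v w

variable {S : Type} [Fintype S] {M : CoxeterMatrix S} {Λ : Finset ℕ} {k : Type v} [Field k]

/-- the objects of a level: `q X` is the class of `X` -/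
structure Rep (hΛ : ∀ m ∈ Λ, 4 ≤ m) (φ : ℝ →+* k) (L : Lev.{w} Λ M) where
  q : TOb (UG M Λ) k → L.Ob
  surj : Function.Surjective q
  h : ∀ X Y, L.h (q X) (q Y) = hT X Y
  lam : ∀ X s j, L.lam (q X) s j = PTA.lam X (s, j)
  fr : ∀ s j, L.fr s j = q (frm (UG M Λ) k (s, j))
  F : ∀ (m : Λ) X, L.F m (q X) = q (FF M φ hΛ m X)

/-- **Orb**: an orthogonal `F`-stable family of minimisers over one fibre: some `r ∈ A_M` takes one
of its members to a frame of the fibre (up to a shift) -/
def Orb {hΛ : ∀ m ∈ Λ, 4 ≤ m} {φ : ℝ →+* k} {L : Lev.{w} Λ M} (R : Rep hΛ φ L) : Prop :=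
  ∀ (s : S) (X : J Λ → TOb (UG M Λ) k), OFam hΛ φ s X →
    ∃ (r : ArtinGroup M) (j : J Λ), r • R.q (X j) = R.q (frm (UG M Λ) k (s, j)) ∨
      r • R.q (X j) = R.q (sh (frm (UG M Λ) k (s, j)))

/-- **block (D)**: `Lev.PT` of a level over classes of objects -/
theorem pt_of_orb [IsAlgClosed k] (hΛ : Good M Λ) (hM : PDm (Cr M)) {φ : ℝ →+* k}
    {L : Lev.{w} Λ M} (R : Rep hΛ.four φ L) (hO : Orb R) : L.PT hΛ.four := by
  intro Y0 hY0 h h0 hl hd X0
  choose Y hYq using fun i => R.surj (Y0 i)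
  obtain ⟨X, rfl⟩ := R.surj X0
  have hYe : Y0 = fun i => R.q (Y i) := funext fun i => (hYq i).symm
  subst hYe
  have hF : ∀ (m : Λ) i Z, hT Z (FF M φ hΛ.four m (Y i)) = ∑ j ∈ nbs Λ m i, hT Z (Y j) := by
    intro m i Z
    rw [← R.h, ← R.F, hY0 m.1 m.2 i, L.h_sum]
    exact Finset.sum_congr rfl fun j _ => R.h _ _
  have hFl : ∀ (m : Λ) i a, PTA.lam (FF M φ hΛ.four m (Y i)) a
      = ∑ j ∈ nbs Λ m i, PTA.lam (Y j) a := by
    intro m i a
    have h1 : ∀ Z, PTA.lam Z a = L.lam (R.q Z) a.1 a.2 := fun Z => (R.lam Z a.1 a.2).symm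
    rw [h1, ← R.F, hY0 m.1 m.2 i, L.lam_sum]
    exact Finset.sum_congr rfl fun j _ => (h1 _).symm
  have key := pt_fam hΛ hM φ Y hF hFl h (fun s => by
    have h1 := hl s
    simp only [R.lam] at h1
    exact h1) (fun s Xf hX => by
      obtain ⟨r, j, hr⟩ := hO s Xf hX
      refine ⟨j, ?_⟩
      have hlast := GlueE_505.last L hΛ.four hY0 hd (R.q (Xf j)) r s j (fun z => by
        obtain ⟨Z, rfl⟩ := R.surj z
        unfold Lev.d
        rw [R.fr]
        rcases hr with hr | hr
        · rw [hr]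
        · rw [hr, R.h, R.h]
          exact hT_sh_left _ _)
      simp only [R.h] at hlast
      linarith) X
  simp only [R.lam, R.h]
  exact key

end Crest.Agent.R175.PTC_505
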