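import Crest.Agent.R175.PTR_4
import Crest.Agent.R175.GrB_936_Mg

/-!
Row 175 (S0263), block (D): the abstract end game over cohomology data `qm X : QM G k`.

`Dom`: the data (group action on a set `Ob` of rigid classes, their cohomology data, the exact
triangles of the twists, (K), stability along the fibres, the Euler inequality).
`Dom.exists_zero_H`: every object can be moved to one with `H = 0`.
-/

open Module

set_option autoImplicit false
set_option linter.unusedSectionVars false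

namespace Crest.Agent.R175.PTQ_4

open Crest.Agent.R175.PTA (MG)
open Crest.Agent.R175.PTD1_175

universe u v

variable {T : Type u} [Fintype T] {G : MG T} {k : Type v} [Field k]

/-! ### finiteness of the positions -/

theorem exists_lo_hi (ht : k → ℤ) (X : QM G k) : ∃ n : ℕ, lo ht X (-n) ∧ hi ht X n := by
  classical
  have h1 : ∀ s, ∃ n : ℕ, ∀ μ (v : X.H s), v ≠ 0 → X.A s v = μ • v → -(n : ℤ) ≤ ht μ ∧ ht μ ≤ n := by
    intro s
    have hfin : {μ : k | Module.End.HasEigenvalue (X.A s) μ}.Finite :=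
      Module.End.finite_hasEigenvalue (X.A s)
    obtain ⟨n, hn⟩ : ∃ n : ℕ, ∀ μ ∈ {μ : k | Module.End.HasEigenvalue (X.A s) μ},
        (ht μ).natAbs ≤ n := by
      obtain ⟨B, hB⟩ := (hfin.image fun μ => (ht μ).natAbs).bddAbove
      exact ⟨B, fun μ hμ => hB ⟨μ, hμ, rfl⟩⟩
    refine ⟨n, fun μ v hv he => ?_⟩
    have h2 := hn μ (Module.End.hasEigenvalue_of_hasEigenvector
      (Module.End.hasEigenvector_iff.2 ⟨Module.End.mem_eigenspace_iff.2 he, hv⟩))
    omega
  choose n hn using h1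
  refine ⟨∑ s, n s, fun s μ v hv he => ?_, fun s μ v hv he => ?_⟩
  · have h2 := (hn s μ v hv he).1
    have h3 : n s ≤ ∑ s, n s := Finset.single_le_sum (fun _ _ => Nat.zero_le _) (Finset.mem_univ s)
    have h4 : (n s : ℤ) ≤ ((∑ s, n s : ℕ) : ℤ) := by exact_mod_cast h3
    linarith
  · have h2 := (hn s μ v hv he).2
    have h3 : n s ≤ ∑ s, n s := Finset.single_le_sum (fun _ _ => Nat.zero_le _) (Finset.mem_univ s)
    have h4 : (n s : ℤ) ≤ ((∑ s, n s : ℕ) : ℤ) := by exact_mod_cast h3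
    linarith

/-! ### algebraically closed fields -/

section algClosed

variable [IsAlgClosed k] {ht : k → ℤ} {X : QM G k}

/-- a nonzero `A`-stable subspace contains an eigenvector -/
theorem exists_eig_of_ne_bot {H : Type*} [AddCommGroup H] [Module k H] [FiniteDimensional k H]
    (f : H →ₗ[k] H) (N : Submodule k H) (hN : ∀ v ∈ N, f v ∈ N) (hne : N ≠ ⊥) :
    ∃ μ : k, ∃ v ∈ N, v ≠ 0 ∧ f v = μ • v := by
  have : Nontrivial N := Submodule.nontrivial_iff_ne_bot.2 hne
  obtain ⟨μ, hμ⟩ := Module.End.exists_eigenvalue (f.restrict hN : Module.End k N)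
  obtain ⟨v, hv⟩ := hμ.exists_hasEigenvector
  refine ⟨μ, v, v.2, fun h => hv.2 (Subtype.ext h), ?_⟩
  have h1 := hv.apply_eq_smul
  exact congrArg (fun t : N => (t : H)) h1

theorem kerA_eq_bot (h1 : lo ht X 0) (h2 : hi ht X 0) {s : T} (h : ¬ ka ht X s 0) :
    X.kerA s = ⊥ := by
  by_contra hne
  obtain ⟨μ, v, hv, hv0, he⟩ := exists_eig_of_ne_bot (X.A s) (X.kerA s)
    (fun v hv => QM.A_mem_kerA hv) hne
  exact h ⟨μ, le_antisymm (h2 s μ v hv0 he) (h1 s μ v hv0 he), v, hv0, he, hv⟩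

theorem imB_eq_top (h1 : lo ht X 0) (h2 : hi ht X 0) {s : T} (h : ¬ cb ht X s 0) :
    X.imB s = ⊤ := by
  by_contra hne
  have h3 : X.dual.kerA s ≠ ⊥ := by
    intro h0
    obtain ⟨η, hη0, hη⟩ := Submodule.exists_le_ker_of_lt_top _ (lt_top_iff_ne_top.2 hne)
    have h4 : (η : X.dual.H s) ∈ X.dual.kerA s := QM.mem_kerA_dual.2 fun v hv => hη hv
    rw [h0] at h4
    exact hη0 ((Submodule.mem_bot k).1 h4)
  obtain ⟨μ, η, hη, hη0, he⟩ := exists_eig_of_ne_bot (X.dual.A s) (X.dual.kerA s)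
    (fun v hv => QM.A_mem_kerA hv) h3
  obtain ⟨v, hv0, hv⟩ := exists_eig_of_functional (X.A s) μ (QM.toD η) hη0 (QM.dual_A_eq.1 he)
  exact h ⟨μ, le_antisymm (h2 s μ v hv0 hv) (h1 s μ v hv0 hv), QM.toD η, hη0,
    QM.dual_A_eq.1 he, QM.mem_kerA_dual.1 hη⟩

end algClosed

/-! ### the end game -/

variable {S W A Ob : Type*} [Group W] [Group A] [MulAction A Ob] {M : CoxeterMatrix S}

/-- number of neighbours -/
noncomputable def nb (X : QM G k) (s : T) : ℕ :=
  ∑ t, Fintype.card (G.E s t) * finrank k (X.H t) + finrank k (X.W s)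

/-- `D_s - 2 d_s` -/
noncomputable def muv (X : QM G k) (s : T) : ℤ := (nb X s : ℤ) - 2 * (finrank k (X.H s) : ℤ)

variable (G k) in
/-- The input of the end game. -/
structure Dom (g : S → A) (Ob : Type*) [MulAction A Ob] where
  qm : Ob → QM G k
  π : T → S
  wt : T → ℝ
  wt_pos : ∀ t, 0 < wt t
  ht : k → ℤ
  ht_add : ∀ μ, ht (μ + 1) = ht μ + 1
  ht_zero : ht 0 = 0
  /-- `g s` acts as the twist at the fibre of `s` -/
  td : ∀ X s, Nonempty (TD {t | π t = s} (qm X) (qm (g s • X)))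
  /-- (K) -/
  K : ∀ X t (a b : ℤ), a ≤ 0 → 0 ≤ b → lo ht (qm X) a → hi ht (qm X) b → cb ht (qm X) t b →
    ¬ ka ht (qm X) t a
  /-- stability along the fibres -/
  fib : ∀ X t t' n, π t = π t' → cb ht (qm X) t n → cb ht (qm X) t' n
  /-- proportionality along the fibres -/
  pf : ∀ X t t', π t = π t' → wt t' * muv (qm X) t = wt t * muv (qm X) t'
  /-- Euler characteristic of a rigid object -/
  euler : ∀ X, ∑ t, (finrank k ((qm X).H t) : ℤ) *
    (muv (qm X) t + finrank k ((qm X).W t)) ≤ 0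
  /-- positive definiteness -/
  pd : ∀ n : T → ℕ, ∑ t, (n t : ℤ) * (2 * (n t : ℤ) - ∑ u, (Fintype.card (G.E t u) : ℤ) * n u) ≤ 0
    → n = 0

namespace Dom

variable {g : S → A} (D : Dom G k g Ob)

include D in
theorem hC (n : T → ℕ) (h : ∀ s, 2 * n s ≤ ∑ t, Fintype.card (G.E s t) * n t) : n = 0 := by
  apply D.pd
  refine Finset.sum_nonpos fun t _ => ?_
  have h1 := h t
  have h2 : (2 * (n t : ℤ) - ∑ u, (Fintype.card (G.E t u) : ℤ) * n u) ≤ 0 := by
    have : (2 * (n t : ℤ)) ≤ ∑ u, (Fintype.card (G.E t u) : ℤ) * n u := by exact_mod_cast h1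
    linarith
  exact mul_nonpos_of_nonneg_of_nonpos (by positivity) h2

/-- positions of the inverse twist -/
theorem td_inv (X : Ob) (s : S) : Nonempty (TD {t | D.π t = s} (D.qm ((g s)⁻¹ • X)) (D.qm X)) := by
  have h := D.td ((g s)⁻¹ • X) s
  rw [smul_inv_smul] at h
  exact h

theorem ht_sub (μ : k) : D.ht (μ - 1) = D.ht μ - 1 := by
  have h := D.ht_add (μ - 1)
  rw [sub_add_cancel] at h
  omega

/-- `Amp` of helper175 for the inverse twists. -/
theorem amp : Amp (Ob := Ob) (fun s => (g s)⁻¹) (fun n X => lo D.ht (D.qm X) n)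
    (fun n X => hi D.ht (D.qm X) n) (fun s n X => ∃ t, D.π t = s ∧ cb D.ht (D.qm X) t n)
    (fun s n X => ∃ t, D.π t = s ∧ ka D.ht (D.qm X) t n) (fun _ => True) where
  rig_gen _ _ h := h
  rig_inv _ _ h := h
  exists_lo X := by
    obtain ⟨n, h, _⟩ := exists_lo_hi D.ht (D.qm X)
    exact ⟨n, h⟩
  exists_hi X := by
    obtain ⟨n, _, h⟩ := exists_lo_hi D.ht (D.qm X)
    exact ⟨n, h⟩
  K X s a b ha hb _ hlo hhi hcb hka := by
    obtain ⟨t, rfl, hcb⟩ := hcb
    obtain ⟨t', ht', hka⟩ := hka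
    exact D.K X t' a b ha hb hlo hhi (D.fib X t t' b ht'.symm hcb) hka
  Nb X b hb h1 h2 := by
    obtain ⟨t, h⟩ := Nb D.ht_zero D.hC hb h1 h2
    exact ⟨D.π t, t, rfl, h⟩
  Na X a ha h1 h2 := by
    obtain ⟨t, h⟩ := Na D.ht_zero D.hC ha h1 h2
    exact ⟨D.π t, t, rfl, h⟩
  P1 X s b hb h := by
    obtain ⟨r⟩ := D.td_inv X s
    exact IsU.P1 D.ht_add D.ht_zero r.toIsU hb h
  P2 X s a ha h h' := by
    obtain ⟨r⟩ := D.td_inv X s
    exact IsU.P2 D.ht_add D.ht_zero r.toIsU ha h fun t ht hka => h' ⟨t, ht, hka⟩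
  P3 X s b hb h := by
    obtain ⟨r⟩ := D.td_inv X s
    rintro ⟨t, ht, hcb⟩
    exact IsU.P3 D.ht_add r.toIsU h ht hcb
  M1 X s a ha h := by
    rw [inv_inv]
    obtain ⟨r⟩ := D.td X s
    exact IsT.M1 D.ht_sub D.ht_zero r.toIsT ha h
  M2 X s b hb h h' := by
    rw [inv_inv]
    obtain ⟨r⟩ := D.td X s
    exact IsT.M2 D.ht_sub D.ht_zero r.toIsT hb h fun t ht hcb => h' ⟨t, ht, hcb⟩
  M3 X s a ha h := by
    rw [inv_inv]
    obtain ⟨r⟩ := D.td X s
    rintro ⟨t, ht, hka⟩
    exact IsT.M3 D.ht_sub r.toIsT h ht hka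

/-- the weighted total dimension -/
noncomputable def tot (X : Ob) : ℝ := ∑ t, D.wt t * (finrank k ((D.qm X).H t) : ℝ)

open Classical in
/-- the weighted sum of the `D - 2 d` over the fibre -/
noncomputable def mu (s : S) (X : Ob) : ℝ :=
  ∑ t, if D.π t = s then D.wt t * (muv (D.qm X) t : ℝ) else 0

theorem tot_step {X Y : Ob} {s : S}
    (h1 : ∀ t, D.π t ≠ s → finrank k ((D.qm Y).H t) = finrank k ((D.qm X).H t))
    (h2 : ∀ t, D.π t = s → (finrank k ((D.qm Y).H t) : ℤ) + finrank k ((D.qm X).H t) =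
      nb (D.qm X) t) : D.tot Y = D.tot X + D.mu s X := by
  classical
  unfold tot mu
  rw [← Finset.sum_add_distrib]
  refine Finset.sum_congr rfl fun t _ => ?_
  by_cases ht : D.π t = s
  · rw [if_pos ht]
    have h3 : (finrank k ((D.qm Y).H t) : ℝ) + finrank k ((D.qm X).H t) = (nb (D.qm X) t : ℝ) := by
      exact_mod_cast h2 t ht
    have h4 : (muv (D.qm X) t : ℝ) = (nb (D.qm X) t : ℝ) - 2 * finrank k ((D.qm X).H t) := by
      unfold muv
      push_cast
      ring
    rw [h4, ← h3]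
    ring
  · rw [if_neg ht, h1 t ht, add_zero]

theorem exists_dom [IsAlgClosed k] [Finite W] {cs : CoxeterSystem M W} (σ : Sec cs g)
    (σ' : Sec cs (fun s => (g s)⁻¹)) (X : Ob) :
    ∃ r : A, lo D.ht (D.qm (r • X)) 0 ∧ hi D.ht (D.qm (r • X)) 0 ∧
      ∀ s, 0 ≤ D.mu s (r • X) := by
  have hσ : Sec cs (fun s => ((fun s => (g s)⁻¹) s)⁻¹) := by
    simp only [inv_inv]
    exact σ
  obtain ⟨r, _, h1, h2, h3⟩ := D.amp.exists_dominant σ' hσ D.tot D.mu
    (fun P hP => by
      obtain ⟨X, hX, hmin⟩ := exists_min_weighted D.wt D.wt_pos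
        (fun t X => finrank k ((D.qm X).H t)) P hP
      exact ⟨X, hX, hmin⟩)
    (fun X s _ hlo hhi hka hmu => by
      obtain ⟨R⟩ := D.td_inv X s
      have hk : ∀ t, D.π t = s → ¬ ka D.ht (D.qm X) t 0 := fun t ht h => hka ⟨t, ht, h⟩
      refine ⟨IsU.P1 D.ht_add D.ht_zero R.toIsU le_rfl hhi,
        IsU.P2 D.ht_add D.ht_zero R.toIsU le_rfl hlo hk, ?_⟩
      rw [D.tot_step (X := X) (s := s) (fun t ht => (R.finrank_eq ht).symm) (fun t ht => by
        have h := R.finrank_add_of_bot (s := t) ht (kerA_eq_bot hlo hhi (hk t ht))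
        exact_mod_cast h)]
      linarith)
    (fun X s _ hlo hhi hcb hmu => by
      rw [inv_inv]
      obtain ⟨R⟩ := D.td X s
      have hk : ∀ t, D.π t = s → ¬ cb D.ht (D.qm X) t 0 := fun t ht h => hcb ⟨t, ht, h⟩
      refine ⟨IsT.M2 D.ht_sub D.ht_zero R.toIsT le_rfl hhi hk,
        IsT.M1 D.ht_sub D.ht_zero R.toIsT le_rfl hlo, ?_⟩
      rw [D.tot_step (X := X) (s := s) (fun t ht => R.finrank_eq ht) (fun t ht => by
        have h := R.finrank_add_of_top (s := t) ht (imB_eq_top hlo hhi (hk t ht))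
        exact_mod_cast h)]
      linarith)
    (X := X) trivial
  exact ⟨r, h1, h2, h3⟩

/-- **(D)**: every object can be moved to one with `H = 0`. -/
theorem exists_zero_H [IsAlgClosed k] [Finite W] {cs : CoxeterSystem M W} (σ : Sec cs g)
    (σ' : Sec cs (fun s => (g s)⁻¹)) (X : Ob) :
    ∃ r : A, ∀ t, finrank k ((D.qm (r • X)).H t) = 0 := by
  classical
  obtain ⟨r, _, _, h3⟩ := D.exists_dom σ σ' X
  refine ⟨r, ?_⟩
  set Y := r • X with hY
  -- every `D - 2 d` is nonnegative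
  have h4 : ∀ t, 0 ≤ muv (D.qm Y) t := by
    intro t
    by_contra hneg
    rw [not_le] at hneg
    have h5 : ∀ t', D.π t' = D.π t → (muv (D.qm Y) t' : ℝ) ≤ 0 := by
      intro t' ht'
      have h6 := D.pf Y t' t ht'
      have h7 : (muv (D.qm Y) t : ℝ) < 0 := by exact_mod_cast hneg
      have h8 := D.wt_pos t
      have h9 := D.wt_pos t'
      by_contra hcon
      rw [not_le] at hcon
      have h10 : 0 < D.wt t * (muv (D.qm Y) t' : ℝ) := mul_pos h8 hcon
      have h11 : D.wt t' * (muv (D.qm Y) t : ℝ) < 0 := mul_neg_of_pos_of_neg h9 h7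
      linarith
    have h6 : D.mu (D.π t) Y < 0 := by
      unfold mu
      have h7 : ∑ t' : T, (if D.π t' = D.π t then D.wt t' * (muv (D.qm Y) t' : ℝ) else 0) <
          ∑ t' : T, (0 : ℝ) := by
        refine Finset.sum_lt_sum (fun t' _ => ?_) ⟨t, Finset.mem_univ t, ?_⟩
        · by_cases ht' : D.π t' = D.π t
          · rw [if_pos ht']
            exact mul_nonpos_of_nonneg_of_nonpos (D.wt_pos t').le (h5 t' ht')
          · rw [if_neg ht']
        · rw [if_pos rfl]
          exact mul_neg_of_pos_of_neg (D.wt_pos t) (by exact_mod_cast hneg)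
      simpa using h7
    exact absurd (h3 (D.π t)) (not_le.2 h6)
  have h5 : ∀ t, (0 : ℤ) ≤ (finrank k ((D.qm Y).H t) : ℤ) *
      (muv (D.qm Y) t + finrank k ((D.qm Y).W t)) := fun t =>
    mul_nonneg (by positivity) (add_nonneg (h4 t) (by positivity))
  have h6 := D.euler Y
  have h7 : ∀ t, (finrank k ((D.qm Y).H t) : ℤ) *
      (muv (D.qm Y) t + finrank k ((D.qm Y).W t)) = 0 := by
    intro t
    refine le_antisymm ?_ (h5 t)
    exact (Finset.single_le_sum (fun t _ => h5 t) (Finset.mem_univ t)).trans h6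
  have h8 := D.pd (fun t => finrank k ((D.qm Y).H t)) (by
    refine le_of_eq (Finset.sum_eq_zero fun t _ => ?_)
    have h9 := h7 t
    rcases mul_eq_zero.1 h9 with h | h
    · rw [h, zero_mul]
    · have h10 := h4 t
      have h11 : (0 : ℤ) ≤ finrank k ((D.qm Y).W t) := by positivity
      have h12 : muv (D.qm Y) t = 0 := by omega
      have h13 : (finrank k ((D.qm Y).W t) : ℤ) = 0 := by omega
      have h14 : (2 * (finrank k ((D.qm Y).H t) : ℤ) -
          ∑ u, (Fintype.card (G.E t u) : ℤ) * finrank k ((D.qm Y).H u)) = 0 := by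
        unfold muv nb at h12
        push_cast at h12
        linarith
      rw [h14, mul_zero])
  exact fun t => congrFun h8 t

end Dom

end Crest.Agent.R175.PTQ_4
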