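import Crest.Agent.R175.Semi_663

-- ▼ part R175/Lcm_109
section

/-!
Row 175 (S0263), labels > 3 (helper109): the bipartite braid relation of type `A_n`.

`g 0, …, g (n-1)` elements of a monoid with the braid relations of type `A_n`,
`x = g 0 g 2 g 4 ⋯`, `y = g 1 g 3 ⋯`: the alternating products `x y x ⋯ = y x y ⋯` of length `n + 1`
are equal (`braid_path`).  Elementary proof: both are `δ_n δ_{n-1} ⋯ δ_1`, `δ_k = g 0 ⋯ g (k-1)`.
-/

set_option autoImplicit false

namespace Crest.Agent.R175.Lcm_109

open Crest.Agent.R175.Semi_663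

variable {G : Type*} [Monoid G]

/-- `f a * f (a+1) * ⋯ * f (a+k-1)`. -/
def L (a k : ℕ) (f : ℕ → G) : G := ((List.range' a k).map f).prod

@[simp] theorem L_zero (a : ℕ) (f : ℕ → G) : L a 0 f = 1 := rfl

theorem L_succ (a k : ℕ) (f : ℕ → G) : L a (k + 1) f = f a * L (a + 1) k f := by
  simp [L, List.range'_succ]

theorem L_add (a k l : ℕ) (f : ℕ → G) : L a (k + l) f = L a k f * L (a + k) l f := by
  induction k generalizing a with
  | zero => simp
  | succ k ih =>
    rw [show k + 1 + l = (k + l) + 1 by ring, L_succ, L_succ, ih, mul_assoc,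
      show a + 1 + k = a + (k + 1) by ring]

theorem L_snoc (a k : ℕ) (f : ℕ → G) : L a (k + 1) f = L a k f * f (a + k) := by
  rw [L_add, L_succ, L_zero, mul_one]

theorem L_congr {a k : ℕ} {f f' : ℕ → G} (h : ∀ i, a ≤ i → i < a + k → f i = f' i) :
    L a k f = L a k f' := by
  induction k generalizing a with
  | zero => rfl
  | succ k ih =>
    rw [L_succ, L_succ, h a le_rfl (by omega), ih fun i h1 h2 => h i (by omega) (by omega)]

theorem L_shift (a b k : ℕ) (f : ℕ → G) : L (a + b) k f = L a k (fun i => f (i + b)) := by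
  induction k generalizing a with
  | zero => rfl
  | succ k ih => rw [L_succ, L_succ, ← ih, show a + b + 1 = a + 1 + b by ring]

theorem L_commute {a k : ℕ} {f : ℕ → G} {c : G} (h : ∀ i, a ≤ i → i < a + k → Commute c (f i)) :
    Commute c (L a k f) := by
  induction k generalizing a with
  | zero => exact Commute.one_right c
  | succ k ih =>
    rw [L_succ]
    exact (h a le_rfl (by omega)).mul_right (ih fun i h1 h2 => h i (by omega) (by omega))

theorem L_commute' {a k b l : ℕ} {f f' : ℕ → G}
    (h : ∀ i j, a ≤ i → i < a + k → b ≤ j → j < b + l → Commute (f i) (f' j)) :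
    Commute (L a k f) (L b l f') :=
  (L_commute fun i h1 h2 => (L_commute fun j h3 h4 => h i j h1 h2 h3 h4).symm).symm |>.symm.symm

theorem L_semiconj {a k : ℕ} {f f' : ℕ → G} {c : G}
    (h : ∀ i, a ≤ i → i < a + k → SemiconjBy c (f i) (f' i)) :
    SemiconjBy c (L a k f) (L a k f') := by
  induction k generalizing a with
  | zero => exact SemiconjBy.one_right c
  | succ k ih =>
    rw [L_succ, L_succ]
    exact (h a le_rfl (by omega)).mul_right (ih fun i h1 h2 => h i (by omega) (by omega))

/-- `g i` if `i + q` is even, else `1`. -/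
def e (g : ℕ → G) (q i : ℕ) : G := if (i + q) % 2 = 0 then g i else 1

theorem e_pos {g : ℕ → G} {q i : ℕ} (h : (i + q) % 2 = 0) : e g q i = g i := if_pos h
theorem e_neg {g : ℕ → G} {q i : ℕ} (h : (i + q) % 2 ≠ 0) : e g q i = 1 := if_neg h

theorem e_two (g : ℕ → G) (q : ℕ) : e g (q + 2) = e g q := by
  funext i
  unfold e
  have : (i + (q + 2)) % 2 = (i + q) % 2 := by omega
  rw [this]


/-- the relations of type `A_n`. -/
structure Rel (n : ℕ) (g : ℕ → G) : Prop where
  comm : ∀ i j, i + 2 ≤ j → j < n → Commute (g i) (g j)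
  braid : ∀ i, i + 1 < n → g i * g (i + 1) * g i = g (i + 1) * g i * g (i + 1)

theorem Rel.mono {n m : ℕ} {g : ℕ → G} (h : Rel n g) (hm : m ≤ n) : Rel m g where
  comm := fun i j h1 h2 => h.comm i j h1 (by omega)
  braid := fun i h1 => h.braid i (by omega)

theorem Rel.ecomm {n : ℕ} {g : ℕ → G} (h : Rel n g) (q q' i j : ℕ) (h1 : i + 2 ≤ j) (h2 : j < n) :
    Commute (e g q i) (e g q' j) := by
  unfold e
  split_ifs
  · exact h.comm i j h1 h2
  · exact Commute.one_right _
  · exact Commute.one_left _
  · exact Commute.one_left _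

theorem Rel.ecomm' {n : ℕ} {g : ℕ → G} (h : Rel n g) (q i j : ℕ) (h1 : i + 2 ≤ j) (h2 : j < n) :
    Commute (e g q i) (g j) := by
  unfold e
  split_ifs
  · exact h.comm i j h1 h2
  · exact Commute.one_left _

/-- `g (i+1) (g a ⋯ g (a+m)) = (g a ⋯ g (a+m)) g i`. -/
theorem Rel.shift {n : ℕ} {g : ℕ → G} (h : Rel n g) (a m : ℕ) (hm : a + m < n) :
    ∀ i, a ≤ i → i < a + m → SemiconjBy (L a (m + 1) g) (g i) (g (i + 1)) := by
  intro i h1 h2
  obtain ⟨k, rfl⟩ := Nat.exists_eq_add_of_le h1
  obtain ⟨l, hl⟩ := Nat.exists_eq_add_of_lt h2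
  have hm' : m + 1 = k + (2 + l) := by omega
  rw [hm', L_add, L_add]
  have e2 : L (a + k) 2 g = g (a + k) * g (a + k + 1) := by
    rw [L_succ, L_succ, L_zero, mul_one]
  rw [e2]
  have c1 : Commute (L (a + k + 2) l g) (g (a + k)) :=
    (L_commute fun j h3 h4 => h.comm _ j h3 (by omega)).symm
  have c2 : Commute (L a k g) (g (a + k + 1)) :=
    (L_commute fun j h3 h4 => (h.comm j _ (by omega) (by omega)).symm).symm
  have c3 := h.braid (a + k) (by omega)
  unfold SemiconjBy
  calc L a k g * (g (a + k) * g (a + k + 1) * L (a + k + 2) l g) * g (a + k)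
      = L a k g * (g (a + k) * g (a + k + 1) * (L (a + k + 2) l g * g (a + k))) := by
        simp only [mul_assoc]
    _ = L a k g * ((g (a + k) * g (a + k + 1) * g (a + k)) * L (a + k + 2) l g) := by
        rw [c1.eq]; simp only [mul_assoc]
    _ = L a k g * ((g (a + k + 1) * g (a + k) * g (a + k + 1)) * L (a + k + 2) l g) := by rw [c3]
    _ = (L a k g * g (a + k + 1)) * (g (a + k) * g (a + k + 1) * L (a + k + 2) l g) := by
        simp only [mul_assoc]
    _ = g (a + k + 1) * (L a k g * (g (a + k) * g (a + k + 1) * L (a + k + 2) l g)) := by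
        rw [c2.eq]; simp only [mul_assoc]

/-- `m` rounds starting with the parity `q`. -/
def RP (g : ℕ → G) (n q m : ℕ) : G := L q m fun s => L 0 n (e g s)

theorem RP_two (g : ℕ → G) (n q m : ℕ) : RP g n (q + 2) m = RP g n q m := by
  unfold RP
  rw [L_shift]
  congr 1
  funext s
  rw [e_two]

/-- the key identity. -/
theorem key {n : ℕ} {g : ℕ → G} (h : Rel n g) : ∀ k r : ℕ, r + (k + 1) = n →
    RP g n r (k + 1) = L 0 r (e g r) * L r (k + 1) g * RP g (n - 1) (r + 1) k := by
  intro k
  induction k with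
  | zero =>
    intro r hr
    unfold RP
    rw [L_succ, L_zero, L_zero, mul_one, mul_one, L_succ, L_zero, mul_one, ← hr, L_snoc, zero_add,
      e_pos (by omega)]
  | succ k ih =>
    intro r hr
    have h1 : RP g n r (k + 1 + 1) = L 0 n (e g r) * RP g n (r + 1) (k + 1) := by
      unfold RP; rw [L_succ]
    rw [h1, ih (r + 1) (by omega)]
    -- split the first round
    have h2 : L 0 n (e g r) = L 0 r (e g r) * g r * L (r + 2) k (e g r) := by
      rw [← hr, L_add, zero_add, L_succ, L_succ, e_pos (by omega), e_neg (by omega), one_mul,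
        mul_assoc]
    have h3 : L 0 (r + 1) (e g (r + 1)) = L 0 r (e g (r + 1)) := by
      rw [L_snoc, zero_add, e_neg (by omega), mul_one]
    have h4 : RP g (n - 1) (r + 1) (k + 1) =
        L 0 (n - 1) (e g (r + 1)) * RP g (n - 1) (r + 1 + 1) k := by
      unfold RP; rw [L_succ]
    have h5 : L 0 (n - 1) (e g (r + 1)) = L 0 r (e g (r + 1)) * L (r + 1) k (e g (r + 1)) := by
      rw [show n - 1 = r + (1 + k) by omega, L_add, L_add, zero_add]
      have : L r 1 (e g (r + 1)) = 1 := by
        rw [L_succ, L_zero, mul_one, e_neg (by omega)]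
      rw [this, one_mul]
    have c1 : Commute (L (r + 2) k (e g r)) (L 0 r (e g (r + 1))) :=
      (L_commute' fun i j h6 h7 h8 h9 => h.ecomm _ _ i j (by omega) (by omega)).symm
    have c2 : Commute (L 0 r (e g (r + 1))) (L (r + 1) (k + 1) g) :=
      L_commute' fun i j h6 h7 h8 h9 => h.ecomm' _ i j (by omega) (by omega)
    have c3 : Commute (L 0 r (e g (r + 1))) (L (r + 1) k (e g (r + 1))) :=
      L_commute' fun i j h6 h7 h8 h9 => h.ecomm _ _ i j (by omega) (by omega)
    have c4 : SemiconjBy (L (r + 1) (k + 1) g) (L (r + 1) k (e g (r + 1)))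
        (L (r + 2) k (e g r)) := by
      rw [show r + 2 = r + 1 + 1 by ring, L_shift (r + 1) 1 k]
      refine L_semiconj fun i h6 h7 => ?_
      by_cases hp : (i + (r + 1)) % 2 = 0
      · rw [e_pos hp, e_pos (by omega)]
        exact h.shift (r + 1) k (by omega) i h6 h7
      · rw [e_neg hp, e_neg (by omega)]
        exact SemiconjBy.one_right _
    rw [h2, h3, h4, h5, L_succ r (k + 1) g]
    unfold SemiconjBy at c4
    have c1' := c1.eq
    have c2' := c2.eq
    have c3' := c3.eq
    generalize L 0 r (e g r) = A at *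
    generalize L (r + 2) k (e g r) = B at *
    generalize L 0 r (e g (r + 1)) = C at *
    generalize L (r + 1) (k + 1) g = Gd at *
    generalize L (r + 1) k (e g (r + 1)) = B' at *
    generalize RP g (n - 1) (r + 1 + 1) k = R at *
    calc A * g r * B * (C * Gd * R) = A * g r * (B * C) * Gd * R := by simp only [mul_assoc]
      _ = A * g r * C * (B * Gd) * R := by rw [c1']; simp only [mul_assoc]
      _ = A * g r * (C * Gd) * B' * R := by rw [← c4]; simp only [mul_assoc]
      _ = A * g r * Gd * (C * B') * R := by rw [c2']; simp only [mul_assoc]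
      _ = A * (g r * Gd) * (C * B' * R) := by simp only [mul_assoc]

/-- both parities give the same element. -/
theorem RP_eq : ∀ (n : ℕ) (g : ℕ → G), Rel n g → RP g n 0 (n + 1) = RP g n 1 (n + 1) := by
  intro n
  induction n with
  | zero => intro g _; simp [RP, L_succ]
  | succ n ih =>
    intro g h
    have k0 := key h n 0 (by omega)
    rw [L_zero, one_mul, Nat.add_sub_cancel] at k0
    have h1 : RP g (n + 1) 0 (n + 1 + 1) = RP g (n + 1) 0 (n + 1) * L 0 (n + 1) (e g (n + 1)) := by
      unfold RP; rw [L_snoc, zero_add]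
    have h2 : L 0 (n + 1) (e g (n + 1)) = L 0 n (e g (n + 1)) := by
      rw [L_snoc, zero_add, e_neg (by omega), mul_one]
    have h3 : RP g n 1 (n + 1) = RP g n (0 + 1) n * L 0 n (e g (n + 1)) := by
      unfold RP; rw [L_snoc, zero_add, add_comm 1 n]
    have h4 : RP g (n + 1) 1 (n + 1 + 1) = L 0 (n + 1) (e g 1) * RP g (n + 1) 0 (n + 1) := by
      rw [← RP_two g (n + 1) 0]; unfold RP; rw [L_succ]
    have h5 : RP g n 0 (n + 1) = L 0 n (e g 0) * RP g n (0 + 1) n := by
      unfold RP; rw [L_succ]
    have h6 : SemiconjBy (L 0 (n + 1) g) (L 0 n (e g 0)) (L 0 (n + 1) (e g 1)) := by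
      have h7 : L 0 (n + 1) (e g 1) = L 0 n (fun i => e g 1 (i + 1)) := by
        rw [L_succ, e_neg (by omega), one_mul, L_shift]
      rw [h7]
      refine L_semiconj fun i h8 h9 => ?_
      by_cases hp : (i + 0) % 2 = 0
      · rw [e_pos hp, e_pos (by omega)]
        exact h.shift 0 n (by omega) i h8 h9
      · rw [e_neg hp, e_neg (by omega)]
        exact SemiconjBy.one_right _
    rw [h1, h2, k0, mul_assoc, ← h3, h4, k0, ← mul_assoc, ← h6.eq, mul_assoc, ← h5,
      ih g (h.mono (by omega))]

theorem alt_eq_L (f : ℕ → G) (hf : ∀ q, f (q + 2) = f q) (m q : ℕ) :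
    alt (f q) (f (q + 1)) m = L q m f := by
  induction m generalizing q with
  | zero => rfl
  | succ m ih => rw [L_succ, ← ih (q + 1), hf]; rfl

/-- **the bipartite braid relation of type `A_n`.** -/
theorem braid_path {n : ℕ} {g : ℕ → G} (h : Rel n g) :
    alt (L 0 n (e g 0)) (L 0 n (e g 1)) (n + 1) = alt (L 0 n (e g 1)) (L 0 n (e g 0)) (n + 1) := by
  have h1 := alt_eq_L (fun s => L 0 n (e g s)) (fun q => by simp only [e_two]) (n + 1) 0
  have h2 := alt_eq_L (fun s => L 0 n (e g s)) (fun q => by simp only [e_two]) (n + 1) 1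
  simp only [zero_add] at h1
  have h3 : e g (1 + 1) = e g 0 := e_two g 0
  rw [h3] at h2
  rw [h1, h2]
  exact RP_eq n g h

end Crest.Agent.R175.Lcm_109
end

-- ▼ part R175/Lcm2_109

/-!
Row 175 (S0263), labels > 3 (helper109), part 2: folding.

* `alt_mul_mul`, `alt_list` : alternating products of commuting blocks;
* `block`  : two sequences `X i`, `Y i` (`i < n`), all relations of two disjoint paths of type `A_n`
             with alternating letters `X, Y`: the relation of length `n + 1` for the products;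
* `fold_path` : two commuting families indexed by `I ≃ Fin n × J`;
* `fold_three`, `fold_two` : labels `3` and `2`;
* `foldHom` : the homomorphism out of the Artin group.
-/

set_option autoImplicit false

namespace Crest.Agent.R175.Lcm_109

open Crest.Agent.R175.Semi_663 Crest.GroupTheory

variable {G : Type*} [Monoid G]

/-! ### alternating products of commuting blocks -/

theorem commute_alt {c a b : G} (ha : Commute c a) (hb : Commute c b) (m : ℕ) :
    Commute c (alt a b m) := by
  induction m generalizing a b with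
  | zero => exact Commute.one_right c
  | succ m ih => exact ha.mul_right (ih hb ha)

theorem alt_mul_mul {a a' b b' : G} (h1 : Commute a' a) (h2 : Commute a' b) (h3 : Commute b' a)
    (h4 : Commute b' b) (m : ℕ) : alt (a * a') (b * b') m = alt a b m * alt a' b' m := by
  induction m generalizing a a' b b' with
  | zero => simp [alt]
  | succ m ih =>
    show a * a' * alt (b * b') (a * a') m = a * alt b a m * (a' * alt b' a' m)
    rw [ih h4 h3 h2 h1]
    have := (commute_alt h2 h1 m).eq
    calc a * a' * (alt b a m * alt b' a' m) = a * (a' * alt b a m) * alt b' a' m := by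
          simp only [mul_assoc]
      _ = a * alt b a m * (a' * alt b' a' m) := by rw [this]; simp only [mul_assoc]

theorem alt_one (m : ℕ) : alt (1 : G) 1 m = 1 := by
  induction m with
  | zero => rfl
  | succ m ih => show 1 * alt (1 : G) 1 m = 1; rw [ih, one_mul]

theorem commute_list_prod {J : Type*} {c : G} {a : J → G} : ∀ l : List J,
    (∀ j ∈ l, Commute c (a j)) → Commute c (l.map a).prod
  | [], _ => Commute.one_right c
  | j :: l, h => by
    rw [List.map_cons, List.prod_cons]
    exact (h j (by simp)).mul_right (commute_list_prod l fun i hi => h i (by simp [hi]))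

/-- blocks. -/
theorem alt_list {J : Type*} (a b : J → G) (m : ℕ) : ∀ l : List J, l.Nodup →
    (∀ i ∈ l, ∀ j ∈ l, i ≠ j → Commute (a i) (a j) ∧ Commute (a i) (b j) ∧ Commute (b i) (b j)) →
    alt (l.map a).prod (l.map b).prod m = (l.map fun j => alt (a j) (b j) m).prod
  | [], _, _ => alt_one m
  | j :: l, hl, h => by
    rw [List.nodup_cons] at hl
    have hne : ∀ i ∈ l, i ≠ j := fun i hi e => hl.1 (e ▸ hi)
    have c1 : Commute (a j) (l.map a).prod := commute_list_prod l fun i hi =>
      (h j (by simp) i (by simp [hi]) (hne i hi).symm).1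
    have c2 : Commute (a j) (l.map b).prod := commute_list_prod l fun i hi =>
      (h j (by simp) i (by simp [hi]) (hne i hi).symm).2.1
    have c3 : Commute (b j) (l.map a).prod := commute_list_prod l fun i hi =>
      (h i (by simp [hi]) j (by simp) (hne i hi)).2.1.symm
    have c4 : Commute (b j) (l.map b).prod := commute_list_prod l fun i hi =>
      (h j (by simp) i (by simp [hi]) (hne i hi).symm).2.2
    rw [List.map_cons, List.prod_cons, List.map_cons, List.prod_cons, List.map_cons,
      List.prod_cons, alt_mul_mul c1.symm c3.symm c2.symm c4.symm,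
      alt_list a b m l hl.2 fun i hi k hk hik => h i (by simp [hi]) k (by simp [hk]) hik]

/-! ### one block -/

theorem L_mul {a k : ℕ} {f f' : ℕ → G}
    (h : ∀ i j, a ≤ i → i < a + k → a ≤ j → j < a + k → Commute (f' i) (f j)) :
    L a k (fun i => f i * f' i) = L a k f * L a k f' := by
  induction k generalizing a with
  | zero => simp
  | succ k ih =>
    have c : Commute (f' a) (L (a + 1) k f) :=
      L_commute fun j h1 h2 => h a j le_rfl (by omega) (by omega) (by omega)
    rw [L_succ, L_succ, L_succ, ih fun i j h1 h2 h3 h4 => h i j (by omega) (by omega) (by omega)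
      (by omega)]
    calc f a * f' a * (L (a + 1) k f * L (a + 1) k f')
        = f a * (f' a * L (a + 1) k f) * L (a + 1) k f' := by simp only [mul_assoc]
      _ = f a * L (a + 1) k f * (f' a * L (a + 1) k f') := by rw [c.eq]; simp only [mul_assoc]

/-- the relations between two sequences of commuting elements. -/
structure Blk (n : ℕ) (X Y : ℕ → G) : Prop where
  xx : ∀ i j, i < n → j < n → Commute (X i) (X j)
  yy : ∀ i j, i < n → j < n → Commute (Y i) (Y j)
  xy : ∀ i j, i < n → j < n → i + 1 ≠ j → j + 1 ≠ i → Commute (X i) (Y j)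
  b1 : ∀ i, i + 1 < n → X i * Y (i + 1) * X i = Y (i + 1) * X i * Y (i + 1)
  b2 : ∀ i, i + 1 < n → Y i * X (i + 1) * Y i = X (i + 1) * Y i * X (i + 1)

/-- `X` at even, `Y` at odd places. -/
def gp (X Y : ℕ → G) (i : ℕ) : G := if i % 2 = 0 then X i else Y i

theorem gp_even {X Y : ℕ → G} {i : ℕ} (h : i % 2 = 0) : gp X Y i = X i := if_pos h
theorem gp_odd {X Y : ℕ → G} {i : ℕ} (h : i % 2 ≠ 0) : gp X Y i = Y i := if_neg h

theorem Blk.symm {n : ℕ} {X Y : ℕ → G} (h : Blk n X Y) : Blk n Y X where
  xx := h.yy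
  yy := h.xx
  xy := fun i j hi hj h1 h2 => (h.xy j i hj hi h2 h1).symm
  b1 := h.b2
  b2 := h.b1

theorem Blk.rel {n : ℕ} {X Y : ℕ → G} (h : Blk n X Y) : Rel n (gp X Y) where
  comm := fun i j h1 h2 => by
    unfold gp
    split_ifs
    · exact h.xx i j (by omega) h2
    · exact h.xy i j (by omega) h2 (by omega) (by omega)
    · exact (h.xy j i h2 (by omega) (by omega) (by omega)).symm
    · exact h.yy i j (by omega) h2
  braid := fun i hi => by
    by_cases hp : i % 2 = 0
    · rw [gp_even hp, gp_odd (by omega : (i + 1) % 2 ≠ 0)]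
      exact h.b1 i hi
    · rw [gp_odd hp, gp_even (by omega : (i + 1) % 2 = 0)]
      exact h.b2 i hi

/-- the two paths commute. -/
theorem Blk.cross {n : ℕ} {X Y : ℕ → G} (h : Blk n X Y) (q q' i j : ℕ) (hi : i < n) (hj : j < n) :
    Commute (e (gp X Y) q i) (e (gp Y X) q' j) := by
  unfold e
  split_ifs
  · unfold gp
    split_ifs
    · exact h.xy i j hi hj (by omega) (by omega)
    · exact h.xx i j hi hj
    · exact h.yy i j hi hj
    · exact (h.xy j i hj hi (by omega) (by omega)).symm
  · exact Commute.one_right _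
  · exact Commute.one_left _
  · exact Commute.one_left _

theorem Blk.crossL {n : ℕ} {X Y : ℕ → G} (h : Blk n X Y) (q q' : ℕ) :
    Commute (L 0 n (e (gp X Y) q)) (L 0 n (e (gp Y X) q')) :=
  L_commute' fun i j _ h1 _ h2 => h.cross q q' i j (by omega) (by omega)

theorem Blk.prodX {n : ℕ} {X Y : ℕ → G} (h : Blk n X Y) :
    L 0 n X = L 0 n (e (gp X Y) 0) * L 0 n (e (gp Y X) 1) := by
  rw [← L_mul fun i j _ h1 _ h2 => (h.cross 0 1 j i (by omega) (by omega)).symm]
  refine L_congr fun i _ _ => ?_
  by_cases hp : i % 2 = 0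
  · rw [e_pos (by omega), e_neg (by omega), gp_even hp, mul_one]
  · rw [e_neg (by omega), e_pos (by omega), gp_odd hp, one_mul]

theorem Blk.prodY {n : ℕ} {X Y : ℕ → G} (h : Blk n X Y) :
    L 0 n Y = L 0 n (e (gp X Y) 1) * L 0 n (e (gp Y X) 0) := by
  rw [h.symm.prodX, (h.symm.crossL 0 1).eq]

/-- **one block.** -/
theorem block {n : ℕ} {X Y : ℕ → G} (h : Blk n X Y) :
    alt (L 0 n X) (L 0 n Y) (n + 1) = alt (L 0 n Y) (L 0 n X) (n + 1) := by
  have h1 := braid_path h.rel
  have h2 := braid_path h.symm.rel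
  rw [h.prodX, h.prodY,
    alt_mul_mul (h.crossL 0 1).symm (h.crossL 1 1).symm (h.crossL 0 0).symm (h.crossL 1 0).symm,
    alt_mul_mul (h.crossL 1 0).symm (h.crossL 0 0).symm (h.crossL 1 1).symm (h.crossL 0 1).symm,
    h1, h2]

/-! ### families -/

theorem ofFn_prod {n : ℕ} (f : ℕ → G) : (List.ofFn fun i : Fin n => f i).prod = L 0 n f := by
  induction n generalizing f with
  | zero => simp
  | succ n ih =>
    rw [List.ofFn_succ, List.prod_cons, L_succ]
    have h1 := ih fun i => f (i + 1)
    have h2 : L (0 + 1) n f = L 0 n (fun i => f (i + 1)) := L_shift 0 1 n f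
    rw [h2, ← h1]
    rfl

theorem prod_flatMap_map {I J : Type*} (f : J → List I) (x : I → G) : ∀ l : List J,
    ((l.flatMap f).map x).prod = (l.map fun j => ((f j).map x).prod).prod
  | [] => rfl
  | j :: l => by
    rw [List.flatMap_cons, List.map_append, List.prod_append, prod_flatMap_map f x l,
      List.map_cons, List.prod_cons]

section fold

variable {I J : Type*} [Fintype I] [Fintype J] {n : ℕ}

/-- the product of a commuting family. -/
noncomputable def cp (x : I → G) (hx : ∀ i i', Commute (x i) (x i')) : G :=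
  Finset.univ.noncommProd x fun i _ i' _ _ => hx i i'

theorem cp_list [DecidableEq I] (x : I → G) (hx : ∀ i i', Commute (x i) (x i')) (l : List I)
    (hl : l.Nodup) (hu : ∀ i, i ∈ l) : cp x hx = (l.map x).prod := by
  have h1 : (Finset.univ : Finset I) = l.toFinset := by
    ext i
    simp [hu i]
  unfold cp
  rw [← Finset.noncommProd_toFinset l x (fun i _ i' _ _ => hx i i') hl]
  exact Finset.noncommProd_congr h1 (fun _ _ => rfl) _

theorem cp_commute (x : I → G) (hx : ∀ i i', Commute (x i) (x i')) (c : G)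
    (h : ∀ i, Commute c (x i)) : Commute c (cp x hx) :=
  Finset.noncommProd_commute _ _ _ _ fun i _ => h i

open Classical in
theorem cp_fold (ε : I ≃ Fin n × J) (x : I → G) (hx : ∀ i i', Commute (x i) (x i')) :
    cp x hx = ((Finset.univ : Finset J).toList.map fun j =>
      L 0 n fun i => if h : i < n then x (ε.symm (⟨i, h⟩, j)) else 1).prod := by
  have h1 := cp_list x hx ((Finset.univ : Finset J).toList.flatMap fun j =>
    (List.finRange n).map fun a => ε.symm (a, j)) ?_ ?_
  · rw [h1, prod_flatMap_map]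
    congr 1
    refine List.map_congr_left fun j _ => ?_
    rw [← ofFn_prod, List.ofFn_eq_map, List.map_map]
    congr 1
    refine List.map_congr_left fun a _ => ?_
    simp
  · rw [List.nodup_flatMap]
    refine ⟨fun j _ => (List.nodup_finRange n).map fun a b h => ?_, ?_⟩
    · have := ε.symm.injective h
      exact (Prod.mk.inj this).1
    · refine (Finset.nodup_toList _).imp fun {j j'} hne => ?_
      rw [Function.onFun, List.disjoint_left]
      intro i hi hi'
      rw [List.mem_map] at hi hi'
      obtain ⟨a, -, rfl⟩ := hi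
      obtain ⟨b, -, hb⟩ := hi'
      have := ε.symm.injective hb
      exact hne (Prod.mk.inj this).2.symm
  · intro i
    rw [List.mem_flatMap]
    refine ⟨(ε i).2, by simp, ?_⟩
    rw [List.mem_map]
    exact ⟨(ε i).1, by simp, by simp⟩

/-- adjacency in `Fin n × J`. -/
def Adj (ε : I ≃ Fin n × J) (i i' : I) : Prop :=
  (ε i).2 = (ε i').2 ∧ ((ε i).1.val + 1 = (ε i').1.val ∨ (ε i').1.val + 1 = (ε i).1.val)

/-- **folding, label `n + 1`.** -/
theorem fold_path (ε : I ≃ Fin n × J) (x y : I → G) (hx : ∀ i i', Commute (x i) (x i'))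
    (hy : ∀ i i', Commute (y i) (y i')) (hxy : ∀ i i', ¬ Adj ε i i' → Commute (x i) (y i'))
    (hbr : ∀ i i', Adj ε i i' → x i * y i' * x i = y i' * x i * y i') :
    alt (cp x hx) (cp y hy) (n + 1) = alt (cp y hy) (cp x hx) (n + 1) := by
  classical
  rw [cp_fold ε x hx, cp_fold ε y hy]
  set X : J → ℕ → G := fun j i => if h : i < n then x (ε.symm (⟨i, h⟩, j)) else 1 with hX
  set Y : J → ℕ → G := fun j i => if h : i < n then y (ε.symm (⟨i, h⟩, j)) else 1 with hY
  have eX : ∀ j i (h : i < n), X j i = x (ε.symm (⟨i, h⟩, j)) := fun j i h => dif_pos h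
  have eY : ∀ j i (h : i < n), Y j i = y (ε.symm (⟨i, h⟩, j)) := fun j i h => dif_pos h
  have hB : ∀ j, Blk n (X j) (Y j) := fun j =>
    { xx := fun i i' h h' => by rw [eX j i h, eX j i' h']; exact hx _ _
      yy := fun i i' h h' => by rw [eY j i h, eY j i' h']; exact hy _ _
      xy := fun i i' h h' h1 h2 => by
        rw [eX j i h, eY j i' h']
        refine hxy _ _ fun hA => ?_
        rw [Adj, Equiv.apply_symm_apply, Equiv.apply_symm_apply] at hA
        rcases hA.2 with h3 | h3
        · exact h1 h3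
        · exact h2 h3
      b1 := fun i h => by
        rw [eX j i (by omega), eY j (i + 1) h]
        refine hbr _ _ ?_
        rw [Adj, Equiv.apply_symm_apply, Equiv.apply_symm_apply]
        exact ⟨rfl, Or.inl rfl⟩
      b2 := fun i h => by
        rw [eY j i (by omega), eX j (i + 1) h]
        refine (hbr _ _ ?_).symm
        rw [Adj, Equiv.apply_symm_apply, Equiv.apply_symm_apply]
        exact ⟨rfl, Or.inr rfl⟩ }
  have hl := Finset.nodup_toList (Finset.univ : Finset J)
  have hc : ∀ i ∈ (Finset.univ : Finset J).toList, ∀ j ∈ (Finset.univ : Finset J).toList, i ≠ j →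
      Commute (L 0 n (X i)) (L 0 n (X j)) ∧ Commute (L 0 n (X i)) (L 0 n (Y j)) ∧
        Commute (L 0 n (Y i)) (L 0 n (Y j)) := by
    intro i _ j _ hij
    refine ⟨L_commute' fun a b _ ha _ hb => ?_, L_commute' fun a b _ ha _ hb => ?_,
      L_commute' fun a b _ ha _ hb => ?_⟩
    · rw [eX i a (by omega), eX j b (by omega)]; exact hx _ _
    · rw [eX i a (by omega), eY j b (by omega)]
      refine hxy _ _ fun hA => ?_
      rw [Adj, Equiv.apply_symm_apply, Equiv.apply_symm_apply] at hA
      exact hij hA.1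
    · rw [eY i a (by omega), eY j b (by omega)]; exact hy _ _
  have hc' : ∀ i ∈ (Finset.univ : Finset J).toList, ∀ j ∈ (Finset.univ : Finset J).toList, i ≠ j →
      Commute (L 0 n (Y i)) (L 0 n (Y j)) ∧ Commute (L 0 n (Y i)) (L 0 n (X j)) ∧
        Commute (L 0 n (X i)) (L 0 n (X j)) := fun i hi j hj hij =>
    ⟨(hc i hi j hj hij).2.2, (hc j hj i hi hij.symm).2.1.symm, (hc i hi j hj hij).1⟩
  rw [alt_list (fun j => L 0 n (X j)) (fun j => L 0 n (Y j)) (n + 1) _ hl hc,
    alt_list (fun j => L 0 n (Y j)) (fun j => L 0 n (X j)) (n + 1) _ hl hc']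
  congr 1
  exact List.map_congr_left fun j _ => block (hB j)

/-- **folding, label `3`** (`(s,i) ~ (t,i)`). -/
theorem fold_three (x y : I → G) (hx : ∀ i i', Commute (x i) (x i'))
    (hy : ∀ i i', Commute (y i) (y i')) (hxy : ∀ i i', i ≠ i' → Commute (x i) (y i'))
    (hbr : ∀ i, x i * y i * x i = y i * x i * y i) :
    alt (cp x hx) (cp y hy) 3 = alt (cp y hy) (cp x hx) 3 := by
  classical
  have hl := Finset.nodup_toList (Finset.univ : Finset I)
  have hu : ∀ i, i ∈ (Finset.univ : Finset I).toList := fun i => by simp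
  rw [cp_list x hx _ hl hu, cp_list y hy _ hl hu,
    alt_list x y 3 _ hl fun i _ j _ hij => ⟨hx i j, hxy i j hij, hy i j⟩,
    alt_list y x 3 _ hl fun i _ j _ hij => ⟨hy i j, (hxy j i hij.symm).symm, hx i j⟩]
  congr 1
  refine List.map_congr_left fun j _ => ?_
  simpa [alt, mul_assoc] using hbr j

/-- **folding, label `2`**. -/
theorem fold_two (x y : I → G) (hx : ∀ i i', Commute (x i) (x i'))
    (hy : ∀ i i', Commute (y i) (y i')) (hxy : ∀ i i', Commute (x i) (y i')) :
    alt (cp x hx) (cp y hy) 2 = alt (cp y hy) (cp x hx) 2 := by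
  have : Commute (cp x hx) (cp y hy) :=
    cp_commute y hy _ fun i => (cp_commute x hx _ fun i' => (hxy i' i).symm).symm
  simpa [alt] using this.eq

end fold

/-! ### the homomorphism -/

section hom

variable {S : Type*} (M : CoxeterMatrix S) {I : Type*} [Fintype I] {L' : Type*} [Group L']

/-- the relations of the unfolded diagram. -/
structure Fold (σ : S → I → L') : Prop where
  self : ∀ s i i', Commute (σ s i) (σ s i')
  two : ∀ s t, M.M s t = 2 → ∀ i i', Commute (σ s i) (σ t i')
  path : ∀ s t, 3 ≤ M.M s t →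
    (M.M s t = 3 ∧ (∀ i i', i ≠ i' → Commute (σ s i) (σ t i')) ∧
      ∀ i, σ s i * σ t i * σ s i = σ t i * σ s i * σ t i) ∨
    ∃ (J : Type) (_ : Fintype J) (ε : I ≃ Fin (M.M s t - 1) × J),
      (∀ i i', ¬ Adj ε i i' → Commute (σ s i) (σ t i')) ∧
      ∀ i i', Adj ε i i' → σ s i * σ t i' * σ s i = σ t i' * σ s i * σ t i'

variable {M}

/-- `σ_s = ∏_i σ_{(s,i)}`. -/
noncomputable def Fold.sg {σ : S → I → L'} (h : Fold M σ) (s : S) : L' := cp (σ s) (h.self s)

theorem Fold.rel {σ : S → I → L'} (h : Fold M σ) (s t : S) :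
    alt (h.sg s) (h.sg t) (M.M s t) = alt (h.sg t) (h.sg s) (M.M s t) := by
  by_cases hst : s = t
  · subst hst; rfl
  rcases Nat.lt_or_ge (M.M s t) 3 with h3 | h3
  · have h1 : M.M s t ≠ 1 := M.off_diagonal s t hst
    have h02 : M.M s t = 0 ∨ M.M s t = 2 := by omega
    rcases h02 with h0 | h2
    · rw [h0]; rfl
    · rw [h2]
      exact fold_two _ _ _ _ (h.two s t h2)
  · rcases h.path s t h3 with ⟨e3, hc, hb⟩ | ⟨J, _, ε, hc, hb⟩
    · rw [e3]
      exact fold_three _ _ _ _ hc hb
    · have := fold_path ε (σ s) (σ t) (h.self s) (h.self t) hc hb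
      have e1 : M.M s t - 1 + 1 = M.M s t := by omega
      rwa [e1] at this

/-- **the homomorphism `A_M → L'`, `s ↦ ∏_i σ_{(s,i)}`.** -/
noncomputable def Fold.hom {σ : S → I → L'} (h : Fold M σ) : ArtinGroup M →* L' :=
  toHom M h.sg h.rel

@[simp] theorem Fold.hom_gen {σ : S → I → L'} (h : Fold M σ) (s : S) :
    h.hom (artinGen M s) = h.sg s :=
  toHom_gen M _ _ s

end hom

end Crest.Agent.R175.Lcm_109
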