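import Mathlib
import Crest.Agent.R175.PTA_534

-- ▼ part R175/PTN_4
section

/-!
Row 175 (S0263), block (D): (N) of #2634.  A nonzero finite dimensional family `V s`, `s : T`,
with maps `B : V s → V t` along the edges of a finite multigraph with
`∑ B B = 0` at every vertex, has a vertex with `ker a_s ≠ 0` and a vertex with `coker b_s ≠ 0`.
The Cartan form enters only through
`hC : ∀ n : T → ℕ, (∀ s, 2 * n s ≤ ∑ t, card (E s t) * n t) → n = 0`.
-/

open Module

namespace Crest.Agent.R175.PTN_4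

universe u v w z

variable {k : Type u} [Field k] {T : Type v} [Fintype T]
  {E : T → T → Type w} [∀ s t, Fintype (E s t)]

section num

variable {V : T → Type z} [∀ s, AddCommGroup (V s)] [∀ s, Module k (V s)]
  [∀ s, FiniteDimensional k (V s)]

/-- numerical consequence of `b_s a_s = 0`, `a_s` injective, `b_s` onto. -/
theorem two_mul_le (rev : ∀ s t, E s t → E t s) (B : ∀ s t, E s t → V s →ₗ[k] V t)
    (s : T) (hMC : ∀ v, ∑ t, ∑ a : E s t, B t s (rev s t a) (B s t a v) = 0)
    (ha : ∀ v : V s, (∀ t a, B s t a v = 0) → v = 0)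
    (hb : ∀ v : V s, ∃ m : ∀ t, E s t → V t, ∑ t, ∑ a : E s t, B t s (rev s t a) (m t a) = v) :
    2 * finrank k (V s) ≤ ∑ t, Fintype.card (E s t) * finrank k (V t) := by
  classical
  let aM : V s →ₗ[k] (∀ t, E s t → V t) :=
    LinearMap.pi fun t => LinearMap.pi fun a => B s t a
  let bM : (∀ t, E s t → V t) →ₗ[k] V s :=
    ∑ t, ∑ a : E s t, B t s (rev s t a) ∘ₗ LinearMap.proj a ∘ₗ LinearMap.proj t
  have hbM : ∀ m, bM m = ∑ t, ∑ a : E s t, B t s (rev s t a) (m t a) := fun m => by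
    simp [bM, LinearMap.sum_apply]
  have h1 : finrank k (∀ t, E s t → V t) = ∑ t, Fintype.card (E s t) * finrank k (V t) := by
    rw [Module.finrank_pi_fintype]
    refine Finset.sum_congr rfl fun t _ => ?_
    rw [Module.finrank_pi_fintype, Finset.sum_const, Finset.card_univ, smul_eq_mul]
  have h2 : finrank k (LinearMap.range bM) + finrank k (LinearMap.ker bM)
      = finrank k (∀ t, E s t → V t) := LinearMap.finrank_range_add_finrank_ker _
  have h3 : finrank k (LinearMap.range bM) = finrank k (V s) := by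
    rw [LinearMap.range_eq_top.2 (fun v => ?_), finrank_top]
    obtain ⟨m, hm⟩ := hb v
    exact ⟨m, by rw [hbM, hm]⟩
  have h4 : finrank k (LinearMap.range aM) = finrank k (V s) := by
    refine LinearMap.finrank_range_of_inj ((injective_iff_map_eq_zero aM).2 fun v hv => ?_)
    exact ha v fun t a => congrFun (congrFun hv t) a
  have h5 : LinearMap.range aM ≤ LinearMap.ker bM := by
    rintro _ ⟨x, rfl⟩
    rw [LinearMap.mem_ker, hbM]
    exact hMC x
  have h6 := Submodule.finrank_mono h5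
  omega

end num

section ker

variable {V : T → Type z} [∀ s, AddCommGroup (V s)] [∀ s, Module k (V s)]
  [∀ s, FiniteDimensional k (V s)]

/-- induction step over a stable family of subspaces -/
theorem exists_ker_sub (rev : ∀ s t, E s t → E t s) (hrev : ∀ s t a, rev t s (rev s t a) = a)
    (B : ∀ s t, E s t → V s →ₗ[k] V t)
    (hC : ∀ n : T → ℕ, (∀ s, 2 * n s ≤ ∑ t, Fintype.card (E s t) * n t) → n = 0)
    (hMC : ∀ s (v : V s), ∑ t, ∑ a : E s t, B t s (rev s t a) (B s t a v) = 0) :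
    ∀ (d : ℕ) (N : ∀ s, Submodule k (V s)), (∑ s, finrank k (N s) ≤ d) →
      (∀ s t a, ∀ v ∈ N s, B s t a v ∈ N t) → (∃ s, N s ≠ ⊥) →
      ∃ s, ∃ v ∈ N s, v ≠ 0 ∧ ∀ t a, B s t a v = 0 := by
  classical
  intro d
  induction d with
  | zero =>
    intro N hd _ hne
    obtain ⟨s, hs⟩ := hne
    exfalso
    apply hs
    have h1 : finrank k (N s) ≤ ∑ s, finrank k (N s) :=
      Finset.single_le_sum (f := fun s => finrank k (N s)) (fun _ _ => Nat.zero_le _)
        (Finset.mem_univ s)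
    exact Submodule.finrank_eq_zero.1 (by omega)
  | succ d ih =>
    intro N hd hN hne
    by_contra hcon
    push Not at hcon
    have ha : ∀ s, ∀ v ∈ N s, (∀ t a, B s t a v = 0) → v = 0 := by
      intro s v hv h
      by_contra h0
      obtain ⟨t, a, hta⟩ := hcon s v hv h0
      exact hta (h t a)
    -- the image family
    let bM : ∀ s, (∀ t, E s t → V t) →ₗ[k] V s := fun s =>
      ∑ t, ∑ a : E s t, B t s (rev s t a) ∘ₗ LinearMap.proj a ∘ₗ LinearMap.proj t
    have hbM : ∀ s m, bM s m = ∑ t, ∑ a : E s t, B t s (rev s t a) (m t a) := fun s m => by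
      simp [bM, LinearMap.sum_apply]
    let P : ∀ s, Submodule k (∀ t, E s t → V t) := fun s =>
      Submodule.pi Set.univ fun t => Submodule.pi Set.univ fun _ : E s t => N t
    have hP : ∀ s m, m ∈ P s ↔ ∀ t a, m t a ∈ N t := fun s m => by
      simp [P, Submodule.mem_pi]
    let N' : ∀ s, Submodule k (V s) := fun s => (P s).map (bM s)
    have hN'N : ∀ s, N' s ≤ N s := by
      rintro s _ ⟨m, hm, rfl⟩
      rw [hbM]
      exact Submodule.sum_mem _ fun t _ => Submodule.sum_mem _ fun a _ =>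
        hN t s _ _ ((hP s m).1 hm t a)
    have hin : ∀ s t a, ∀ v ∈ N s, B s t a v ∈ N' t := by
      intro s t a v hv
      refine ⟨Pi.single s (Pi.single (rev s t a) v), (hP t _).2 fun s' a' => ?_, ?_⟩
      · by_cases hs : s' = s
        · subst hs
          rw [Pi.single_eq_same]
          by_cases ha' : a' = rev s' t a
          · subst ha'
            rw [Pi.single_eq_same]
            exact hv
          · rw [Pi.single_eq_of_ne ha']
            exact (N s').zero_mem
        · rw [Pi.single_eq_of_ne hs]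
          exact (N s').zero_mem
      · rw [hbM, Finset.sum_eq_single s, Finset.sum_eq_single (rev s t a)]
        · rw [Pi.single_eq_same, Pi.single_eq_same, hrev]
        · intro a' _ ha'
          rw [Pi.single_eq_same, Pi.single_eq_of_ne ha', map_zero]
        · intro h
          exact absurd (Finset.mem_univ _) h
        · intro s' _ hs'
          rw [Pi.single_eq_of_ne hs']
          exact Finset.sum_eq_zero fun a' _ => map_zero _
        · intro h
          exact absurd (Finset.mem_univ _) h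
    have hne' : ∃ s, N' s ≠ ⊥ := by
      by_contra h
      push Not at h
      obtain ⟨s, hs⟩ := hne
      obtain ⟨v, hv, hv0⟩ := (Submodule.ne_bot_iff _).1 hs
      refine hv0 (ha s v hv fun t a => ?_)
      have h1 := hin s t a v hv
      rw [h t] at h1
      exact (Submodule.mem_bot k).1 h1
    have hd' : ¬ ∑ s, finrank k (N' s) ≤ d := by
      intro h
      obtain ⟨s, v, hv, hv0, hv1⟩ := ih N' h
        (fun s t a v hv => hin s t a v (hN'N s hv)) hne'
      obtain ⟨t, a, hta⟩ := hcon s v (hN'N s hv) hv0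
      exact hta (hv1 t a)
    have hle : ∀ s, finrank k (N' s) ≤ finrank k (N s) := fun s =>
      Submodule.finrank_mono (hN'N s)
    have heq : ∀ s, finrank k (N' s) = finrank k (N s) := by
      have h1 : ∑ s, finrank k (N' s) = ∑ s, finrank k (N s) :=
        le_antisymm (Finset.sum_le_sum fun s _ => hle s) (by omega)
      intro s
      exact (Finset.sum_eq_sum_iff_of_le fun s _ => hle s).1 h1 s (Finset.mem_univ s)
    have hNN : ∀ s, N' s = N s := fun s => Submodule.eq_of_le_of_finrank_eq (hN'N s) (heq s)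
    -- restricted family
    let B' : ∀ s t, E s t → N s →ₗ[k] N t := fun s t a =>
      (B s t a).restrict (fun v hv => hN s t a v hv)
    have hB' : ∀ s t a (v : N s), ((B' s t a v : N t) : V t) = B s t a v := fun s t a v => rfl
    have h0 : (fun s => finrank k (N s)) = 0 := by
      refine hC _ fun s => ?_
      refine two_mul_le rev B' s (fun v => ?_) (fun v hv => ?_) (fun v => ?_)
      · apply Subtype.ext
        simp only [AddSubmonoidClass.coe_finsetSum, hB']
        exact hMC s v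
      · apply Subtype.ext
        refine ha s v v.2 fun t a => ?_
        rw [← hB', hv t a]
        rfl
      · have hv : (v : V s) ∈ N' s := by rw [hNN s]; exact v.2
        obtain ⟨m, hm, hmv⟩ := hv
        refine ⟨fun t a => ⟨m t a, (hP s m).1 hm t a⟩, ?_⟩
        apply Subtype.ext
        simp only [AddSubmonoidClass.coe_finsetSum, hB']
        rw [← hmv, hbM]
    obtain ⟨s, hs⟩ := hne
    exact hs (Submodule.finrank_eq_zero.1 (congrFun h0 s))

/-- (N), first half: some `ker a_s ≠ 0`. -/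
theorem exists_ker (rev : ∀ s t, E s t → E t s) (hrev : ∀ s t a, rev t s (rev s t a) = a)
    (B : ∀ s t, E s t → V s →ₗ[k] V t)
    (hC : ∀ n : T → ℕ, (∀ s, 2 * n s ≤ ∑ t, Fintype.card (E s t) * n t) → n = 0)
    (hMC : ∀ s (v : V s), ∑ t, ∑ a : E s t, B t s (rev s t a) (B s t a v) = 0)
    (hne : ∃ s, ∃ v : V s, v ≠ 0) :
    ∃ s, ∃ v : V s, v ≠ 0 ∧ ∀ t a, B s t a v = 0 := by
  obtain ⟨s, v, _, hv0, hv1⟩ := exists_ker_sub rev hrev B hC hMC
    (∑ s, finrank k (⊤ : Submodule k (V s))) (fun s => ⊤) le_rfl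
    (fun _ _ _ _ _ => Submodule.mem_top)
    (by
      obtain ⟨s, v, hv⟩ := hne
      exact ⟨s, (Submodule.ne_bot_iff _).2 ⟨v, Submodule.mem_top, hv⟩⟩)
  exact ⟨s, v, hv0, hv1⟩


end ker

end Crest.Agent.R175.PTN_4
end

-- ▼ part R175/PTQ_4
section

/-!
Row 175 (S0263), block (D), post #2949: linear algebra of the cohomology data of a T-framed
object with its position operator.

`QM`: spaces `H s` (= `H(V_s, d0)`), `W s`, the position operator `A`, maps `B`, `i`, `j`.
`ht : k → ℤ` is a height function, `ht (μ + 1) = ht μ + 1`, `ht 0 = 0`; the "position" of an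
eigenvalue `μ` of `A` is `ht μ`.
-/

open Module

set_option autoImplicit false
set_option linter.unusedSectionVars false

namespace Crest.Agent.R175.PTQ_4

open Crest.Agent.R175.PTA (MG)

universe u v

variable {T : Type u} [Fintype T] {G : MG T} {k : Type v} [Field k]

/-- cohomology data of a framed object with position operator `A` -/
structure QM {T : Type u} [Fintype T] (G : MG T) (k : Type v) [Field k] where
  H : T → Type v
  W : T → Type v
  [acH : ∀ s, AddCommGroup (H s)]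
  [mH : ∀ s, Module k (H s)]
  [fH : ∀ s, FiniteDimensional k (H s)]
  [acW : ∀ s, AddCommGroup (W s)]
  [mW : ∀ s, Module k (W s)]
  [fW : ∀ s, FiniteDimensional k (W s)]
  A : ∀ s, H s →ₗ[k] H s
  B : ∀ s t, G.E s t → H s →ₗ[k] H t
  i : ∀ s, W s →ₗ[k] H s
  j : ∀ s, H s →ₗ[k] W s
  AB : ∀ s t a v, A t (B s t a v) = B s t a (A s v)
  Ai : ∀ s w, A s (i s w) = 0
  jA : ∀ s v, j s (A s v) = 0
  MC : ∀ s v, ∑ t, ∑ a : G.E s t, B t s (G.rev a) (B s t a v) + i s (j s v) = 0

attribute [instance] QM.acH QM.mH QM.fH QM.acW QM.mW QM.fW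

namespace QM

variable (X : QM G k)

/-- `ker a_s` -/
def kerA (s : T) : Submodule k (X.H s) :=
  (⨅ t, ⨅ a : G.E s t, LinearMap.ker (X.B s t a)) ⊓ LinearMap.ker (X.j s)

/-- `im b_s` -/
def imB (s : T) : Submodule k (X.H s) :=
  (⨆ t, ⨆ a : G.E t s, LinearMap.range (X.B t s a)) ⊔ LinearMap.range (X.i s)

variable {X}

theorem mem_kerA {s : T} {v : X.H s} : v ∈ X.kerA s ↔ (∀ t a, X.B s t a v = 0) ∧ X.j s v = 0 := by
  simp [kerA, Submodule.mem_iInf]

theorem B_mem_imB {s t : T} (a : G.E t s) (v : X.H t) : X.B t s a v ∈ X.imB s :=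
  Submodule.mem_sup_left (Submodule.mem_iSup_of_mem t (Submodule.mem_iSup_of_mem a ⟨v, rfl⟩))

theorem i_mem_imB {s : T} (v : X.W s) : X.i s v ∈ X.imB s :=
  Submodule.mem_sup_right ⟨v, rfl⟩

theorem imB_le {s : T} {N : Submodule k (X.H s)} :
    X.imB s ≤ N ↔ (∀ t (a : G.E t s) v, X.B t s a v ∈ N) ∧ ∀ v, X.i s v ∈ N := by
  constructor
  · intro h
    exact ⟨fun t a v => h (B_mem_imB a v), fun v => h (i_mem_imB v)⟩
  · rintro ⟨h1, h2⟩
    refine sup_le (iSup_le fun t => iSup_le fun a => ?_) ?_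
    · rintro _ ⟨v, rfl⟩
      exact h1 t a v
    · rintro _ ⟨v, rfl⟩
      exact h2 v

/-- `im b_s` is stable under `A` -/
theorem A_mem_imB {s : T} {v : X.H s} (hv : v ∈ X.imB s) : X.A s v ∈ X.imB s := by
  have h : X.imB s ≤ (X.imB s).comap (X.A s) := by
    rw [imB_le]
    refine ⟨fun t a v => ?_, fun v => ?_⟩
    · rw [Submodule.mem_comap, X.AB]
      exact B_mem_imB a _
    · rw [Submodule.mem_comap, X.Ai]
      exact Submodule.zero_mem _
  exact h hv

/-- `ker a_s` is stable under `A` -/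
theorem A_mem_kerA {s : T} {v : X.H s} (hv : v ∈ X.kerA s) : X.A s v ∈ X.kerA s := by
  rw [mem_kerA] at hv ⊢
  refine ⟨fun t a => ?_, ?_⟩
  · rw [← X.AB, hv.1 t a, map_zero]
  · rw [X.jA]

end QM

/-- a stable subspace and an injective operator: membership can be pulled back. -/
theorem mem_of_op_mem {H : Type*} [AddCommGroup H] [Module k H] [FiniteDimensional k H]
    (f : H →ₗ[k] H) (hf : ∀ v, f v = 0 → v = 0) (N : Submodule k H) (hN : ∀ v ∈ N, f v ∈ N)
    {v : H} (hv : f v ∈ N) : v ∈ N := by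
  have hinj : Function.Injective f := (injective_iff_map_eq_zero f).2 hf
  let g : N →ₗ[k] N := f.restrict hN
  have hg : Function.Injective g := by
    intro x y hxy
    apply Subtype.ext
    apply hinj
    exact congrArg (fun t : N => (t : H)) hxy
  obtain ⟨x, hx⟩ := LinearMap.surjective_of_injective hg ⟨f v, hv⟩
  have h1 : f x = f v := congrArg (fun t : N => (t : H)) hx
  rw [← hinj h1]
  exact x.2

/-- same with `f - ν` -/
theorem mem_of_sub_mem' {H : Type*} [AddCommGroup H] [Module k H] [FiniteDimensional k H]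
    (f : H →ₗ[k] H) (ν : k) (hf : ∀ v, f v = ν • v → v = 0) (N : Submodule k H)
    (hN : ∀ v ∈ N, f v ∈ N) {v : H} (hv : f v - ν • v ∈ N) : v ∈ N := by
  refine mem_of_op_mem (f - ν • (LinearMap.id : H →ₗ[k] H)) (fun x hx => ?_) N (fun x hx => ?_)
    (v := v) hv
  · refine hf x ?_
    rw [LinearMap.sub_apply, LinearMap.smul_apply, LinearMap.id_apply, sub_eq_zero] at hx
    exact hx
  · rw [LinearMap.sub_apply, LinearMap.smul_apply, LinearMap.id_apply]
    exact Submodule.sub_mem _ (hN x hx) (Submodule.smul_mem _ _ hx)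

/-- pull back along the quotient: if no functional killing `N` is an eigenvector for `ν`. -/
theorem mem_of_sub_mem {H : Type*} [AddCommGroup H] [Module k H] [FiniteDimensional k H]
    (f : H →ₗ[k] H) (ν : k) (N : Submodule k H) (hN : ∀ v ∈ N, f v ∈ N)
    (hη : ∀ η : H →ₗ[k] k, (∀ v, η (f v) = ν * η v) → (∀ v ∈ N, η v = 0) → η = 0)
    {v : H} (hv : f v - ν • v ∈ N) : v ∈ N := by
  let g : (H ⧸ N) →ₗ[k] (H ⧸ N) := N.mapQ N (f - ν • LinearMap.id) (fun x hx => by
    rw [Submodule.mem_comap, LinearMap.sub_apply, LinearMap.smul_apply, LinearMap.id_apply]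
    exact N.sub_mem (hN x hx) (N.smul_mem ν hx))
  have hgm : ∀ x : H, g (N.mkQ x) = N.mkQ (f x - ν • x) := fun x => rfl
  have hsurj : Function.Surjective g := by
    rw [← LinearMap.range_eq_top]
    by_contra hne
    obtain ⟨φ, hφ0, hφ⟩ := Submodule.exists_le_ker_of_lt_top _ (lt_top_iff_ne_top.2 hne)
    have h1 := hη (φ ∘ₗ N.mkQ) (fun x => by
      have h2 : φ (g (N.mkQ x)) = 0 := hφ ⟨_, rfl⟩
      rw [hgm, map_sub, map_smul, map_sub, map_smul, sub_eq_zero, smul_eq_mul] at h2
      exact h2) (fun x hx => by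
      have h3 : N.mkQ x = 0 := (Submodule.Quotient.mk_eq_zero N).2 hx
      rw [LinearMap.comp_apply, h3, map_zero])
    apply hφ0
    ext x
    exact LinearMap.congr_fun h1 x
  have hinj : Function.Injective g := LinearMap.injective_iff_surjective.2 hsurj
  have h0 : g (N.mkQ v) = 0 := by
    rw [hgm]
    exact (Submodule.Quotient.mk_eq_zero N).2 hv
  have h4 : N.mkQ v = 0 := hinj (h0.trans (map_zero g).symm)
  exact (Submodule.Quotient.mk_eq_zero N).1 h4

/-- an eigenfunctional gives an eigenvector -/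
theorem exists_eig_of_functional {H : Type*} [AddCommGroup H] [Module k H]
    [FiniteDimensional k H] (f : H →ₗ[k] H) (ν : k) (η : H →ₗ[k] k) (hη0 : η ≠ 0)
    (hη : ∀ v, η (f v) = ν * η v) : ∃ x, x ≠ 0 ∧ f x = ν • x := by
  have hns : ¬ Function.Surjective
      ((f - ν • (LinearMap.id : H →ₗ[k] H) : H →ₗ[k] H)) := by
    intro hsurj
    apply hη0
    ext x
    obtain ⟨y, rfl⟩ := hsurj x
    rw [LinearMap.sub_apply, LinearMap.smul_apply, LinearMap.id_apply, map_sub, map_smul,
      hη, smul_eq_mul, sub_self, LinearMap.zero_apply]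
  rw [← LinearMap.injective_iff_surjective, injective_iff_map_eq_zero] at hns
  push Not at hns
  obtain ⟨x, hx, hx0⟩ := hns
  rw [LinearMap.sub_apply, LinearMap.smul_apply, LinearMap.id_apply, sub_eq_zero] at hx
  exact ⟨x, hx0, hx⟩

/-- an eigenvector gives an eigenfunctional -/
theorem exists_functional_of_eig {H : Type*} [AddCommGroup H] [Module k H]
    [FiniteDimensional k H] (f : H →ₗ[k] H) (ν : k) {x : H} (hx0 : x ≠ 0)
    (hx : f x = ν • x) : ∃ η : H →ₗ[k] k, η ≠ 0 ∧ ∀ v, η (f v) = ν * η v := by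
  by_contra hcon
  push Not at hcon
  apply hx0
  have h := mem_of_sub_mem f ν ⊥ (fun v hv => by
    rw [Submodule.mem_bot] at hv ⊢; rw [hv, map_zero]) (fun η h1 _ => by
    by_contra h0
    obtain ⟨v, hv⟩ := hcon η h0
    exact hv (h1 v)) (v := x) (by rw [hx, sub_self]; exact Submodule.zero_mem _)
  exact (Submodule.mem_bot k).1 h

section pred

variable (ht : k → ℤ) (X : QM G k)

/-- all positions are `≥ a` -/
def lo (a : ℤ) : Prop := ∀ s μ (v : X.H s), v ≠ 0 → X.A s v = μ • v → a ≤ ht μ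

/-- all positions are `≤ b` -/
def hi (b : ℤ) : Prop := ∀ s μ (v : X.H s), v ≠ 0 → X.A s v = μ • v → ht μ ≤ b

/-- `ker a_s` is non zero in position `n` -/
def ka (s : T) (n : ℤ) : Prop :=
  ∃ μ, ht μ = n ∧ ∃ v : X.H s, v ≠ 0 ∧ X.A s v = μ • v ∧ v ∈ X.kerA s

/-- `coker b_s` is non zero in position `n` -/
def cb (s : T) (n : ℤ) : Prop :=
  ∃ μ, ht μ = n ∧ ∃ η : X.H s →ₗ[k] k, η ≠ 0 ∧ (∀ v, η (X.A s v) = μ * η v) ∧
    ∀ v ∈ X.imB s, η v = 0

end pred

/-- `X'` is obtained from `X` by the twist at the pairwise non adjacent vertices of `F`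
(`ε = 1`); for the inverse twist the duals are related in this way with `ε = -1`. -/
structure IsT (ε : k) (F : Set T) (X X' : QM G k) where
  κ : ∀ t, X.H t →ₗ[k] X'.H t
  bij : ∀ t, t ∉ F → Function.Bijective (κ t)
  nadj : ∀ s ∈ F, ∀ t ∈ F, IsEmpty (G.E s t)
  Aκ : ∀ t, t ∉ F → ∀ v, X'.A t (κ t v) = κ t (X.A t v)
  Aκ' : ∀ t ∈ F, ∀ v, X'.A t (κ t v) = κ t (X.A t v) + ε • κ t v
  ker : ∀ s ∈ F, ∀ v, κ s v = 0 ↔ v ∈ X.imB s
  range : ∀ s ∈ F, ∀ v', v' ∈ X'.kerA s → ∃ v, κ s v = v'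

namespace IsT

variable {ε : k} {F : Set T} {X X' : QM G k}

theorem eig (h : IsT ε F X X') {t : T} (ht : t ∉ F) {μ : k} {v' : X'.H t} (hv : v' ≠ 0)
    (he : X'.A t v' = μ • v') : ∃ v : X.H t, v ≠ 0 ∧ X.A t v = μ • v := by
  obtain ⟨v, rfl⟩ := (h.bij t ht).2 v'
  refine ⟨v, ?_, ?_⟩
  · rintro rfl
    exact hv (map_zero _)
  · apply (h.bij t ht).1
    rw [← h.Aκ t ht, he, map_smul]

/-- vectors of `coker b_s` -/
theorem sub_mem (h : IsT ε F X X') {s : T} (hs : s ∈ F) {μ : k} {v : X.H s}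
    (he : X'.A s (h.κ s v) = μ • h.κ s v) : X.A s v - (μ - ε) • v ∈ X.imB s := by
  rw [← h.ker s hs, map_sub, map_smul, sub_smul, ← he, h.Aκ' s hs]
  abel

/-- an eigenvector of `X'` at `s ∈ F` for a value which is neither `0` nor an eigenvalue of `X`
outside `F` is in `ker a_s`, so comes from `coker b_s`. -/
theorem exists_pre (h : IsT ε F X X') {s : T} (hs : s ∈ F) {μ : k} {v' : X'.H s}
    (he : X'.A s v' = μ • v') (h1 : μ ≠ 0)
    (hno : ∀ t (v : X.H t), X.A t v = μ • v → v = 0) :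
    ∃ v, h.κ s v = v' ∧ X.A s v - (μ - ε) • v ∈ X.imB s := by
  have hk : v' ∈ X'.kerA s := by
    rw [QM.mem_kerA]
    constructor
    · intro t a
      by_contra h0
      have htF : t ∉ F := fun htF => (h.nadj s hs t htF).false a
      obtain ⟨v, hv0, hv⟩ := h.eig htF h0 (by
        rw [X'.AB, he, map_smul])
      exact hv0 (hno t v hv)
    · have h2 : X'.j s (X'.A s v') = μ • X'.j s v' := by rw [he, map_smul]
      rw [X'.jA] at h2
      exact (smul_eq_zero.1 h2.symm).resolve_left h1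
  obtain ⟨v, rfl⟩ := h.range s hs v' hk
  exact ⟨v, rfl, h.sub_mem hs he⟩

variable {ht : k → ℤ} (hmul : ∀ μ, ht (μ - ε) = ht μ - 1) (hone : ht 0 = 0)

include hmul hone in
theorem M1 (h : IsT ε F X X') {a : ℤ} (ha : a ≤ 0) (hX : lo ht X a) : lo ht X' a := by
  intro s μ v' hv' he
  by_contra hlt
  rw [not_le] at hlt
  by_cases hs : s ∈ F
  · obtain ⟨v, rfl, hv⟩ := h.exists_pre hs he (by
      rintro rfl
      rw [hone] at hlt
      omega) (fun t v hv => by
      by_contra h0
      exact absurd (hX t μ v h0 hv) (not_le.2 hlt))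
    apply hv'
    rw [h.ker s hs]
    refine mem_of_sub_mem' (X.A s) (μ - ε) (fun x hx => ?_) (X.imB s)
      (fun x hx => QM.A_mem_imB hx) hv
    by_contra h0
    have h1 := hX s (μ - ε) x h0 hx
    rw [hmul μ] at h1
    omega
  · obtain ⟨v, hv0, hv⟩ := h.eig hs hv' he
    exact absurd (hX s μ v hv0 hv) (not_le.2 hlt)

include hmul hone in
theorem M2 (h : IsT ε F X X') {b : ℤ} (hb : 0 ≤ b) (hX : hi ht X b)
    (hc : ∀ s ∈ F, ¬ cb ht X s b) : hi ht X' b := by
  intro s μ v' hv' he
  by_contra hlt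
  rw [not_le] at hlt
  by_cases hs : s ∈ F
  · obtain ⟨v, rfl, hv⟩ := h.exists_pre hs he (by
      rintro rfl
      rw [hone] at hlt
      omega) (fun t v hv => by
      by_contra h0
      exact absurd (hX t μ v h0 hv) (not_le.2 hlt))
    apply hv'
    rw [h.ker s hs]
    refine mem_of_sub_mem (X.A s) (μ - ε) (X.imB s) (fun x hx => QM.A_mem_imB hx)
      (fun η hη1 hη2 => ?_) hv
    by_contra hη0
    obtain ⟨x, hx0, hx⟩ := exists_eig_of_functional _ _ η hη0 hη1
    have h1 := hX s (μ - ε) x hx0 hx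
    rw [hmul μ] at h1
    refine hc s hs ⟨μ - ε, ?_, η, hη0, hη1, hη2⟩
    rw [hmul μ]
    omega
  · obtain ⟨v, hv0, hv⟩ := h.eig hs hv' he
    exact absurd (hX s μ v hv0 hv) (not_le.2 hlt)

include hmul in
theorem M3 (h : IsT ε F X X') {a : ℤ} (hX : lo ht X a) {s : T} (hs : s ∈ F) :
    ¬ ka ht X' s a := by
  rintro ⟨μ, hμ, v', hv', he, hk⟩
  obtain ⟨v, rfl⟩ := h.range s hs v' hk
  apply hv'
  rw [h.ker s hs]
  refine mem_of_sub_mem' (X.A s) (μ - ε) (fun x hx => ?_) (X.imB s)
    (fun x hx => QM.A_mem_imB hx) (h.sub_mem hs he)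
  by_contra h0
  have h1 := hX s (μ - ε) x h0 hx
  rw [hmul μ] at h1
  omega

theorem finrank_eq (h : IsT ε F X X') {t : T} (ht : t ∉ F) :
    finrank k (X'.H t) = finrank k (X.H t) :=
  (LinearEquiv.ofBijective (h.κ t) (h.bij t ht)).finrank_eq.symm

end IsT

/-! ### duality -/

namespace QM

/-- the dual data -/
def dual (X : QM G k) : QM G k where
  H s := Dual k (X.H s)
  W s := Dual k (X.W s)
  A s := (X.A s).dualMap
  B s t a := (X.B t s (G.rev a)).dualMap
  i s := (X.j s).dualMap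
  j s := (X.i s).dualMap
  AB s t a f := by
    ext v
    simp only [LinearMap.dualMap_apply, X.AB]
  Ai s f := by
    ext v
    simp only [LinearMap.dualMap_apply, X.jA, map_zero, LinearMap.zero_apply]
  jA s f := by
    ext v
    simp only [LinearMap.dualMap_apply, X.Ai, map_zero, LinearMap.zero_apply]
  MC s f := by
    ext v
    simp only [LinearMap.add_apply, LinearMap.sum_apply, LinearMap.dualMap_apply,
      LinearMap.zero_apply, G.rev_rev]
    have h := X.MC s v
    rw [← map_zero f, ← h, map_add, map_sum]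
    congr 1
    exact Finset.sum_congr rfl fun t _ => (map_sum _ _ _).symm

/-- elements of `X.dual.H s` as functionals -/
def toD {X : QM G k} {s : T} (η : X.dual.H s) : X.H s →ₗ[k] k := η

theorem mem_kerA_dual {X : QM G k} {s : T} {η : X.dual.H s} :
    η ∈ X.dual.kerA s ↔ ∀ v ∈ X.imB s, toD η v = 0 := by
  rw [mem_kerA]
  constructor
  · rintro ⟨h1, h2⟩
    have h3 : X.imB s ≤ LinearMap.ker (toD η) := by
      rw [imB_le]
      refine ⟨fun t a v => ?_, fun v => ?_⟩
      · rw [LinearMap.mem_ker]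
        have h4 := LinearMap.congr_fun (h1 t (G.rev a)) v
        change toD η (X.B t s (G.rev (G.rev a)) v) = 0 at h4
        rw [G.rev_rev] at h4
        exact h4
      · rw [LinearMap.mem_ker]
        exact LinearMap.congr_fun h2 v
    exact fun v hv => h3 hv
  · intro h
    refine ⟨fun t a => ?_, ?_⟩
    · refine LinearMap.ext fun v => ?_
      exact h _ (B_mem_imB _ v)
    · refine LinearMap.ext fun v => ?_
      exact h _ (i_mem_imB v)

theorem dual_A_eq {X : QM G k} {s : T} {η : X.dual.H s} {μ : k} :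
    X.dual.A s η = μ • η ↔ ∀ v, toD η (X.A s v) = μ * toD η v := by
  constructor
  · intro h v
    exact LinearMap.congr_fun h v
  · intro h
    exact LinearMap.ext fun v => h v

end QM

section dualpred

variable {ht : k → ℤ} {X : QM G k}

theorem ka_dual {s : T} {n : ℤ} :
    ka (fun μ => -ht μ) X.dual s (-n) ↔ cb ht X s n := by
  constructor
  · rintro ⟨μ, hμ, η, h0, h1, h2⟩
    exact ⟨μ, neg_injective hμ, η, h0, QM.dual_A_eq.1 h1, QM.mem_kerA_dual.1 h2⟩
  · rintro ⟨μ, hμ, η, h0, h1, h2⟩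
    exact ⟨μ, congrArg Neg.neg hμ, η, h0, QM.dual_A_eq.2 h1, QM.mem_kerA_dual.2 h2⟩

theorem lo_dual {b : ℤ} : lo (fun μ => -ht μ) X.dual (-b) ↔ hi ht X b := by
  constructor
  · intro h s μ v hv he
    obtain ⟨η, hη0, hη⟩ := exists_functional_of_eig (X.A s) μ hv he
    have h1 := h s μ η hη0 (QM.dual_A_eq.2 hη)
    change -b ≤ -ht μ at h1
    linarith
  · intro h s μ η hη he
    obtain ⟨v, hv0, hv⟩ := exists_eig_of_functional (X.A s) μ (QM.toD η) hη (QM.dual_A_eq.1 he)
    have h1 := h s μ v hv0 hv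
    change -b ≤ -ht μ
    linarith

theorem hi_dual {a : ℤ} : hi (fun μ => -ht μ) X.dual (-a) ↔ lo ht X a := by
  constructor
  · intro h s μ v hv he
    obtain ⟨η, hη0, hη⟩ := exists_functional_of_eig (X.A s) μ hv he
    have h1 := h s μ η hη0 (QM.dual_A_eq.2 hη)
    change -ht μ ≤ -a at h1
    linarith
  · intro h s μ η hη he
    obtain ⟨v, hv0, hv⟩ := exists_eig_of_functional (X.A s) μ (QM.toD η) hη (QM.dual_A_eq.1 he)
    have h1 := h s μ v hv0 hv
    change -ht μ ≤ -a
    linarith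

/-- `cb` of the dual is `ka` -/
theorem ka_of_cb_dual {s : T} {n : ℤ} (h : cb (fun μ => -ht μ) X.dual s (-n)) : ka ht X s n := by
  obtain ⟨μ, hμ, φ, h0, h1, h2⟩ := h
  obtain ⟨v, rfl⟩ := (Module.evalEquiv k (X.H s)).surjective φ
  refine ⟨μ, neg_injective hμ, v, ?_, ?_, ?_⟩
  · rintro rfl
    exact h0 (map_zero _)
  · rw [← sub_eq_zero]
    refine (Module.forall_dual_apply_eq_zero_iff k _).1 fun η => ?_
    rw [map_sub, map_smul, sub_eq_zero]
    exact h1 η
  · rw [QM.mem_kerA]
    refine ⟨fun t a => ?_, ?_⟩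
    · refine (Module.forall_dual_apply_eq_zero_iff k _).1 fun η => ?_
      have h3 := h2 _ (QM.B_mem_imB (X := X.dual) (G.rev a) η)
      change η (X.B s t (G.rev (G.rev a)) v) = 0 at h3
      rw [G.rev_rev] at h3
      exact h3
    · refine (Module.forall_dual_apply_eq_zero_iff k _).1 fun η => ?_
      exact h2 _ (QM.i_mem_imB (X := X.dual) η)

end dualpred

/-- relation of the inverse twist -/
def IsU (F : Set T) (X X' : QM G k) : Type (max u v) := IsT (-1 : k) F X.dual X'.dual

namespace IsU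

variable {F : Set T} {X X' : QM G k} {ht : k → ℤ} (hmul : ∀ μ, ht (μ + 1) = ht μ + 1)
  (hone : ht 0 = 0)

include hmul in
theorem hmul' (μ : k) : (fun μ => -ht μ) (μ - (-1)) = (fun μ => -ht μ) μ - 1 := by
  change -ht (μ - (-1)) = -ht μ - 1
  rw [sub_neg_eq_add, hmul]
  ring

include hmul hone in
theorem P1 (h : IsU F X X') {b : ℤ} (hb : 0 ≤ b) (hX : hi ht X b) : hi ht X' b :=
  lo_dual.1 (IsT.M1 (hmul' hmul) (by rw [hone]; rfl) h (by omega) (lo_dual.2 hX))

include hmul hone in
theorem P2 (h : IsU F X X') {a : ℤ} (ha : a ≤ 0) (hX : lo ht X a)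
    (hc : ∀ s ∈ F, ¬ ka ht X s a) : lo ht X' a :=
  hi_dual.1 (IsT.M2 (hmul' hmul) (by rw [hone]; rfl) h (by omega) (hi_dual.2 hX)
    fun s hs hcb => hc s hs (ka_of_cb_dual hcb))

include hmul in
theorem P3 (h : IsU F X X') {b : ℤ} (hX : hi ht X b) {s : T} (hs : s ∈ F) :
    ¬ cb ht X' s b := fun hcb =>
  IsT.M3 (hmul' hmul) h (lo_dual.2 hX) hs (ka_dual.2 hcb)

end IsU

/-! ### (N) -/

section N

variable {ht : k → ℤ} {X : QM G k} (hone : ht 0 = 0)
  (hC : ∀ n : T → ℕ, (∀ s, 2 * n s ≤ ∑ t, Fintype.card (G.E s t) * n t) → n = 0)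

/-- the power `(A - μ)^n` -/
def pw (X : QM G k) (s : T) (μ : k) (n : ℕ) : X.H s →ₗ[k] X.H s :=
  ((X.A s - μ • LinearMap.id : Module.End k (X.H s)) ^ n : Module.End k (X.H s))

theorem pw_zero {s : T} {μ : k} (v : X.H s) : pw X s μ 0 v = v := rfl

theorem pw_succ {s : T} {μ : k} (n : ℕ) (v : X.H s) :
    pw X s μ (n + 1) v = X.A s (pw X s μ n v) - μ • pw X s μ n v := by
  unfold pw
  rw [pow_succ']
  rfl

theorem pw_B {s t : T} {μ : k} (a : G.E s t) (n : ℕ) (v : X.H s) :
    pw X t μ n (X.B s t a v) = X.B s t a (pw X s μ n v) := by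
  induction n with
  | zero => rfl
  | succ n ih => rw [pw_succ, pw_succ, ih, X.AB, map_sub, map_smul]


theorem j_pw {s : T} {μ : k} (n : ℕ) (v : X.H s) :
    X.j s (pw X s μ n v) = (-μ) ^ n • X.j s v := by
  induction n with
  | zero => rw [pow_zero, one_smul]; rfl
  | succ n ih =>
    rw [pw_succ, map_sub, map_smul, X.jA, ih, zero_sub, smul_smul, ← neg_smul, pow_succ']
    congr 1
    ring

theorem pw_mem_kerA {s : T} {μ : k} (n : ℕ) {v : X.H s} (hv : v ∈ X.kerA s) :
    pw X s μ n v ∈ X.kerA s := by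
  induction n with
  | zero => exact hv
  | succ n ih =>
    rw [pw_succ]
    exact Submodule.sub_mem _ (QM.A_mem_kerA ih) (Submodule.smul_mem _ _ ih)

include hone hC in
theorem Na {a : ℤ} (ha : a < 0) (hX : lo ht X a) (hX' : ¬ lo ht X (a + 1)) :
    ∃ s, ka ht X s a := by
  classical
  unfold lo at hX'
  push Not at hX'
  obtain ⟨s0, μ, v0, hv0, he0, hlt⟩ := hX'
  have hμ : ht μ = a := by
    have := hX s0 μ v0 hv0 he0
    omega
  have hμ0 : μ ≠ 0 := by
    rintro rfl
    omega
  -- the generalised eigenspaces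
  let U : ∀ s, Submodule k (X.H s) := fun s =>
    { carrier := {v | ∃ n, pw X s μ n v = 0}
      zero_mem' := ⟨0, rfl⟩
      add_mem' := by
        rintro x y ⟨n, hn⟩ ⟨m, hm⟩
        refine ⟨n + m, ?_⟩
        have h1 : ∀ (x : X.H s) (n m : ℕ), pw X s μ n x = 0 → pw X s μ (n + m) x = 0 := by
          intro x n m h
          induction m with
          | zero => exact h
          | succ m ih => rw [← add_assoc, pw_succ, ih, map_zero, smul_zero, sub_zero]
        rw [map_add, h1 x n m hn, add_comm n m, h1 y m n hm, add_zero]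
      smul_mem' := by
        rintro c x ⟨n, hn⟩
        exact ⟨n, by rw [map_smul, hn, smul_zero]⟩ }
  have hUB : ∀ s t a, ∀ v ∈ U s, X.B s t a v ∈ U t := by
    rintro s t a v ⟨n, hn⟩
    exact ⟨n, by rw [pw_B, hn, map_zero]⟩
  have hUj : ∀ s, ∀ v ∈ U s, X.j s v = 0 := by
    rintro s v ⟨n, hn⟩
    have h1 := j_pw (X := X) (s := s) (μ := μ) n v
    rw [hn, map_zero] at h1
    exact (smul_eq_zero.1 h1.symm).resolve_left (pow_ne_zero _ (neg_ne_zero.2 hμ0))
  let B' : ∀ s t, G.E s t → U s →ₗ[k] U t := fun s t a =>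
    (X.B s t a).restrict (fun v hv => hUB s t a v hv)
  have hB' : ∀ s t a (v : U s), ((B' s t a v : U t) : X.H t) = X.B s t a v := fun _ _ _ _ => rfl
  obtain ⟨s, v, hv, hker⟩ := PTN_4.exists_ker (k := k) (E := G.E) (V := fun s => U s)
    (fun _ _ a => G.rev a) (fun _ _ a => G.rev_rev a) B' hC (fun s v => by
      apply Subtype.ext
      simp only [AddSubmonoidClass.coe_finsetSum, hB']
      have h2 := X.MC s v
      rw [hUj s v v.2, map_zero, add_zero] at h2
      exact h2)
    ⟨s0, ⟨v0, ⟨1, by rw [pw_succ, pw_zero, he0, sub_self]⟩⟩, fun h => hv0 (congrArg Subtype.val h)⟩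
  have hvk : (v : X.H s) ∈ X.kerA s := by
    rw [QM.mem_kerA]
    exact ⟨fun t a => congrArg Subtype.val (hker t a), hUj s v v.2⟩
  obtain ⟨n, hn⟩ := v.2
  have hv0' : (v : X.H s) ≠ 0 := fun h => hv (Subtype.ext h)
  have hex : ∃ n, pw X s μ n v = 0 := ⟨n, hn⟩
  have hmin : ∀ m, m < Nat.find hex → ¬ pw X s μ m v = 0 := fun m hm => Nat.find_min hex hm
  have hspec := Nat.find_spec hex
  have hpos : Nat.find hex ≠ 0 := by
    intro h0
    rw [h0] at hspec
    exact hv0' hspec
  obtain ⟨m, hm⟩ := Nat.exists_eq_succ_of_ne_zero hpos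
  refine ⟨s, μ, hμ, pw X s μ m v, hmin m (by omega), ?_, pw_mem_kerA m hvk⟩
  rw [hm, pw_succ, sub_eq_zero] at hspec
  exact hspec

include hone hC in
theorem Nb {b : ℤ} (hb : 0 < b) (hX : hi ht X b) (hX' : ¬ hi ht X (b - 1)) :
    ∃ s, cb ht X s b := by
  obtain ⟨s, hs⟩ := Na (ht := fun μ => -ht μ) (X := X.dual) (by rw [hone]; rfl) hC
    (a := -b) (by omega) (lo_dual.2 hX) (fun h => hX' (lo_dual.1 (by
      rw [neg_sub]
      rw [neg_add_eq_sub] at h
      exact h)))
  exact ⟨s, ka_dual.1 hs⟩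

end N

end Crest.Agent.R175.PTQ_4
end

-- ▼ part R175/PTR_4

/-!
Row 175 (S0263), block (D): the relation `TD F X X'` between the cohomology data of `X` and of its
twist `X' = T_F X` (exact triangles `H(M_s) → H(X)_s → H(X')_s → H(M_s)`), and its consequences
for the positions of `X'` (M1-M3) and, reading it backwards, for the inverse twist (P1-P3).
-/

open Module

set_option autoImplicit false
set_option linter.unusedSectionVars false

namespace Crest.Agent.R175.PTQ_4

open Crest.Agent.R175.PTA (MG)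

universe u v

variable {T : Type u} [Fintype T] {G : MG T} {k : Type v} [Field k]

/-- `X'` is the twist of `X` at the set `F` of pairwise non adjacent vertices. -/
structure TD (F : Set T) (X X' : QM G k) where
  κ : ∀ t, X.H t →ₗ[k] X'.H t
  ω : ∀ t, X.W t ≃ₗ[k] X'.W t
  bij : ∀ t, t ∉ F → Function.Bijective (κ t)
  nadj : ∀ s ∈ F, ∀ t ∈ F, IsEmpty (G.E s t)
  Aκ : ∀ t, t ∉ F → ∀ v, X'.A t (κ t v) = κ t (X.A t v)
  Aκ' : ∀ t ∈ F, ∀ v, X'.A t (κ t v) = κ t (X.A t v) + κ t v
  Bκ : ∀ s t, s ∉ F → t ∉ F → ∀ (a : G.E s t) v, X'.B s t a (κ s v) = κ t (X.B s t a v)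
  iω : ∀ t, t ∉ F → ∀ w, X'.i t (ω t w) = κ t (X.i t w)
  jκ : ∀ t, t ∉ F → ∀ v, X'.j t (κ t v) = ω t (X.j t v)
  /-- `ker κ = im b` -/
  ker : ∀ s ∈ F, ∀ v, κ s v = 0 ↔ v ∈ X.imB s
  /-- `im κ = ker a'` -/
  range : ∀ s ∈ F, ∀ v', v' ∈ X'.kerA s → ∃ v, κ s v = v'
  range' : ∀ s ∈ F, ∀ v, κ s v ∈ X'.kerA s
  /-- `b a' = 0` -/
  ba : ∀ s ∈ F, ∀ (v' : X'.H s) (m : ∀ t, G.E s t → X.H t) (w : X.W s),
    (∀ t a, κ t (m t a) = X'.B s t a v') → ω s w = X'.j s v' →
      ∑ t, ∑ a : G.E s t, X.B t s (G.rev a) (m t a) + X.i s w = 0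
  /-- `ker b ≤ im a'` -/
  ex : ∀ s ∈ F, ∀ (m : ∀ t, G.E s t → X.H t) (w : X.W s),
    ∑ t, ∑ a : G.E s t, X.B t s (G.rev a) (m t a) + X.i s w = 0 →
      ∃ v' : X'.H s, (∀ t a, X'.B s t a v' = κ t (m t a)) ∧ X'.j s v' = ω s w
  /-- `a' b' = a b` -/
  aBB : ∀ s ∈ F, ∀ t t' (a : G.E t s) (b : G.E s t') (v : X.H t),
    X'.B s t' b (X'.B t s a (κ t v)) = κ t' (X.B s t' b (X.B t s a v))
  ajB : ∀ s ∈ F, ∀ t (a : G.E t s) (v : X.H t),
    X'.j s (X'.B t s a (κ t v)) = ω s (X.j s (X.B t s a v))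
  aBi : ∀ s ∈ F, ∀ t' (b : G.E s t') (w : X.W s),
    X'.B s t' b (X'.i s (ω s w)) = κ t' (X.B s t' b (X.i s w))
  aji : ∀ s ∈ F, ∀ (w : X.W s), X'.j s (X'.i s (ω s w)) = ω s (X.j s (X.i s w))

namespace TD

variable {F : Set T} {X X' : QM G k}

/-- forget to the relation used in `M1`-`M3` -/
def toIsT (h : TD F X X') : IsT (1 : k) F X X' where
  κ := h.κ
  bij := h.bij
  nadj := h.nadj
  Aκ := h.Aκ
  Aκ' t ht v := by rw [one_smul]; exact h.Aκ' t ht v
  ker := h.ker
  range := h.range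

/-- functionals killing `ker a_s` are in `im` of the dual maps -/
theorem mem_imB_dual {X : QM G k} {s : T} {η : X.dual.H s}
    (h : ∀ v ∈ X.kerA s, QM.toD η v = 0) : η ∈ X.dual.imB s := by
  classical
  by_contra hη
  -- separate by a vector of the double dual
  obtain ⟨φ, hφ, hφ'⟩ := Submodule.exists_le_ker_of_notMem hη
  obtain ⟨v, rfl⟩ := (Module.evalEquiv k (X.H s)).surjective φ
  apply hφ
  refine h v ?_
  rw [QM.mem_kerA]
  refine ⟨fun t a => ?_, ?_⟩
  · refine (Module.forall_dual_apply_eq_zero_iff k _).1 fun ζ => ?_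
    have h3 := hφ' (QM.B_mem_imB (X := X.dual) (G.rev a) ζ)
    change ζ (X.B s t (G.rev (G.rev a)) v) = 0 at h3
    rw [G.rev_rev] at h3
    exact h3
  · refine (Module.forall_dual_apply_eq_zero_iff k _).1 fun ζ => ?_
    exact hφ' (QM.i_mem_imB (X := X.dual) ζ)

theorem not_mem_kerA_dual {X : QM G k} {s : T} {η : X.dual.H s} (h : η ∈ X.dual.imB s) :
    ∀ v ∈ X.kerA s, QM.toD η v = 0 := by
  intro v hv
  rw [QM.mem_kerA] at hv
  let φ : X.dual.H s →ₗ[k] k := Dual.eval k (X.H s) v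
  have h3 : X.dual.imB s ≤ LinearMap.ker φ := by
    rw [QM.imB_le]
    refine ⟨fun t a ζ => ?_, fun ζ => ?_⟩
    · change QM.toD ζ (X.B s t (G.rev a) v) = 0
      rw [hv.1, map_zero]
    · let ζ' : X.W s →ₗ[k] k := ζ
      change ζ' (X.j s v) = 0
      rw [hv.2, map_zero]
  exact h3 h

/-- reading backwards: `X` is the inverse twist of `X'` -/
noncomputable def toIsU (h : TD F X X') : IsU F X' X where
  κ t := (h.κ t).dualMap
  bij t ht := by
    constructor
    · exact LinearMap.dualMap_injective_of_surjective (h.bij t ht).2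
    · exact LinearMap.dualMap_surjective_of_injective (h.bij t ht).1
  nadj := h.nadj
  Aκ t ht η := by
    refine LinearMap.ext fun v => ?_
    change QM.toD η (h.κ t (X.A t v)) = QM.toD η (X'.A t (h.κ t v))
    rw [h.Aκ t ht]
  Aκ' t ht η := by
    refine LinearMap.ext fun v => ?_
    change QM.toD η (h.κ t (X.A t v)) = QM.toD η (X'.A t (h.κ t v)) + (-1 : k) • QM.toD η (h.κ t v)
    rw [h.Aκ' t ht, map_add]
    simp
  ker s hs η := by
    constructor
    · intro h0
      refine mem_imB_dual fun v hv => ?_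
      obtain ⟨x, rfl⟩ := h.range s hs v hv
      exact LinearMap.congr_fun h0 x
    · intro hη
      refine LinearMap.ext fun v => ?_
      exact not_mem_kerA_dual hη _ (h.range' s hs v)
  range s hs η' hη' := by
    have h1 : ∀ v ∈ LinearMap.ker (h.κ s), QM.toD η' v = 0 := by
      intro v hv
      rw [LinearMap.mem_ker, h.ker s hs] at hv
      exact QM.mem_kerA_dual.1 hη' v hv
    have h2 : QM.toD η' ∈ LinearMap.range (h.κ s).dualMap := by
      rw [LinearMap.range_dualMap_eq_dualAnnihilator_ker, Submodule.mem_dualAnnihilator]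
      exact h1
    obtain ⟨η, hη⟩ := h2
    exact ⟨η, hη⟩

/-! dimensions -/

/-- the neighbour space -/
abbrev MS (X : QM G k) (s : T) : Type _ := (∀ t, G.E s t → X.H t) × X.W s

/-- `b_s` -/
noncomputable def bS (X : QM G k) (s : T) : MS X s →ₗ[k] X.H s :=
  LinearMap.coprod
    (∑ t, ∑ a : G.E s t, X.B t s (G.rev a) ∘ₗ LinearMap.proj a ∘ₗ LinearMap.proj t) (X.i s)

/-- `a_s` -/
def aS (X : QM G k) (s : T) : X.H s →ₗ[k] MS X s :=
  LinearMap.prod (LinearMap.pi fun t => LinearMap.pi fun a => X.B s t a) (X.j s)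

theorem bS_apply {X : QM G k} {s : T} (m : ∀ t, G.E s t → X.H t) (w : X.W s) :
    bS X s (m, w) = ∑ t, ∑ a : G.E s t, X.B t s (G.rev a) (m t a) + X.i s w := by
  simp [bS, LinearMap.sum_apply]

theorem range_bS {X : QM G k} {s : T} : LinearMap.range (bS X s) = X.imB s := by
  classical
  apply le_antisymm
  · rintro _ ⟨⟨m, w⟩, rfl⟩
    rw [bS_apply]
    refine Submodule.add_mem _ (Submodule.sum_mem _ fun t _ => Submodule.sum_mem _ fun a _ => ?_)
      (QM.i_mem_imB w)
    exact QM.B_mem_imB _ _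
  · rw [QM.imB_le]
    refine ⟨fun t a v => ⟨(Pi.single t (Pi.single (G.rev a) v), 0), ?_⟩, fun w => ⟨(0, w), ?_⟩⟩
    · rw [bS_apply, Finset.sum_eq_single t, Finset.sum_eq_single (G.rev a)]
      · rw [Pi.single_eq_same, Pi.single_eq_same, G.rev_rev, map_zero, add_zero]
      · intro b _ hb
        rw [Pi.single_eq_same, Pi.single_eq_of_ne hb, map_zero]
      · intro h
        exact absurd (Finset.mem_univ _) h
      · intro t' _ ht'
        rw [Pi.single_eq_of_ne ht']
        exact Finset.sum_eq_zero fun a _ => map_zero _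
      · intro h
        exact absurd (Finset.mem_univ _) h
    · rw [bS_apply]
      simp

theorem ker_aS {X : QM G k} {s : T} {v : X.H s} : aS X s v = 0 ↔ v ∈ X.kerA s := by
  rw [QM.mem_kerA]
  constructor
  · intro h
    exact ⟨fun t a => congrFun (congrFun (congrArg Prod.fst h) t) a, congrArg Prod.snd h⟩
  · rintro ⟨h1, h2⟩
    exact Prod.ext (funext fun t => funext fun a => h1 t a) h2

theorem finrank_MS (X : QM G k) (s : T) : finrank k (MS X s) =
    ∑ t, Fintype.card (G.E s t) * finrank k (X.H t) + finrank k (X.W s) := by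
  rw [Module.finrank_prod, Module.finrank_pi_fintype]
  congr 1
  refine Finset.sum_congr rfl fun t _ => ?_
  rw [Module.finrank_pi_fintype, Finset.sum_const, Finset.card_univ, smul_eq_mul]

theorem finrank_eq (h : TD F X X') {t : T} (ht : t ∉ F) :
    finrank k (X'.H t) = finrank k (X.H t) := h.toIsT.finrank_eq ht

theorem not_mem_of_edge (h : TD F X X') {s t : T} (hs : s ∈ F) (a : G.E s t) : t ∉ F :=
  fun ht => (h.nadj s hs t ht).false a

/-- `κ` on the neighbour space, bijective for `s ∈ F` -/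
noncomputable def κM (h : TD F X X') (s : T) : MS X s →ₗ[k] MS X' s :=
  LinearMap.prodMap (LinearMap.pi fun t => LinearMap.pi fun a : G.E s t =>
    h.κ t ∘ₗ LinearMap.proj a ∘ₗ LinearMap.proj t) (h.ω s).toLinearMap

theorem κM_bij (h : TD F X X') {s : T} (hs : s ∈ F) : Function.Bijective (h.κM s) := by
  constructor
  · rw [injective_iff_map_eq_zero]
    rintro ⟨m, w⟩ h0
    have h1 := congrArg Prod.fst h0
    have h2 := congrArg Prod.snd h0
    refine Prod.ext (funext fun t => funext fun a => ?_) ?_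
    · apply (h.bij t (h.not_mem_of_edge hs a)).1
      rw [Prod.fst_zero, Pi.zero_apply, Pi.zero_apply, map_zero]
      exact congrFun (congrFun h1 t) a
    · exact (LinearEquiv.map_eq_zero_iff (h.ω s)).1 h2
  · rintro ⟨m', w'⟩
    have hm : ∀ t (a : G.E s t), ∃ x, h.κ t x = m' t a := fun t a =>
      (h.bij t (h.not_mem_of_edge hs a)).2 _
    choose m hm using hm
    exact ⟨(m, (h.ω s).symm w'), Prod.ext (funext fun t => funext fun a => hm t a)
      ((h.ω s).apply_symm_apply w')⟩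

/-- `ker b = im a'` -/
theorem bS_eq_zero_iff (h : TD F X X') {s : T} (hs : s ∈ F) (m : MS X s) :
    bS X s m = 0 ↔ ∃ v', aS X' s v' = h.κM s m := by
  obtain ⟨m, w⟩ := m
  rw [bS_apply]
  constructor
  · intro h0
    obtain ⟨v', h1, h2⟩ := h.ex s hs m w h0
    exact ⟨v', Prod.ext (funext fun t => funext fun a => h1 t a) h2⟩
  · rintro ⟨v', hv'⟩
    refine h.ba s hs v' m w (fun t a => ?_) ?_
    · exact (congrFun (congrFun (congrArg Prod.fst hv') t) a).symm
    · exact (congrArg Prod.snd hv').symm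

/-- the exact triangle gives `d'_s + rank = ...`; if `b_s` is onto: `d'_s = D_s - d_s` -/
theorem finrank_add_of_top (h : TD F X X') {s : T} (hs : s ∈ F) (htop : X.imB s = ⊤) :
    finrank k (X'.H s) + finrank k (X.H s) =
      ∑ t, Fintype.card (G.E s t) * finrank k (X.H t) + finrank k (X.W s) := by
  rw [← finrank_MS]
  have h1 : ∀ v', aS X' s v' = 0 → v' = 0 := by
    intro v' h0
    rw [ker_aS] at h0
    obtain ⟨v, rfl⟩ := h.range s hs v' h0
    rw [h.ker s hs, htop]
    exact Submodule.mem_top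
  have h2 := LinearMap.finrank_range_add_finrank_ker (bS X s)
  rw [range_bS, htop, finrank_top] at h2
  have h3 : finrank k (X'.H s) = finrank k (LinearMap.ker (bS X s)) := by
    have h4 : finrank k (LinearMap.range (aS X' s)) = finrank k (X'.H s) :=
      LinearMap.finrank_range_of_inj ((injective_iff_map_eq_zero _).2 h1)
    have h5 : (LinearMap.ker (bS X s)).map (h.κM s) = LinearMap.range (aS X' s) := by
      ext x
      constructor
      · rintro ⟨m, hm, rfl⟩
        obtain ⟨v', hv'⟩ := (h.bS_eq_zero_iff hs m).1 hm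
        exact ⟨v', hv'⟩
      · rintro ⟨v', rfl⟩
        obtain ⟨m, hm⟩ := (h.κM_bij hs).2 (aS X' s v')
        exact ⟨m, (h.bS_eq_zero_iff hs m).2 ⟨v', hm.symm⟩, hm⟩
    rw [← h4, ← h5]
    exact (Submodule.equivMapOfInjective (h.κM s) (h.κM_bij hs).1 _).finrank_eq.symm
  omega

/-- backwards: if `a_s` of `X'` is injective then `d_s = D_s - d'_s` -/
theorem finrank_add_of_bot (h : TD F X X') {s : T} (hs : s ∈ F) (hbot : X'.kerA s = ⊥) :
    finrank k (X.H s) + finrank k (X'.H s) =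
      ∑ t, Fintype.card (G.E s t) * finrank k (X'.H t) + finrank k (X'.W s) := by
  have htop : X.imB s = ⊤ := by
    rw [eq_top_iff]
    intro v _
    rw [← h.ker s hs]
    have h1 := h.range' s hs v
    rw [hbot] at h1
    exact (Submodule.mem_bot k).1 h1
  have h2 := h.finrank_add_of_top hs htop
  have h3 : ∑ t, Fintype.card (G.E s t) * finrank k (X.H t) =
      ∑ t, Fintype.card (G.E s t) * finrank k (X'.H t) := by
    refine Finset.sum_congr rfl fun t _ => ?_
    by_cases ht : t ∈ F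
    · have : IsEmpty (G.E s t) := h.nadj s hs t ht
      rw [Fintype.card_eq_zero, zero_mul, zero_mul]
    · rw [h.finrank_eq ht]
  have h4 : finrank k (X.W s) = finrank k (X'.W s) := (h.ω s).finrank_eq
  omega

end TD

end Crest.Agent.R175.PTQ_4
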