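import Crest.Agent.R175.PTA_534
import Crest.Agent.R175.PTR_4
import Crest.Agent.R175.PTH_175
import Crest.Agent.R175.PTB_534
import Crest.Agent.R175.Lcm2_109
import Crest.Prelude.Def_ArtinGroup
import Crest.Agent.R175.UG_27
import Crest.Agent.R175.Act_732
import Crest.Agent.R175.Unfr_988
import Crest.Agent.R061.GeomFull

-- ▼ part R175/StabH_393
section

/-!
Row 175 (S0263), helper393, block STAB2: rank two, homology form.

`HM G k`: families `V t`, `W t` with `B`, `i`, `j`, `∑ B (rev a) B a + i j = 0` and operators `A t`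
(commuting with `B`, `A i = 0`, `j A = 0`): the homology `H(V t, c0 d)` of a rigid T-framed object
with its Euler operator.
`NK X μ s`: no non zero generalised `μ`-eigenvector at `s` is killed by all arrows.
`TwH s X X'`: what is used of `X' = σ_s⁻¹ X`.
`TwH.nk1`, `TwH.nk2`: `NK` for `s` and `u` at `X` implies `NK u` at `σ_s⁻¹ X` and (one edge between
`s` and `u`) `NK s` at `σ_u⁻¹ σ_s⁻¹ X`.
-/

set_option autoImplicit false
set_option linter.unusedSectionVars false

open Polynomial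

namespace Crest.Agent.R175.StabH_393

open Crest.Agent.R175.PTA

universe u v w

section gen

variable {k : Type v} [Field k] {V : Type w} [AddCommGroup V] [Module k V]

/-- generalised eigenvector -/
def Gen (A : V →ₗ[k] V) (μ : k) (z : V) : Prop := ∃ n : ℕ, aeval A ((X - C μ) ^ n) z = 0

theorem Gen.of_eigen {A : V →ₗ[k] V} {μ : k} {z : V} (h : A z = μ • z) : Gen A μ z :=
  ⟨1, by simp [h]⟩

/-- A polynomial in `A` which is the projection to the generalised `μ`-eigenspace. -/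
theorem exists_proj {ι : Type*} {V : ι → Type w} [∀ i, AddCommGroup (V i)] [∀ i, Module k (V i)]
    (A : ∀ i, V i →ₗ[k] V i) (χ : k[X]) (hχ0 : χ ≠ 0) (hχ : ∀ i, aeval (A i) χ = 0) (μ : k) :
    ∃ P : k[X], ∀ i, (∀ z, Gen (A i) μ (aeval (A i) P z)) ∧
      ∀ z, Gen (A i) μ z → aeval (A i) P z = z := by
  obtain ⟨g, hg, hdiv⟩ := Polynomial.exists_eq_pow_rootMultiplicity_mul_and_not_dvd χ hχ0 μ
  set n := rootMultiplicity μ χ with hn
  have hcop1 : IsCoprime (X - C μ) g :=
    ((irreducible_X_sub_C μ).coprime_iff_not_dvd).2 hdiv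
  have hcop : IsCoprime ((X - C μ) ^ n) g := hcop1.pow_left
  obtain ⟨a, b, hab⟩ := hcop
  refine ⟨b * g, fun i => ⟨fun z => ⟨n, ?_⟩, fun z hz => ?_⟩⟩
  · rw [← Module.End.mul_apply, ← map_mul]
    have : (X - C μ) ^ n * (b * g) = b * χ := by
      rw [show b * χ = b * ((X - C μ) ^ n * g) from congrArg (b * ·) hg]; ring
    rw [this, map_mul, hχ, mul_zero]
    rfl
  · obtain ⟨m, hm⟩ := hz
    have hcop2 : IsCoprime ((X - C μ) ^ m) g := hcop1.pow_left
    obtain ⟨c, e, hce⟩ := hcop2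
    have h1 : aeval (A i) g (z - aeval (A i) (b * g) z) = 0 := by
      have e1 : z - aeval (A i) (b * g) z = aeval (A i) (a * (X - C μ) ^ n) z := by
        have : aeval (A i) (a * (X - C μ) ^ n + b * g) z = z := by
          rw [hab, map_one]; rfl
        rw [map_add, LinearMap.add_apply] at this
        exact (eq_sub_of_add_eq this).symm
      rw [e1, ← Module.End.mul_apply, ← map_mul]
      have : g * (a * (X - C μ) ^ n) = a * χ := by
        rw [show a * χ = a * ((X - C μ) ^ n * g) from congrArg (a * ·) hg]; ring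
      rw [this, map_mul, hχ, mul_zero]
      rfl
    have h2 : aeval (A i) ((X - C μ) ^ m) (z - aeval (A i) (b * g) z) = 0 := by
      rw [map_sub, hm, zero_sub, ← Module.End.mul_apply, ← map_mul, mul_comm, map_mul,
        Module.End.mul_apply, hm, map_zero, neg_zero]
    rw [← sub_eq_zero, ← neg_eq_zero, neg_sub]
    revert h1 h2
    generalize z - aeval (A i) (b * g) z = y
    intro h1 h2
    have h3 : aeval (A i) (c * (X - C μ) ^ m + e * g) y = y := by
      rw [hce, map_one]; rfl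
    rw [map_add, LinearMap.add_apply, map_mul, map_mul, Module.End.mul_apply,
      Module.End.mul_apply, h1, h2, map_zero, map_zero, add_zero] at h3
    exact h3.symm

end gen

variable {T : Type u} {G : MG T} {k : Type v} [Field k] [Fintype T]

variable (G k) in
/-- homology modules with an Euler operator -/
structure HM where
  V : T → Type w
  W : T → Type w
  [V1 : ∀ t, AddCommGroup (V t)]
  [V2 : ∀ t, Module k (V t)]
  [V3 : ∀ t, FiniteDimensional k (V t)]
  [W1 : ∀ t, AddCommGroup (W t)]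
  [W2 : ∀ t, Module k (W t)]
  B : ∀ {s t : T}, G.E s t → (V s →ₗ[k] V t)
  i : ∀ t, W t →ₗ[k] V t
  j : ∀ t, V t →ₗ[k] W t
  mc : ∀ t x, (∑ a : Σ s, G.E t s, B (G.rev a.2) (B a.2 x)) + i t (j t x) = 0
  A : ∀ t, V t →ₗ[k] V t
  AB : ∀ {s t : T} (a : G.E s t) x, A t (B a x) = B a (A s x)
  jA : ∀ t x, j t (A t x) = 0

attribute [instance] HM.V1 HM.V2 HM.V3 HM.W1 HM.W2

/-- no non zero generalised `μ`-eigenvector at `s` is killed by all arrows. -/
def NK (X : HM G k) (μ : k) (s : T) : Prop :=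
  ∀ z : X.V s, Gen (X.A s) μ z → (∀ a : Σ t, G.E s t, X.B a.2 z = 0) → X.j s z = 0 → z = 0

/-- `NK` for eigenvectors is enough. -/
theorem nk_of_eigen (X : HM G k) (μ : k) (s : T)
    (h : ∀ z : X.V s, X.A s z = μ • z → (∀ a : Σ t, G.E s t, X.B a.2 z = 0) → X.j s z = 0 →
      z = 0) : NK X μ s := by
  intro z hz hB hj
  obtain ⟨n, hn⟩ := hz
  -- induction on `n`
  induction n generalizing z with
  | zero => simpa using hn
  | succ n ih =>
    have h1 : ∀ z : X.V s, (∀ a : Σ t, G.E s t, X.B a.2 z = 0) → X.j s z = 0 →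
        (∀ a : Σ t, G.E s t, X.B a.2 (X.A s z - μ • z) = 0) ∧ X.j s (X.A s z - μ • z) = 0 := by
      intro z hB hj
      refine ⟨fun a => ?_, ?_⟩
      · rw [map_sub, ← X.AB, hB, map_zero, map_smul, hB, smul_zero, sub_zero]
      · rw [map_sub, X.jA, map_smul, hj, smul_zero, sub_zero]
    have h2 : X.A s z - μ • z = 0 := by
      refine ih _ (h1 z hB hj).1 (h1 z hB hj).2 ?_
      have e : aeval (X.A s) ((Polynomial.X - C μ) ^ n) (X.A s z - μ • z) =
          aeval (X.A s) ((Polynomial.X - C μ) ^ (n + 1)) z := by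
        rw [pow_succ, map_mul, Module.End.mul_apply]
        congr 1
        simp
      rw [e, hn]
    exact h z (sub_eq_zero.1 h2) hB hj

/-- `b_s` -/
def bs (X : HM G k) (s : T) (m : ∀ a : Σ t, G.E s t, X.V a.1) (w : X.W s) : X.V s :=
  (∑ a : Σ t, G.E s t, X.B (G.rev a.2) (m a)) + X.i s w

/-- `b_s` of one element. -/
theorem bs_single (Y : HM G k) {s : T} [DecidableEq (Σ t, G.E s t)]
    (c : Σ t, G.E s t) (z : Y.V c.1) :
    bs Y s (Pi.single c z) 0 = Y.B (G.rev c.2) z := by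
  rw [bs, map_zero, add_zero, Finset.sum_eq_single c]
  · rw [Pi.single_eq_same]
  · intro a _ hne
    rw [Pi.single_eq_of_ne hne, map_zero]
  · simp

/-- if all arrows but one kill `z`, then so does the round trip through that one. -/
theorem round (X : HM G k) {t : T} {z : X.V t} (c : Σ s, G.E t s)
    (hB : ∀ a : Σ s, G.E t s, a ≠ c → X.B a.2 z = 0) (hj : X.j t z = 0) :
    X.B (G.rev c.2) (X.B c.2 z) = 0 := by
  classical
  have h1 := X.mc t z
  rw [hj, map_zero, add_zero, Finset.sum_eq_single c] at h1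
  · exact h1
  · intro a _ ha
    rw [hB a ha, map_zero]
  · simp

/-- what is used of `X' = σ_s⁻¹ X`: maps `f t : V' t → V t`, `g t : W' t → W t`. -/
structure TwH (s : T) (X X' : HM G k) where
  f : ∀ t, X'.V t →ₗ[k] X.V t
  g : ∀ t, X'.W t →ₗ[k] X.W t
  f1 : ∀ {t u : T} (a : G.E t u) y, t ≠ s → u ≠ s → f u (X'.B a y) = X.B a (f t y)
  fj : ∀ t y, t ≠ s → g t (X'.j t y) = X.j t (f t y)
  fA : ∀ t y, t ≠ s → f t (X'.A t y) = X.A t (f t y)
  fW : ∀ t, Function.Injective (g t)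
  fV : ∀ t, t ≠ s → Function.Injective (f t)
  aBB : ∀ {t t' : T} (a : G.E t s) (b : G.E s t') (y : X'.V t),
    X.B b (X.B a (f t y)) = f t' (X'.B b (X'.B a y))
  ajB : ∀ {t : T} (a : G.E t s) (y : X'.V t), X.j s (X.B a (f t y)) = g s (X'.j s (X'.B a y))
  t2 : ∀ (m : ∀ a : Σ t, G.E s t, X'.V a.1) (w : X'.W s), bs X' s m w = 0 →
    ∃ v : X.V s, (∀ a : Σ t, G.E s t, f a.1 (m a) = X.B a.2 v) ∧ g s w = X.j s v

theorem gen_map {V V' : Type*} [AddCommGroup V] [Module k V] [AddCommGroup V'] [Module k V']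
    (f : V →ₗ[k] V') {A : V →ₗ[k] V} {A' : V' →ₗ[k] V'} (h : ∀ x, f (A x) = A' (f x)) (q : k[X])
    (x : V) : f (aeval A q x) = aeval A' q (f x) := by
  induction q using Polynomial.induction_on' with
  | add q₁ q₂ h1 h2 => simp [h1, h2]
  | monomial n c =>
    have : ∀ n : ℕ, ∀ x, f ((A ^ n) x) = (A' ^ n) (f x) := by
      intro n
      induction n with
      | zero => intro x; simp
      | succ n ih => intro x; rw [pow_succ, pow_succ, Module.End.mul_apply, Module.End.mul_apply,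
          ih, h]
    simp [aeval_monomial, this, Module.algebraMap_end_apply]

theorem Gen.map {V V' : Type*} [AddCommGroup V] [Module k V] [AddCommGroup V'] [Module k V']
    (f : V →ₗ[k] V') {A : V →ₗ[k] V} {A' : V' →ₗ[k] V'} (h : ∀ x, f (A x) = A' (f x)) {μ : k}
    {x : V} (hx : Gen A μ x) : Gen A' μ (f x) := by
  obtain ⟨n, hn⟩ := hx
  exact ⟨n, by rw [← gen_map f h, hn, map_zero]⟩

namespace TwH

variable {s : T} {X X' : HM G k}

/-- one element at one arrow. -/
theorem t2_single (h : TwH s X X') (c : Σ t, G.E s t) (z : X'.V c.1)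
    (hB : X'.B (G.rev c.2) z = 0) :
    ∃ v : X.V s, h.f c.1 z = X.B c.2 v ∧
      (∀ a : Σ t, G.E s t, a ≠ c → X.B a.2 v = 0) ∧ X.j s v = 0 := by
  classical
  obtain ⟨v, hm, hw⟩ := h.t2 (Pi.single c z) 0 (by rw [bs_single]; exact hB)
  refine ⟨v, ?_, ?_, ?_⟩
  · have := hm c
    rwa [Pi.single_eq_same] at this
  · intro a ha
    have := hm a
    rw [Pi.single_eq_of_ne ha, map_zero] at this
    exact this.symm
  · rw [← hw, map_zero]

/-- The first rank two statement: `NK u` for `σ_s⁻¹ X`. -/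
theorem nk1 (h : TwH s X X') {μ : k} {u : T} (hus : u ≠ s) (hu : NK X μ u) : NK X' μ u := by
  intro z hz hB hj
  apply h.fV u hus
  rw [map_zero]
  refine hu _ (hz.map _ fun x => h.fA u x hus) ?_ ?_
  · rintro ⟨t, a⟩
    by_cases hts : t = s
    · subst hts
      obtain ⟨v, h1, hm, hw⟩ := h.t2_single ⟨u, G.rev a⟩ z (by
        show X'.B (G.rev (G.rev a)) z = 0
        rw [G.rev_rev]; exact hB ⟨t, a⟩)
      have h2 : X.B (G.rev (G.rev a)) (X.B (G.rev a) v) = 0 := round X ⟨u, G.rev a⟩ hm hw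
      rw [G.rev_rev] at h2
      show X.B a (h.f u z) = 0
      rw [h1]
      exact h2
    · show X.B a (h.f u z) = 0
      rw [← h.f1 a z hus hts, hB ⟨t, a⟩, map_zero]
  · rw [← h.fj u z hus, hj, map_zero]

/-- The second rank two statement: `NK s` for `σ_u⁻¹ σ_s⁻¹ X`. -/
theorem nk2 {X'' : HM G k} (h : TwH s X X') {μ : k} {u : T} (h' : TwH u X' X'') (hus : u ≠ s)
    (c : G.E s u) (hc : ∀ a : G.E s u, a = c) (hs : NK X μ s) (hu : NK X μ u) :
    NK X'' μ s := by
  classical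
  intro y hy hB hj
  apply h'.fV s hus.symm
  rw [map_zero]
  -- the component at `u`
  obtain ⟨z0, hm1', hm2', hw'⟩ := h'.t2_single ⟨s, G.rev c⟩ y (by
    show X''.B (G.rev (G.rev c)) y = 0
    rw [G.rev_rev]; exact hB ⟨u, c⟩)
  change h'.f s y = X'.B (G.rev c) z0 at hm1'
  have hgy : Gen (X'.A s) μ (h'.f s y) := hy.map _ fun x => h'.fA s x hus.symm
  -- project `z0` to the generalised eigenspace
  obtain ⟨P, hP⟩ := exists_proj X'.A (∏ t, minpoly k (X'.A t))
    (Finset.prod_ne_zero_iff.2 fun t _ =>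
      minpoly.ne_zero (Algebra.IsIntegral.isIntegral (X'.A t)))
    (fun t => by
      rw [← Finset.mul_prod_erase _ _ (Finset.mem_univ t), map_mul, minpoly.aeval, zero_mul]) μ
  have hAB : ∀ (t : T) (a : G.E u t) x,
      X'.B a (aeval (X'.A u) P x) = aeval (X'.A t) P (X'.B a x) := fun t a x =>
    gen_map (X'.B a) (fun x => (X'.AB a x).symm) P x
  have hjA : ∀ (q : k[X]) x, X'.j u x = 0 → X'.j u (aeval (X'.A u) q x) = 0 := by
    intro q x hx
    have := gen_map (k := k) (X'.j u) (A := X'.A u) (A' := 0) (fun x => by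
      rw [X'.jA]; rfl) q x
    rw [this, hx, map_zero]
  obtain ⟨z', hgz, hm1, hm2, hw⟩ : ∃ z' : X'.V u, Gen (X'.A u) μ z' ∧
      h'.f s y = X'.B (G.rev c) z' ∧
      (∀ a : Σ t, G.E u t, a ≠ ⟨s, G.rev c⟩ → X'.B a.2 z' = 0) ∧ X'.j u z' = 0 := by
    refine ⟨aeval (X'.A u) P z0, (hP u).1 _, ?_, ?_, hjA P z0 hw'⟩
    · rw [hAB, ← hm1', (hP s).2 _ hgy]
    · intro a ha
      rw [hAB, hm2' a ha, map_zero]
  -- the other arrows kill `z = f z'`
  have hgz' : Gen (X.A u) μ (h.f u z') := hgz.map _ fun x => h.fA u x hus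
  have hz2 : ∀ a : Σ t', G.E u t', a ≠ ⟨s, G.rev c⟩ → X.B a.2 (h.f u z') = 0 := by
    intro a ha
    have has : a.1 ≠ s := by
      obtain ⟨t, a⟩ := a
      rintro rfl
      apply ha
      rw [← hc (G.rev a), G.rev_rev]
    rw [← h.f1 a.2 z' hus has, hm2 a ha, map_zero]
  have hzj : X.j u (h.f u z') = 0 := by rw [← h.fj u z' hus, hw, map_zero]
  have hx : X.B (G.rev c) (h.f u z') = 0 := by
    refine hs _ (hgz'.map _ fun x => (X.AB _ x).symm) ?_ ?_
    · rintro ⟨t, a⟩
      by_cases htu : t = u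
      · subst htu
        have h1 : X.B (G.rev (G.rev c)) (X.B (G.rev c) (h.f t z')) = 0 :=
          round X ⟨s, G.rev c⟩ hz2 hzj
        rw [G.rev_rev] at h1
        show X.B a (X.B (G.rev c) (h.f t z')) = 0
        rw [hc a]
        exact h1
      · show X.B a (X.B (G.rev c) (h.f u z')) = 0
        rw [h.aBB (G.rev c) a, ← hm1, ← h'.f1 a y hus.symm htu, hB ⟨t, a⟩, map_zero, map_zero]
    · rw [h.ajB (G.rev c), ← hm1, ← h'.fj s y hus.symm, hj, map_zero, map_zero]
  have hz : h.f u z' = 0 := by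
    refine hu _ hgz' ?_ hzj
    intro a
    by_cases e : a = ⟨s, G.rev c⟩
    · subst e; exact hx
    · exact hz2 a e
  have hz0 : z' = 0 := h.fV u hus (by rw [hz, map_zero])
  rw [hm1, hz0, map_zero]

end TwH

end Crest.Agent.R175.StabH_393
end

-- ▼ part R175/StabE_393
section

/-!
Row 175 (S0263), helper393, block STAB2: the set `P₀` of rigid objects with all positions in `ℕ`,
linear algebra over helper4's `QM`, `IsT`.

`P0 X`: every eigenvalue of `A` is a natural number.  For `X = σ_s X'` (`IsT 1 {s} X' X`):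
* `p0_T`: `P0 X' → P0 X`;
* `nk_of_p0`: `P0 X' → NK0 X s` (no `v ≠ 0` with `A v = 0` killed by all arrows at `s`);
* `p0_U`: `P0 X → NK0 X s → P0 X'`.
-/

set_option autoImplicit false
set_option linter.unusedSectionVars false

open Module

namespace Crest.Agent.R175.StabE_393

open Crest.Agent.R175.PTA (MG)
open Crest.Agent.R175.PTQ_4 Crest.Agent.R175.PTQ_4.QM

universe u v

variable {T : Type u} [Fintype T] {G : MG T} {k : Type v} [Field k]

/-- all positions are natural numbers -/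
def P0 (X : QM G k) : Prop :=
  ∀ (s : T) (μ : k) (v : X.H s), v ≠ 0 → X.A s v = μ • v → ∃ n : ℕ, μ = (n : k)

/-- `ker a_s` has no position `0` -/
def NK0 (X : QM G k) (s : T) : Prop := ∀ v ∈ X.kerA s, X.A s v = 0 → v = 0

section
variable {X X' : QM G k} {s : T}

theorem p0_T (h : IsT (1 : k) {s} X' X) (hX' : P0 X') : P0 X := by
  intro t μ v hv he
  by_cases hts : t = s
  · subst hts
    by_contra hμ
    obtain ⟨v1, rfl, h1⟩ := h.exists_pre (Set.mem_singleton t) he (by
      rintro rfl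
      exact hμ ⟨0, by simp⟩) (fun u w hw => by
      by_contra h0
      exact hμ (hX' u μ w h0 hw))
    apply hv
    rw [h.ker t (Set.mem_singleton t)]
    refine mem_of_sub_mem' (X'.A t) (μ - 1) (fun x hx => ?_) (X'.imB t)
      (fun x hx => QM.A_mem_imB hx) h1
    by_contra h0
    obtain ⟨n, hn⟩ := hX' t (μ - 1) x h0 hx
    exact hμ ⟨n + 1, by rw [Nat.cast_add, Nat.cast_one, ← hn, sub_add_cancel]⟩
  · obtain ⟨v1, h1, h2⟩ := h.eig (show t ∉ ({s} : Set T) from hts) hv he
    exact hX' t μ v1 h1 h2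

theorem nk_of_p0 [CharZero k] (h : IsT (1 : k) {s} X' X) (hX' : P0 X') : NK0 X s := by
  intro v hv he
  obtain ⟨v1, rfl⟩ := h.range s (Set.mem_singleton s) v hv
  rw [h.ker s (Set.mem_singleton s)]
  refine mem_of_sub_mem' (X'.A s) (0 - 1) (fun x hx => ?_) (X'.imB s)
    (fun x hx => QM.A_mem_imB hx) (h.sub_mem (Set.mem_singleton s) (by rw [he, zero_smul]))
  by_contra h0
  obtain ⟨n, hn⟩ := hX' s (0 - 1) x h0 hx
  have h1 : ((n + 1 : ℕ) : k) = 0 := by
    rw [Nat.cast_add, Nat.cast_one, ← hn]; ring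
  exact absurd (Nat.cast_eq_zero.1 h1) (Nat.succ_ne_zero n)

theorem p0_U (h : IsT (1 : k) {s} X' X) (hκ : ∀ v, h.κ s v ∈ X.kerA s) (hX : P0 X)
    (hN : NK0 X s) : P0 X' := by
  have hoff : ∀ t, t ≠ s → ∀ (μ : k) (v : X'.H t), v ≠ 0 → X'.A t v = μ • v →
      ∃ n : ℕ, μ = (n : k) := by
    intro t hts μ v hv he
    have hb := h.bij t (show t ∉ ({s} : Set T) from hts)
    refine hX t μ (h.κ t v) (fun h0 => hv (hb.1 (by rw [h0, map_zero]))) ?_
    rw [h.Aκ t (show t ∉ ({s} : Set T) from hts), he, map_smul]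
  intro t μ v hv he
  by_cases hts : t = s
  swap
  · exact hoff t hts μ v hv he
  subst hts
  by_cases h0 : h.κ t v = 0
  · -- `v ∈ im b`
    rw [h.ker t (Set.mem_singleton t)] at h0
    by_contra hμ
    -- `A - μ` is onto on `im b`
    let f : X'.H t →ₗ[k] X'.H t := X'.A t - μ • LinearMap.id
    have hf : ∀ x, f x = X'.A t x - μ • x := fun x => rfl
    have hstab : ∀ x ∈ X'.imB t, f x ∈ X'.imB t := fun x hx => by
      rw [hf]
      exact Submodule.sub_mem _ (QM.A_mem_imB hx) (Submodule.smul_mem _ _ hx)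
    have hle : X'.imB t ≤ (X'.imB t).map f := by
      rw [QM.imB_le]
      constructor
      · intro u a w
        have hut : u ≠ t := by
          rintro rfl
          exact (G.irr u).false a
        -- `A - μ` is onto on `H u`
        let fu : X'.H u →ₗ[k] X'.H u := X'.A u - μ • LinearMap.id
        have hfu : Function.Injective fu := by
          rw [injective_iff_map_eq_zero]
          intro x hx
          by_contra hx0
          exact hμ (hoff u hut μ x hx0 (sub_eq_zero.1 hx))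
        obtain ⟨w', hw'⟩ := LinearMap.surjective_of_injective hfu w
        refine ⟨X'.B u t a w', QM.B_mem_imB a w', ?_⟩
        rw [hf, X'.AB, ← map_smul, ← map_sub]
        exact congrArg _ hw'
      · intro w
        have hμ0 : μ ≠ 0 := by
          rintro rfl
          exact hμ ⟨0, by simp⟩
        refine ⟨X'.i t (-μ⁻¹ • w), QM.i_mem_imB _, ?_⟩
        rw [hf, X'.Ai, zero_sub, ← map_smul, ← map_neg, smul_smul]
        congr 1
        rw [← neg_smul, mul_neg, neg_neg, mul_inv_cancel₀ hμ0, one_smul]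
    let g : X'.imB t →ₗ[k] X'.imB t := f.restrict hstab
    have hgs : Function.Surjective g := by
      rintro ⟨x, hx⟩
      obtain ⟨y, hy, hyx⟩ := hle hx
      exact ⟨⟨y, hy⟩, Subtype.ext hyx⟩
    have hgi : Function.Injective g := LinearMap.injective_iff_surjective.2 hgs
    have h1 : g ⟨v, h0⟩ = 0 := by
      apply Subtype.ext
      show f v = 0
      rw [hf, he, sub_self]
    have h2 := hgi (h1.trans (map_zero g).symm)
    exact hv (congrArg Subtype.val h2)
  · have h1 : X.A t (h.κ t v) = (μ + 1) • h.κ t v := by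
      rw [h.Aκ' t (Set.mem_singleton t), he, map_smul, one_smul, add_smul, one_smul]
    obtain ⟨n, hn⟩ := hX t (μ + 1) _ h0 h1
    rcases n with _ | n
    · exfalso
      apply h0
      apply hN _ (hκ v)
      rw [h1, hn, Nat.cast_zero, zero_smul]
    · refine ⟨n, ?_⟩
      rw [Nat.cast_add, Nat.cast_one] at hn
      exact add_right_cancel hn

end

/-! ### rank two -/

/-- the underlying `HM` -/
def toHM (X : QM G k) : StabH_393.HM.{u, v, v} G k where
  V := X.H
  W := X.W
  B {s t} a := X.B s t a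
  i := X.i
  j := X.j
  mc t x := by
    rw [Fintype.sum_sigma]
    exact X.MC t x
  A := X.A
  AB {s t} a x := X.AB s t a x
  jA := X.jA

theorem nk_iff {X : QM G k} {s : T} : StabH_393.NK (toHM X) 0 s ↔ NK0 X s := by
  constructor
  · intro h v hv he
    rw [QM.mem_kerA] at hv
    exact h v (StabH_393.Gen.of_eigen (by rw [zero_smul]; exact he)) (fun a => hv.1 _ _) hv.2
  · intro h
    refine StabH_393.nk_of_eigen (toHM X) 0 s fun z hz hB hj => ?_
    rw [zero_smul] at hz
    exact h z (QM.mem_kerA.2 ⟨fun t a => hB ⟨t, a⟩, hj⟩) hz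

/-- from helper4's relation `TD`: `X = σ_s X'`. -/
def ofTD {s : T} {X' X : QM G k} (h : TD {s} X' X) : StabH_393.TwH s (toHM X) (toHM X') where
  f := h.κ
  g t := (h.ω t).toLinearMap
  f1 {t u} a y ht hu := (h.Bκ t u ht hu a y).symm
  fj t y ht := (h.jκ t ht y).symm
  fA t y ht := (h.Aκ t ht y).symm
  fW t := (h.ω t).injective
  fV t ht := (h.bij t ht).1
  aBB {t t'} a b y := h.aBB s (Set.mem_singleton s) t t' a b y
  ajB {t} a y := h.ajB s (Set.mem_singleton s) t a y
  t2 m w hm := by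
    have hm' : (∑ t, ∑ a : G.E s t, (toHM X').B (G.rev a) (m ⟨t, a⟩)) + (toHM X').i s w = 0 := by
      refine Eq.trans ?_ hm
      unfold StabH_393.bs
      rw [Fintype.sum_sigma]
    obtain ⟨v', h1, h2⟩ := h.ex s (Set.mem_singleton s) (fun t a => m ⟨t, a⟩) w hm'
    exact ⟨v', fun a => (h1 a.1 a.2).symm, h2.symm⟩

/-- `X = σ_s X'`: `NK0 u` passes from `X` to `X'`. -/
theorem nk1 {s u : T} {X' X : QM G k} (h : TD {s} X' X) (hus : u ≠ s) (hu : NK0 X u) :
    NK0 X' u :=
  nk_iff.1 ((ofTD h).nk1 hus (nk_iff.2 hu))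

/-- `X = σ_s X'`, `X' = σ_u X''`, one edge between `s` and `u`: `NK0` for `s` and `u` at `X` implies
`NK0 s` at `X''`. -/
theorem nk2 {s u : T} {X'' X' X : QM G k} (h : TD {s} X' X) (h' : TD {u} X'' X')
    (hus : u ≠ s) (c : G.E s u) (hc : ∀ a : G.E s u, a = c) (hs : NK0 X s) (hu : NK0 X u) :
    NK0 X'' s :=
  nk_iff.1 ((ofTD h).nk2 (ofTD h') hus c hc (nk_iff.2 hs) (nk_iff.2 hu))

/-- `P₀` passes from `X'` to `X = σ_s X'`. -/
theorem TD_p0_T {s : T} {X' X : QM G k} (h : TD {s} X' X) (hX' : P0 X') : P0 X :=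
  p0_T h.toIsT hX'

theorem TD_nk {s : T} {X' X : QM G k} [CharZero k] (h : TD {s} X' X) (hX' : P0 X') : NK0 X s :=
  nk_of_p0 h.toIsT hX'

theorem TD_p0_U {s : T} {X' X : QM G k} (h : TD {s} X' X) (hX : P0 X) (hN : NK0 X s) : P0 X' :=
  p0_U h.toIsT (fun v => h.range' s (Set.mem_singleton s) v) hX hN

end Crest.Agent.R175.StabE_393
end

-- ▼ part R175/StabF_393
section

/-!
Row 175 (S0263), helper393, block STAB2: the set `P₀` on homotopy classes.

`qmE hp` : helper4's `QM` of a T-framed object with a position operator.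
`P0c X` : `X` rigid with all positions in `ℕ`; invariant under `HIso`.
`TwS tw` : what is used of the twists `tw v`.
`ActS` : a group acting on classes through `tw`.
-/

set_option autoImplicit false
set_option linter.unusedSectionVars false

open CategoryTheory Crest.Agent.R175.PTA Crest.Agent.R175.PTH
open Crest.Agent.R175.PTQ_4 Crest.Agent.R175.PTQ_4.QM Crest.Agent.R175.StabE_393

namespace Crest.Agent.R175.StabF_393

universe u v

variable {T : Type u} [Fintype T] {G : MG T} {k : Type v} [Field k]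

/-- the homology data of an object with position operator -/
noncomputable def qmE {X : TOb G k} {p : X.X ⟶ X.X} (hp : Eul X p) : QM G k where
  H := Hv X
  W := X.X.W
  A := Hp hp
  B _ _ a := HB X a
  i := Hi X
  j := Hj X
  AB _ _ a v := Hp_HB hp a v
  Ai := Hp_Hi hp
  jA := Hj_Hp hp
  MC := Hmc X

section inv

variable {X Y : TOb G k} {p : X.X ⟶ X.X} {q : Y.X ⟶ Y.X}

theorem Hmap_pq (e : HEquiv X Y) (t : T) (ξ : Hv X t) :
    Hmap e.q e.Dq t (Hmap e.p e.Dp t ξ) = ξ := by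
  rw [← Hmap_comp e.p e.Dp e.q e.Dq, Hmap_eq (closed_comp e.Dp e.Dq) D_id
    (K := e.s) (by rw [e.pq, add_sub_cancel_left]), Hmap_id]

theorem Hmap_inj (e : HEquiv X Y) (t : T) (ξ : Hv X t) (h : Hmap e.p e.Dp t ξ = 0) : ξ = 0 := by
  rw [← Hmap_pq e t ξ, h, map_zero]

theorem P0_congr (hp : Eul X p) (hq : Eul Y q) (e : HEquiv X Y) (h : hT X X = 0)
    (hY : P0 (qmE hq)) : P0 (qmE hp) := by
  intro t μ v hv he
  have hXY : hT X Y = 0 := by rw [← HIso.hT_right ⟨e⟩ X, h]
  refine hY t μ (Hmap e.p e.Dp t v) (fun h0 => hv (Hmap_inj e t v h0)) ?_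
  have h1 := eul_nat hp hq hXY e.Dp e.bp t v
  have h2 : Hmap e.p e.Dp t (Hp hp t v) = μ • Hmap e.p e.Dp t v :=
    (congrArg (Hmap e.p e.Dp t) he).trans (map_smul (Hmap e.p e.Dp t) μ (v : Hv X t))
  exact h1.symm.trans h2

theorem NK0_congr (hp : Eul X p) (hq : Eul Y q) (e : HEquiv X Y) (h : hT X X = 0) {s : T}
    (hY : NK0 (qmE hq) s) : NK0 (qmE hp) s := by
  intro v hv he
  have hXY : hT X Y = 0 := by rw [← HIso.hT_right ⟨e⟩ X, h]
  rw [QM.mem_kerA] at hv
  refine Hmap_inj e s v (hY _ ?_ ?_)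
  · rw [QM.mem_kerA]
    refine ⟨fun t a => ?_, ?_⟩
    · have h1 : HB X a v = 0 := hv.1 t a
      show HB Y a (Hmap e.p e.Dp s v) = 0
      rw [HB_Hmap e.Dp e.bp a v, h1, map_zero]
    · have h1 : Hj X s v = 0 := hv.2
      show Hj Y s (Hmap e.p e.Dp s v) = 0
      rw [Hj_Hmap e.Dp e.bp s v, h1, map_zero]
  · have h1 := eul_nat hp hq hXY e.Dp e.bp s v
    have h2 : Hp hp s v = 0 := he
    show Hp hq s (Hmap e.p e.Dp s v) = 0
    rw [← h1, h2, map_zero]

end inv

/-- rigid with all positions in `ℕ` -/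
def P0c (X : TOb G k) : Prop := hT X X = 0 ∧ ∃ (p : X.X ⟶ X.X) (hp : Eul X p), P0 (qmE hp)

/-- rigid and `NK0` at `s` -/
def NKc (X : TOb G k) (s : T) : Prop :=
  hT X X = 0 ∧ ∃ (p : X.X ⟶ X.X) (hp : Eul X p), NK0 (qmE hp) s

theorem hTs {X Y : TOb G k} (h : HIso X Y) : hT X X = hT Y Y := by
  rw [HIso.hT_left h X, HIso.hT_right h Y]

theorem P0c.all {X : TOb G k} (h : P0c X) {p : X.X ⟶ X.X} (hp : Eul X p) : P0 (qmE hp) := by
  obtain ⟨h0, q, hq, hP⟩ := h
  exact P0_congr hp hq (HEquiv.refl X) h0 hP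

theorem NKc.all {X : TOb G k} {s : T} (h : NKc X s) {p : X.X ⟶ X.X} (hp : Eul X p) :
    NK0 (qmE hp) s := by
  obtain ⟨h0, q, hq, hP⟩ := h
  exact NK0_congr hp hq (HEquiv.refl X) h0 hP

theorem P0c.congr (h2 : (2 : k) ≠ 0) {X Y : TOb G k} (h : HIso X Y) (hY : P0c Y) : P0c X := by
  obtain ⟨h0, q, hq, hP⟩ := hY
  have h1 : hT X X = 0 := by rw [hTs h, h0]
  obtain ⟨p, hp⟩ := exists_eul h2 X h1
  obtain ⟨e⟩ := h
  exact ⟨h1, p, hp, P0_congr hp hq e h1 hP⟩

theorem NKc.congr (h2 : (2 : k) ≠ 0) {X Y : TOb G k} {s : T} (h : HIso X Y) (hY : NKc Y s) :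
    NKc X s := by
  obtain ⟨h0, q, hq, hP⟩ := hY
  have h1 : hT X X = 0 := by rw [hTs h, h0]
  obtain ⟨p, hp⟩ := exists_eul h2 X h1
  obtain ⟨e⟩ := h
  exact ⟨h1, p, hp, NK0_congr hp hq e h1 hP⟩

/-- what is used of the twists -/
structure TwS (tw : T → TOb G k → TOb G k) : Prop where
  hT : ∀ v X, hT (tw v X) (tw v X) = hT X X
  td : ∀ v X (p : X.X ⟶ X.X) (hp : Eul X p), ∃ (q : (tw v X).X ⟶ (tw v X).X)
    (hq : Eul (tw v X) q), Nonempty (TD {v} (qmE hp) (qmE hq))

namespace TwS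

variable {tw : T → TOb G k → TOb G k} (h : TwS tw)
include h

theorem p0_T {v : T} {X : TOb G k} (hX : P0c X) : P0c (tw v X) := by
  obtain ⟨h0, p, hp, hP⟩ := hX
  obtain ⟨q, hq, ⟨d⟩⟩ := h.td v X p hp
  exact ⟨by rw [h.hT, h0], q, hq, TD_p0_T d hP⟩

theorem nk [CharZero k] {v : T} {X : TOb G k} (hX : P0c X) : NKc (tw v X) v := by
  obtain ⟨h0, p, hp, hP⟩ := hX
  obtain ⟨q, hq, ⟨d⟩⟩ := h.td v X p hp
  exact ⟨by rw [h.hT, h0], q, hq, TD_nk d hP⟩

theorem p0_U (h2 : (2 : k) ≠ 0) {v : T} {X : TOb G k} (hX : P0c (tw v X))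
    (hN : NKc (tw v X) v) : P0c X := by
  have h0 : PTA.hT X X = 0 := by rw [← h.hT v X]; exact hX.1
  obtain ⟨p, hp⟩ := exists_eul h2 X h0
  obtain ⟨q, hq, ⟨d⟩⟩ := h.td v X p hp
  exact ⟨h0, p, hp, TD_p0_U d (hX.all hq) (hN.all hq)⟩

theorem nk1 (h2 : (2 : k) ≠ 0) {v w : T} (hvw : w ≠ v) {X : TOb G k}
    (hN : NKc (tw v X) w) : NKc X w := by
  have h0 : PTA.hT X X = 0 := by rw [← h.hT v X]; exact hN.1
  obtain ⟨p, hp⟩ := exists_eul h2 X h0
  obtain ⟨q, hq, ⟨d⟩⟩ := h.td v X p hp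
  exact ⟨h0, p, hp, StabE_393.nk1 d hvw (hN.all hq)⟩

theorem nk2 (h2 : (2 : k) ≠ 0) {v w : T} (hvw : w ≠ v) (c : G.E v w)
    (hc : ∀ a : G.E v w, a = c) {X : TOb G k} (hv : NKc (tw v (tw w X)) v)
    (hw : NKc (tw v (tw w X)) w) : NKc X v := by
  have h0 : PTA.hT X X = 0 := by rw [← h.hT w X, ← h.hT v (tw w X)]; exact hv.1
  obtain ⟨p, hp⟩ := exists_eul h2 X h0
  obtain ⟨q, hq, ⟨d⟩⟩ := h.td w X p hp
  obtain ⟨r, hr, ⟨d'⟩⟩ := h.td v (tw w X) q hq
  exact ⟨h0, p, hp, StabE_393.nk2 d' d hvw c hc (hv.all hr) (hw.all hr)⟩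

end TwS

/-! ### classes -/

/-- a group acting on classes, the letters `g v` acting through the twists -/
structure ActS (tw : T → TOb G k → TOb G k) (A Ω : Type*) [Group A] [MulAction A Ω] where
  cl : TOb G k → Ω
  cl_eq : ∀ X Y, cl X = cl Y → HIso X Y
  cl_surj : ∀ x, ∃ X, cl X = x
  g : T → A
  act : ∀ v X, g v • cl X = cl (tw v X)

namespace ActS

variable {tw : T → TOb G k → TOb G k} {A Ω : Type*} [Group A] [MulAction A Ω]
  (S : ActS tw A Ω)

/-- the positive classes -/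
def Pc : Set Ω := {x | ∃ X, S.cl X = x ∧ P0c X}

variable {S}

theorem mem_Pc (h2 : (2 : k) ≠ 0) {X : TOb G k} (h : S.cl X ∈ S.Pc) : P0c X := by
  obtain ⟨Y, hY, hP⟩ := h
  exact hP.congr h2 (S.cl_eq X Y hY.symm)

/-- a representative of `(g v)⁻¹ x`. -/
theorem exists_pre (v : T) (x : Ω) : ∃ X, S.cl X = (S.g v)⁻¹ • x ∧ S.cl (tw v X) = x := by
  obtain ⟨X, hX⟩ := S.cl_surj ((S.g v)⁻¹ • x)
  exact ⟨X, hX, by rw [← S.act, hX, smul_inv_smul]⟩

theorem hi (h : TwS tw) (v : T) (x : Ω) (hx : x ∈ S.Pc) : S.g v • x ∈ S.Pc := by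
  obtain ⟨X, rfl, hX⟩ := hx
  exact ⟨_, (S.act v X).symm, h.p0_T hX⟩

/-- if `(g v)⁻¹ x` and `(g w)⁻¹ x` are positive, so is `(g v g w)⁻¹ x`. -/
theorem h2 [CharZero k] (h : TwS tw) {v w : T} (hvw : w ≠ v) (x : Ω)
    (hv : (S.g v)⁻¹ • x ∈ S.Pc) (hw : (S.g w)⁻¹ • x ∈ S.Pc) :
    (S.g v * S.g w)⁻¹ • x ∈ S.Pc := by
  have h2 : (2 : k) ≠ 0 := two_ne_zero
  obtain ⟨X, hX, hX'⟩ := S.exists_pre w ((S.g v)⁻¹ • x)
  obtain ⟨Z, hZ, hZ'⟩ := S.exists_pre w x
  have e : S.cl (tw v (tw w X)) = x := by rw [← S.act, hX', smul_inv_smul]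
  rw [← hX'] at hv
  rw [← hZ] at hw
  have nw : NKc (tw v (tw w X)) w :=
    (h.nk (v := w) (mem_Pc h2 hw)).congr h2 (S.cl_eq _ _ (by rw [e, hZ']))
  have nw' : NKc (tw w X) w := h.nk1 h2 hvw nw
  refine ⟨X, ?_, h.p0_U h2 (mem_Pc h2 hv) nw'⟩
  rw [hX, mul_inv_rev, mul_smul]

theorem h3 [CharZero k] (h : TwS tw) {v w : T} (hvw : w ≠ v) (c : G.E v w)
    (hc : ∀ a : G.E v w, a = c) (x : Ω)
    (hv : (S.g v)⁻¹ • x ∈ S.Pc) (hw : (S.g w)⁻¹ • x ∈ S.Pc) :
    (S.g v * S.g w * S.g v)⁻¹ • x ∈ S.Pc := by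
  have h2 : (2 : k) ≠ 0 := two_ne_zero
  have hvw2 := S.h2 h hvw x hv hw
  obtain ⟨Y, hY, hY'⟩ := S.exists_pre v ((S.g v * S.g w)⁻¹ • x)
  rw [← hY'] at hvw2
  -- `x` is the class of `tw v (tw w (tw v Y))`
  have e1 : S.cl (tw w (tw v Y)) = (S.g v)⁻¹ • x := by
    rw [← S.act, hY', mul_inv_rev, mul_smul, smul_inv_smul]
  have e : S.cl (tw v (tw w (tw v Y))) = x := by rw [← S.act, e1, smul_inv_smul]
  obtain ⟨Z, hZ, hZ'⟩ := S.exists_pre w x
  rw [← hZ] at hw
  have nw : NKc (tw v (tw w (tw v Y))) w :=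
    (h.nk (v := w) (mem_Pc h2 hw)).congr h2 (S.cl_eq _ _ (by rw [e, hZ']))
  rw [← e1] at hv
  have nv : NKc (tw v (tw w (tw v Y))) v := h.nk (mem_Pc h2 hv)
  have nv' : NKc (tw v Y) v := h.nk2 h2 hvw c hc nv nw
  refine ⟨Y, ?_, h.p0_U h2 (mem_Pc h2 hvw2) nv'⟩
  rw [hY, ← mul_smul, ← mul_inv_rev]

end ActS

end Crest.Agent.R175.StabF_393
end

-- ▼ part R175/StabW_901
section

/-!
Row 175 (S0263), block STAB, labels > 3 (helper901).

`D` a subset of a group (or monoid) `G`, closed under removing letters on the right and under local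
joins of type `A₁ × A₁` and `A₂` of the letters of the unfolded diagram.  Then `D` is closed under
the local joins of the folded letters, every finite label.  No Coxeter groups: in type `A_n` the
join `Δ_n = (g₀)(g₁ g₀)(g₂ g₁ g₀) ⋯` is built row by row.
-/

set_option autoImplicit false

namespace Crest.Agent.R175.StabW_901

open Crest.Agent.R175.Semi_663 Crest.Agent.R175.Lcm_109

variable {G : Type*} [Monoid G]

/-- removing the letter `s`. -/
def Pre (D : Set G) (s : G) : Prop := ∀ a, a * s ∈ D → a ∈ D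

/-- local join of commuting letters. -/
structure Com (D : Set G) (s t : G) : Prop where
  comm : Commute s t
  join : ∀ a, a * s ∈ D → a * t ∈ D → a * (s * t) ∈ D

/-- local join of braided letters. -/
structure Br (D : Set G) (s t : G) : Prop where
  braid : s * t * s = t * s * t
  join : ∀ a, a * s ∈ D → a * t ∈ D → a * (s * t * s) ∈ D

variable {D : Set G}

theorem Com.symm {s t : G} (h : Com D s t) : Com D t s where
  comm := h.comm.symm
  join := fun a h1 h2 => by rw [← h.comm.eq]; exact h.join a h2 h1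

theorem Br.symm {s t : G} (h : Br D s t) : Br D t s where
  braid := h.braid.symm
  join := fun a h1 h2 => by rw [← h.braid]; exact h.join a h2 h1

/-- removing a product of letters. -/
theorem pre_closure {Γ : Set G} (h : ∀ s ∈ Γ, Pre D s) {p : G} (hp : p ∈ Submonoid.closure Γ) :
    ∀ a, a * p ∈ D → a ∈ D := by
  induction hp using Submonoid.closure_induction_left with
  | one => intro a ha; simpa using ha
  | mul_left s hs y _ ih =>
    intro a ha
    refine h s hs a (ih (a * s) ?_)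
    rwa [mul_assoc]

/-- join of a letter with a product of letters commuting with it. -/
theorem com_closure {Γ : Set G} {t : G} (h : ∀ s ∈ Γ, Pre D s ∧ Com D s t) {p : G}
    (hp : p ∈ Submonoid.closure Γ) : ∀ a, a * p ∈ D → a * t ∈ D → a * (p * t) ∈ D := by
  induction hp using Submonoid.closure_induction_left with
  | one => intro a _ ha; simpa using ha
  | mul_left s hs y hy ih =>
    intro a ha hat
    rw [← mul_assoc] at ha
    have h1 : a * s ∈ D := pre_closure (fun s hs => (h s hs).1) hy _ ha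
    have h2 : a * s * t ∈ D := by
      rw [mul_assoc]; exact (h s hs).2.join a h1 hat
    have := ih (a * s) ha h2
    simpa only [mul_assoc] using this

/-- `Δ` is a product of the letters of `Γ` and below every family of letters of `Γ`. -/
structure Good (D : Set G) (Γ : Set G) (Δ : G) : Prop where
  pre : ∀ s ∈ Γ, Pre D s
  mem : Δ ∈ Submonoid.closure Γ
  clo : ∀ a ∈ D, (∀ s ∈ Γ, a * s ∈ D) → a * Δ ∈ D

theorem Good.one : Good D (∅ : Set G) 1 where
  pre := fun s hs => absurd hs (Set.notMem_empty s)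
  mem := Submonoid.one_mem _
  clo := fun a ha _ => by rwa [mul_one]

theorem Good.mul {Γ Γ' : Set G} {Δ Δ' : G} (h : Good D Γ Δ) (h' : Good D Γ' Δ')
    (hc : ∀ s ∈ Γ, ∀ t ∈ Γ', Com D s t) : Good D (Γ ∪ Γ') (Δ * Δ') where
  pre := fun s hs => hs.elim (h.pre s) (h'.pre s)
  mem := Submonoid.mul_mem _ (Submonoid.closure_mono Set.subset_union_left h.mem)
    (Submonoid.closure_mono Set.subset_union_right h'.mem)
  clo := fun a ha hs => by
    have h1 : a * Δ ∈ D := h.clo a ha fun s h2 => hs s (Or.inl h2)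
    rw [← mul_assoc]
    refine h'.clo _ h1 fun t ht => ?_
    rw [mul_assoc]
    exact com_closure (fun s h2 => ⟨h.pre s h2, hc s h2 t ht⟩) h.mem a h1 (hs t (Or.inr ht))

theorem Good.list {J : Type*} (Γ : J → Set G) (Δ : J → G) : ∀ l : List J, l.Nodup →
    (∀ j ∈ l, Good D (Γ j) (Δ j)) →
    (∀ i ∈ l, ∀ j ∈ l, i ≠ j → ∀ s ∈ Γ i, ∀ t ∈ Γ j, Com D s t) →
    Good D {s | ∃ j ∈ l, s ∈ Γ j} (l.map Δ).prod
  | [], _, _, _ => by
    have : {s : G | ∃ j ∈ ([] : List J), s ∈ Γ j} = ∅ := by ext s; simp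
    rw [this]
    exact Good.one
  | j :: l, hl, h, hc => by
    rw [List.nodup_cons] at hl
    have h1 := Good.list Γ Δ l hl.2 (fun i hi => h i (by simp [hi]))
      (fun i hi k hk hik => hc i (by simp [hi]) k (by simp [hk]) hik)
    have h2 := (h j (by simp)).mul h1 (fun s hs t ht => by
      obtain ⟨i, hi, ht⟩ := ht
      exact hc j (by simp) i (by simp [hi]) (fun e => hl.1 (e ▸ hi)) s hs t ht)
    have : {s : G | ∃ i ∈ j :: l, s ∈ Γ i} = Γ j ∪ {s | ∃ i ∈ l, s ∈ Γ i} := by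
      ext s; simp
    rw [this, List.map_cons, List.prod_cons]
    exact h2

theorem Good.single {s : G} (h : Pre D s) : Good D {s} s where
  pre := fun t ht => by rw [Set.mem_singleton_iff.1 ht]; exact h
  mem := Submonoid.subset_closure rfl
  clo := fun a _ hs => hs s rfl

/-! ### type `A_n` -/

/-- the relations of type `A_n` together with the local joins. -/
structure RelD (D : Set G) (n : ℕ) (g : ℕ → G) : Prop where
  pre : ∀ i, i < n → Pre D (g i)
  com : ∀ i j, i + 2 ≤ j → j < n → Com D (g i) (g j)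
  br : ∀ i, i + 1 < n → Br D (g i) (g (i + 1))

theorem RelD.rel {n : ℕ} {g : ℕ → G} (h : RelD D n g) : Rel n g where
  comm := fun i j h1 h2 => (h.com i j h1 h2).comm
  braid := fun i h1 => (h.br i h1).braid

theorem RelD.mono {n m : ℕ} {g : ℕ → G} (h : RelD D n g) (hm : m ≤ n) : RelD D m g where
  pre := fun i hi => h.pre i (by omega)
  com := fun i j h1 h2 => h.com i j h1 (by omega)
  br := fun i h1 => h.br i (by omega)

/-- the reversed path. -/
theorem RelD.rev {n : ℕ} {g : ℕ → G} (h : RelD D (n + 1) g) : RelD D (n + 1) fun i => g (n - i) where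
  pre := fun i _ => h.pre _ (by omega)
  com := fun i j h1 h2 => (h.com (n - j) (n - i) (by omega) (by omega)).symm
  br := fun i h1 => by
    have := (h.br (n - (i + 1)) (by omega)).symm
    rwa [show n - (i + 1) + 1 = n - i by omega] at this

/-- the letters of a path. -/
def letters (n : ℕ) (g : ℕ → G) : Set G := {s | ∃ i < n, g i = s}

theorem L_mem {a k n : ℕ} (h : a + k ≤ n) (g : ℕ → G) :
    L a k g ∈ Submonoid.closure (letters n g) := by
  induction k generalizing a with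
  | zero => exact Submonoid.one_mem _
  | succ k ih =>
    rw [L_succ]
    exact Submonoid.mul_mem _ (Submonoid.subset_closure ⟨a, by omega, rfl⟩) (ih (by omega))

/-- **one row**: from `b g₀ ∈ D` and `b g₁ ⋯ g_k ∈ D` to the join `b (g₁ ⋯ g_k)(g₀ ⋯ g_k) ∈ D`. -/
theorem row {n : ℕ} {g : ℕ → G} (h : RelD D n g) : ∀ k, k < n → ∀ b, b * g 0 ∈ D →
    b * L 1 k g ∈ D → b * (L 1 k g * L 0 (k + 1) g) ∈ D := by
  intro k
  induction k with
  | zero =>
    intro _ b h0 _
    rw [L_zero, one_mul, L_succ, L_zero, mul_one]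
    exact h0
  | succ k ih =>
    intro hk b h0 h1
    have e1 : L 1 (k + 1) g = L 1 k g * g (k + 1) := by rw [L_snoc, add_comm 1 k]
    rw [e1, ← mul_assoc] at h1
    have h2 : b * L 1 k g ∈ D := h.pre _ hk _ h1
    have h3 := ih (by omega) b h0 h2
    have e2 : L 0 (k + 1) g = L 0 k g * g k := by rw [L_snoc, zero_add]
    rw [e2, ← mul_assoc] at h3
    -- `h3 : b' * (L 0 k g * g k) ∈ D`
    have hk0 : ∀ s ∈ letters k g, Pre D s ∧ Com D s (g (k + 1)) := by
      rintro s ⟨i, hi, rfl⟩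
      exact ⟨h.pre i (by omega), h.com i (k + 1) (by omega) hk⟩
    have h4 : b * L 1 k g * L 0 k g ∈ D := by
      rw [← mul_assoc] at h3
      exact h.pre k (by omega) _ h3
    have h5 : b * L 1 k g * (L 0 k g * g (k + 1)) ∈ D :=
      com_closure hk0 (L_mem (by omega) g) _ h4 h1
    have h6 := (h.br k hk).join (b * L 1 k g * L 0 k g) (by simpa only [mul_assoc] using h3)
      (by simpa only [mul_assoc] using h5)
    have c : Commute (g (k + 1)) (L 0 k g) :=
      L_commute fun i _ h8 => ((h.com i (k + 1) (by omega) hk).comm).symm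
    have e3 : L 0 (k + 1 + 1) g = L 0 k g * g k * g (k + 1) := by
      rw [L_snoc, zero_add, e2]
    rw [(h.br k hk).braid] at h6
    rw [e1, e3]
    have : b * (L 1 k g * g (k + 1) * (L 0 k g * g k * g (k + 1))) =
        b * L 1 k g * L 0 k g * (g (k + 1) * g k * g (k + 1)) := by
      calc b * (L 1 k g * g (k + 1) * (L 0 k g * g k * g (k + 1)))
          = b * (L 1 k g * (g (k + 1) * L 0 k g) * (g k * g (k + 1))) := by simp only [mul_assoc]
        _ = _ := by rw [c.eq]; simp only [mul_assoc]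
    rw [this]
    exact h6

/-- `g (n-1) ⋯ g 1 g 0`. -/
def Dn (g : ℕ → G) : ℕ → G
  | 0 => 1
  | n + 1 => g n * Dn g n

/-- `(g 0)(g 1 g 0) ⋯ (g (n-1) ⋯ g 0)`. -/
def E (g : ℕ → G) : ℕ → G
  | 0 => 1
  | n + 1 => E g n * Dn g (n + 1)

theorem Dn_mem (g : ℕ → G) : ∀ n, Dn g n ∈ Submonoid.closure (letters n g)
  | 0 => Submonoid.one_mem _
  | n + 1 => Submonoid.mul_mem _ (Submonoid.subset_closure ⟨n, by omega, rfl⟩)
    (Submonoid.closure_mono (by rintro s ⟨i, hi, rfl⟩; exact ⟨i, by omega, rfl⟩) (Dn_mem g n))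

theorem E_mem (g : ℕ → G) : ∀ n, E g n ∈ Submonoid.closure (letters n g)
  | 0 => Submonoid.one_mem _
  | n + 1 => Submonoid.mul_mem _
    (Submonoid.closure_mono (by rintro s ⟨i, hi, rfl⟩; exact ⟨i, by omega, rfl⟩) (E_mem g n))
    (Dn_mem g (n + 1))

theorem L_rev (g : ℕ → G) : ∀ n, L 0 (n + 1) (fun i => g (n - i)) = Dn g (n + 1)
  | 0 => by simp [L_succ, Dn]
  | n + 1 => by
    rw [L_succ, L_shift 0 1]
    have : L 0 (n + 1) (fun i => g (n + 1 - (i + 1))) = L 0 (n + 1) (fun i => g (n - i)) :=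
      L_congr fun i _ _ => by rw [Nat.add_sub_add_right]
    rw [this, L_rev g n]
    rfl

theorem L_rev' (g : ℕ → G) : ∀ n, L 1 n (fun i => g (n - i)) = Dn g n
  | 0 => rfl
  | n + 1 => by
    rw [show (1 : ℕ) = 0 + 1 from rfl, L_shift 0 1]
    have : L 0 (n + 1) (fun i => g (n + 1 - (i + 1))) = L 0 (n + 1) (fun i => g (n - i)) :=
      L_congr fun i _ _ => by rw [Nat.add_sub_add_right]
    rw [this, L_rev g n]

/-- **the join of all letters of type `A_n`.** -/
theorem clo_E {g : ℕ → G} : ∀ n, RelD D n g → ∀ a ∈ D, (∀ i < n, a * g i ∈ D) → a * E g n ∈ D := by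
  intro n
  induction n with
  | zero => intro _ a ha _; simpa [E] using ha
  | succ n ih =>
    intro h a ha hs
    have h1 := ih (h.mono (by omega)) a ha fun i hi => hs i (by omega)
    -- the base point of the last row
    obtain ⟨b, hb, hb2, hb3⟩ : ∃ b, b * g n ∈ D ∧ b * Dn g n ∈ D ∧ b * Dn g n = a * E g n := by
      rcases n with _ | n
      · exact ⟨a, hs 0 (by omega), by simpa [Dn] using ha, rfl⟩
      · have e1 : E g (n + 1) = E g n * Dn g (n + 1) := rfl
        rw [e1, ← mul_assoc] at h1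
        have h2 : a * E g n ∈ D := by
          refine pre_closure ?_ (Dn_mem g (n + 1)) _ h1
          rintro s ⟨i, hi, rfl⟩
          exact h.pre i (by omega)
        refine ⟨a * E g n, ?_, h1, by rw [e1, mul_assoc]⟩
        rw [mul_assoc]
        refine com_closure ?_ (E_mem g n) a h2 (hs (n + 1) (by omega))
        rintro s ⟨i, hi, rfl⟩
        exact ⟨h.pre i (by omega), h.com i (n + 1) (by omega) (by omega)⟩
    have h4 := row h.rev n (by omega) b (by simpa using hb) (by rw [L_rev']; exact hb2)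
    rw [L_rev', L_rev, ← mul_assoc, hb3, mul_assoc] at h4
    exact h4

/-- `E (n+1) = g 0 ⋯ g n E n`. -/
theorem E_succ {g : ℕ → G} : ∀ n, Rel (n + 1) g → E g (n + 1) = L 0 (n + 1) g * E g n := by
  intro n
  induction n with
  | zero => intro _; simp [E, Dn, L_succ]
  | succ n ih =>
    intro h
    have h1 := ih (h.mono (by omega))
    have c : Commute (g (n + 1)) (E g n) := by
      have : ∀ p ∈ Submonoid.closure (letters n g), Commute (g (n + 1)) p := by
        intro p hp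
        induction hp using Submonoid.closure_induction with
        | mem x hx =>
          obtain ⟨i, hi, rfl⟩ := hx
          exact (h.comm i (n + 1) (by omega) (by omega)).symm
        | one => exact Commute.one_right _
        | mul x y _ _ hx hy => exact hx.mul_right hy
      exact this _ (E_mem g n)
    calc E g (n + 1 + 1) = E g (n + 1) * (g (n + 1) * Dn g (n + 1)) := rfl
      _ = L 0 (n + 1) g * (E g n * g (n + 1)) * Dn g (n + 1) := by rw [h1]; simp only [mul_assoc]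
      _ = L 0 (n + 1) g * g (n + 1) * (E g n * Dn g (n + 1)) := by
        rw [← c.eq]; simp only [mul_assoc]
      _ = L 0 (n + 1 + 1) g * E g (n + 1) := by rw [L_snoc 0 (n + 1), zero_add]; rfl

/-- `RP` satisfies the same recursion. -/
theorem RP_succ {n : ℕ} {g : ℕ → G} (h : Rel (n + 1) g) :
    RP g (n + 1) 0 (n + 1 + 1) = L 0 (n + 1) g * RP g n 0 (n + 1) := by
  have k0 := key h n 0 (by omega)
  rw [L_zero, one_mul, Nat.add_sub_cancel] at k0
  have h1 : RP g (n + 1) 0 (n + 1 + 1) = RP g (n + 1) 0 (n + 1) * L 0 (n + 1) (e g (n + 1)) := by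
    unfold RP; rw [L_snoc, zero_add]
  have h2 : L 0 (n + 1) (e g (n + 1)) = L 0 n (e g (n + 1)) := by
    rw [L_snoc, zero_add, e_neg (by omega), mul_one]
  have h3 : RP g n 1 (n + 1) = RP g n (0 + 1) n * L 0 n (e g (n + 1)) := by
    unfold RP; rw [L_snoc, zero_add, add_comm 1 n]
  rw [h1, h2, k0, mul_assoc, ← h3, RP_eq n g (h.mono (by omega))]

theorem RP_eq_E {g : ℕ → G} : ∀ n, Rel n g → RP g n 0 (n + 1) = E g n := by
  intro n
  induction n with
  | zero => intro _; simp [RP, L_succ, E]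
  | succ n ih =>
    intro h
    rw [RP_succ h, E_succ n h, ih (h.mono (by omega))]

/-- the two alternating products of a path are `E`. -/
theorem alt_eq_E {n : ℕ} {g : ℕ → G} (h : Rel n g) :
    alt (L 0 n (e g 0)) (L 0 n (e g 1)) (n + 1) = E g n := by
  rw [← RP_eq_E n h]
  have h1 := alt_eq_L (fun s => L 0 n (e g s)) (fun q => by simp only [e_two]) (n + 1) 0
  simp only [zero_add] at h1
  rw [h1]
  rfl

theorem alt_eq_E' {n : ℕ} {g : ℕ → G} (h : Rel n g) :
    alt (L 0 n (e g 1)) (L 0 n (e g 0)) (n + 1) = E g n := by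
  rw [← braid_path h, alt_eq_E h]

theorem good_E {n : ℕ} {g : ℕ → G} (h : RelD D n g) : Good D (letters n g) (E g n) where
  pre := by rintro s ⟨i, hi, rfl⟩; exact h.pre i hi
  mem := E_mem g n
  clo := fun a ha hs => clo_E n h a ha fun i hi => hs _ ⟨i, hi, rfl⟩

/-! ### blocks and families -/

/-- two sequences: all relations and local joins. -/
structure BlkD (D : Set G) (n : ℕ) (X Y : ℕ → G) : Prop where
  px : ∀ i, i < n → Pre D (X i)
  py : ∀ i, i < n → Pre D (Y i)
  xx : ∀ i j, i < n → j < n → i ≠ j → Com D (X i) (X j)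
  yy : ∀ i j, i < n → j < n → i ≠ j → Com D (Y i) (Y j)
  xy : ∀ i j, i < n → j < n → i + 1 ≠ j → j + 1 ≠ i → Com D (X i) (Y j)
  b1 : ∀ i, i + 1 < n → Br D (X i) (Y (i + 1))
  b2 : ∀ i, i + 1 < n → Br D (Y i) (X (i + 1))

theorem BlkD.blk {n : ℕ} {X Y : ℕ → G} (h : BlkD D n X Y) : Blk n X Y where
  xx := fun i j hi hj => by
    rcases eq_or_ne i j with rfl | hij
    · exact Commute.refl _
    · exact (h.xx i j hi hj hij).comm
  yy := fun i j hi hj => by
    rcases eq_or_ne i j with rfl | hij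
    · exact Commute.refl _
    · exact (h.yy i j hi hj hij).comm
  xy := fun i j hi hj h1 h2 => (h.xy i j hi hj h1 h2).comm
  b1 := fun i hi => (h.b1 i hi).braid
  b2 := fun i hi => (h.b2 i hi).braid

theorem BlkD.symm {n : ℕ} {X Y : ℕ → G} (h : BlkD D n X Y) : BlkD D n Y X where
  px := h.py
  py := h.px
  xx := h.yy
  yy := h.xx
  xy := fun i j hi hj h1 h2 => (h.xy j i hj hi h2 h1).symm
  b1 := h.b2
  b2 := h.b1

theorem BlkD.relD {n : ℕ} {X Y : ℕ → G} (h : BlkD D n X Y) : RelD D n (gp X Y) where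
  pre := fun i hi => by
    unfold gp
    split_ifs
    · exact h.px i hi
    · exact h.py i hi
  com := fun i j h1 h2 => by
    unfold gp
    split_ifs
    · exact h.xx i j (by omega) h2 (by omega)
    · exact h.xy i j (by omega) h2 (by omega) (by omega)
    · exact (h.xy j i h2 (by omega) (by omega) (by omega)).symm
    · exact h.yy i j (by omega) h2 (by omega)
  br := fun i hi => by
    by_cases hp : i % 2 = 0
    · rw [gp_even hp, gp_odd (by omega : (i + 1) % 2 ≠ 0)]
      exact h.b1 i hi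
    · rw [gp_odd hp, gp_even (by omega : (i + 1) % 2 = 0)]
      exact h.b2 i hi

theorem BlkD.cross {n : ℕ} {X Y : ℕ → G} (h : BlkD D n X Y) (i j : ℕ) (hi : i < n) (hj : j < n) :
    Com D (gp X Y i) (gp Y X j) := by
  unfold gp
  split_ifs
  · exact h.xy i j hi hj (by omega) (by omega)
  · exact h.xx i j hi hj (by omega)
  · exact h.yy i j hi hj (by omega)
  · exact (h.xy j i hj hi (by omega) (by omega)).symm

/-- **one block.** -/
theorem BlkD.good {n : ℕ} {X Y : ℕ → G} (h : BlkD D n X Y) :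
    Good D {s | ∃ i < n, s = X i ∨ s = Y i} (alt (L 0 n X) (L 0 n Y) (n + 1)) := by
  have h1 := (good_E h.relD).mul (good_E h.symm.relD) (by
    rintro s ⟨i, hi, rfl⟩ t ⟨j, hj, rfl⟩
    exact h.cross i j hi hj)
  have e1 : alt (L 0 n X) (L 0 n Y) (n + 1) = E (gp X Y) n * E (gp Y X) n := by
    have hb := h.blk
    rw [hb.prodX, hb.prodY,
      alt_mul_mul (hb.crossL 0 1).symm (hb.crossL 1 1).symm (hb.crossL 0 0).symm
        (hb.crossL 1 0).symm, alt_eq_E hb.rel, alt_eq_E' hb.symm.rel]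
  have e2 : {s : G | ∃ i < n, s = X i ∨ s = Y i} = letters n (gp X Y) ∪ letters n (gp Y X) := by
    ext s
    constructor
    · rintro ⟨i, hi, hs | hs⟩
      · by_cases hp : i % 2 = 0
        · exact Or.inl ⟨i, hi, by rw [gp_even hp, hs]⟩
        · exact Or.inr ⟨i, hi, by rw [gp_odd hp, hs]⟩
      · by_cases hp : i % 2 = 0
        · exact Or.inr ⟨i, hi, by rw [gp_even hp, hs]⟩
        · exact Or.inl ⟨i, hi, by rw [gp_odd hp, hs]⟩
    · rintro (⟨i, hi, hs⟩ | ⟨i, hi, hs⟩)
      · refine ⟨i, hi, ?_⟩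
        by_cases hp : i % 2 = 0
        · left; rw [← hs, gp_even hp]
        · right; rw [← hs, gp_odd hp]
      · refine ⟨i, hi, ?_⟩
        by_cases hp : i % 2 = 0
        · right; rw [← hs, gp_even hp]
        · left; rw [← hs, gp_odd hp]
  rw [e1, e2]
  exact h1

section fam

variable {I J : Type*} [Fintype I] [Fintype J] {n : ℕ}

/-- **label `n + 1`.** -/
theorem good_path (ε : I ≃ Fin n × J) (x y : I → G) (hx : ∀ i i', Commute (x i) (x i'))
    (hy : ∀ i i', Commute (y i) (y i')) (px : ∀ i, Pre D (x i)) (py : ∀ i, Pre D (y i))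
    (cx : ∀ i i', i ≠ i' → Com D (x i) (x i')) (cy : ∀ i i', i ≠ i' → Com D (y i) (y i'))
    (hxy : ∀ i i', ¬ Adj ε i i' → Com D (x i) (y i'))
    (hbr : ∀ i i', Adj ε i i' → Br D (x i) (y i')) :
    Good D {s | ∃ i, s = x i ∨ s = y i} (alt (cp x hx) (cp y hy) (n + 1)) := by
  classical
  rw [cp_fold ε x hx, cp_fold ε y hy]
  set X : J → ℕ → G := fun j i => if h : i < n then x (ε.symm (⟨i, h⟩, j)) else 1 with hX
  set Y : J → ℕ → G := fun j i => if h : i < n then y (ε.symm (⟨i, h⟩, j)) else 1 with hY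
  have eX : ∀ j i (h : i < n), X j i = x (ε.symm (⟨i, h⟩, j)) := fun j i h => dif_pos h
  have eY : ∀ j i (h : i < n), Y j i = y (ε.symm (⟨i, h⟩, j)) := fun j i h => dif_pos h
  have inj : ∀ {i i' : ℕ} {h : i < n} {h' : i' < n} {j j' : J}, (i ≠ i' ∨ j ≠ j') →
      ε.symm (⟨i, h⟩, j) ≠ ε.symm (⟨i', h'⟩, j') := by
    intro i i' h h' j j' hne he
    have := ε.symm.injective he
    rw [Prod.mk.injEq, Fin.mk.injEq] at this
    rcases hne with hne | hne
    · exact hne this.1
    · exact hne this.2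
  have hB : ∀ j, BlkD D n (X j) (Y j) := fun j =>
    { px := fun i h => by rw [eX j i h]; exact px _
      py := fun i h => by rw [eY j i h]; exact py _
      xx := fun i i' h h' hne => by
        rw [eX j i h, eX j i' h']; exact cx _ _ (inj (Or.inl hne))
      yy := fun i i' h h' hne => by
        rw [eY j i h, eY j i' h']; exact cy _ _ (inj (Or.inl hne))
      xy := fun i i' h h' h1 h2 => by
        rw [eX j i h, eY j i' h']
        refine hxy _ _ fun hA => ?_
        rw [Adj, Equiv.apply_symm_apply, Equiv.apply_symm_apply] at hA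
        rcases hA.2 with h3 | h3
        · exact h1 h3
        · exact h2 h3
      b1 := fun i h => by
        rw [eX j i (by omega), eY j (i + 1) h]
        refine hbr _ _ ?_
        rw [Adj, Equiv.apply_symm_apply, Equiv.apply_symm_apply]
        exact ⟨rfl, Or.inl rfl⟩
      b2 := fun i h => by
        rw [eY j i (by omega), eX j (i + 1) h]
        refine (hbr _ _ ?_).symm
        rw [Adj, Equiv.apply_symm_apply, Equiv.apply_symm_apply]
        exact ⟨rfl, Or.inr rfl⟩ }
  -- all local joins between different blocks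
  have cXX : ∀ i j, i ≠ j → ∀ a b, a < n → b < n → Com D (X i a) (X j b) := by
    intro i j hij a b ha hb
    rw [eX i a ha, eX j b hb]; exact cx _ _ (inj (Or.inr hij))
  have cYY : ∀ i j, i ≠ j → ∀ a b, a < n → b < n → Com D (Y i a) (Y j b) := by
    intro i j hij a b ha hb
    rw [eY i a ha, eY j b hb]; exact cy _ _ (inj (Or.inr hij))
  have cXY : ∀ i j, i ≠ j → ∀ a b, a < n → b < n → Com D (X i a) (Y j b) := by
    intro i j hij a b ha hb
    rw [eX i a ha, eY j b hb]
    refine hxy _ _ fun hA => ?_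
    rw [Adj, Equiv.apply_symm_apply, Equiv.apply_symm_apply] at hA
    exact hij hA.1
  have hl := Finset.nodup_toList (Finset.univ : Finset J)
  have hc : ∀ i ∈ (Finset.univ : Finset J).toList, ∀ j ∈ (Finset.univ : Finset J).toList, i ≠ j →
      Commute (L 0 n (X i)) (L 0 n (X j)) ∧ Commute (L 0 n (X i)) (L 0 n (Y j)) ∧
        Commute (L 0 n (Y i)) (L 0 n (Y j)) := by
    intro i _ j _ hij
    exact ⟨L_commute' fun a b _ ha _ hb => (cXX i j hij a b (by omega) (by omega)).comm,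
      L_commute' fun a b _ ha _ hb => (cXY i j hij a b (by omega) (by omega)).comm,
      L_commute' fun a b _ ha _ hb => (cYY i j hij a b (by omega) (by omega)).comm⟩
  rw [alt_list (fun j => L 0 n (X j)) (fun j => L 0 n (Y j)) (n + 1) _ hl hc]
  have h1 := Good.list (D := D) (fun j => {s | ∃ i < n, s = X j i ∨ s = Y j i})
    (fun j => alt (L 0 n (X j)) (L 0 n (Y j)) (n + 1)) _ hl (fun j _ => (hB j).good) (by
      rintro i _ j _ hij s ⟨a, ha, hs⟩ t ⟨b, hb, ht⟩
      rcases hs with rfl | rfl <;> rcases ht with rfl | rfl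
      · exact cXX i j hij a b ha hb
      · exact cXY i j hij a b ha hb
      · exact (cXY j i hij.symm b a hb ha).symm
      · exact cYY i j hij a b ha hb)
  have e2 : {s : G | ∃ i, s = x i ∨ s = y i} =
      {s | ∃ j ∈ (Finset.univ : Finset J).toList, s ∈ {s | ∃ i < n, s = X j i ∨ s = Y j i}} := by
    ext s
    constructor
    · rintro ⟨i, hs⟩
      refine ⟨(ε i).2, by simp, (ε i).1.val, (ε i).1.isLt, ?_⟩
      rw [eX _ _ (ε i).1.isLt, eY _ _ (ε i).1.isLt]
      simpa using hs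
    · rintro ⟨j, _, i, hi, hs⟩
      rw [eX _ _ hi, eY _ _ hi] at hs
      exact ⟨_, hs⟩
  rw [e2]
  exact h1

/-- a family of letters with local joins of type `A₁ × A₁`. -/
theorem good_cp (x : I → G) (hx : ∀ i i', Commute (x i) (x i')) (px : ∀ i, Pre D (x i))
    (cx : ∀ i i', i ≠ i' → Com D (x i) (x i')) : Good D (Set.range x) (cp x hx) := by
  classical
  have hl := Finset.nodup_toList (Finset.univ : Finset I)
  have hu : ∀ i, i ∈ (Finset.univ : Finset I).toList := fun i => by simp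
  rw [cp_list x hx _ hl hu]
  have h1 := Good.list (D := D) (fun i => {x i}) x _ hl (fun i _ => Good.single (px i)) (by
    rintro i _ j _ hij s rfl t rfl
    exact cx i j hij)
  have e2 : Set.range x = {s | ∃ j ∈ (Finset.univ : Finset I).toList, s ∈ ({x j} : Set G)} := by
    ext s
    constructor
    · rintro ⟨i, rfl⟩; exact ⟨i, by simp, rfl⟩
    · rintro ⟨i, _, rfl⟩; exact ⟨i, rfl⟩
  rw [e2]
  exact h1

/-- **label `2`.** -/
theorem good_two (x y : I → G) (hx : ∀ i i', Commute (x i) (x i'))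
    (hy : ∀ i i', Commute (y i) (y i')) (px : ∀ i, Pre D (x i)) (py : ∀ i, Pre D (y i))
    (cx : ∀ i i', i ≠ i' → Com D (x i) (x i')) (cy : ∀ i i', i ≠ i' → Com D (y i) (y i'))
    (hxy : ∀ i i', Com D (x i) (y i')) :
    Good D {s | ∃ i, s = x i ∨ s = y i} (alt (cp x hx) (cp y hy) 2) := by
  have h1 := (good_cp x hx px cx).mul (good_cp y hy py cy) (by
    rintro s ⟨i, rfl⟩ t ⟨j, rfl⟩; exact hxy i j)
  have e1 : alt (cp x hx) (cp y hy) 2 = cp x hx * cp y hy := by simp [alt]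
  have e2 : {s : G | ∃ i, s = x i ∨ s = y i} = Set.range x ∪ Set.range y := by
    ext s
    constructor
    · rintro ⟨i, rfl | rfl⟩
      · exact Or.inl ⟨i, rfl⟩
      · exact Or.inr ⟨i, rfl⟩
    · rintro (⟨i, rfl⟩ | ⟨i, rfl⟩)
      · exact ⟨i, Or.inl rfl⟩
      · exact ⟨i, Or.inr rfl⟩
  rw [e1, e2]
  exact h1

/-- **label `3`** (`(s,i) ~ (t,i)`). -/
theorem good_three (x y : I → G) (hx : ∀ i i', Commute (x i) (x i'))
    (hy : ∀ i i', Commute (y i) (y i')) (px : ∀ i, Pre D (x i)) (py : ∀ i, Pre D (y i))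
    (cx : ∀ i i', i ≠ i' → Com D (x i) (x i')) (cy : ∀ i i', i ≠ i' → Com D (y i) (y i'))
    (hxy : ∀ i i', i ≠ i' → Com D (x i) (y i')) (hbr : ∀ i, Br D (x i) (y i)) :
    Good D {s | ∃ i, s = x i ∨ s = y i} (alt (cp x hx) (cp y hy) 3) := by
  classical
  have hl := Finset.nodup_toList (Finset.univ : Finset I)
  have hu : ∀ i, i ∈ (Finset.univ : Finset I).toList := fun i => by simp
  rw [cp_list x hx _ hl hu, cp_list y hy _ hl hu,
    alt_list x y 3 _ hl fun i _ j _ hij => ⟨hx i j, (hxy i j hij).comm, hy i j⟩]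
  have h1 := Good.list (D := D) (fun i => {s | s = x i ∨ s = y i}) (fun i => alt (x i) (y i) 3) _ hl
    (fun i _ => by
      have e : alt (x i) (y i) 3 = x i * y i * x i := by simp [alt, mul_assoc]
      refine ⟨?_, ?_, ?_⟩
      · rintro s (rfl | rfl)
        · exact px i
        · exact py i
      · rw [e]
        exact Submonoid.mul_mem _ (Submonoid.mul_mem _ (Submonoid.subset_closure (Or.inl rfl))
          (Submonoid.subset_closure (Or.inr rfl))) (Submonoid.subset_closure (Or.inl rfl))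
      · intro a _ hs
        rw [e]
        exact (hbr i).join a (hs _ (Or.inl rfl)) (hs _ (Or.inr rfl)))
    (by
      rintro i _ j _ hij s (rfl | rfl) t (rfl | rfl)
      · exact cx i j hij
      · exact hxy i j hij
      · exact (hxy j i hij.symm).symm
      · exact cy i j hij)
  have e2 : {s : G | ∃ i, s = x i ∨ s = y i} =
      {s | ∃ j ∈ (Finset.univ : Finset I).toList, s ∈ {s : G | s = x j ∨ s = y j}} := by
    ext s
    constructor
    · rintro ⟨i, hs⟩; exact ⟨i, by simp, hs⟩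
    · rintro ⟨i, _, hs⟩; exact ⟨i, hs⟩
  rw [e2]
  exact h1

theorem cp_mem_closure (x : I → G) (hx : ∀ i i', Commute (x i) (x i')) :
    cp x hx ∈ Submonoid.closure (Set.range x) :=
  Submonoid.noncommProd_mem _ _ _ (fun i _ i' _ _ => hx i i') fun j _ =>
    Submonoid.subset_closure ⟨j, rfl⟩

/-- every letter is a left factor of the product of the family. -/
theorem cp_left (x : I → G) (hx : ∀ i i', Commute (x i) (x i')) (px : ∀ i, Pre D (x i)) (i : I)
    (a : G) (h : a * cp x hx ∈ D) : a * x i ∈ D := by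
  classical
  have h1 := Finset.mul_noncommProd_erase (Finset.univ : Finset I) (Finset.mem_univ i) x
    (fun i _ i' _ _ => hx i i')
  have h2 : (Finset.univ.erase i).noncommProd x (fun i _ i' _ _ => hx i i') ∈
      Submonoid.closure (Set.range x) :=
    Submonoid.noncommProd_mem _ _ _ _ fun j _ => Submonoid.subset_closure ⟨j, rfl⟩
  rw [show cp x hx = Finset.univ.noncommProd x (fun i _ i' _ _ => hx i i') from rfl, ← h1,
    ← mul_assoc] at h
  refine pre_closure ?_ h2 _ h
  rintro s ⟨j, rfl⟩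
  exact px j

end fam

/-! ### the folded diagram -/

section fold

open Crest.GroupTheory

variable {S : Type*} (M : CoxeterMatrix S) {I : Type*} [Fintype I] {L' : Type*} [Group L']

/-- local joins of the unfolded letters (same shape as `Lcm_109.Fold`). -/
structure FoldD (D : Set L') (σ : S → I → L') : Prop where
  pre : ∀ s i, Pre D (σ s i)
  self : ∀ s i i', i ≠ i' → Com D (σ s i) (σ s i')
  two : ∀ s t, M.M s t = 2 → ∀ i i', Com D (σ s i) (σ t i')
  path : ∀ s t, 3 ≤ M.M s t →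
    (M.M s t = 3 ∧ (∀ i i', i ≠ i' → Com D (σ s i) (σ t i')) ∧ ∀ i, Br D (σ s i) (σ t i)) ∨
    ∃ (J : Type) (_ : Fintype J) (ε : I ≃ Fin (M.M s t - 1) × J),
      (∀ i i', ¬ Adj ε i i' → Com D (σ s i) (σ t i')) ∧ ∀ i i', Adj ε i i' → Br D (σ s i) (σ t i')

variable {M}

/-- **`D` is closed under the local joins of the folded letters.** -/
theorem FoldD.close {D : Set L'} {σ : S → I → L'} (h : Fold M σ) (hD : FoldD M D σ) {s t : S}
    (hst : s ≠ t) (hm : M.M s t ≠ 0) {a : L'} (ha : a ∈ D) (hs : a * h.sg s ∈ D)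
    (ht : a * h.sg t ∈ D) : a * alt (h.sg s) (h.sg t) (M.M s t) ∈ D := by
  have hx : ∀ i, a * σ s i ∈ D := fun i => cp_left (σ s) (h.self s) (hD.pre s) i a hs
  have hy : ∀ i, a * σ t i ∈ D := fun i => cp_left (σ t) (h.self t) (hD.pre t) i a ht
  have key : Good D {g | ∃ i, g = σ s i ∨ g = σ t i} (alt (h.sg s) (h.sg t) (M.M s t)) := by
    rcases Nat.lt_or_ge (M.M s t) 3 with h3 | h3
    · have h1 : M.M s t ≠ 1 := M.off_diagonal s t hst
      have h2 : M.M s t = 2 := by omega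
      rw [h2]
      exact good_two _ _ _ _ (hD.pre s) (hD.pre t) (hD.self s) (hD.self t) (hD.two s t h2)
    · rcases hD.path s t h3 with ⟨e3, hc, hb⟩ | ⟨J, _, ε, hc, hb⟩
      · rw [e3]
        exact good_three _ _ _ _ (hD.pre s) (hD.pre t) (hD.self s) (hD.self t) hc hb
      · have := good_path (D := D) ε (σ s) (σ t) (h.self s) (h.self t) (hD.pre s) (hD.pre t)
          (hD.self s) (hD.self t) hc hb
        have e1 : M.M s t - 1 + 1 = M.M s t := by omega
        rwa [e1] at this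
  refine key.clo a ha ?_
  rintro g ⟨i, rfl | rfl⟩
  · exact hx i
  · exact hy i

variable (M)

/-- the unfolded graph: `adj s i t i'` is the edge relation on `S × I`. -/
structure Unf (adj : S → I → S → I → Prop) : Prop where
  self : ∀ s i i', ¬ adj s i s i'
  two : ∀ s t, M.M s t = 2 → ∀ i i', ¬ adj s i t i'
  path : ∀ s t, 3 ≤ M.M s t → (M.M s t = 3 ∧ ∀ i i', adj s i t i' ↔ i = i') ∨
    ∃ (J : Type) (_ : Fintype J) (ε : I ≃ Fin (M.M s t - 1) × J),
      ∀ i i', adj s i t i' ↔ Adj ε i i'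

variable {M}

omit [Fintype I] in
/-- the relations of the unfolded graph give `Lcm_109.Fold`. -/
theorem Unf.fold {adj : S → I → S → I → Prop} (h : Unf M adj) {σ : S → I → L'}
    (hc : ∀ s i t i', ¬ adj s i t i' → Commute (σ s i) (σ t i'))
    (hb : ∀ s i t i', adj s i t i' → σ s i * σ t i' * σ s i = σ t i' * σ s i * σ t i') :
    Fold M σ where
  self := fun s i i' => hc s i s i' (h.self s i i')
  two := fun s t h2 i i' => hc s i t i' (h.two s t h2 i i')
  path := fun s t h3 => by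
    rcases h.path s t h3 with ⟨e3, ha⟩ | ⟨J, hJ, ε, ha⟩
    · exact Or.inl ⟨e3, fun i i' hne => hc s i t i' fun h4 => hne ((ha i i').1 h4),
        fun i => hb s i t i ((ha i i).2 rfl)⟩
    · exact Or.inr ⟨J, hJ, ε, fun i i' hne => hc s i t i' fun h4 => hne ((ha i i').1 h4),
        fun i i' h4 => hb s i t i' ((ha i i').2 h4)⟩

omit [Fintype I] in
theorem Unf.foldD {adj : S → I → S → I → Prop} (h : Unf M adj) {D : Set L'} {σ : S → I → L'}
    (hp : ∀ s i, Pre D (σ s i))
    (hc : ∀ s i t i', (s ≠ t ∨ i ≠ i') → ¬ adj s i t i' → Com D (σ s i) (σ t i'))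
    (hb : ∀ s i t i', adj s i t i' → Br D (σ s i) (σ t i')) :
    FoldD M D σ where
  pre := hp
  self := fun s i i' hne => hc s i s i' (Or.inr hne) (h.self s i i')
  two := fun s t h2 i i' => hc s i t i' (Or.inl fun e => by
    subst e
    rw [M.diagonal] at h2
    omega) (h.two s t h2 i i')
  path := fun s t h3 => by
    have hst : s ≠ t := fun e => by
      subst e
      rw [M.diagonal] at h3
      omega
    rcases h.path s t h3 with ⟨e3, ha⟩ | ⟨J, hJ, ε, ha⟩
    · exact Or.inl ⟨e3, fun i i' hne => hc s i t i' (Or.inl hst) fun h4 => hne ((ha i i').1 h4),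
        fun i => hb s i t i ((ha i i).2 rfl)⟩
    · exact Or.inr ⟨J, hJ, ε,
        fun i i' hne => hc s i t i' (Or.inl hst) fun h4 => hne ((ha i i').1 h4),
        fun i i' h4 => hb s i t i' ((ha i i').2 h4)⟩

/-- **Labels > 3 in the stabiliser theorem**: for the unfolded letters `σ s i` (labels 2 and 3)
`σ P ⊆ P` and `σ P ∩ σ' P ⊆ Δ P` imply the same for the folded letters `h.sg s`, any finite
label. -/
theorem Unf.close_smul {adj : S → I → S → I → Prop} (hU : Unf M adj) {σ : S → I → L'}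
    (h : Fold M σ) {Ω : Type*} [MulAction L' Ω] {Pc : Set Ω}
    (hi : ∀ s i, ∀ X ∈ Pc, σ s i • X ∈ Pc)
    (h2 : ∀ s i t i', (s ≠ t ∨ i ≠ i') → ¬ adj s i t i' → ∀ X, (σ s i)⁻¹ • X ∈ Pc →
      (σ t i')⁻¹ • X ∈ Pc → (σ s i * σ t i')⁻¹ • X ∈ Pc)
    (h3 : ∀ s i t i', adj s i t i' → ∀ X, (σ s i)⁻¹ • X ∈ Pc →
      (σ t i')⁻¹ • X ∈ Pc → (σ s i * σ t i' * σ s i)⁻¹ • X ∈ Pc)
    (hc : ∀ s i t i', ¬ adj s i t i' → Commute (σ s i) (σ t i'))
    (hb : ∀ s i t i', adj s i t i' → σ s i * σ t i' * σ s i = σ t i' * σ s i * σ t i')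
    {s t : S} (hst : s ≠ t) (hm : M.M s t ≠ 0) (X : Ω) (hs : (h.sg s)⁻¹ • X ∈ Pc)
    (ht : (h.sg t)⁻¹ • X ∈ Pc) : (alt (h.sg s) (h.sg t) (M.M s t))⁻¹ • X ∈ Pc := by
  have hX : X ∈ Pc := by
    have h4 : h.sg s ∈ Submonoid.closure (Set.range (σ s)) :=
      cp_mem_closure (σ s) (h.self s)
    have h5 : ∀ g ∈ Submonoid.closure (Set.range (σ s)), ∀ Y ∈ Pc, g • Y ∈ Pc := by
      intro g hg
      induction hg using Submonoid.closure_induction with
      | mem x hx => obtain ⟨i, rfl⟩ := hx; exact hi s i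
      | one => intro Y hY; rwa [one_smul]
      | mul x y _ _ hx hy => intro Y hY; rw [mul_smul]; exact hx _ (hy _ hY)
    have := h5 _ h4 _ hs
    rwa [smul_inv_smul] at this
  have hD : FoldD M {g : L' | g⁻¹ • X ∈ Pc} σ := hU.foldD
    (fun s i a ha => by
      have h4 := hi s i _ ha
      rw [mul_inv_rev, mul_smul, smul_inv_smul] at h4
      exact h4)
    (fun s i t i' hne ha => ⟨hc s i t i' ha, fun a h4 h5 => by
      have h6 := h2 s i t i' hne ha (a⁻¹ • X) (by rw [← mul_smul, ← mul_inv_rev]; exact h4)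
        (by rw [← mul_smul, ← mul_inv_rev]; exact h5)
      rw [← mul_smul, ← mul_inv_rev] at h6
      exact h6⟩)
    (fun s i t i' ha => ⟨hb s i t i' ha, fun a h4 h5 => by
      have h6 := h3 s i t i' ha (a⁻¹ • X) (by rw [← mul_smul, ← mul_inv_rev]; exact h4)
        (by rw [← mul_smul, ← mul_inv_rev]; exact h5)
      rw [← mul_smul, ← mul_inv_rev] at h6
      exact h6⟩)
  have h7 := hD.close h hst hm (a := 1) (by
      show (1 : L')⁻¹ • X ∈ Pc
      rwa [inv_one, one_smul])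
    (by rw [one_mul]; exact hs) (by rw [one_mul]; exact ht)
  rw [one_mul] at h7
  exact h7

/-- the same for the homomorphism `h.hom` out of the Artin group. -/
theorem Unf.close_hom {adj : S → I → S → I → Prop} (hU : Unf M adj) {σ : S → I → L'}
    (h : Fold M σ) {Ω : Type*} [MulAction L' Ω] {Pc : Set Ω}
    (hi : ∀ s i, ∀ X ∈ Pc, σ s i • X ∈ Pc)
    (h2 : ∀ s i t i', (s ≠ t ∨ i ≠ i') → ¬ adj s i t i' → ∀ X, (σ s i)⁻¹ • X ∈ Pc →
      (σ t i')⁻¹ • X ∈ Pc → (σ s i * σ t i')⁻¹ • X ∈ Pc)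
    (h3 : ∀ s i t i', adj s i t i' → ∀ X, (σ s i)⁻¹ • X ∈ Pc →
      (σ t i')⁻¹ • X ∈ Pc → (σ s i * σ t i' * σ s i)⁻¹ • X ∈ Pc)
    (hc : ∀ s i t i', ¬ adj s i t i' → Commute (σ s i) (σ t i'))
    (hb : ∀ s i t i', adj s i t i' → σ s i * σ t i' * σ s i = σ t i' * σ s i * σ t i')
    {s t : S} (hst : s ≠ t) (hm : M.M s t ≠ 0) (X : Ω)
    (hs : (h.hom (artinGen M s))⁻¹ • X ∈ Pc) (ht : (h.hom (artinGen M t))⁻¹ • X ∈ Pc) :
    (h.hom (alt (artinGen M s) (artinGen M t) (M.M s t)))⁻¹ • X ∈ Pc := by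
  rw [Fold.hom_gen] at hs ht
  rw [map_alt, Fold.hom_gen, Fold.hom_gen]
  exact hU.close_smul h hi h2 h3 hc hb hst hm X hs ht

end fold

end Crest.Agent.R175.StabW_901
private theorem rz_1f30a0ef91 : type_of% @_root_.Crest.Agent.R175.StabW_901.Dn.eq_def := @_root_.Crest.Agent.R175.StabW_901.Dn.eq_def -- L194
private theorem rz_59c69d4c96 : type_of% @_root_.Crest.Agent.R175.StabW_901.Dn.eq_1 := @_root_.Crest.Agent.R175.StabW_901.Dn.eq_1 -- L194
private theorem rz_6356c9e0ee : type_of% @_root_.Crest.Agent.R175.StabW_901.E.eq_def := @_root_.Crest.Agent.R175.StabW_901.E.eq_def -- L199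
private theorem rz_2cd71544db : type_of% @_root_.Crest.Agent.R175.StabW_901.E.eq_1 := @_root_.Crest.Agent.R175.StabW_901.E.eq_1 -- L199
end

-- ▼ part R175/StabZ_680
section

/-!
Row 175 (S0263), helper680: abstract stabiliser theorem.

`G` a group with generators `σ s`, positive monoid `Pos σ`, fractions, joins for the left
divisibility; `G` acts on `Ω`, `Pc : Set Ω` a set of "positive" objects with
(i) `σ s • Pc ⊆ Pc`, (ii) `σ s • Pc ∩ σ u • Pc ⊆ Δ_{su} • Pc` (`Δ_{su}` = join of `σ s`, `σ u`),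
(iii) `E ∈ Pc`, `σ u • E = E` for `u ≠ t`, `(σ t)⁻¹ • E ∉ Pc`.
Then `stabilizer G E` is the subgroup generated by the `σ u`, `u ≠ t`.
-/

set_option autoImplicit false

namespace Crest.Agent.R175.StabZ_680

variable {G : Type*} [Group G] {S : Type*} {σ : S → G}

/-- positive monoid generated by the `σ s`, `s ∈ X`. -/
def PosX (σ : S → G) (X : Set S) : Submonoid G := Submonoid.closure (σ '' X)

/-- positive monoid. -/
def Pos (σ : S → G) : Submonoid G := Submonoid.closure (Set.range σ)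

/-- left divisibility. -/
def LD (σ : S → G) (a b : G) : Prop := a⁻¹ * b ∈ Pos σ

/-- `j` is a join (least common right multiple) of `a` and `b`. -/
def IsJoin (σ : S → G) (a b j : G) : Prop :=
  LD σ a j ∧ LD σ b j ∧ ∀ x, LD σ a x → LD σ b x → LD σ j x

/-- The facts of Garside theory that are used. -/
structure GMon (σ : S → G) (Δ : S → S → G) : Prop where
  len : ∃ ℓ : G → ℤ, (∀ a b, ℓ (a * b) = ℓ a + ℓ b) ∧ ∀ s, ℓ (σ s) = 1
  join : ∀ a ∈ Pos σ, ∀ b ∈ Pos σ, ∃ j, IsJoin σ a b j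
  delta : ∀ s u, s ≠ u → IsJoin σ (σ s) (σ u) (Δ s u)
  frac : ∀ g : G, ∃ a ∈ Pos σ, ∃ b ∈ Pos σ, g = a⁻¹ * b

theorem gen_mem (s : S) : σ s ∈ Pos σ := Submonoid.subset_closure ⟨s, rfl⟩


theorem posX_mem_closure {X : Set S} {a : G} (h : a ∈ PosX σ X) :
    a ∈ Subgroup.closure (σ '' X) := by
  have : PosX σ X ≤ (Subgroup.closure (σ '' X)).toSubmonoid :=
    Submonoid.closure_le.2 Subgroup.subset_closure
  exact this h

section Len

variable {ℓ : G → ℤ}

theorem len_one (h1 : ∀ a b, ℓ (a * b) = ℓ a + ℓ b) : ℓ 1 = 0 := by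
  have := h1 1 1
  simp only [mul_one] at this
  omega

theorem len_inv (h1 : ∀ a b, ℓ (a * b) = ℓ a + ℓ b) (a : G) : ℓ a⁻¹ = - ℓ a := by
  have := h1 a a⁻¹
  rw [mul_inv_cancel, len_one h1] at this
  omega

theorem len_nonneg (h1 : ∀ a b, ℓ (a * b) = ℓ a + ℓ b) (h2 : ∀ s, ℓ (σ s) = 1) {a : G}
    (ha : a ∈ Pos σ) : 0 ≤ ℓ a ∧ (ℓ a = 0 → a = 1) := by
  induction ha using Submonoid.closure_induction_left with
  | one => exact ⟨(len_one h1).ge, fun _ => rfl⟩
  | mul_left x hx y _ ih =>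
    obtain ⟨s, rfl⟩ := hx
    have := h1 (σ s) y
    rw [h2 s] at this
    exact ⟨by omega, fun h => by omega⟩

theorem eq_of_LD (h1 : ∀ a b, ℓ (a * b) = ℓ a + ℓ b) (h2 : ∀ s, ℓ (σ s) = 1) {a b : G}
    (hab : LD σ a b) (hba : LD σ b a) : a = b := by
  have h3 := (len_nonneg h1 h2 hab)
  have h4 := (len_nonneg h1 h2 hba)
  rw [h1, len_inv h1] at h3 h4
  have h5 : a⁻¹ * b = 1 := h3.2 (by omega)
  exact (inv_mul_eq_one.1 h5)

end Len

theorem LD_refl (a : G) : LD σ a a := by
  simp [LD, (Pos σ).one_mem]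

theorem LD_trans {a b c : G} (h1 : LD σ a b) (h2 : LD σ b c) : LD σ a c := by
  have := (Pos σ).mul_mem h1 h2
  simpa [LD, mul_assoc] using this

theorem LD_mul_left {a b : G} (g : G) : LD σ (g * a) (g * b) ↔ LD σ a b := by
  simp [LD, mul_assoc]

theorem LD_mul_right {a b : G} (h : b ∈ Pos σ) : LD σ a (a * b) := by
  simpa [LD] using h

theorem LD_one {a : G} : LD σ 1 a ↔ a ∈ Pos σ := by simp [LD]

theorem IsJoin.mul_left {a b j : G} (g : G) (h : IsJoin σ a b j) :
    IsJoin σ (g * a) (g * b) (g * j) := by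
  refine ⟨(LD_mul_left g).2 h.1, (LD_mul_left g).2 h.2.1, fun x h1 h2 => ?_⟩
  have h3 : LD σ a (g⁻¹ * x) := by
    rw [← LD_mul_left g]; simpa using h1
  have h4 : LD σ b (g⁻¹ * x) := by
    rw [← LD_mul_left g]; simpa using h2
  have := (LD_mul_left g).2 (h.2.2 _ h3 h4)
  simpa using this

theorem IsJoin.symm {a b j : G} (h : IsJoin σ a b j) : IsJoin σ b a j :=
  ⟨h.2.1, h.1, fun x h1 h2 => h.2.2 x h2 h1⟩

variable {Ω : Type*} [MulAction G Ω] {Pc : Set Ω}

theorem pos_smul (hi : ∀ s, ∀ X ∈ Pc, σ s • X ∈ Pc) {a : G} (ha : a ∈ Pos σ) :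
    ∀ X ∈ Pc, a • X ∈ Pc := by
  induction ha using Submonoid.closure_induction_left with
  | one => intro X hX; simpa using hX
  | mul_left x hx y _ ih =>
    obtain ⟨s, rfl⟩ := hx
    intro X hX
    rw [mul_smul]
    exact hi s _ (ih X hX)

/-- if `c ≤ j` and `X ∈ j Pc` then `X ∈ c Pc`. -/
theorem down (hi : ∀ s, ∀ X ∈ Pc, σ s • X ∈ Pc) {c j : G} (h : LD σ c j) {X : Ω}
    (hX : j⁻¹ • X ∈ Pc) : c⁻¹ • X ∈ Pc := by
  have := pos_smul hi h _ hX
  simpa [← mul_smul] using this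

/-- (a) `c Pc ∩ e Pc ⊆ (c ∨ e) Pc`. -/
theorem join_mem {Δ : S → S → G} (hG : GMon σ Δ) (hi : ∀ s, ∀ X ∈ Pc, σ s • X ∈ Pc)
    (hii : ∀ s u, s ≠ u → ∀ X, (σ s)⁻¹ • X ∈ Pc → (σ u)⁻¹ • X ∈ Pc → (Δ s u)⁻¹ • X ∈ Pc)
    {c e j : G} (hc : c ∈ Pos σ) (he : e ∈ Pos σ) (hj : IsJoin σ c e j) {X : Ω}
    (hcX : c⁻¹ • X ∈ Pc) (heX : e⁻¹ • X ∈ Pc) : j⁻¹ • X ∈ Pc := by
  obtain ⟨ℓ, h1, h2⟩ := hG.len
  have main : ∀ n : ℕ, ∀ c e j : G, c ∈ Pos σ → e ∈ Pos σ → IsJoin σ c e j → ℓ j < n →
      ∀ X : Ω, c⁻¹ • X ∈ Pc → e⁻¹ • X ∈ Pc → j⁻¹ • X ∈ Pc := by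
    intro n
    induction n with
    | zero =>
      intro c e j hc he hj hn
      have h3 : j ∈ Pos σ := by
        have := (Pos σ).mul_mem hc hj.1
        simpa using this
      have := (len_nonneg h1 h2 h3).1
      simp at hn; omega
    | succ n ih =>
      -- cancelling a common positive left factor `g ≠ 1`
      have step : ∀ g c e j : G, g ∈ Pos σ → g ≠ 1 → LD σ g c → LD σ g e → IsJoin σ c e j →
          ℓ j < n + 1 → ∀ X : Ω, c⁻¹ • X ∈ Pc → e⁻¹ • X ∈ Pc → j⁻¹ • X ∈ Pc := by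
        intro g c e j hg hg1 hgc hge hj hn X hcX heX
        have h4 : 1 ≤ ℓ g := by
          have := len_nonneg h1 h2 hg
          have h5 : ℓ g ≠ 0 := fun h => hg1 (this.2 h)
          omega
        have := ih (g⁻¹ * c) (g⁻¹ * e) (g⁻¹ * j) hgc hge (hj.mul_left g⁻¹)
          (by rw [h1, len_inv h1]; omega) (g⁻¹ • X)
          (by simpa [← mul_smul] using hcX) (by simpa [← mul_smul] using heX)
        simpa [← mul_smul] using this
      intro c e j hc he hj hn X hcX heX
      have hn' : ℓ j < n + 1 := by exact_mod_cast hn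
      have hcj : j ∈ Pos σ := by
        have := (Pos σ).mul_mem hc hj.1
        simpa using this
      -- case distinction on `c`
      induction hc using Submonoid.closure_induction_left with
      | one =>
        have h5 : LD σ j e := hj.2.2 e (LD_one.2 he) (LD_refl e)
        rw [eq_of_LD h1 h2 h5 hj.2.1]
        exact heX
      | mul_left x hx c' hc' _ =>
        obtain ⟨s, rfl⟩ := hx
        induction he using Submonoid.closure_induction_left with
        | one =>
          have h5 : LD σ j (σ s * c') :=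
            hj.2.2 _ (LD_refl _) (LD_one.2 ((Pos σ).mul_mem (gen_mem s) hc'))
          rw [eq_of_LD h1 h2 h5 hj.1]
          exact hcX
        | mul_left y hy e' he' _ =>
          obtain ⟨u, rfl⟩ := hy
          have hs1 : ∀ s : S, σ s ≠ 1 := by
            intro s h
            have := h2 s
            rw [h, len_one h1] at this
            omega
          have hsc : LD σ (σ s) (σ s * c') := LD_mul_right hc'
          have hue : LD σ (σ u) (σ u * e') := LD_mul_right he'
          by_cases hsu : s = u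
          · subst hsu
            exact step (σ s) _ _ j (gen_mem s) (hs1 s) hsc hue hj hn' X hcX heX
          · have hm := hG.delta s u hsu
            have hsX : (σ s)⁻¹ • X ∈ Pc := down hi hsc hcX
            have huX : (σ u)⁻¹ • X ∈ Pc := down hi hue heX
            have hmX : (Δ s u)⁻¹ • X ∈ Pc := hii s u hsu X hsX huX
            have hmj : LD σ (Δ s u) j := hm.2.2 _ (LD_trans hsc hj.1) (LD_trans hue hj.2.1)
            have hmP : Δ s u ∈ Pos σ := by
              have := (Pos σ).mul_mem (gen_mem s) hm.1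
              simpa using this
            have hm1 : Δ s u ≠ 1 := by
              intro h
              have h6 := hm.1
              have h7 := (len_nonneg h1 h2 h6).1
              rw [h1, len_inv h1, h, len_one h1, h2] at h7
              omega
            obtain ⟨j1, hj1⟩ := hG.join _ ((Pos σ).mul_mem (gen_mem s) hc') _ hmP
            obtain ⟨j2, hj2⟩ := hG.join _ ((Pos σ).mul_mem (gen_mem u) he') _ hmP
            have hj1j : LD σ j1 j := hj1.2.2 _ hj.1 hmj
            have hj2j : LD σ j2 j := hj2.2.2 _ hj.2.1 hmj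
            have hl : ∀ a b : G, LD σ a b → ℓ a ≤ ℓ b := by
              intro a b hab
              have := (len_nonneg h1 h2 hab).1
              rw [h1, len_inv h1] at this
              omega
            have hX1 : j1⁻¹ • X ∈ Pc :=
              step (σ s) _ _ j1 (gen_mem s) (hs1 s) hsc hm.1 hj1
                (lt_of_le_of_lt (hl _ _ hj1j) hn') X hcX hmX
            have hX2 : j2⁻¹ • X ∈ Pc :=
              step (σ u) _ _ j2 (gen_mem u) (hs1 u) hue hm.2.1 hj2
                (lt_of_le_of_lt (hl _ _ hj2j) hn') X heX hmX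
            have hj12 : IsJoin σ j1 j2 j := by
              refine ⟨hj1j, hj2j, fun x hx1 hx2 => ?_⟩
              exact hj.2.2 x (LD_trans hj1.1 hx1) (LD_trans hj2.1 hx2)
            exact step (Δ s u) j1 j2 j hmP hm1 hj1.2.1 hj2.2.1 hj12 hn' X hX1 hX2
  have hjP : j ∈ Pos σ := by
    have := (Pos σ).mul_mem hc hj.1
    simpa using this
  have h0 := (len_nonneg h1 h2 hjP).1
  exact main ((ℓ j).toNat + 1) c e j hc he hj (by push_cast; omega) X hcX heX

/-- **Abstract stabiliser theorem.** -/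
theorem stab_eq {Δ : S → S → G} (hG : GMon σ Δ) (hi : ∀ s, ∀ X ∈ Pc, σ s • X ∈ Pc)
    (hii : ∀ s u, s ≠ u → ∀ X, (σ s)⁻¹ • X ∈ Pc → (σ u)⁻¹ • X ∈ Pc → (Δ s u)⁻¹ • X ∈ Pc)
    {E : Ω} {t : S} (hE : E ∈ Pc) (hfix : ∀ u, u ≠ t → σ u • E = E)
    (ht : (σ t)⁻¹ • E ∉ Pc) :
    MulAction.stabilizer G E = Subgroup.closure (σ '' {u | u ≠ t}) := by
  -- elements of the positive parabolic monoid fix `E`
  have hfix' : ∀ d ∈ PosX σ {u | u ≠ t}, d • E = E := by
    intro d hd
    induction hd using Submonoid.closure_induction_left with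
    | one => simp
    | mul_left x hx y _ ih =>
      obtain ⟨u, hu, rfl⟩ := hx
      rw [mul_smul, ih, hfix u hu]
  -- (b)
  have hb : ∀ c ∈ Pos σ, c⁻¹ • E ∈ Pc → c ∈ PosX σ {u | u ≠ t} := by
    intro c hc
    induction hc using Submonoid.closure_induction_left with
    | one => intro _; exact (PosX σ _).one_mem
    | mul_left x hx y hy ih =>
      obtain ⟨s, rfl⟩ := hx
      intro h
      have hs : (σ s)⁻¹ • E ∈ Pc := down hi (LD_mul_right hy) h
      have hst : s ≠ t := by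
        rintro rfl
        exact ht hs
      have hsE : (σ s)⁻¹ • E = E := by
        rw [inv_smul_eq_iff, hfix s hst]
      have hyE : y⁻¹ • E ∈ Pc := by
        rw [mul_inv_rev, mul_smul, hsE] at h
        exact h
      exact (PosX σ _).mul_mem (Submonoid.subset_closure ⟨s, hst, rfl⟩) (ih hyE)
  -- (c)
  have hcc : ∀ a ∈ Pos σ, ∀ c ∈ Pos σ, c⁻¹ • (a • E) ∈ Pc →
      ∃ d ∈ PosX σ {u | u ≠ t}, LD σ c (a * d) := by
    intro a ha
    induction ha using Submonoid.closure_induction_left with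
    | one =>
      intro c hc h
      rw [one_smul] at h
      exact ⟨c, hb c hc h, by rw [one_mul]; exact LD_refl c⟩
    | mul_left x hx a' ha' ih =>
      obtain ⟨s, rfl⟩ := hx
      intro c hc h
      obtain ⟨j, hj⟩ := hG.join (σ s) (gen_mem s) c hc
      have h3 : (σ s)⁻¹ • ((σ s * a') • E) ∈ Pc := by
        rw [mul_smul, inv_smul_smul]
        exact pos_smul hi ha' _ hE
      have h4 : j⁻¹ • ((σ s * a') • E) ∈ Pc := join_mem hG hi hii (gen_mem s) hc hj h3 h
      obtain ⟨d, hd, hd2⟩ := ih ((σ s)⁻¹ * j) hj.1 (by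
        simpa [← mul_smul, mul_assoc] using h4)
      refine ⟨d, hd, LD_trans hj.2.1 ?_⟩
      have := (LD_mul_left (σ s)).2 hd2
      simpa [mul_assoc] using this
  apply le_antisymm
  · intro g hg
    rw [MulAction.mem_stabilizer_iff] at hg
    obtain ⟨a, ha, b, hb', rfl⟩ := hG.frac g
    have hab : b • E = a • E := by
      rw [mul_smul, inv_smul_eq_iff] at hg
      exact hg
    obtain ⟨d, hd, hd2⟩ := hcc a ha b hb' (by rw [← hab, inv_smul_smul]; exact hE)
    have he : (b⁻¹ * (a * d)) • E = E := by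
      rw [mul_smul, mul_smul, hfix' d hd, ← hab, inv_smul_smul]
    have he2 : (b⁻¹ * (a * d)) ∈ PosX σ {u | u ≠ t} := by
      refine hb _ hd2 ?_
      have : (b⁻¹ * (a * d))⁻¹ • E = E := by rw [inv_smul_eq_iff, he]
      rw [this]; exact hE
    have h5 : a⁻¹ * b = d * (b⁻¹ * (a * d))⁻¹ := by
      simp [mul_assoc]
    rw [h5]
    exact Subgroup.mul_mem _ (posX_mem_closure hd) (Subgroup.inv_mem _ (posX_mem_closure he2))
  · rw [Subgroup.closure_le]
    rintro _ ⟨u, hu, rfl⟩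
    exact hfix u hu

end Crest.Agent.R175.StabZ_680
end

-- ▼ part R175/StabV_901
section

/-!
Row 175 (S0263), block STAB (helper901): the stabiliser theorem of `StabZ_680` for the larger set
of "positive" objects `Dd = {X : V^(p) = 0 for p > 0}` in place of `P`.

Apply `stab_eq` to `{X : δ⁻¹ X ∈ Dd}`, `δ` the Garside element.
-/

set_option autoImplicit false

namespace Crest.Agent.R175.StabV_901

open Crest.Agent.R175.StabZ_680

variable {G : Type*} [Group G] {S : Type*} {σ : S → G}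

/-- conjugation by `δ⁻¹` preserves the positive monoid if it maps the letters into it. -/
theorem conj_mem {δ : G} (h : ∀ s, δ⁻¹ * σ s * δ ∈ Pos σ) {g : G} (hg : g ∈ Pos σ) :
    δ⁻¹ * g * δ ∈ Pos σ := by
  induction hg using Submonoid.closure_induction with
  | mem x hx => obtain ⟨s, rfl⟩ := hx; exact h s
  | one => simp
  | mul x y _ _ hx hy =>
    have := (Pos σ).mul_mem hx hy
    simpa [mul_assoc] using this

theorem conj_mem' {δ : G} (h : ∀ s, δ * σ s * δ⁻¹ ∈ Pos σ) {g : G} (hg : g ∈ Pos σ) :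
    δ * g * δ⁻¹ ∈ Pos σ := by
  have := conj_mem (δ := δ⁻¹) (fun s => by simpa using h s) hg
  simpa using this

/-- joins are invariant under conjugation by `δ`. -/
theorem join_conj {δ : G} (h1 : ∀ s, δ⁻¹ * σ s * δ ∈ Pos σ) (h2 : ∀ s, δ * σ s * δ⁻¹ ∈ Pos σ)
    {a b j : G} (h : IsJoin σ a b j) : IsJoin σ (δ⁻¹ * a * δ) (δ⁻¹ * b * δ) (δ⁻¹ * j * δ) := by
  have up : ∀ c d : G, LD σ c d → LD σ (δ⁻¹ * c * δ) (δ⁻¹ * d * δ) := by
    intro c d hcd
    have := conj_mem h1 hcd
    simpa [LD, mul_assoc] using this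
  have dn : ∀ c x : G, LD σ (δ⁻¹ * c * δ) x → LD σ c (δ * x * δ⁻¹) := by
    intro c x hcx
    have := conj_mem' h2 hcx
    simpa [LD, mul_assoc] using this
  refine ⟨up _ _ h.1, up _ _ h.2.1, fun x hx hy => ?_⟩
  have := up _ _ (h.2.2 _ (dn _ _ hx) (dn _ _ hy))
  simpa [mul_assoc] using this

variable {Ω : Type*} [MulAction G Ω] {Pc : Set Ω}

/-- a positive element of `D(E) = {g : g⁻¹ E ∈ Pc}` above finitely many letters of `D(E)`. -/
theorem exists_above {Δ : S → S → G} (hG : GMon σ Δ) (hi : ∀ s, ∀ X ∈ Pc, σ s • X ∈ Pc)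
    (hii : ∀ s u, s ≠ u → ∀ X, (σ s)⁻¹ • X ∈ Pc → (σ u)⁻¹ • X ∈ Pc → (Δ s u)⁻¹ • X ∈ Pc)
    {E : Ω} (hE : E ∈ Pc) (F : Finset S) (h : ∀ s ∈ F, (σ s)⁻¹ • E ∈ Pc) :
    ∃ j ∈ Pos σ, j⁻¹ • E ∈ Pc ∧ ∀ s ∈ F, LD σ (σ s) j := by
  classical
  induction F using Finset.induction_on with
  | empty => exact ⟨1, (Pos σ).one_mem, by simpa using hE, by simp⟩
  | insert s F _ ih =>
    obtain ⟨j, hj, hjE, hjF⟩ := ih fun u hu => h u (Finset.mem_insert_of_mem hu)
    obtain ⟨k, hk⟩ := hG.join (σ s) (gen_mem s) j hj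
    refine ⟨k, ?_, ?_, ?_⟩
    · have := (Pos σ).mul_mem hj hk.2.1
      simpa using this
    · exact join_mem hG hi hii (gen_mem s) hj hk (h s (Finset.mem_insert_self _ _)) hjE
    · intro u hu
      rcases Finset.mem_insert.1 hu with rfl | hu
      · exact hk.1
      · exact LD_trans (hjF u hu) hk.2.1

/-- **The stabiliser theorem, second form**: `Pc` only has to satisfy (i), (ii), `s⁻¹ E ∈ Pc` for
all letters `s`, `t⁻² E ∉ Pc`.  `δ` is the Garside element. -/
theorem stab_eq_dd [Finite S] {Δ : S → S → G} (hG : GMon σ Δ)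
    (hi : ∀ s, ∀ X ∈ Pc, σ s • X ∈ Pc)
    (hii : ∀ s u, s ≠ u → ∀ X, (σ s)⁻¹ • X ∈ Pc → (σ u)⁻¹ • X ∈ Pc → (Δ s u)⁻¹ • X ∈ Pc)
    {δ : G} (hδ : ∀ s, LD σ (σ s) δ) (hδj : ∀ x, (∀ s, LD σ (σ s) x) → LD σ δ x)
    (hc1 : ∀ s, δ⁻¹ * σ s * δ ∈ Pos σ) (hc2 : ∀ s, δ * σ s * δ⁻¹ ∈ Pos σ)
    {E : Ω} {t : S} (hE : ∀ s, (σ s)⁻¹ • E ∈ Pc) (hfix : ∀ u, u ≠ t → σ u • E = E)
    (ht : (σ t)⁻¹ • (σ t)⁻¹ • E ∉ Pc) :
    MulAction.stabilizer G E = Subgroup.closure (σ '' {u | u ≠ t}) := by
  classical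
  cases nonempty_fintype S
  have hE0 : E ∈ Pc := by
    have := hi t _ (hE t)
    rwa [smul_inv_smul] at this
  obtain ⟨j, _, hjE, hjs⟩ := exists_above hG hi hii hE0 Finset.univ fun s _ => hE s
  have hδE : δ⁻¹ • E ∈ Pc := down hi (hδj j fun s => hjs s (Finset.mem_univ s)) hjE
  refine stab_eq (Pc := {X : Ω | δ⁻¹ • X ∈ Pc}) hG ?_ ?_ hδE hfix ?_
  · intro s X hX
    have h1 := pos_smul hi (hc1 s) _ hX
    show δ⁻¹ • σ s • X ∈ Pc
    rwa [mul_smul, mul_smul, smul_inv_smul] at h1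
  · intro s u hsu X hs hu
    have h1 : (δ⁻¹ * σ s * δ)⁻¹ • (δ⁻¹ • X) ∈ Pc := by
      have : δ⁻¹ • (σ s)⁻¹ • X ∈ Pc := hs
      simpa [← mul_smul, mul_assoc] using this
    have h2 : (δ⁻¹ * σ u * δ)⁻¹ • (δ⁻¹ • X) ∈ Pc := by
      have : δ⁻¹ • (σ u)⁻¹ • X ∈ Pc := hu
      simpa [← mul_smul, mul_assoc] using this
    have h3 := join_mem hG hi hii (hc1 s) (hc1 u) (join_conj hc1 hc2 (hG.delta s u hsu)) h1 h2
    show δ⁻¹ • (Δ s u)⁻¹ • X ∈ Pc
    simpa [← mul_smul, mul_assoc] using h3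
  · intro h1
    have h2 : (σ t * δ)⁻¹ • E ∈ Pc := by
      have : δ⁻¹ • (σ t)⁻¹ • E ∈ Pc := h1
      simpa [← mul_smul] using this
    have h3 : LD σ (σ t * σ t) (σ t * δ) := (LD_mul_left _).2 (hδ t)
    have h4 := down hi h3 h2
    rw [mul_inv_rev, mul_smul] at h4
    exact ht h4

end Crest.Agent.R175.StabV_901
end

-- ▼ part R175/UG2_27
section

/-!
# Row 175: edges of `UG M Λ` and the unfolded Coxeter matrix `Mu M Λ`
-/

set_option autoImplicit false
set_option linter.unusedSectionVars false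
set_option linter.unusedVariables false
set_option linter.unreachableTactic false
set_option linter.unusedTactic false

open scoped Classical

namespace Crest.Agent.R175.UG_27

open Crest.GroupTheory
open Crest.Agent.R175.PTA Crest.Agent.R175.Unf_109 Crest.Agent.R175.Act_732

universe u

variable {S : Type u} {M : CoxeterMatrix S} {Λ : Finset ℕ}

theorem mu_cases {a b : S × J Λ} (h : a ≠ b) :
    Mu M Λ a b = 2 ∨ Mu M Λ a b = 3 ∨ Mu M Λ a b = 0 := by
  rw [mu_apply, muM]
  by_cases h1 : a.1 = b.1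
  · have h2 : a.2 ≠ b.2 := fun h2 => h (Prod.ext h1 h2)
    simp [h1, h2]
  · rw [if_neg h1]
    split_ifs <;> simp

theorem card_eq_zero_of_mu {a b : S × J Λ} (h : a ≠ b) (hM : Mu M Λ a b = 2) :
    Fintype.card ((UG M Λ).E a b) = 0 := by
  by_cases h1 : a.1 = b.1
  · exact Fintype.card_eq_zero_iff.2 (isEmpty_fibre h1)
  · rcases card_UG_mu (M := M) h1 with h2 | h2 | h2
    · exact h2.1
    · omega
    · omega

theorem card_eq_one_of_mu {a b : S × J Λ} (hM : Mu M Λ a b = 3) :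
    Fintype.card ((UG M Λ).E a b) = 1 := by
  by_cases h1 : a.1 = b.1
  · exfalso
    rw [mu_apply, muM, if_pos h1] at hM
    split_ifs at hM <;> omega
  · rcases card_UG_mu (M := M) h1 with h2 | h2 | h2
    · omega
    · exact h2.1
    · omega



theorem exists_edge_of_mu {a b : S × J Λ} (hM : Mu M Λ a b = 3) :
    ∃ e₀ : (UG M Λ).E a b, ∀ e, e = e₀ := Fintype.card_eq_one_iff.1 (card_eq_one_of_mu hM)



/-- commutation + braid relations give the relations of `ArtinGroup (Mu M Λ)` -/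
theorem alt_of_rels {G : Type*} [Group G] (f : S × J Λ → G)
    (hc : ∀ a b, a ≠ b → Fintype.card ((UG M Λ).E a b) = 0 → f a * f b = f b * f a)
    (hb : ∀ a b, Fintype.card ((UG M Λ).E a b) = 1 → f a * f b * f a = f b * f a * f b)
    (a b : S × J Λ) :
    alt (f a) (f b) ((Mu M Λ).M a b) = alt (f b) (f a) ((Mu M Λ).M a b) := by
  by_cases h : a = b
  · subst h; rfl
  · rcases mu_cases (M := M) (Λ := Λ) h with h1 | h1 | h1
    · have h2 : (Mu M Λ).M a b = 2 := h1
      rw [h2]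
      simpa [alt] using hc a b h (card_eq_zero_of_mu h h1)
    · have h2 : (Mu M Λ).M a b = 3 := h1
      rw [h2]
      simpa [alt, mul_assoc] using hb a b (card_eq_one_of_mu h1)
    · have h2 : (Mu M Λ).M a b = 0 := h1
      rw [h2]
      rfl

/-- **the homomorphism from the Artin group of the unfolding** -/
noncomputable def uHom {G : Type*} [Group G] (f : S × J Λ → G)
    (hc : ∀ a b, a ≠ b → Fintype.card ((UG M Λ).E a b) = 0 → f a * f b = f b * f a)
    (hb : ∀ a b, Fintype.card ((UG M Λ).E a b) = 1 → f a * f b * f a = f b * f a * f b) :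
    ArtinGroup (Mu M Λ) →* G :=
  toHom (Mu M Λ) f (alt_of_rels (M := M) f hc hb)

@[simp] theorem uHom_gen {G : Type*} [Group G] (f : S × J Λ → G)
    (hc : ∀ a b, a ≠ b → Fintype.card ((UG M Λ).E a b) = 0 → f a * f b = f b * f a)
    (hb : ∀ a b, Fintype.card ((UG M Λ).E a b) = 1 → f a * f b * f a = f b * f a * f b)
    (a : S × J Λ) : uHom (M := M) f hc hb (artinGen (Mu M Λ) a) = f a :=
  toHom_gen _ _ _ _

end Crest.Agent.R175.UG_27
end

-- ▼ part R175/StabU_393
section

/-!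
Row 175 (S0263), helper393, block STAB2, last part: frames and the unfolding.
-/

set_option autoImplicit false
set_option linter.unusedSectionVars false

open CategoryTheory Crest.Agent.R175.PTA Crest.Agent.R175.PTH
open Crest.Agent.R175.PTQ_4 Crest.Agent.R175.PTQ_4.QM Crest.Agent.R175.StabE_393
open Crest.Agent.R175.StabF_393 Crest.Agent.R175.Unf_109 Crest.Agent.R175.Lcm_109
open Crest.Agent.R175.UG_27 Crest.GroupTheory

namespace Crest.Agent.R175.StabU_393

universe u v

/-! ### the unfolded graph for `StabW_901` -/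

section unf

variable {S : Type u} {M : CoxeterMatrix S} {Λ : Finset ℕ}








end unf

/-! ### products over a fibre acting on a point fixed by all factors but one -/

section cp

variable {I : Type*} [Fintype I] {A : Type*} [Group A] {Ω : Type*} [MulAction A Ω]





end cp

/-! ### frames -/

section frm

variable {T : Type u} [Fintype T] [DecidableEq T] {G : MG T} {k : Type v} [Field k]

instance sub_frm (t u : T) : Subsingleton (Hv (frm G k t) u) := by
  refine ⟨fun a b => ?_⟩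
  obtain ⟨x, hx, rfl⟩ := mk_surj (frm G k t) a
  obtain ⟨y, hy, rfl⟩ := mk_surj (frm G k t) b
  exact mk_congr _ hx (Subsingleton.elim x y)

theorem sub_of_hiso {X : TOb G k} {t : T} (h : HIso X (frm G k t)) (u : T) (ξ : Hv X u) :
    ξ = 0 := by
  obtain ⟨e⟩ := h
  exact Hmap_inj e u ξ (Subsingleton.elim _ _)

theorem P0c_frm (h2 : (2 : k) ≠ 0) (t : T) : P0c (frm G k t) := by
  have h0 : hT (frm G k t) (frm G k t) = 0 := Unfr_988.hT_frm_frm t t
  obtain ⟨p, hp⟩ := exists_eul h2 _ h0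
  exact ⟨h0, p, hp, fun u μ v hv => absurd (Subsingleton.elim (α := Hv (frm G k t) u) v 0) hv⟩

theorem NKc_frm (h2 : (2 : k) ≠ 0) (t u : T) : NKc (frm G k t) u := by
  have h0 : hT (frm G k t) (frm G k t) = 0 := Unfr_988.hT_frm_frm t t
  obtain ⟨p, hp⟩ := exists_eul h2 _ h0
  exact ⟨h0, p, hp, fun v _ _ => Subsingleton.elim (α := Hv (frm G k t) u) v 0⟩

/-- the preimage of the frame under its twist has `i ≠ 0` in position `0`. -/
theorem not_nk {X : TOb G k} {p : X.X ⟶ X.X} (hp : Eul X p) {Y : TOb G k} {q : Y.X ⟶ Y.X}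
    (hq : Eul Y q) {t : T} (h : TD {t} (qmE hp) (qmE hq)) (hY : HIso Y (frm G k t)) :
    ¬ NK0 (qmE hp) t := by
  intro hN
  have hY0 : ∀ u (ξ : (qmE hq).H u), ξ = 0 := fun u ξ => sub_of_hiso hY u ξ
  have hX0 : ∀ u, u ≠ t → ∀ ξ : (qmE hp).H u, ξ = 0 := by
    intro u hu ξ
    exact (h.bij u (show u ∉ ({t} : Set T) from hu)).1 ((hY0 u _).trans (hY0 u _).symm)
  have hi0 : ∀ w : (qmE hp).W t, (qmE hp).i t w = 0 := by
    intro w
    refine hN _ ?_ ((qmE hp).Ai t w)
    rw [QM.mem_kerA]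
    refine ⟨fun u a => ?_, ?_⟩
    · refine hX0 u ?_ _
      rintro rfl
      exact (G.irr u).false a
    · have h1 := h.aji t (Set.mem_singleton t) w
      rw [hY0 t ((qmE hq).i t (h.ω t w)), map_zero] at h1
      exact ((LinearEquiv.map_eq_zero_iff (h.ω t)).1 h1.symm)
  have hw0 : ∀ w : (qmE hp).W t, w = 0 := by
    intro w
    obtain ⟨v', -, h2⟩ := h.ex t (Set.mem_singleton t) (fun _ _ => 0) w (by
      rw [hi0 w, add_zero]
      exact Finset.sum_eq_zero fun u _ => Finset.sum_eq_zero fun a _ => map_zero _)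
    rw [hY0 t v', map_zero] at h2
    exact ((LinearEquiv.map_eq_zero_iff (h.ω t)).1 h2.symm)
  have h1 : lam Y t = 1 := by
    rw [hY.lam_eq t, Unfr_988.lam_frm, Pi.single_eq_same]
  have h2 : Module.finrank k (X.X.W t) = Module.finrank k (Y.X.W t) := (h.ω t).finrank_eq
  have h3 : Subsingleton (X.X.W t) := ⟨fun a b => (hw0 a).trans (hw0 b).symm⟩
  have h4 : Module.finrank k (X.X.W t) = 0 := Module.finrank_zero_of_subsingleton
  rw [h4] at h2
  change Module.finrank k (Y.X.W t) = 1 at h1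
  omega

end frm

/-! ### frames, classes -/

section cls

variable {T : Type u} [Fintype T] [DecidableEq T] {G : MG T} {k : Type v} [Field k]
  {tw : T → TOb G k → TOb G k} {A Ω : Type*} [Group A] [MulAction A Ω] {S : ActS tw A Ω}


theorem inv_frm_mem (h : TwS tw) (h2 : (2 : k) ≠ 0) (t : T) :
    (S.g t)⁻¹ • S.cl (frm G k t) ∈ S.Pc := by
  obtain ⟨X, hX, hX'⟩ := S.exists_pre t (S.cl (frm G k t))
  have hi : HIso (tw t X) (frm G k t) := S.cl_eq _ _ hX'
  exact ⟨X, hX, h.p0_U h2 ((P0c_frm h2 t).congr h2 hi) ((NKc_frm h2 t t).congr h2 hi)⟩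

theorem inv_inv_frm_notMem [CharZero k] (h : TwS tw) (t : T) :
    (S.g t)⁻¹ • (S.g t)⁻¹ • S.cl (frm G k t) ∉ S.Pc := by
  have h2 : (2 : k) ≠ 0 := two_ne_zero
  intro hm
  obtain ⟨X, hX, hX'⟩ := S.exists_pre t (S.cl (frm G k t))
  obtain ⟨Z, hZ, hZ'⟩ := S.exists_pre t (S.cl X)
  rw [← hX, ← hZ] at hm
  have hN : NKc X t := (h.nk (v := t) (ActS.mem_Pc h2 hm)).congr h2 (S.cl_eq _ _ hZ'.symm)
  obtain ⟨-, p, hp, hP⟩ := hN
  obtain ⟨q, hq, ⟨d⟩⟩ := h.td t X p hp
  exact not_nk hp hq d (S.cl_eq _ _ hX') hP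

end cls

/-! ### the action of `ArtinGroup M` through the unfolding -/

section fin

variable {S₀ : Type u} [Fintype S₀] {M : CoxeterMatrix S₀} {Λ : Finset ℕ} (hΛ : Good M Λ)
  [DecidableEq (S₀ × J Λ)] {k : Type v} [Field k]
  {tw : S₀ × J Λ → TOb (UG M Λ) k → TOb (UG M Λ) k} {A Ω : Type*} [Group A] [MulAction A Ω]
  (P : ActS tw A Ω) (φ : ArtinGroup (Mu M Λ) →* A) (hφ : ∀ v, φ (artinGen (Mu M Λ) v) = P.g v)

/-- the action of `ArtinGroup M` on families -/
@[reducible] noncomputable def actF : MulAction (ArtinGroup M) (J Λ → Ω) :=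
  MulAction.compHom (J Λ → Ω) (unfHom hΛ φ)


include hφ






variable (hfr : ∀ v w, v ≠ w → P.g v • P.cl (frm (UG M Λ) k w) = P.cl (frm (UG M Λ) k w))


include hfr






end fin

end Crest.Agent.R175.StabU_393
end

-- ▼ part R175/PosFin_497

/-!
# Positive definite cosine matrix implies finite Coxeter group (row 175)

`finite_of_posDef`: `S` finite, `∑ s t, x s * x t * (-cos (π / M s t)) > 0` for `x ≠ 0`
(label `∞` is `M s t = 0`, then the entry is `-1`), implies `Finite M.Group`.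
-/

set_option autoImplicit false

namespace Crest.Agent.R175.PosFin_497

open Crest.Agent.R061 Crest.Agent.R061.GeomFull CoxeterSystem

section

variable {B W : Type*} [Group W] {M : CoxeterMatrix B} (cs : CoxeterSystem M W)

/-- the quadratic form in coordinates -/
noncomputable def qf [Fintype B] (M : CoxeterMatrix B) (x : B → ℝ) : ℝ :=
  ∑ i, ∑ j, x i * x j * gram M i j

theorem bil_eq_sum [Fintype B] (v w : B →₀ ℝ) :
    bil M v w = ∑ i, ∑ j, v i * w j * gram M i j := by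
  classical
  have hv : v = ∑ i, v i • (sr i : B →₀ ℝ) := by
    ext b
    simp
  have hw : w = ∑ i, w i • (sr i : B →₀ ℝ) := by
    ext b
    simp
  conv_lhs => rw [hv, hw]
  simp only [map_sum, LinearMap.sum_apply, map_smul, LinearMap.smul_apply, bil_sr, smul_eq_mul,
    Finset.mul_sum]
  rw [Finset.sum_comm]
  refine Finset.sum_congr rfl fun i _ => Finset.sum_congr rfl fun j _ => ?_
  ring

theorem qf_smul [Fintype B] (c : ℝ) (x : B → ℝ) : qf M (c • x) = c ^ 2 * qf M x := by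
  simp only [qf, Pi.smul_apply, smul_eq_mul, Finset.mul_sum]
  refine Finset.sum_congr rfl fun i _ => Finset.sum_congr rfl fun j _ => ?_
  ring

theorem continuous_qf [Fintype B] : Continuous (qf M) := by
  unfold qf
  fun_prop

/-- a positive definite form is bounded below by a multiple of the square of the sup norm -/
theorem exists_lower [Fintype B] (h : ∀ x : B → ℝ, x ≠ 0 → 0 < qf M x) :
    ∃ c : ℝ, 0 < c ∧ ∀ x : B → ℝ, c * ‖x‖ ^ 2 ≤ qf M x := by
  by_cases hB : Nonempty B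
  · have hne : (Metric.sphere (0 : B → ℝ) 1).Nonempty :=
      ⟨fun _ => 1, by simp [pi_norm_const]⟩
    obtain ⟨x0, hx0, hmin⟩ := (isCompact_sphere (0 : B → ℝ) 1).exists_isMinOn hne
      (continuous_qf (M := M)).continuousOn
    have hx0' : x0 ≠ 0 := by
      rintro rfl
      simp at hx0
    refine ⟨qf M x0, h x0 hx0', fun x => ?_⟩
    by_cases hx : x = 0
    · subst hx
      simp [qf]
    have hn : 0 < ‖x‖ := norm_pos_iff.mpr hx
    have h1 : ‖x‖⁻¹ • x ∈ Metric.sphere (0 : B → ℝ) 1 := by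
      simp [norm_smul, hn.ne']
    have h2 := hmin h1
    simp only [Set.mem_ofPred_eq, qf_smul] at h2
    have h3 : qf M x0 * ‖x‖ ^ 2 ≤ (‖x‖⁻¹ ^ 2 * qf M x) * ‖x‖ ^ 2 :=
      mul_le_mul_of_nonneg_right h2 (by positivity)
    have h4 : (‖x‖⁻¹ ^ 2 * qf M x) * ‖x‖ ^ 2 = qf M x := by
      field_simp
    linarith
  · refine ⟨1, one_pos, fun x => ?_⟩
    have : IsEmpty B := not_nonempty_iff.mp hB
    have : x = 0 := Subsingleton.elim _ _
    subst this
    simp [qf]

theorem exists_sep [Fintype B] {c : ℝ} (hc : ∀ x : B → ℝ, c * ‖x‖ ^ 2 ≤ qf M x) (hc0 : 0 < c)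
    {w w' : W} (hne : w ≠ w') :
    ∃ i, c ≤ bil M (rep cs w' (sr i) - rep cs w (sr i)) (rep cs w' (sr i) - rep cs w (sr i)) := by
  have hu : w⁻¹ * w' ≠ 1 := by
    intro h
    exact hne (inv_mul_eq_one.mp h)
  obtain ⟨i, hi⟩ := cs.exists_rightDescent_of_ne_one hu
  refine ⟨i, ?_⟩
  set z := rep cs (w⁻¹ * w') (sr i) - sr i with hz
  have h1 : rep cs w' (sr i) - rep cs w (sr i) = rep cs w z := by
    rw [hz, map_sub, rep_mul_apply, rep_apply_inv_self]
  rw [h1, bil_rep, bil_eq_sum]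
  have h2 : z i ≤ -1 := by
    have := rep_sr_nonpos cs hi i
    rw [hz, Finsupp.sub_apply, Finsupp.single_eq_same]
    linarith
  have h3 : 1 ≤ ‖(z : B → ℝ)‖ := by
    have h4 := norm_le_pi_norm (z : B → ℝ) i
    rw [Real.norm_eq_abs] at h4
    have h5 : 1 ≤ |z i| := by
      rw [abs_of_nonpos (by linarith)]
      linarith
    exact h5.trans h4
  have h6 := hc (z : B → ℝ)
  have h7 : c ≤ c * ‖(z : B → ℝ)‖ ^ 2 := by
    nlinarith [one_le_pow₀ h3 (n := 2)]
  exact h7.trans h6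

include cs in
theorem finite_of_posDef_cs [Fintype B] (h : ∀ x : B → ℝ, x ≠ 0 → 0 < qf M x) : Finite W := by
  classical
  obtain ⟨c, hc0, hc⟩ := exists_lower h
  by_contra hinf
  rw [not_finite_iff_infinite] at hinf
  -- the map to matrices
  let F : W → (B → B → ℝ) := fun w i b => rep cs w (sr i) b
  have hbil : ∀ w i, bil M (rep cs w (sr i)) (rep cs w (sr i)) = 1 := fun w i => by
    rw [bil_rep, bil_sr_self]
  have hbd : ∀ w i, ‖F w i‖ ^ 2 ≤ c⁻¹ := by
    intro w i
    have h1 := hc (F w i)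
    have h2 : qf M (F w i) = 1 := by
      rw [← hbil w i, bil_eq_sum]
      rfl
    rw [h2] at h1
    rw [← one_div, le_div_iff₀ hc0]
    linarith
  set R : ℝ := Real.sqrt c⁻¹ with hR
  have hmem : ∀ w, F w ∈ Metric.closedBall (0 : B → B → ℝ) R := by
    intro w
    rw [mem_closedBall_zero_iff, pi_norm_le_iff_of_nonneg (Real.sqrt_nonneg _)]
    intro i
    exact Real.le_sqrt_of_sq_le (hbd w i)
  obtain ⟨f⟩ : Nonempty (ℕ ↪ W) := ⟨Infinite.natEmbedding W⟩
  obtain ⟨a, -, φ, hφ, hlim⟩ := (isCompact_closedBall (0 : B → B → ℝ) R).tendsto_subseq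
    (x := fun n => F (f n)) (fun n => hmem _)
  have hcau := hlim.cauchySeq
  -- uniform continuity of the form
  have hcont : Continuous fun p : (B → B → ℝ) => ∑ i, |qf M (p i)| := by
    have := continuous_qf (M := M)
    fun_prop
  have h0 : ∑ i, |qf M ((0 : B → B → ℝ) i)| = 0 := by
    simp [qf]
  have hev : ∀ᶠ p in nhds (0 : B → B → ℝ), ∑ i, |qf M (p i)| < c := by
    have := hcont.tendsto 0
    rw [h0] at this
    exact this (Iio_mem_nhds hc0)
  rw [Metric.eventually_nhds_iff] at hev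
  obtain ⟨ε, hε, hev⟩ := hev
  rw [Metric.cauchySeq_iff] at hcau
  obtain ⟨N, hN⟩ := hcau ε hε
  have hd := hN (N + 1) (by omega) N le_rfl
  have hne : f (φ N) ≠ f (φ (N + 1)) := fun he =>
    (hφ (Nat.lt_succ_self N)).ne (f.injective he)
  obtain ⟨i, hi⟩ := exists_sep cs hc hc0 hne
  have hlt := hev (y := F (f (φ (N + 1))) - F (f (φ N))) (by
    rw [dist_zero_right, ← dist_eq_norm]
    exact hd)
  have h5 : |qf M ((F (f (φ (N + 1))) - F (f (φ N))) i)| ≤
      ∑ i, |qf M ((F (f (φ (N + 1))) - F (f (φ N))) i)| :=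
    Finset.single_le_sum (f := fun i => |qf M ((F (f (φ (N + 1))) - F (f (φ N))) i)|)
      (fun _ _ => abs_nonneg _) (Finset.mem_univ i)
  rw [bil_eq_sum] at hi
  have h6 : c ≤ qf M ((F (f (φ (N + 1))) - F (f (φ N))) i) := hi
  have h7 := le_abs_self (qf M ((F (f (φ (N + 1))) - F (f (φ N))) i))
  linarith

end

/-- **A Coxeter matrix with positive definite cosine matrix has a finite Coxeter group.** -/
theorem finite_of_posDef {S : Type*} [Fintype S] (M : CoxeterMatrix S)
    (h : ∀ x : S → ℝ, x ≠ 0 →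
      0 < ∑ s, ∑ t, x s * x t * (-Real.cos (Real.pi / (M s t : ℝ)))) : Finite M.Group :=
  finite_of_posDef_cs M.toCoxeterSystem h



end Crest.Agent.R175.PosFin_497
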