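import Crest.Agent.R175.GSph_145
import Crest.Agent.R175.PosFin_497_Mg
import Crest.Agent.R175.Unf2_109
import Crest.Agent.R175.Act2_732
import Crest.Agent.R175.EvW_788
import Crest.Agent.R175.LevC_788

-- ▼ part R175/StabM_901
section

/-!
Row 175 (S0263), block STAB (helper901): the Garside facts of an Artin group of finite type in the
form of `StabZ_680.GMon`, its Garside element, and the stabiliser theorem for `ArtinGroup M`.
-/

set_option autoImplicit false

namespace Crest.Agent.R175.StabM_901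

open Crest.GroupTheory
open Crest.Agent.R175.DDef_145 (Braid braid_artinGen artinLift artinLift_gen)
open Crest.Agent.R175.DW_145 Crest.Agent.R175.GPL_145
open Crest.Agent.R175.GMon_145 Crest.Agent.R175.GLat_145 Crest.Agent.R175.GGrp_145
open Crest.Agent.R175.StabZ_680 Crest.Agent.R175.StabV_901

universe u v

variable {S : Type u} {M : CoxeterMatrix S} {W : Type v} [Group W] {cs : CoxeterSystem M W}

theorem toG_mem (z : AM M) : toG M z ∈ Pos (artinGen M) := by
  induction z using GMon_145.induction_left with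
  | h1 => rw [map_one]; exact Submonoid.one_mem _
  | h2 s z ih => rw [map_mul, toG_at]; exact Submonoid.mul_mem _ (gen_mem s) ih

theorem mem_pos_iff {g : ArtinGroup M} : g ∈ Pos (artinGen M) ↔ ∃ z, g = toG M z := by
  constructor
  · intro h
    induction h using Submonoid.closure_induction with
    | mem x hx => obtain ⟨s, rfl⟩ := hx; exact ⟨at' M s, (toG_at s).symm⟩
    | one => exact ⟨1, (map_one _).symm⟩
    | mul x y _ _ hx hy =>
      obtain ⟨a, rfl⟩ := hx
      obtain ⟨b, rfl⟩ := hy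
      exact ⟨a * b, (map_mul _ _ _).symm⟩
  · rintro ⟨z, rfl⟩; exact toG_mem z

theorem LD_iff {x y : ArtinGroup M} : LD (artinGen M) x y ↔ Gle x y := by
  unfold LD Gle
  rw [mem_pos_iff]
  constructor
  · rintro ⟨z, hz⟩; exact ⟨z, by rw [← hz, mul_inv_cancel_left]⟩
  · rintro ⟨z, rfl⟩; exact ⟨z, by rw [inv_mul_cancel_left]⟩

theorem exists_len : ∃ ℓ : ArtinGroup M → ℤ, (∀ a b, ℓ (a * b) = ℓ a + ℓ b) ∧
    ∀ s, ℓ (artinGen M s) = 1 := by
  let f : ArtinGroup M →* Multiplicative ℤ :=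
    artinLift M (fun _ => Multiplicative.ofAdd 1) (by intro s t _; simp)
  exact ⟨fun g => Multiplicative.toAdd (f g), fun a b => by simp, fun s => by simp [f]⟩

theorem prod_alt {L : Type*} [Monoid L] (f : S → L) (m : ℕ) : ∀ s t : S,
    ((DDef_145.alt s t m).map f).prod = Semi_663.alt (f s) (f t) m := by
  induction m with
  | zero => intro s t; rfl
  | succ m ih => intro s t; rw [DDef_145.alt_succ, List.map_cons, List.prod_cons, ih]; rfl

theorem delta_eq (s u : S) : Semi_663.alt (artinGen M s) (artinGen M u) (M.M s u) =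
    toG M (((DDef_145.alt s u (M s u)).map (at' M)).prod) := by
  have h : (toG M ∘ at' M) = artinGen M := funext fun a => toG_at a
  rw [map_list_prod, List.map_map, h, prod_alt]

include cs in
theorem label_ne_zero (D : Dat cs) {s u : S} (h : s ≠ u) : M s u ≠ 0 :=
  (two_atoms D h (at_dvd_Dl D s) (at_dvd_Dl D u)).1

/-- **the Garside facts.** -/
theorem gmon (D : Dat cs) : GMon (artinGen M)
    (fun s u => Semi_663.alt (artinGen M s) (artinGen M u) (M.M s u)) where
  len := exists_len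
  join a _ b _ := by
    obtain ⟨j, h1, h2, h3⟩ := exists_lub D a b
    exact ⟨j, LD_iff.2 h1, LD_iff.2 h2, fun x hx hy => LD_iff.2 (h3 x (LD_iff.1 hx) (LD_iff.1 hy))⟩
  delta s u hsu := by
    have hm := label_ne_zero D hsu
    obtain ⟨k, hk⟩ : ∃ k, M s u = k + 1 := Nat.exists_eq_succ_of_ne_zero hm
    show IsJoin (artinGen M) (artinGen M s) (artinGen M u)
      (Semi_663.alt (artinGen M s) (artinGen M u) (M.M s u))
    rw [delta_eq]
    refine ⟨LD_iff.2 ?_, LD_iff.2 ?_, fun x hx hy => ?_⟩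
    · rw [hk, DDef_145.alt_succ, List.map_cons, List.prod_cons, map_mul, toG_at]
      exact ⟨_, rfl⟩
    · have hb := braid_at (M := M) s u hm
      rw [hb, hk, DDef_145.alt_succ, List.map_cons, List.prod_cons, map_mul, toG_at]
      exact ⟨_, rfl⟩
    · obtain ⟨z, hz⟩ := LD_iff.1 hx
      obtain ⟨z', hz'⟩ := LD_iff.1 hy
      have h1 : at' M s * z = at' M u * z' := by
        apply toG_injective D
        rw [map_mul, map_mul, toG_at, toG_at, ← hz, ← hz']
      have h2 := (two_atoms D hsu (Dvd.intro _ rfl) (h1 ▸ Dvd.intro _ rfl) : _ ∧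
        _ ∣ at' M s * z).2
      rw [LD_iff, hz, ← toG_at, ← map_mul, toG_Gle_iff D]
      exact h2
  frac g := by
    obtain ⟨a, -, b, -, h⟩ := exists_frac D (X := Set.univ) (g := g) (by
      unfold stdParabolic
      rw [Set.image_univ, closure_gen]
      trivial)
    exact ⟨toG M a, toG_mem a, toG M b, toG_mem b, by rw [← h, inv_mul_cancel_left]⟩

/-- an element of `W` with all left descents is the longest element. -/
theorem eq_w0 (D : Dat cs) {w : W} (h : ∀ s, cs.IsLeftDescent w s) : w = D.w0 := by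
  by_contra hne
  have h1 : D.w0 * w⁻¹ ≠ 1 := fun h2 => hne (by
    rw [← inv_inv w, ← inv_eq_of_mul_eq_one_left h2, inv_inv])
  obtain ⟨s, hs⟩ := cs.exists_rightDescent_of_ne_one h1
  have h3 := D.top (D.w0 * w⁻¹)
  have h4 := D.top (D.w0 * w⁻¹ * cs.simple s)
  unfold PL at h3 h4
  have h5 := h s
  unfold CoxeterSystem.IsLeftDescent at h5
  unfold CoxeterSystem.IsRightDescent at hs
  have e1 : (D.w0 * w⁻¹)⁻¹ * D.w0 = w := by group
  have e2 : (D.w0 * w⁻¹ * cs.simple s)⁻¹ * D.w0 = cs.simple s * w := by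
    rw [mul_inv_rev, cs.inv_simple]; group
  rw [e1] at h3
  rw [e2] at h4
  omega

/-- the Garside element. -/
noncomputable def dl (D : Dat cs) : ArtinGroup M := toG M (Dl D)

theorem LD_dl (D : Dat cs) (s : S) : LD (artinGen M) (artinGen M s) (dl D) := by
  rw [LD_iff, ← toG_at]
  exact (toG_Gle_iff D).2 (at_dvd_Dl D s)

theorem dl_LD (D : Dat cs) (x : ArtinGroup M) (t : S)
    (h : ∀ s, LD (artinGen M) (artinGen M s) x) : LD (artinGen M) (dl D) x := by
  obtain ⟨z, hz⟩ := LD_iff.1 (h t)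
  have h1 : x = toG M (at' M t * z) := by rw [map_mul, toG_at, hz]
  rw [h1, LD_iff]
  have h2 : hd D (at' M t * z) = D.w0 := eq_w0 D fun s => by
    rw [← at_dvd_iff D, ← toG_Gle_iff D, toG_at, ← h1]
    exact LD_iff.1 (h s)
  refine (toG_Gle_iff D).2 ?_
  unfold Dl
  rw [sg_dvd_iff D, h2]
  exact D.top _

theorem dl_conj (D : Dat cs) (s : S) : (dl D)⁻¹ * artinGen M s * dl D ∈ Pos (artinGen M) := by
  have h1 : artinGen M s * dl D = dl D * artinGen M (star D s) := by
    unfold dl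
    rw [← toG_at, ← toG_at, ← map_mul, ← map_mul, at_mul_Dl]
  rw [mul_assoc, h1, inv_mul_cancel_left]
  exact gen_mem _

theorem dl_conj' (D : Dat cs) (s : S) : dl D * artinGen M s * (dl D)⁻¹ ∈ Pos (artinGen M) := by
  have h1 : dl D * artinGen M s = artinGen M (star D s) * dl D := by
    unfold dl
    rw [← toG_at, ← toG_at, ← map_mul, ← map_mul, Dl_mul_at]
  rw [h1, mul_inv_cancel_right]
  exact gen_mem _

/-- **The stabiliser theorem for `ArtinGroup M`, `M` of finite type.** -/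
theorem stab_artin [Finite S] [Finite M.Group] {Ω : Type*} [MulAction (ArtinGroup M) Ω]
    {Pc : Set Ω} (hi : ∀ s, ∀ X ∈ Pc, artinGen M s • X ∈ Pc)
    (hii : ∀ s u, s ≠ u → ∀ X, (artinGen M s)⁻¹ • X ∈ Pc → (artinGen M u)⁻¹ • X ∈ Pc →
      (Semi_663.alt (artinGen M s) (artinGen M u) (M.M s u))⁻¹ • X ∈ Pc)
    {E : Ω} {t : S} (hE : ∀ s, (artinGen M s)⁻¹ • E ∈ Pc)
    (hfix : ∀ u, u ≠ t → artinGen M u • E = E)
    (ht : (artinGen M t)⁻¹ • (artinGen M t)⁻¹ • E ∉ Pc) :
    MulAction.stabilizer (ArtinGroup M) E = stdParabolic M {t}ᶜ := by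
  let D := GSph_145.dat M.toCoxeterSystem
  have h := stab_eq_dd (gmon D) hi hii (LD_dl D) (fun x hx => dl_LD D x t hx) (dl_conj D)
    (dl_conj' D) hE hfix ht
  exact h

end Crest.Agent.R175.StabM_901
end

-- ▼ part R175/StabN_901
section

/-!
Row 175 (S0263), block STAB (helper901): the stabiliser of the frames, last combinatorial page.

`M` of finite type, `σ (s, i)` the unfolded letters (`Unf_109.Unf`) in a group `A` acting on `Ω`,
`Pc` the positive classes: the conditions (i), (ii) for the letters and the values at the frames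
give `r ∈ A_{S - t}` for every `r` whose image fixes all frames `fr t j`.
-/

set_option autoImplicit false
set_option linter.unusedSectionVars false

namespace Crest.Agent.R175.StabN_901

open Crest.GroupTheory
open Crest.Agent.R175.StabZ_680 Crest.Agent.R175.StabM_901
open Crest.Agent.R175.Lcm_109 Crest.Agent.R175.Unf_109

section act

variable {A Ω I : Type*} [Group A] [MulAction A Ω]

theorem fix_of_closure {x : I → A} {y : Ω} (h : ∀ i, x i • y = y) {g : A}
    (hg : g ∈ Submonoid.closure (Set.range x)) : g • y = y := by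
  induction hg using Submonoid.closure_induction with
  | mem z hz => obtain ⟨i, rfl⟩ := hz; exact h i
  | one => exact one_smul _ _
  | mul a b _ _ ha hb => rw [mul_smul, hb, ha]

theorem mem_of_closure {x : I → A} {Pc : Set Ω} (h : ∀ i, ∀ y ∈ Pc, x i • y ∈ Pc) {g : A}
    (hg : g ∈ Submonoid.closure (Set.range x)) : ∀ y ∈ Pc, g • y ∈ Pc := by
  induction hg using Submonoid.closure_induction with
  | mem z hz => obtain ⟨i, rfl⟩ := hz; exact h i
  | one => intro y hy; rwa [one_smul]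
  | mul a b _ _ ha hb => intro y hy; rw [mul_smul]; exact ha _ (hb _ hy)

theorem inv_fix {g : A} {y : Ω} (h : g • y = y) : g⁻¹ • y = y := by
  conv_lhs => rw [← h]
  rw [inv_smul_smul]

variable [Fintype I]

/-- the product of a commuting family is one letter times a product of the others. -/
theorem cp_eq (x : I → A) (hx : ∀ i i', Commute (x i) (x i')) (j : I) :
    ∃ P : A, cp x hx = P * x j ∧ Commute P (x j) ∧
      ∀ y : Ω, (∀ i, i ≠ j → x i • y = y) → P • y = y := by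
  classical
  refine ⟨(Finset.univ.erase j).noncommProd x (fun i _ i' _ _ => hx i i'), ?_, ?_, ?_⟩
  · exact (Finset.noncommProd_erase_mul _ (Finset.mem_univ j) x (fun i _ i' _ _ => hx i i')
      (fun i _ i' _ _ => hx i i')).symm
  · exact (Finset.noncommProd_commute _ _ _ _ fun i _ => hx j i).symm
  · intro y hy
    have h1 : (Finset.univ.erase j).noncommProd x (fun i _ i' _ _ => hx i i') ∈
        MulAction.stabilizerSubmonoid A y := by
      refine Submonoid.noncommProd_mem _ _ _ _ fun i hi => ?_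
      exact hy i (Finset.ne_of_mem_erase hi)
    exact h1

/-- on a point moved by one letter only, the product acts by that letter (once and twice). -/
theorem cp_inv (x : I → A) (hx : ∀ i i', Commute (x i) (x i')) (j : I) {y : Ω}
    (hy : ∀ i, i ≠ j → x i • y = y) :
    (cp x hx)⁻¹ • y = (x j)⁻¹ • y ∧ (cp x hx)⁻¹ • (cp x hx)⁻¹ • y = (x j)⁻¹ • (x j)⁻¹ • y := by
  obtain ⟨P, h1, h2, h3⟩ := cp_eq (Ω := Ω) x hx j
  have h4 : P • y = y := h3 y hy
  have h5 : P⁻¹ • y = y := inv_fix h4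
  have e1 : (cp x hx)⁻¹ • y = (x j)⁻¹ • y := by rw [h1, mul_inv_rev, mul_smul, h5]
  refine ⟨e1, ?_⟩
  rw [e1, h1, mul_inv_rev, mul_smul, smul_smul P⁻¹, (h2.inv_inv).eq, mul_smul, h5]

end act

section fin

variable {S : Type*} {M : CoxeterMatrix S} {Λ : Finset ℕ}

/-- the unfolded graph as a relation. -/
theorem unf_nb (hΛ : Good M Λ) :
    StabW_901.Unf M (fun (s : S) (i : J Λ) (t : S) (j : J Λ) => s ≠ t ∧ nb Λ (M s t) i j) where
  self s i i' h := h.1 rfl
  two s t e i i' h := by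
    have e' : M s t = 2 := e
    rw [e'] at h
    exact not_nb (hΛ.not_mem (by norm_num)) (by norm_num) (by norm_num) i i' h.2
  path s t h3 := by
    have hst : s ≠ t := by
      rintro rfl
      simp at h3
    have h3' : 3 ≤ M s t := h3
    rcases Nat.eq_or_lt_of_le h3' with h4 | h4
    · refine Or.inl ⟨h4.symm, fun i i' => ?_⟩
      rw [← h4, nb_three (hΛ.not_mem (by norm_num))]
      exact ⟨fun h => h.2, fun h => ⟨hst, h⟩⟩
    · have hm : M s t ∈ Λ := hΛ.mem s t (by omega)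
      refine Or.inr ⟨(k : {k : Λ // k ≠ ⟨M s t, hm⟩}) → Fin (k.1.1 - 1), inferInstance,
        Equiv.piSplitAt (⟨M s t, hm⟩ : Λ) (fun k : Λ => Fin (k.1 - 1)), fun i i' => ?_⟩
      rw [nb_path hm]
      constructor
      · rintro ⟨-, hn⟩
        refine ⟨?_, hn.2⟩
        funext k
        exact hn.1 k.1 k.2
      · intro hA
        refine ⟨hst, fun k hk => ?_, hA.2⟩
        exact congrFun hA.1 ⟨k, hk⟩

variable {A Ω : Type*} [Group A] [MulAction A Ω]

/-- **STAB, combinatorial form.** -/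
theorem stab_unf [Finite S] [Finite M.Group] (hΛ : Good M Λ) {σ : S → J Λ → A}
    (hU : Unf_109.Unf M Λ σ) {Pc : Set Ω}
    (hi : ∀ s i, ∀ x ∈ Pc, σ s i • x ∈ Pc)
    (h2 : ∀ s i t j, (s ≠ t ∨ i ≠ j) → (s ≠ t → ¬ nb Λ (M s t) i j) → ∀ x,
      (σ s i)⁻¹ • x ∈ Pc → (σ t j)⁻¹ • x ∈ Pc → (σ s i * σ t j)⁻¹ • x ∈ Pc)
    (h3 : ∀ s i t j, s ≠ t → nb Λ (M s t) i j → ∀ x,
      (σ s i)⁻¹ • x ∈ Pc → (σ t j)⁻¹ • x ∈ Pc → (σ s i * σ t j * σ s i)⁻¹ • x ∈ Pc)
    {fr : S → J Λ → Ω} (fx : ∀ s i t j, (s ≠ t ∨ i ≠ j) → σ s i • fr t j = fr t j) (t : S)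
    (e1 : ∀ j, (σ t j)⁻¹ • fr t j ∈ Pc) (e2 : ∀ j, (σ t j)⁻¹ • (σ t j)⁻¹ • fr t j ∉ Pc)
    (r : ArtinGroup M) (hr : ∀ j, (hU.fold hΛ).hom r • fr t j = fr t j) :
    r ∈ stdParabolic M {t}ᶜ := by
  classical
  let D := GSph_145.dat M.toCoxeterSystem
  have h0 : ∀ s u : S, s ≠ u → M s u ≠ 0 := fun s u h => label_ne_zero D h
  have hF : Fold M σ := hU.fold hΛ
  let _ : MulAction (ArtinGroup M) (J Λ → Ω) := MulAction.compHom (J Λ → Ω) hF.hom
  have hsm : ∀ (g : ArtinGroup M) (Y : J Λ → Ω) (j : J Λ), (g • Y) j = hF.hom g • Y j :=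
    fun g Y j => rfl
  have hP : ∀ j, fr t j ∈ Pc := fun j => by
    have := hi t j _ (e1 j)
    rwa [smul_inv_smul] at this
  have hsg : ∀ s, hF.sg s ∈ Submonoid.closure (Set.range (σ s)) := fun s =>
    StabW_901.cp_mem_closure (σ s) (hF.self s)
  have hcp : ∀ j, (hF.sg t)⁻¹ • fr t j = (σ t j)⁻¹ • fr t j ∧
      (hF.sg t)⁻¹ • (hF.sg t)⁻¹ • fr t j = (σ t j)⁻¹ • (σ t j)⁻¹ • fr t j := fun j =>
    cp_inv (σ t) (hF.self t) j fun i hij => fx t i t j (Or.inr hij)
  have hfx : ∀ u, u ≠ t → ∀ j, hF.sg u • fr t j = fr t j := fun u hu j =>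
    fix_of_closure (fun i => fx u i t j (Or.inl hu)) (hsg u)
  have hst := stab_artin (M := M) (Ω := J Λ → Ω) (Pc := {Y | ∀ j, Y j ∈ Pc})
    (E := fun j => fr t j) (t := t) ?_ ?_ ?_ ?_ ?_
  · have h4 : r ∈ MulAction.stabilizer (ArtinGroup M) (fun j => fr t j : J Λ → Ω) := by
      rw [MulAction.mem_stabilizer_iff]
      funext j
      exact hr j
    rw [hst] at h4
    exact h4
  · intro s Y hY j
    rw [hsm, Fold.hom_gen]
    exact mem_of_closure (hi s) (hsg s) _ (hY j)
  · intro s u hsu Y hs hu j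
    rw [hsm, map_inv]
    refine (unf_nb hΛ).close_hom hF hi
      (fun s i t i' hne ha x => h2 s i t i' hne (fun hst hn => ha ⟨hst, hn⟩) x)
      (fun s i t i' ha x => h3 s i t i' ha.1 ha.2 x)
      (fun s i t i' ha => ?_) (fun s i t i' ha => hU.braid s t ha.1 (h0 s t ha.1) i i' ha.2)
      hsu (h0 s u hsu) (Y j) ?_ ?_
    · by_cases hst : s = t
      · subst hst; exact hU.self s i i'
      · exact hU.comm s t hst (h0 s t hst) i i' fun hn => ha ⟨hst, hn⟩
    · have := hs j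
      rwa [hsm, map_inv] at this
    · have := hu j
      rwa [hsm, map_inv] at this
  · intro s j
    rw [hsm, map_inv, Fold.hom_gen]
    by_cases hs : s = t
    · subst hs
      show (hF.sg s)⁻¹ • fr s j ∈ Pc
      rw [(hcp j).1]
      exact e1 j
    · show (hF.sg s)⁻¹ • fr t j ∈ Pc
      rw [inv_fix (hfx s hs j)]
      exact hP j
  · intro u hu
    funext j
    rw [hsm, Fold.hom_gen]
    exact hfx u hu j
  · intro h
    have hj : ∀ m : Λ, 0 < m.1 - 1 := fun m => by have := hΛ.four m.1 m.2; omega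
    have h5 := h (fun m => ⟨0, hj m⟩)
    rw [hsm, map_inv, hsm, map_inv, Fold.hom_gen] at h5
    have h6 := (hcp (fun m => ⟨0, hj m⟩)).2
    apply e2 (fun m => ⟨0, hj m⟩)
    rw [← h6]
    exact h5

/-- the same for 109's unfolding homomorphism `unfHom`. -/
theorem stab_unfHom [Finite S] [Finite M.Group] (hΛ : Good M Λ)
    (φ : ArtinGroup (Mu M Λ) →* A) {Pc : Set Ω}
    (hi : ∀ a, ∀ x ∈ Pc, φ (artinGen (Mu M Λ) a) • x ∈ Pc)
    (h2 : ∀ a b : S × J Λ, a ≠ b → (a.1 ≠ b.1 → ¬ nb Λ (M a.1 b.1) a.2 b.2) → ∀ x,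
      (φ (artinGen (Mu M Λ) a))⁻¹ • x ∈ Pc → (φ (artinGen (Mu M Λ) b))⁻¹ • x ∈ Pc →
      (φ (artinGen (Mu M Λ) a) * φ (artinGen (Mu M Λ) b))⁻¹ • x ∈ Pc)
    (h3 : ∀ a b : S × J Λ, a.1 ≠ b.1 → nb Λ (M a.1 b.1) a.2 b.2 → ∀ x,
      (φ (artinGen (Mu M Λ) a))⁻¹ • x ∈ Pc → (φ (artinGen (Mu M Λ) b))⁻¹ • x ∈ Pc →
      (φ (artinGen (Mu M Λ) a) * φ (artinGen (Mu M Λ) b) * φ (artinGen (Mu M Λ) a))⁻¹ • x ∈ Pc)
    {fr : S × J Λ → Ω} (fx : ∀ a b, a ≠ b → φ (artinGen (Mu M Λ) a) • fr b = fr b) (t : S)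
    (e1 : ∀ j, (φ (artinGen (Mu M Λ) (t, j)))⁻¹ • fr (t, j) ∈ Pc)
    (e2 : ∀ j, (φ (artinGen (Mu M Λ) (t, j)))⁻¹ •
      (φ (artinGen (Mu M Λ) (t, j)))⁻¹ • fr (t, j) ∉ Pc)
    (r : ArtinGroup M) (hr : ∀ j, unfHom hΛ φ r • fr (t, j) = fr (t, j)) :
    r ∈ stdParabolic M {t}ᶜ :=
  stab_unf hΛ (unf_of_hom φ) (fun s i => hi (s, i))
    (fun s i t j hne => h2 (s, i) (t, j) (fun h => by
      rw [Prod.mk.injEq] at h
      rcases hne with h1 | h1
      · exact h1 h.1
      · exact h1 h.2))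
    (fun s i t j => h3 (s, i) (t, j)) (fr := fun s i => fr (s, i))
    (fun s i t j hne => fx (s, i) (t, j) (fun h => by
      rw [Prod.mk.injEq] at h
      rcases hne with h1 | h1
      · exact h1 h.1
      · exact h1 h.2)) t e1 e2 r hr

end fin

end Crest.Agent.R175.StabN_901
end

-- ▼ part R175/StbC_774

/-!
Row 175 (S0263), helper774: block (E), `Lev.Stb` of the concrete level.

`TwD M Λ` : twists `tw v : TOb → TOb`, the permutations `P.p v` of the classes, and what is used of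
them;  `stb_fin`: `M` of finite type ⟹ an `r` with `d_(t,i) (r • fr (t,j)) = 0` is in `A_{S-t}`;
`stb_lev : PDm (Cr M) → (lev A).Stb`.
-/

set_option autoImplicit false
set_option linter.unusedSectionVars false
set_option linter.unusedVariables false

open CategoryTheory
open scoped Classical

namespace Crest.Agent.R175.StbC_774

open Crest.GroupTheory Crest.Agent.R175.PTA Crest.Agent.R175.Cls_133 Crest.Agent.R175.UG_27
open Crest.Agent.R175.Unf_109 Crest.Agent.R175.Lev_788 Crest.Agent.R175.LevC_788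
open Crest.Agent.R175.Act_732 Crest.Agent.R175.Act2_732 Crest.Agent.R175.EvW_788
open Crest.Agent.R175.StabF_393 Crest.Agent.R175.StabU_393 Crest.Agent.R175.Pos_418
open Crest.Agent.R175.Num_774 (A)

variable {S : Type} [Fintype S] {M : CoxeterMatrix S} {Λ : Finset ℕ}

/-- the twists over the unfolded graph, on objects and on classes -/
structure TwD (M : CoxeterMatrix S) (Λ : Finset ℕ) where
  /-- the twists of objects -/
  tw : S × J Λ → TOb (UG M Λ) ℂ → TOb (UG M Λ) ℂ
  tws : TwS tw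
  /-- the twists of classes -/
  P : Twc (UG M Λ) (Cls (UG M Λ) ℂ)
  p_mk : ∀ v X, P.p v (⟦X⟧ : Cls (UG M Λ) ℂ) = ⟦tw v X⟧
  ev : ∀ v X, EvT (tw v X) ↔ EvT X
  h_p : ∀ v x y, hC (P.p v x) (P.p v y) = hC x y
  lam_p : ∀ v x a, lamC (P.p v x) a = lamC x a
  fr : ∀ v w, v ≠ w → P.p v (frC (UG M Λ) ℂ w) = frC (UG M Λ) ℂ w

namespace TwD

variable (D : TwD M Λ)

/-- 393's `ActS` for the permutations of the classes -/
noncomputable def acts : ActS D.tw (Equiv.Perm (Cls (UG M Λ) ℂ)) (Cls (UG M Λ) ℂ) where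
  cl X := ⟦X⟧
  cl_eq X Y h := Quotient.exact h
  cl_surj x := Quotient.exists_rep x
  g := D.P.p
  act v X := D.p_mk v X

/-- the permutations preserving `hC` -/
def presH : Subgroup (Equiv.Perm (Cls (UG M Λ) ℂ)) where
  carrier := {g | ∀ x y, hC (g x) (g y) = hC x y}
  one_mem' := fun _ _ => rfl
  mul_mem' := by
    intro g g' h h' x y
    rw [Equiv.Perm.mul_apply, Equiv.Perm.mul_apply, h, h']
  inv_mem' := by
    intro g h x y
    have := h (g⁻¹ x) (g⁻¹ y)
    rw [ap_inv, ap_inv] at this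
    exact this.symm

/-- the permutations preserving `lamC` and `EvC` -/
def presL : Subgroup (Equiv.Perm (Cls (UG M Λ) ℂ)) where
  carrier := {g | ∀ x, (∀ a, lamC (g x) a = lamC x a) ∧ (EvC (g x) ↔ EvC x)}
  one_mem' := fun _ => ⟨fun _ => rfl, Iff.rfl⟩
  mul_mem' := by
    intro g g' h h' x
    rw [Equiv.Perm.mul_apply]
    exact ⟨fun a => ((h _).1 a).trans ((h' _).1 a), (h _).2.trans (h' _).2⟩
  inv_mem' := by
    intro g h x
    have := h (g⁻¹ x)
    rw [ap_inv] at this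
    exact ⟨fun a => (this.1 a).symm, this.2.symm⟩

theorem p_memH (v : S × J Λ) : D.P.p v ∈ presH (M := M) (Λ := Λ) := D.h_p v

theorem p_memL (v : S × J Λ) : D.P.p v ∈ presL (M := M) (Λ := Λ) := by
  intro x
  refine ⟨D.lam_p v x, ?_⟩
  induction x using Quotient.inductionOn with
  | h X => rw [D.p_mk, evC_mk, evC_mk, D.ev]

variable (hΛ : Good M Λ)

/-- **a translate of the frames with `d = 0` is the frame** -/
theorem frame_of_d (r : ArtinGroup M) (t : S) (j : J Λ)
    (h : hC (frC (UG M Λ) ℂ (t, j)) (D.P.unf hΛ r (frC (UG M Λ) ℂ (t, j))) = 0) :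
    D.P.unf hΛ r (frC (UG M Λ) ℂ (t, j)) = frC (UG M Λ) ℂ (t, j) := by
  have h1 := D.P.unf_mem hΛ presH D.p_memH r
  have h2 := D.P.unf_mem hΛ presL D.p_memL r (frC (UG M Λ) ℂ (t, j))
  refine z1C (two_ne_zero) (fun s => ?_) (h2.2.2 (evC_frC _)) h ?_
  · rw [h2.1, lamC_fr]
  · rw [h1]
    exact hC_fr _ _

/-- **STAB for the classes**, finite type -/
theorem stab_fin [Finite M.Group] (t : S) (r : ArtinGroup M)
    (hr : ∀ j, D.P.unf hΛ r (frC (UG M Λ) ℂ (t, j)) = frC (UG M Λ) ℂ (t, j)) :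
    r ∈ stdParabolic M {t}ᶜ := by
  have h2 : (2 : ℂ) ≠ 0 := two_ne_zero
  have hg : ∀ a : S × J Λ, D.P.hom (cox_mu M Λ) (artinGen (Mu M Λ) a) = D.acts.g a :=
    fun a => D.P.hom_gen _ a
  have h0 : ∀ s u : S, s ≠ u → M s u ≠ 0 := fun s u h =>
    StabM_901.label_ne_zero (GSph_145.dat M.toCoxeterSystem) h
  refine StabN_901.stab_unfHom hΛ (D.P.hom (cox_mu M Λ)) (Pc := D.acts.Pc) ?_ ?_ ?_
    (fr := fun a => frC (UG M Λ) ℂ a) ?_ t ?_ ?_ r hr
  · intro a x hx
    rw [hg]
    exact ActS.hi D.tws a x hx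
  · intro a b hab _ x ha hb
    rw [hg] at ha hb ⊢
    rw [hg]
    exact ActS.h2 D.tws hab.symm x ha hb
  · intro a b hab hn x ha hb
    rw [hg] at ha hb ⊢
    rw [hg]
    have hmu : Mu M Λ a b = 3 := by
      rw [mu_apply]
      simp [muM, hab, h0 _ _ hab, hn]
    obtain ⟨c, hc⟩ := exists_edge_of_mu hmu
    exact ActS.h3 D.tws (fun e => hab (congrArg Prod.fst e).symm) c hc x ha hb
  · intro a b hab
    rw [hg]
    exact D.fr a b hab
  · intro j
    rw [hg]
    exact inv_frm_mem (S := D.acts) D.tws h2 (t, j)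
  · intro j
    rw [hg]
    exact inv_inv_frm_notMem (S := D.acts) D.tws (t, j)

/-- **block (E)** -/
theorem stb_fin [Finite M.Group] (A : ActI M hΛ.four)
    (hA : ∀ (r : ArtinGroup M) (x : Cls (UG M Λ) ℂ), A.act.smul r x = D.P.unf hΛ r x) :
    (lev A).Stb := by
  intro t r h
  refine D.stab_fin hΛ t r fun j => D.frame_of_d hΛ r t j ?_
  have h1 : hC (frC (UG M Λ) ℂ (t, j)) (A.act.smul r (frC (UG M Λ) ℂ (t, j))) = 0 := h j j
  rwa [hA] at h1

/-- **block (E)**, positive definite form -/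
theorem stb_lev (hM : PDm (Cr M)) (A : ActI M hΛ.four)
    (hA : ∀ (r : ArtinGroup M) (x : Cls (UG M Λ) ℂ), A.act.smul r x = D.P.unf hΛ r x) :
    (lev A).Stb := by
  have hfin : Finite M.Group := PosFin_497.finite_of_posDef M fun x hx => by
    have h1 := hM x hx
    unfold qf Cr at h1
    have h2 : ∑ s, ∑ t, x s * x t * (-2 * Real.cos (Real.pi / (M s t : ℝ)))
        = 2 * ∑ s, ∑ t, x s * x t * (-Real.cos (Real.pi / (M s t : ℝ))) := by
      rw [Finset.mul_sum]
      refine Finset.sum_congr rfl fun s _ => ?_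
      rw [Finset.mul_sum]
      exact Finset.sum_congr rfl fun t _ => by ring
    rw [h2] at h1
    linarith
  exact D.stb_fin hΛ A hA

end TwD

end Crest.Agent.R175.StbC_774
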