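import Crest.Agent.R175.TUadd_61
import Crest.Agent.R175.TUhT_988
import Crest.Agent.R175.TwQ_250
import Crest.Agent.R175.TUlam_788
import Crest.Agent.R175.Act2_732
import Crest.Agent.R175.Cls_133

/-!
# The twists on classes (row 175, helper774)

`pU U hU : Equiv.Perm (Cls G k)` : class map of `TU U hU` (inverse `TV U hU`);
`pU_add`, `hC_pU`, `lamC_pU`, `evC_pU`;
`p1 v = pU (· = v)`, `p1_comm`, `p1_braid`, `twc G k : Twc G (Cls G k)`.
-/

set_option autoImplicit false
set_option linter.unusedSectionVars false
set_option linter.unusedVariables false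

open CategoryTheory

namespace Crest.Agent.R175.TwcI_774

open Crest.Agent.R175.PTA Crest.Agent.R175.Cls_133 Crest.Agent.R175.TU_788
open Crest.Agent.R175.EvW_788 Crest.Agent.R175.Act2_732

universe v

variable {T : Type v} {G : MG T} {k : Type v} [Field k] [Fintype T]
variable (U : T → Prop) (hU : ∀ s t, U s → U t → IsEmpty (G.E s t))

/-- the class map of `TU` -/
noncomputable def cU : Cls G k → Cls G k :=
  Quotient.map (TU U hU) fun _ _ h => TUh_988.TU_hiso U hU h

/-- the class map of `TV` -/
noncomputable def cV : Cls G k → Cls G k :=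
  Quotient.map (TV U hU) fun _ _ h => TUh_988.TV_hiso U hU h

theorem cU_mk (X : TOb G k) : cU U hU (⟦X⟧ : Cls G k) = ⟦TU U hU X⟧ := rfl
theorem cV_mk (X : TOb G k) : cV U hU (⟦X⟧ : Cls G k) = ⟦TV U hU X⟧ := rfl

/-- **the twist as a permutation of the classes** -/
noncomputable def pU : Equiv.Perm (Cls G k) where
  toFun := cU U hU
  invFun := cV U hU
  left_inv x := by
    induction x using Quotient.inductionOn with
    | h X =>
      rw [cU_mk, cV_mk]
      exact Quotient.sound (TUh_988.TV_TU U hU X)
  right_inv x := by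
    induction x using Quotient.inductionOn with
    | h X =>
      rw [cV_mk, cU_mk]
      exact Quotient.sound (TUh_988.TU_TV U hU X)





theorem evT_TU_iff (X : TOb G k) : EvT (TU U hU X) ↔ EvT X :=
  ⟨fun h => (evT_iff (TUh_988.TV_TU U hU X)).1 (evT_TV U hU _ h), evT_TU U hU X⟩


/-! ### one vertex -/

/-- the twist at one vertex, on classes -/
noncomputable def p1 (v : T) : Equiv.Perm (Cls G k) := pU (fun r => r = v) TwM_250.sing





end Crest.Agent.R175.TwcI_774
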