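import Crest.Agent.R175.PTW_4_Mg
import Crest.Agent.R175.TU_788
import Crest.Agent.R175.TwcI_774
import Crest.Agent.R175.TUhF_988
import Crest.Agent.R175.StbC_774
import Crest.Agent.R175.TUc_61
import Crest.Agent.R175.PTD_4
import Crest.Agent.R175.FmD_180
import Crest.Agent.R175.FmC_180
import Crest.Agent.R175.PTH_175
import Crest.Agent.R175.PTM_450
import Crest.Agent.R175.FrmHd_988
import Crest.Agent.R175.GrB_936_Mg
import Crest.Agent.R175.WB_527
import Crest.Agent.R175.GMon_145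
import Crest.Agent.R175.GlueData_445
import Crest.Agent.R175.FmS_303
import Crest.Agent.R175.PTC_505
import Crest.Agent.R175.PTC2_505
import Crest.Agent.R175.LevC_788
import Crest.Agent.R175.AddF_61
import Crest.Agent.R175.TUadd_61
import Crest.Agent.R175.TUhT_988
import Crest.Agent.R175.ActC_788
import Crest.Agent.R175.CatI_788_Mg

-- ▼ part R175/PTX_4
section

/-!
Row 175 (S0263), block (D): the relation `TD` between rigid objects `X0` and `Y0 ≃ cone (Q_U X → X)`,
`X ≃ X0`, for arbitrary position operators.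
-/

set_option autoImplicit false
set_option linter.unusedSectionVars false

open CategoryTheory Crest.Agent.R175.PTA Crest.Agent.R175.PTH Crest.Agent.R175.TwG_253
open Crest.Agent.R175.PTQ_4

namespace Crest.Agent.R175.PTT_4

universe u v

noncomputable section

variable {T : Type v} {G : MG T} {k : Type v} [Field k] [Fintype T] {U : T → Prop}
  {X0 X Y Y0 : TOb G k}

theorem td_of (C : ConeOf U X Y) (hU : ∀ s t, U s → U t → IsEmpty (G.E s t))
    (h2 : (2 : k) ≠ 0) (eX : HIso X0 X) (eY : HIso Y Y0) {p0 : X0.X ⟶ X0.X} {q0 : Y0.X ⟶ Y0.X}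
    (hp0 : Eul X0 p0) (hq0 : Eul Y0 q0) (h0 : hT X0 X0 = 0) (hY0 : hT Y0 Y0 = 0) :
    Nonempty (TD {t | U t} (QMof X0 hp0) (QMof Y0 hq0)) := by
  obtain ⟨e⟩ := eX
  obtain ⟨e'⟩ := eY
  have h1 : hT X0 X = 0 := by
    rw [← HIso.hT_right ⟨e⟩ X0]; exact h0
  have h3 : hT X X = 0 := by
    rw [← HIso.hT_left ⟨e⟩ X]; exact h1
  have h4 : hT Y Y0 = 0 := by
    rw [HIso.hT_left ⟨e'⟩ Y0]; exact hY0
  obtain ⟨p, hp⟩ := exists_eul h2 X h3
  exact ⟨TD.isoL (tdIso e hp0 hp h1) (TD.isoR (C.td hp hU) (tdIso e' (C.eul hp) hq0 h4))⟩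


end

end Crest.Agent.R175.PTT_4
end

-- ▼ part R175/PTY_4
section

/-!
Row 175 (S0263), block (D): the twist `TU U hU X` of TU_788 is a `ConeOf`; `td_TU`.
-/

set_option autoImplicit false
set_option linter.unusedSectionVars false

open CategoryTheory Crest.Agent.R175.PTA Crest.Agent.R175.PTH Crest.Agent.R175.TwG_253
open Crest.Agent.R175.PTQ_4 Crest.Agent.R175.TU_788

namespace Crest.Agent.R175.PTT_4

universe u v w

section abs

variable {C : Type u} [Category.{w} C] [Preadditive C] (F : TwA_253.Sph C) (X : TwA_253.Tw C)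
  (S : TwA_253.Sum2 (F.Q X.X) X.X)

theorem inl_Td : S.inl ≫ (TwA_253.T F X S).d = -(F.m X.d ≫ S.inl) + F.eps X.X ≫ S.inr := by
  simp [TwA_253.T, Preadditive.comp_add, Preadditive.comp_neg]

theorem inr_Td : S.inr ≫ (TwA_253.T F X S).d = X.d ≫ S.inr := by
  simp [TwA_253.T, Preadditive.comp_add, Preadditive.comp_neg]

theorem inl_Te : S.inl ≫ (TwA_253.T F X S).e = -(F.m X.e ≫ S.inl) := by
  simp [TwA_253.T, Preadditive.comp_add, Preadditive.comp_neg]

theorem inr_Te : S.inr ≫ (TwA_253.T F X S).e = X.e ≫ S.inr := by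
  simp [TwA_253.T, Preadditive.comp_add, Preadditive.comp_neg]

end abs

noncomputable section

variable {T : Type v} {G : MG T} {k : Type v} [Field k] [Fintype T] (U : T → Prop)
  (hU : ∀ s t, U s → U t → IsEmpty (G.E s t))

theorem L_pu {X Y : Gob G k} {f : X ⟶ Y} (h : FmU_83.Pu f) : L f = 0 := by
  apply hm_ext
  · intro t; rfl
  · intro t; rfl
  · intro s t a; exact h.p1 s t a
  · intro t; exact h.pi t
  · intro t; exact h.pj t
  · intro t
    rw [c2_L, h.p2, smul_zero]
    rfl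

theorem gam_TU (X : TOb G k) : gam (TU U hU X).X = (tw U hU X).e := gam_rg _ (pu_tw U hU X)

/-- the twist of TU_788 is the cone -/
def coneOf_TU (X : TOb G k) : ConeOf U X (TU U hU X) where
  inl := inl (QG U X.X) X.X
  inr := inr (QG U X.X) X.X
  fst := fst (QG U X.X) X.X
  snd := snd (QG U X.X) X.X
  inl_fst := (sm (QG U X.X) X.X).inl_fst
  inl_snd := (sm (QG U X.X) X.X).inl_snd
  inr_fst := (sm (QG U X.X) X.X).inr_fst
  inr_snd := (sm (QG U X.X) X.X).inr_snd
  total := (sm (QG U X.X) X.X).total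
  L_inl := (L_pu pu_inl : L (inl (QG U X.X) X.X) = 0)
  L_inr := (L_pu pu_inr : L (inr (QG U X.X) X.X) = 0)
  L_fst := (L_pu pu_fst : L (fst (QG U X.X) X.X) = 0)
  L_snd := (L_pu pu_snd : L (snd (QG U X.X) X.X) = 0)
  d_inl := inl_Td (sphG U hU) (toTw X) (sm _ _)
  d_inr := inr_Td (sphG U hU) (toTw X) (sm _ _)
  g_inl := by
    rw [gam_TU]
    exact inl_Te (sphG U hU) (toTw X) (sm _ _)
  g_inr := by
    rw [gam_TU]
    exact inr_Te (sphG U hU) (toTw X) (sm _ _)


/-- **the exact triangle of the twist** for the twist itself -/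
theorem exists_td_TU {X : TOb G k} {p : X.X ⟶ X.X} (hp : Eul X p) :
    ∃ q, ∃ hq : Eul (TU U hU X) q, Nonempty (TD {t | U t} (QMof X hp) (QMof (TU U hU X) hq)) :=
  ⟨_, (coneOf_TU U hU X).eul hp, ⟨(coneOf_TU U hU X).td hp hU⟩⟩


/-- ... and any representative of the source -/
theorem td_TU' (h2 : (2 : k) ≠ 0) {X0 X Y : TOb G k} (eX : HIso X0 X) (eY : HIso Y (TU U hU X))
    {p : X0.X ⟶ X0.X} {q : Y.X ⟶ Y.X} (hp : Eul X0 p) (hq : Eul Y q) (hX : hT X0 X0 = 0)
    (hY : hT Y Y = 0) : Nonempty (TD {t | U t} (QMof X0 hp) (QMof Y hq)) :=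
  td_of (coneOf_TU U hU X) hU h2 eX eY.symm hp hq hX hY

end

end Crest.Agent.R175.PTT_4
end

-- ▼ part R175/TwDI_774
section

/-!
# The instance of `StbC_774.TwD` (row 175, helper774)

`twS : StabF_393.TwS (fun v X => TU {v} X)`, `p1_fr`, `twD M Λ : TwD M Λ`,
`stb_actU` : block (E) for an `ActI` whose action is `(twc ..).actU`.
-/

set_option autoImplicit false
set_option linter.unusedSectionVars false
set_option linter.unusedVariables false

open CategoryTheory
open scoped Classical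

namespace Crest.Agent.R175.TwDI_774

open Crest.GroupTheory Crest.Agent.R175.PTA Crest.Agent.R175.Cls_133 Crest.Agent.R175.UG_27
open Crest.Agent.R175.Unf_109 Crest.Agent.R175.TU_788 Crest.Agent.R175.TwcI_774
open Crest.Agent.R175.StabF_393 Crest.Agent.R175.StbC_774 Crest.Agent.R175.Act2_732
open Crest.Agent.R175.Lev_788 Crest.Agent.R175.LevC_788 Crest.Agent.R175.Pos_418
open Crest.Agent.R175.PTH

section gen

variable {T : Type} {G : MG T} {k : Type} [Field k] [Fintype T]

/-- 393's `TwS` for the twists at one vertex -/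
theorem twS : TwS (fun (v : T) (X : TOb G k) => TU (fun r => r = v) TwM_250.sing X) where
  hT := fun v X => TUh_988.hT_TU _ _ X X
  td := fun v X p hp => by
    obtain ⟨q, hq, ⟨d⟩⟩ := PTT_4.exists_td_TU (fun r => r = v) TwM_250.sing hp
    exact ⟨q, hq, ⟨d⟩⟩


end gen



end Crest.Agent.R175.TwDI_774
end

-- ▼ part R175/TwDP_774
section

/-!
# `TwD` over `TUc_61.P` (row 175, helper774)

`twDP M Λ : TwD M Λ` with `(twDP M Λ).P = TUc_61.P (UG M Λ) ℂ`; `stb_P` : block (E).
-/

set_option autoImplicit false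
set_option linter.unusedSectionVars false
set_option linter.unusedVariables false

open CategoryTheory
open scoped Classical

namespace Crest.Agent.R175.TwDI_774

open Crest.GroupTheory Crest.Agent.R175.PTA Crest.Agent.R175.Cls_133 Crest.Agent.R175.UG_27
open Crest.Agent.R175.Unf_109 Crest.Agent.R175.TU_788 Crest.Agent.R175.TwcI_774
open Crest.Agent.R175.StabF_393 Crest.Agent.R175.StbC_774 Crest.Agent.R175.Act2_732
open Crest.Agent.R175.Lev_788 Crest.Agent.R175.LevC_788 Crest.Agent.R175.Pos_418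

theorem P_fr {T : Type} {G : MG T} {k : Type} [Field k] [Fintype T] [DecidableEq T] {v w : T}
    (h : v ≠ w) : (TUc_61.P G k).p v (frC G k w) = frC G k w := by
  rw [frC_def, TUc_61.P_mk]
  exact Quotient.sound (TUh_988.TU_frm _ _ (fun e => h e.symm))

/-- **the instance over 61's `P`** -/
noncomputable def twDP {S : Type} [Fintype S] (M : CoxeterMatrix S) (Λ : Finset ℕ) : TwD M Λ where
  tw := fun v X => TU (fun r => r = v) TwM_250.sing X
  tws := twS
  P := TUc_61.P (UG M Λ) ℂ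
  p_mk := fun v X => TUc_61.P_mk v X
  ev := fun v X => evT_TU_iff _ _ X
  h_p := fun v x y => TUc_61.hC_P v x y
  lam_p := fun v x a => TUc_61.lamC_P v x a
  fr := fun v w h => P_fr h

/-- **block (E)** for the action through `TUc_61.P` -/
theorem stb_P {S : Type} [Fintype S] {M : CoxeterMatrix S} {Λ : Finset ℕ} (hΛ : Good M Λ)
    (hM : PDm (Cr M)) (A : ActI M hΛ.four)
    (hA : ∀ (r : ArtinGroup M) (x : Cls (UG M Λ) ℂ),
      A.act.smul r x = (TUc_61.P (UG M Λ) ℂ).unf hΛ r x) : (lev A).Stb :=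
  (twDP M Λ).stb_lev hΛ hM A hA

end Crest.Agent.R175.TwDI_774
end

-- ▼ part R175/DomF_180
section

/-!
Row 175 (S0263), block (D), all labels (helper180, over helper4's PTD_4): the abstract end game for
weighted FAMILIES `(X_i)_{i ∈ I}` of objects.

For labels `> 3` the proportionality along the fibres holds only for the doubly weighted
dimensions `dW X t = ∑ i, ω i * dim H_t(X_i)`; the action moves all members at once.
`DomF.exists_zero_H`: every family can be moved to one with `H = 0`.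
-/

open Module

set_option autoImplicit false
set_option linter.unusedSectionVars false

namespace Crest.Agent.R175.DomF_180

open Crest.Agent.R175.PTA (MG)
open Crest.Agent.R175.PTD1_175 Crest.Agent.R175.PTQ_4

universe u v

variable {T : Type u} [Fintype T] {G : MG T} {k : Type v} [Field k]

variable {S W A Ob I : Type*} [Group W] [Group A] [MulAction A Ob] [Fintype I]
  {M : CoxeterMatrix S}

/-- weighted dimension of a family -/
noncomputable def dW (ω : I → ℝ) (X : I → QM G k) (t : T) : ℝ :=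
  ∑ i, ω i * (finrank k ((X i).H t) : ℝ)

/-- weighted number of frames of a family -/
noncomputable def lW (ω : I → ℝ) (X : I → QM G k) (t : T) : ℝ :=
  ∑ i, ω i * (finrank k ((X i).W t) : ℝ)

/-- weighted `D_t - 2 d_t` -/
noncomputable def muW (ω : I → ℝ) (X : I → QM G k) (t : T) : ℝ :=
  ∑ i, ω i * (muv (X i) t : ℝ)

theorem muW_eq (ω : I → ℝ) (X : I → QM G k) (t : T) :
    muW ω X t = ∑ u, (Fintype.card (G.E t u) : ℝ) * dW ω X u + lW ω X t - 2 * dW ω X t := by
  unfold muW dW lW muv PTQ_4.nb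
  have h1 : ∀ i, ω i * (((((∑ u, Fintype.card (G.E t u) * finrank k ((X i).H u)
      + finrank k ((X i).W t) : ℕ) : ℤ) - 2 * (finrank k ((X i).H t) : ℤ) : ℤ)) : ℝ)
      = (∑ u, (Fintype.card (G.E t u) : ℝ) * (ω i * (finrank k ((X i).H u) : ℝ)))
        + ω i * (finrank k ((X i).W t) : ℝ) - 2 * (ω i * (finrank k ((X i).H t) : ℝ)) := by
    intro i
    push_cast
    have h2 : ∑ u, (Fintype.card (G.E t u) : ℝ) * (ω i * (finrank k ((X i).H u) : ℝ))
        = ω i * ∑ u, (Fintype.card (G.E t u) : ℝ) * (finrank k ((X i).H u) : ℝ) := by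
      rw [Finset.mul_sum]
      exact Finset.sum_congr rfl fun u _ => by ring
    rw [h2]
    ring
  rw [Finset.sum_congr rfl fun i _ => h1 i, Finset.sum_sub_distrib, Finset.sum_add_distrib,
    Finset.sum_comm, ← Finset.mul_sum]
  simp only [Finset.mul_sum]

variable (G k) in
/-- The input of the end game for families. -/
structure DomF (g : S → A) (Ob I : Type*) [MulAction A Ob] [Fintype I] where
  ω : I → ℝ
  ω_pos : ∀ i, 0 < ω i
  qm : Ob → I → QM G k
  π : T → S
  wt : T → ℝ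
  wt_pos : ∀ t, 0 < wt t
  ht : k → ℤ
  ht_add : ∀ μ, ht (μ + 1) = ht μ + 1
  ht_zero : ht 0 = 0
  /-- `g s` acts as the twist at the fibre of `s`, on every member -/
  td : ∀ X s i, Nonempty (TD {t | π t = s} (qm X i) (qm (g s • X) i))
  /-- (K) -/
  K : ∀ X i i' t (a b : ℤ), a ≤ 0 → 0 ≤ b → (∀ i, lo ht (qm X i) a) → (∀ i, hi ht (qm X i) b) →
    cb ht (qm X i) t b → ¬ ka ht (qm X i') t a
  /-- stability along the fibres -/
  fib : ∀ X t t' n i, π t = π t' → cb ht (qm X i) t n → ∃ i', cb ht (qm X i') t' n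
  /-- proportionality along the fibres -/
  pf : ∀ X t t', π t = π t' → wt t' * muW ω (qm X) t = wt t * muW ω (qm X) t'
  /-- Euler characteristic of a rigid family -/
  euler : ∀ X, ∑ t, dW ω (qm X) t * (muW ω (qm X) t + lW ω (qm X) t) ≤ 0
  /-- positive definiteness -/
  pd : ∀ n : T → ℝ, (∀ t, 0 ≤ n t) →
    ∑ t, n t * (2 * n t - ∑ u, (Fintype.card (G.E t u) : ℝ) * n u) ≤ 0 → ∀ t, n t = 0

namespace DomF

variable {g : S → A} (D : DomF G k g Ob I)

include D in
theorem hC (n : T → ℕ) (h : ∀ s, 2 * n s ≤ ∑ t, Fintype.card (G.E s t) * n t) : n = 0 := by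
  have h0 := D.pd (fun t => (n t : ℝ)) (fun t => Nat.cast_nonneg _) (by
    refine Finset.sum_nonpos fun t _ => ?_
    have h1 := h t
    have h2 : (2 * (n t : ℝ) - ∑ u, (Fintype.card (G.E t u) : ℝ) * n u) ≤ 0 := by
      have : (2 * (n t : ℝ)) ≤ ∑ u, (Fintype.card (G.E t u) : ℝ) * n u := by exact_mod_cast h1
      linarith
    exact mul_nonpos_of_nonneg_of_nonpos (Nat.cast_nonneg _) h2)
  funext t
  have := h0 t
  exact_mod_cast this

/-- positions of the inverse twist -/
theorem td_inv (X : Ob) (s : S) (i : I) :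
    Nonempty (TD {t | D.π t = s} (D.qm ((g s)⁻¹ • X) i) (D.qm X i)) := by
  have h := D.td ((g s)⁻¹ • X) s i
  rw [smul_inv_smul] at h
  exact h

theorem ht_sub (μ : k) : D.ht (μ - 1) = D.ht μ - 1 := by
  have h := D.ht_add (μ - 1)
  rw [sub_add_cancel] at h
  omega

/-- bounds for the positions of all members -/
theorem exists_bd (X : Ob) : ∃ n : ℕ, (∀ i, lo D.ht (D.qm X i) (-n)) ∧
    (∀ i, hi D.ht (D.qm X i) n) := by
  classical
  have h1 : ∀ i, ∃ n : ℕ, lo D.ht (D.qm X i) (-n) ∧ hi D.ht (D.qm X i) n :=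
    fun i => exists_lo_hi D.ht (D.qm X i)
  choose n hn using h1
  have h2 : ∀ i, n i ≤ ∑ i, n i := fun i =>
    Finset.single_le_sum (fun _ _ => Nat.zero_le _) (Finset.mem_univ i)
  refine ⟨∑ i, n i, fun i s μ v hv he => ?_, fun i s μ v hv he => ?_⟩
  · have h3 := (hn i).1 s μ v hv he
    have h4 : (n i : ℤ) ≤ ((∑ i, n i : ℕ) : ℤ) := by exact_mod_cast h2 i
    linarith
  · have h3 := (hn i).2 s μ v hv he
    have h4 : (n i : ℤ) ≤ ((∑ i, n i : ℕ) : ℤ) := by exact_mod_cast h2 i
    linarith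

/-- `Amp` of helper175 for the inverse twists. -/
theorem amp : Amp (Ob := Ob) (fun s => (g s)⁻¹) (fun n X => ∀ i, lo D.ht (D.qm X i) n)
    (fun n X => ∀ i, hi D.ht (D.qm X i) n)
    (fun s n X => ∃ t i, D.π t = s ∧ cb D.ht (D.qm X i) t n)
    (fun s n X => ∃ t i, D.π t = s ∧ ka D.ht (D.qm X i) t n) (fun _ => True) where
  rig_gen _ _ h := h
  rig_inv _ _ h := h
  exists_lo X := by
    obtain ⟨n, h, _⟩ := D.exists_bd X
    exact ⟨n, h⟩
  exists_hi X := by
    obtain ⟨n, _, h⟩ := D.exists_bd X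
    exact ⟨n, h⟩
  K X s a b ha hb _ hlo hhi hcb hka := by
    obtain ⟨t, i, rfl, hcb⟩ := hcb
    obtain ⟨t', i', ht', hka⟩ := hka
    obtain ⟨i'', hcb'⟩ := D.fib X t t' b i ht'.symm hcb
    exact D.K X i'' i' t' a b ha hb hlo hhi hcb' hka
  Nb X b hb h1 h2 := by
    push Not at h2
    obtain ⟨i, h2⟩ := h2
    obtain ⟨t, h⟩ := Nb D.ht_zero D.hC hb (h1 i) h2
    exact ⟨D.π t, t, i, rfl, h⟩
  Na X a ha h1 h2 := by
    push Not at h2
    obtain ⟨i, h2⟩ := h2
    obtain ⟨t, h⟩ := Na D.ht_zero D.hC ha (h1 i) h2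
    exact ⟨D.π t, t, i, rfl, h⟩
  P1 X s b hb h i := by
    obtain ⟨r⟩ := D.td_inv X s i
    exact IsU.P1 D.ht_add D.ht_zero r.toIsU hb (h i)
  P2 X s a ha h h' i := by
    obtain ⟨r⟩ := D.td_inv X s i
    exact IsU.P2 D.ht_add D.ht_zero r.toIsU ha (h i) fun t ht hka => h' ⟨t, i, ht, hka⟩
  P3 X s b hb h := by
    rintro ⟨t, i, ht, hcb⟩
    obtain ⟨r⟩ := D.td_inv X s i
    exact IsU.P3 D.ht_add r.toIsU (h i) ht hcb
  M1 X s a ha h i := by
    rw [inv_inv]
    obtain ⟨r⟩ := D.td X s i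
    exact IsT.M1 D.ht_sub D.ht_zero r.toIsT ha (h i)
  M2 X s b hb h h' i := by
    rw [inv_inv]
    obtain ⟨r⟩ := D.td X s i
    exact IsT.M2 D.ht_sub D.ht_zero r.toIsT hb (h i) fun t ht hcb => h' ⟨t, i, ht, hcb⟩
  M3 X s a ha h := by
    rw [inv_inv]
    rintro ⟨t, i, ht, hka⟩
    obtain ⟨r⟩ := D.td X s i
    exact IsT.M3 D.ht_sub r.toIsT (h i) ht hka

/-- the weighted total dimension -/
noncomputable def tot (X : Ob) : ℝ := ∑ t, D.wt t * dW D.ω (D.qm X) t

open Classical in
/-- the weighted sum of the `D - 2 d` over the fibre -/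
noncomputable def mu (s : S) (X : Ob) : ℝ :=
  ∑ t, if D.π t = s then D.wt t * muW D.ω (D.qm X) t else 0

theorem tot_step {X Y : Ob} {s : S}
    (h1 : ∀ i t, D.π t ≠ s → finrank k ((D.qm Y i).H t) = finrank k ((D.qm X i).H t))
    (h2 : ∀ i t, D.π t = s →
      (finrank k ((D.qm Y i).H t) : ℤ) + finrank k ((D.qm X i).H t) = PTQ_4.nb (D.qm X i) t) :
    D.tot Y = D.tot X + D.mu s X := by
  classical
  unfold tot mu
  rw [← Finset.sum_add_distrib]
  refine Finset.sum_congr rfl fun t _ => ?_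
  by_cases ht : D.π t = s
  · rw [if_pos ht, ← mul_add]
    congr 1
    unfold dW muW
    rw [← Finset.sum_add_distrib]
    refine Finset.sum_congr rfl fun i _ => ?_
    have h3 : (finrank k ((D.qm Y i).H t) : ℝ) + finrank k ((D.qm X i).H t)
        = (PTQ_4.nb (D.qm X i) t : ℝ) := by
      exact_mod_cast h2 i t ht
    have h4 : (muv (D.qm X i) t : ℝ)
        = (PTQ_4.nb (D.qm X i) t : ℝ) - 2 * finrank k ((D.qm X i).H t) := by
      unfold muv
      push_cast
      ring
    rw [h4, ← h3]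
    ring
  · rw [if_neg ht, add_zero]
    congr 1
    unfold dW
    exact Finset.sum_congr rfl fun i _ => by rw [h1 i t ht]

/-- well-foundedness of the weighted dimension -/
theorem exists_min (P : Ob → Prop) (hP : ∃ X, P X) :
    ∃ X, P X ∧ ∀ Y, P Y → D.tot X ≤ D.tot Y := by
  have h0 : ∀ X, D.tot X = ∑ x : T × I, (D.wt x.1 * D.ω x.2)
      * (finrank k ((D.qm X x.2).H x.1) : ℝ) := by
    intro X
    unfold tot dW
    rw [Fintype.sum_prod_type]
    refine Finset.sum_congr rfl fun t _ => ?_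
    rw [Finset.mul_sum]
    exact Finset.sum_congr rfl fun i _ => by ring
  obtain ⟨X, hX, hmin⟩ := exists_min_weighted (fun x : T × I => D.wt x.1 * D.ω x.2)
    (fun x => mul_pos (D.wt_pos _) (D.ω_pos _))
    (fun x X => finrank k ((D.qm X x.2).H x.1)) P hP
  refine ⟨X, hX, fun Y hY => ?_⟩
  rw [h0, h0]
  exact hmin Y hY

theorem exists_dom [IsAlgClosed k] [Finite W] {cs : CoxeterSystem M W} (σ : Sec cs g)
    (σ' : Sec cs (fun s => (g s)⁻¹)) (X : Ob) :
    ∃ r : A, (∀ i, lo D.ht (D.qm (r • X) i) 0) ∧ (∀ i, hi D.ht (D.qm (r • X) i) 0) ∧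
      ∀ s, 0 ≤ D.mu s (r • X) := by
  have hσ : Sec cs (fun s => ((fun s => (g s)⁻¹) s)⁻¹) := by
    simp only [inv_inv]
    exact σ
  obtain ⟨r, _, h1, h2, h3⟩ := D.amp.exists_dominant σ' hσ D.tot D.mu
    (fun P hP => D.exists_min P hP)
    (fun X s _ hlo hhi hka hmu => by
      have hk : ∀ i t, D.π t = s → ¬ ka D.ht (D.qm X i) t 0 := fun i t ht h => hka ⟨t, i, ht, h⟩
      have hR : ∀ i, Nonempty (TD {t | D.π t = s} (D.qm ((g s)⁻¹ • X) i) (D.qm X i)) :=
        D.td_inv X s
      refine ⟨fun i => ?_, fun i => ?_, ?_⟩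
      · obtain ⟨R⟩ := hR i
        exact IsU.P1 D.ht_add D.ht_zero R.toIsU le_rfl (hhi i)
      · obtain ⟨R⟩ := hR i
        exact IsU.P2 D.ht_add D.ht_zero R.toIsU le_rfl (hlo i) (hk i)
      · rw [D.tot_step (X := X) (s := s) (fun i t ht => by
          obtain ⟨R⟩ := hR i
          exact (R.finrank_eq ht).symm) (fun i t ht => by
          obtain ⟨R⟩ := hR i
          have h := R.finrank_add_of_bot (s := t) ht (kerA_eq_bot (hlo i) (hhi i) (hk i t ht))
          exact_mod_cast h)]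
        linarith)
    (fun X s _ hlo hhi hcb hmu => by
      rw [inv_inv]
      have hk : ∀ i t, D.π t = s → ¬ cb D.ht (D.qm X i) t 0 := fun i t ht h => hcb ⟨t, i, ht, h⟩
      refine ⟨fun i => ?_, fun i => ?_, ?_⟩
      · obtain ⟨R⟩ := D.td X s i
        exact IsT.M2 D.ht_sub D.ht_zero R.toIsT le_rfl (hhi i) (hk i)
      · obtain ⟨R⟩ := D.td X s i
        exact IsT.M1 D.ht_sub D.ht_zero R.toIsT le_rfl (hlo i)
      · rw [D.tot_step (X := X) (s := s) (fun i t ht => by
          obtain ⟨R⟩ := D.td X s i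
          exact R.finrank_eq ht) (fun i t ht => by
          obtain ⟨R⟩ := D.td X s i
          have h := R.finrank_add_of_top (s := t) ht (imB_eq_top (hlo i) (hhi i) (hk i t ht))
          exact_mod_cast h)]
        linarith)
    (X := X) trivial
  exact ⟨r, h1, h2, h3⟩

theorem dW_nonneg (X : Ob) (t : T) : 0 ≤ dW D.ω (D.qm X) t :=
  Finset.sum_nonneg fun i _ => mul_nonneg (D.ω_pos i).le (Nat.cast_nonneg _)

theorem lW_nonneg (X : Ob) (t : T) : 0 ≤ lW D.ω (D.qm X) t :=
  Finset.sum_nonneg fun i _ => mul_nonneg (D.ω_pos i).le (Nat.cast_nonneg _)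

/-- **(D), all labels**: every family can be moved to one with `H = 0`. -/
theorem exists_zero_H [IsAlgClosed k] [Finite W] {cs : CoxeterSystem M W} (σ : Sec cs g)
    (σ' : Sec cs (fun s => (g s)⁻¹)) (X : Ob) :
    ∃ r : A, ∀ i t, finrank k ((D.qm (r • X) i).H t) = 0 := by
  classical
  obtain ⟨r, _, _, h3⟩ := D.exists_dom σ σ' X
  refine ⟨r, ?_⟩
  set Y := r • X with hY
  -- every `D - 2 d` is nonnegative
  have h4 : ∀ t, 0 ≤ muW D.ω (D.qm Y) t := by
    intro t
    by_contra hneg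
    rw [not_le] at hneg
    have h5 : ∀ t', D.π t' = D.π t → muW D.ω (D.qm Y) t' ≤ 0 := by
      intro t' ht'
      have h6 := D.pf Y t' t ht'
      have h8 := D.wt_pos t
      have h9 := D.wt_pos t'
      by_contra hcon
      rw [not_le] at hcon
      have h10 : 0 < D.wt t * muW D.ω (D.qm Y) t' := mul_pos h8 hcon
      have h11 : D.wt t' * muW D.ω (D.qm Y) t < 0 := mul_neg_of_pos_of_neg h9 hneg
      linarith
    have h6 : D.mu (D.π t) Y < 0 := by
      unfold mu
      have h7 : ∑ t' : T, (if D.π t' = D.π t then D.wt t' * muW D.ω (D.qm Y) t' else 0) <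
          ∑ t' : T, (0 : ℝ) := by
        refine Finset.sum_lt_sum (fun t' _ => ?_) ⟨t, Finset.mem_univ t, ?_⟩
        · by_cases ht' : D.π t' = D.π t
          · rw [if_pos ht']
            exact mul_nonpos_of_nonneg_of_nonpos (D.wt_pos t').le (h5 t' ht')
          · rw [if_neg ht']
        · rw [if_pos rfl]
          exact mul_neg_of_pos_of_neg (D.wt_pos t) hneg
      simpa using h7
    exact absurd (h3 (D.π t)) (not_le.2 h6)
  have h5 : ∀ t, (0 : ℝ) ≤ dW D.ω (D.qm Y) t * (muW D.ω (D.qm Y) t + lW D.ω (D.qm Y) t) :=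
    fun t => mul_nonneg (D.dW_nonneg Y t) (add_nonneg (h4 t) (D.lW_nonneg Y t))
  have h6 := D.euler Y
  have h7 : ∀ t, dW D.ω (D.qm Y) t * (muW D.ω (D.qm Y) t + lW D.ω (D.qm Y) t) = 0 := by
    intro t
    refine le_antisymm ?_ (h5 t)
    exact (Finset.single_le_sum (fun t _ => h5 t) (Finset.mem_univ t)).trans h6
  have h8 := D.pd (fun t => dW D.ω (D.qm Y) t) (D.dW_nonneg Y) (by
    refine le_of_eq (Finset.sum_eq_zero fun t _ => ?_)
    have h9 := h7 t
    rcases mul_eq_zero.1 h9 with h | h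
    · simp only [h, zero_mul]
    · have h10 := h4 t
      have h11 := D.lW_nonneg Y t
      have h12 : muW D.ω (D.qm Y) t = 0 := by linarith
      have h13 : lW D.ω (D.qm Y) t = 0 := by linarith
      rw [muW_eq, h13] at h12
      have h14 : 2 * dW D.ω (D.qm Y) t -
          ∑ u, (Fintype.card (G.E t u) : ℝ) * dW D.ω (D.qm Y) u = 0 := by linarith
      simp only [h14, mul_zero])
  intro i t
  have h9 := h8 t
  have h10 : ∀ j, D.ω j * (finrank k ((D.qm Y j).H t) : ℝ) = 0 := by
    intro j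
    refine le_antisymm ?_ (mul_nonneg (D.ω_pos j).le (Nat.cast_nonneg _))
    rw [← h9]
    exact Finset.single_le_sum (f := fun j => D.ω j * (finrank k ((D.qm Y j).H t) : ℝ))
      (fun j _ => mul_nonneg (D.ω_pos j).le (Nat.cast_nonneg _)) (Finset.mem_univ j)
  have h11 := h10 i
  rcases mul_eq_zero.1 h11 with h | h
  · exact absurd h (D.ω_pos i).ne'
  · exact_mod_cast h

end DomF

end Crest.Agent.R175.DomF_180
end

-- ▼ part R175/FmE_180
section

/-!
Row 175 (S0263), labels > 3 (helper180): bridge between the cochain level predicates of FmD_180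
and the cohomology data `QM` of helper4; stability of `cb` along the fibres for families.
-/

set_option autoImplicit false
set_option linter.unusedSectionVars false

open CategoryTheory
open scoped Classical

namespace Crest.Agent.R175.FmE_180

open Crest.Agent.R175.PTA Crest.Agent.R175.Fm_27 Crest.Agent.R175.FmD_180
open Crest.Agent.R175.PTQ_4

universe u v

section base

variable {T : Type u} {G : MG T} {k : Type v} [Field k] [Fintype T]

/-- helper175's `Eul` is the one of FmD_180 -/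
theorem eul_of {X : TOb G k} {p : X.X ⟶ X.X} (h : PTH.Eul X p) : Eul X p :=
  ⟨h.mem, h.bar, h.D⟩


/-- cohomology data of a T-framed object with a position operator -/
noncomputable def qmOf (X : TOb G k) {p : X.X ⟶ X.X} (h : PTH.Eul X p) : QM G k where
  H := PTH.Hv X
  W := X.X.W
  A t := PTH.Hp h t
  B s t a := PTH.HB X a
  i t := PTH.Hi X t
  j t := PTH.Hj X t
  AB s t a v := PTH.Hp_HB h a v
  Ai s w := PTH.Hp_Hi h s w
  jA s v := PTH.Hj_Hp h s v
  MC s v := PTH.Hmc X s v

theorem cb_of_Cb {X : TOb G k} {p : X.X ⟶ X.X} (h : PTH.Eul X p) {ht : k → ℤ} {t : T} {μ : k}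
    (hc : Cb X p t μ) : cb ht (qmOf X h) t (ht μ) := by
  obtain ⟨η, hη, v, hv, hne⟩ := hc
  let f : LinearMap.ker (c0 X.d t) →ₗ[k] k := η ∘ₗ (LinearMap.ker (c0 X.d t)).subtype
  have hf : PTH.bdr X t ≤ LinearMap.ker f := by
    rintro ⟨x, hx⟩ ⟨y, hy⟩
    rw [LinearMap.mem_ker]
    change η x = 0
    rw [← show c0 X.d t y = x from hy]
    exact hη.bd y
  let F : PTH.Hv X t →ₗ[k] k := Submodule.liftQ (PTH.bdr X t) f hf
  have hF : ∀ (x : X.X.V t) (hx : c0 X.d t x = 0), F (PTH.mk X t x hx) = η x :=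
    fun x hx => rfl
  refine ⟨μ, rfl, F, ?_, ?_, ?_⟩
  · intro h0
    apply hne
    rw [← hF v hv, h0]
    rfl
  · intro ξ
    obtain ⟨x, hx, rfl⟩ := PTH.mk_surj X ξ
    change F (PTH.Hp h t (PTH.mk X t x hx)) = μ * F (PTH.mk X t x hx)
    have e1 := PTH.Hp_mk h t x hx
    have e2 := congrArg F e1
    have e3 := hη.eig x hx
    rw [← hF x hx] at e3
    exact e2.trans ((hF _ _).trans e3)
  · have h1 : (qmOf X h).imB t ≤ LinearMap.ker (show (qmOf X h).H t →ₗ[k] k from F) := by
      rw [QM.imB_le]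
      refine ⟨fun s a ξ => ?_, fun w => ?_⟩
      · obtain ⟨x, hx, rfl⟩ := PTH.mk_surj X ξ
        rw [LinearMap.mem_ker]
        change F (PTH.HB X a (PTH.mk X s x hx)) = 0
        rw [PTH.HB_mk, hF]
        exact hη.B s a x hx
      · rw [LinearMap.mem_ker]
        change F (PTH.Hi X t w) = 0
        rw [PTH.Hi_apply, hF]
        exact hη.i w
    exact fun v hv => h1 hv

theorem Cb_of_cb {X : TOb G k} {p : X.X ⟶ X.X} (h : PTH.Eul X p) {ht : k → ℤ} {t : T} {n : ℤ}
    (hc : cb ht (qmOf X h) t n) : ∃ μ, ht μ = n ∧ Cb X p t μ := by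
  obtain ⟨μ, hμ, F, hF0, hFA, hFB⟩ := hc
  refine ⟨μ, hμ, ?_⟩
  obtain ⟨η, hη⟩ := LinearMap.exists_extend (p := LinearMap.ker (c0 X.d t))
    ((show PTH.Hv X t →ₗ[k] k from F) ∘ₗ PTH.mkL X t)
  have hη' : ∀ (x : X.X.V t) (hx : c0 X.d t x = 0),
      η x = (show PTH.Hv X t →ₗ[k] k from F) (PTH.mk X t x hx) := by
    intro x hx
    have := LinearMap.congr_fun hη ⟨x, hx⟩
    exact this
  refine ⟨η, ⟨fun v => ?_, fun s a x hx => ?_, fun w => ?_, fun x hx => ?_⟩, ?_⟩
  · rw [hη' _ (PTH.dd0 X t v)]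
    have : PTH.mk X t (c0 X.d t v) (PTH.dd0 X t v) = 0 := (PTH.mk_eq_zero X _).2 ⟨v, rfl⟩
    rw [this, map_zero]
  · have hx' : c0 X.d t (c1 X.d a x) = 0 := by
      have := PTH.dd1 X a x
      rwa [hx, map_zero, zero_add] at this
    rw [hη' _ hx']
    exact hFB (PTH.HB X a (PTH.mk X s x hx)) (QM.B_mem_imB (X := qmOf X h) a _)
  · rw [hη' _ (PTH.ddi X t w)]
    exact hFB (PTH.Hi X t w) (QM.i_mem_imB (X := qmOf X h) w)
  · have hx' : c0 X.d t (c0 p t x) = 0 := by rw [h.c0, hx, map_zero, sub_zero]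
    rw [hη' _ hx', hη' _ hx]
    exact hFA (PTH.mk X t x hx)
  · by_contra hcon
    push Not at hcon
    apply hF0
    apply LinearMap.ext
    intro ξ
    obtain ⟨x, hx, hxξ⟩ := PTH.mk_surj X ξ
    have h1 := hcon x hx
    rw [hη' x hx, hxξ] at h1
    exact h1

/-- `Cb` does not depend on the position operator -/
theorem Cb.indep {X : TOb G k} {p q : X.X ⟶ X.X} (hp : Eul X p) (hq : Eul X q) (hX : Ex X X)
    {t : T} {μ : k} (hc : Cb X q t μ) : Cb X p t μ := by
  obtain ⟨η, hη, v, hv, hne⟩ := hc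
  refine ⟨η ∘ₗ c0 (𝟙 X.X) t, CbW.comp (Cl.one X) hp hq hX hη, v, hv, ?_⟩
  simpa using hne

/-- `Cb` is invariant under homotopy equivalences of rigid objects -/
theorem Cb.hiso {X Y : TOb G k} {p : X.X ⟶ X.X} {q : Y.X ⟶ Y.X} (hp : Eul X p) (hq : Eul Y q)
    (h : HIso X Y) (hX : Ex X Y) {t : T} {μ : k} (hc : Cb Y q t μ) : Cb X p t μ := by
  obtain ⟨e⟩ := h
  obtain ⟨η, hη, v, hv, hne⟩ := hc
  have hcl : Cl X Y (1 : k) e.p := ⟨by ring, by rw [e.bp, one_smul], e.Dp⟩
  have hcl' : Cl Y X (1 : k) e.q := ⟨by ring, by rw [e.bq, one_smul], e.Dq⟩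
  refine ⟨η ∘ₗ c0 e.p t, CbW.comp hcl hp hq hX hη, c0 e.q t v, hcl'.cycle hv, ?_⟩
  have h1 := congrArg (fun f => η (c0 f t v)) e.qp
  have h2 : η (c0 (D Y Y e.r) t v) = 0 := by
    rw [D_apply, c0_sub, c0_comp, c0_comp, LinearMap.sub_apply, LinearMap.comp_apply,
      LinearMap.comp_apply, hv, map_zero, sub_zero, hη.bd]
  rw [c0_add, LinearMap.add_apply, map_add, h2, add_zero] at h1
  rw [LinearMap.comp_apply]
  have h3 : η (c0 e.p t (c0 e.q t v)) = η v := by simpa using h1
  rw [h3]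
  exact hne

end base

/-! ### families -/

section fam

variable {T : Type} {G : MG T} {k : Type v} [Field k] [Fintype T] {I : Type*}

/-- one step along the fibre -/
theorem cb_step (Φ : FDat G k) {X : I → TOb G k} {p : ∀ i, (X i).X ⟶ (X i).X}
    (hp : ∀ i, Eul (X i) (p i)) (hX : ∀ i i', Ex (X i) (X i'))
    (hF : ∀ i, Add (fun Z => ∃ i', Z = X i') (Φ.tob (X i))) {a a' : T} (h : Φ.N a a') {μ : k}
    {i : I} (hc : Cb (X i) (p i) a μ) : ∃ i', Cb (X i') (p i') a' μ := by
  let pp : ∀ Z : TOb G k, Z.X ⟶ Z.X := fun Z =>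
    if e : ∃ q, Eul Z q then e.choose else 0
  have hpp : ∀ Z : TOb G k, (∃ i', Z = X i') → Eul Z (pp Z) := by
    rintro Z ⟨i', rfl⟩
    have e : ∃ q, Eul (X i') q := ⟨p i', hp i'⟩
    have : pp (X i') = e.choose := dif_pos e
    rw [this]
    exact e.choose_spec
  obtain ⟨Z, ⟨i', rfl⟩, h1⟩ := Cb.of_add (hF i) ((hp i).hom Φ)
    (fun Z hZ => by
      obtain ⟨i', rfl⟩ := hZ
      exact Ex.add_right (hF i) (by rintro _ ⟨i'', rfl⟩; exact hX _ _)) (hc.hom Φ h) pp hpp
  exact ⟨i', Cb.indep (hp i') (hpp _ ⟨i', rfl⟩) (hX i' i') h1⟩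

end fam

section fibre

open Crest.Agent.R175.Unf_109 Crest.Agent.R175.FmC_180

variable {S : Type} [Fintype S] {Λ : Finset ℕ} {G : MG (S × J Λ)} {k : Type v} [Field k]
  {I : Type*}

/-- **stability of `Cb` along the fibres** -/
theorem cb_fibre (hΛ : ∀ m ∈ Λ, 4 ≤ m) (Φ : ∀ m ∈ Λ, FDat G k)
    (hN : ∀ m (hm : m ∈ Λ) s i j, nb Λ m i j → (Φ m hm).N (s, i) (s, j))
    {X : I → TOb G k} {p : ∀ i, (X i).X ⟶ (X i).X}
    (hp : ∀ i, Eul (X i) (p i)) (hX : ∀ i i', Ex (X i) (X i'))
    (hF : ∀ m (hm : m ∈ Λ) i, Add (fun Z => ∃ i', Z = X i') ((Φ m hm).tob (X i)))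
    {s : S} {j : J Λ} {μ : k} {i : I} (hc : Cb (X i) (p i) (s, j) μ) (j' : J Λ) :
    ∃ i', Cb (X i') (p i') (s, j') μ := by
  refine conn hΛ (fun j => ∃ i, Cb (X i) (p i) (s, j) μ) ?_ ⟨i, hc⟩ j'
  rintro m hm j1 j2 h ⟨i1, h1⟩
  exact cb_step (Φ m hm) hp hX (hF m hm) (hN m hm s j1 j2 h) h1

end fibre

end Crest.Agent.R175.FmE_180
end

-- ▼ part R175/PTH2_175
section

/-!
Row 175 (S0263): (K) for rigid T-framed objects (helper175): a lowest eigenvector killed by all
`B, j` and a highest eigenfunctional killing all `B, i` at the same vertex cannot coexist.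
-/

set_option autoImplicit false
set_option linter.unusedSectionVars false
set_option linter.unusedSimpArgs false

open CategoryTheory Crest.Agent.R175.PTA Crest.Agent.R175.PTH

namespace Crest.Agent.R175.PTH2

universe u v

variable {T : Type u} {k : Type v} [Field k] [Fintype T] {G : MG T}

/-! ### sums over the arrows leaving `s` -/

/-- `m ↦ ∑ B (rev a) m_a` -/
def bS (X : TOb G k) (s : T) : (∀ u, G.E s u → X.X.V u) →ₗ[k] X.X.V s :=
  ∑ u, ∑ a : G.E s u, c1 X.d (G.rev a) ∘ₗ LinearMap.proj a ∘ₗ LinearMap.proj u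

theorem bS_apply (X : TOb G k) (s : T) (m : ∀ u, G.E s u → X.X.V u) :
    bS X s m = ∑ u, ∑ a : G.E s u, c1 X.d (G.rev a) (m u a) := by
  simp [bS, LinearMap.sum_apply]

/-- `m ↦ ∑ p (rev a) m_a` -/
def pS {X : TOb G k} (p : X.X ⟶ X.X) (s : T) : (∀ u, G.E s u → X.X.V u) →ₗ[k] X.X.V s :=
  ∑ u, ∑ a : G.E s u, c1 p (G.rev a) ∘ₗ LinearMap.proj a ∘ₗ LinearMap.proj u

theorem pS_apply {X : TOb G k} (p : X.X ⟶ X.X) (s : T) (m : ∀ u, G.E s u → X.X.V u) :
    pS p s m = ∑ u, ∑ a : G.E s u, c1 p (G.rev a) (m u a) := by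
  simp [pS, LinearMap.sum_apply]

theorem d_bS (X : TOb G k) (s : T) (m : ∀ u, G.E s u → X.X.V u) :
    c0 X.d s (bS X s m) = -bS X s (fun u a => c0 X.d u (m u a)) := by
  rw [bS_apply, bS_apply, map_sum, ← Finset.sum_neg_distrib]
  refine Finset.sum_congr rfl fun u _ => ?_
  rw [map_sum, ← Finset.sum_neg_distrib]
  refine Finset.sum_congr rfl fun a _ => ?_
  rw [eq_neg_iff_add_eq_zero, add_comm]
  exact dd1 X (G.rev a) (m u a)

theorem p_bS {X : TOb G k} {p : X.X ⟶ X.X} (hp : Eul X p) (s : T)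
    (m : ∀ u, G.E s u → X.X.V u) :
    c0 p s (bS X s m) = bS X s (fun u a => c0 p u (m u a)) + c0 X.d s (pS p s m) -
      pS p s (fun u a => c0 X.d u (m u a)) := by
  rw [bS_apply, bS_apply, pS_apply, pS_apply, map_sum, map_sum, ← Finset.sum_add_distrib,
    ← Finset.sum_sub_distrib]
  refine Finset.sum_congr rfl fun u _ => ?_
  rw [map_sum, map_sum, ← Finset.sum_add_distrib, ← Finset.sum_sub_distrib]
  refine Finset.sum_congr rfl fun a _ => ?_
  rw [eq_sub_iff_add_eq, add_comm, ← hp.c1]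

theorem dd2' (X : TOb G k) (s : T) (x : X.X.V s) :
    c2 X.d s (c0 X.d s x) + c0 X.d s (c2 X.d s x) + bS X s (fun _ a => c1 X.d a x) +
      ci X.d s (cj X.d s x) = 0 := by
  rw [bS_apply]
  exact dd2 X s x

theorem c2' {X : TOb G k} {p : X.X ⟶ X.X} (hp : Eul X p) (t : T) (x : X.X.V t) :
    c2 X.d t (c0 p t x) + c0 X.d t (c2 p t x) + bS X t (fun _ a => c1 p a x) +
      ci X.d t (cj p t x) =
    c2 p t (c0 X.d t x) + c0 p t (c2 X.d t x) + pS p t (fun _ a => c1 X.d a x) +
      ci p t (cj X.d t x) + c2 X.d t x := by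
  rw [bS_apply, pS_apply]
  exact hp.c2 t x

/-! ### lifts of elements of `ker a_s` -/

/-- `(x, F)` is a partial cocycle `P_s → X`. -/
structure IsLift (X : TOb G k) (s : T) (x : X.X.V s) (F : ∀ u, G.E s u → X.X.V u) : Prop where
  h0 : c0 X.d s x = 0
  hj : cj X.d s x = 0
  h1 : ∀ u (a : G.E s u), c0 X.d u (F u a) = -c1 X.d a x

section lift
variable {X : TOb G k} {s : T} {x : X.X.V s} {F : ∀ u, G.E s u → X.X.V u}

theorem IsLift.closed (h : IsLift X s x F) : c0 X.d s (c2 X.d s x + bS X s F) = 0 := by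
  have h1 := dd2' X s x
  rw [h.h0, h.hj, map_zero, map_zero, zero_add, add_zero] at h1
  have h2 : bS X s (fun u a => c0 X.d u (F u a)) = -bS X s (fun _ a => c1 X.d a x) := by
    rw [← map_neg]
    congr 1
    funext u a
    exact h.h1 u a
  rw [map_add, d_bS, h2, neg_neg]
  exact h1

/-- the secondary class -/
def R (h : IsLift X s x F) : Hv X s := mk X s (c2 X.d s x + bS X s F) h.closed

/-- the image of `b` on homology -/
def U (X : TOb G k) (s : T) : Submodule k (Hv X s) :=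
  (⨆ u, ⨆ a : G.E u s, LinearMap.range (HB X a)) ⊔ LinearMap.range (Hi X s)

theorem HB_mem_U {u : T} (a : G.E u s) (ξ : Hv X u) : HB X a ξ ∈ U X s :=
  Submodule.mem_sup_left (Submodule.mem_iSup_of_mem u (Submodule.mem_iSup_of_mem a ⟨ξ, rfl⟩))

theorem Hi_mem_U (w : X.X.W s) : Hi X s w ∈ U X s :=
  Submodule.mem_sup_right ⟨w, rfl⟩

/-- description of the elements of `U` by cycles -/
theorem mk_mem_U (m : ∀ u, G.E s u → X.X.V u) (hm : ∀ u a, c0 X.d u (m u a) = 0) (w : X.X.W s)
    (z : X.X.V s) (y : X.X.V s) (hy : c0 X.d s y = 0)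
    (h : y = bS X s m + ci X.d s w + c0 X.d s z) : mk X s y hy ∈ U X s := by
  have h0 : ∀ u (a : G.E s u), c0 X.d s (c1 X.d (G.rev a) (m u a)) = 0 := by
    intro u a
    have := dd1 X (G.rev a) (m u a)
    rw [hm, map_zero, zero_add] at this
    exact this
  have h1 : c0 X.d s (bS X s m) = 0 := by
    rw [bS_apply, map_sum]
    refine Finset.sum_eq_zero fun u _ => ?_
    rw [map_sum]
    exact Finset.sum_eq_zero fun a _ => h0 u a
  have h2 : mk X s (bS X s m) h1 = ∑ u, ∑ a : G.E s u, HB X (G.rev a) (mk X u (m u a) (hm u a)) := by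
    let z : LinearMap.ker (c0 X.d s) := ∑ u, ∑ a : G.E s u,
      (⟨c1 X.d (G.rev a) (m u a), LinearMap.mem_ker.2 (h0 u a)⟩ : LinearMap.ker (c0 X.d s))
    have hz : (z : X.X.V s) = bS X s m := by
      rw [bS_apply]
      simp only [z, Submodule.coe_sum]
    have h3 : mkL X s z = ∑ u, ∑ a : G.E s u, HB X (G.rev a) (mk X u (m u a) (hm u a)) := by
      simp only [z, map_sum]
      rfl
    rw [← h3, mkL_eq]
    exact mk_congr X _ hz.symm
  have h4 : mk X s y hy = mk X s (bS X s m) h1 + Hi X s w := by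
    rw [Hi_apply, mk_add, mk_eq_iff]
    exact ⟨z, by rw [h]; abel⟩
  rw [h4, h2]
  refine Submodule.add_mem _ (Submodule.sum_mem _ fun u _ => Submodule.sum_mem _ fun a _ => ?_)
    (Hi_mem_U w)
  exact HB_mem_U _ _

/-- conversely -/
theorem exists_of_mem_U {ξ : Hv X s} (hξ : ξ ∈ U X s) :
    ∃ m : ∀ u, G.E s u → X.X.V u, (∀ u a, c0 X.d u (m u a) = 0) ∧ ∃ w : X.X.W s,
      ∃ hy : c0 X.d s (bS X s m + ci X.d s w) = 0, ξ = mk X s (bS X s m + ci X.d s w) hy := by
  classical
  -- the set of such classes is a submodule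
  have key : ∀ (m : ∀ u, G.E s u → X.X.V u) (w : X.X.W s), (∀ u a, c0 X.d u (m u a) = 0) →
      c0 X.d s (bS X s m + ci X.d s w) = 0 := by
    intro m w hm
    have : (fun u (a : G.E s u) => c0 X.d u (m u a)) = 0 := by funext u a; exact hm u a
    rw [map_add, d_bS, ddi, this, map_zero, neg_zero, add_zero]
  let S : Submodule k (Hv X s) :=
    { carrier := {ξ | ∃ m : ∀ u, G.E s u → X.X.V u, (∀ u a, c0 X.d u (m u a) = 0) ∧
        ∃ w : X.X.W s, ∃ hy : c0 X.d s (bS X s m + ci X.d s w) = 0,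
        ξ = mk X s (bS X s m + ci X.d s w) hy}
      zero_mem' := ⟨0, fun u a => by simp, 0, by simp, by
        rw [eq_comm, mk_eq_zero]; exact ⟨0, by simp⟩⟩
      add_mem' := by
        rintro _ _ ⟨m, hm, w, hy, rfl⟩ ⟨m', hm', w', hy', rfl⟩
        refine ⟨m + m', fun u a => by simp [hm, hm'], w + w',
          key _ _ (fun u a => by simp [hm, hm']), ?_⟩
        rw [mk_add, mk_eq_iff]
        exact ⟨0, by rw [map_zero, map_add, map_add]; abel⟩
      smul_mem' := by
        rintro c _ ⟨m, hm, w, hy, rfl⟩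
        refine ⟨c • m, fun u a => by simp [hm], c • w, key _ _ (fun u a => by simp [hm]), ?_⟩
        rw [mk_smul, mk_eq_iff]
        exact ⟨0, by rw [map_zero, map_smul, map_smul, smul_add, sub_self]⟩ }
  have hle : U X s ≤ S := by
    refine sup_le (iSup_le fun u => iSup_le fun a => ?_) ?_
    · rintro _ ⟨ξ, rfl⟩
      obtain ⟨y, hy, rfl⟩ := mk_surj X ξ
      refine ⟨Pi.single u (Pi.single (G.rev a) y), ?_, 0, ?_⟩
      · intro u' a'
        by_cases h : u' = u
        · subst h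
          rw [Pi.single_eq_same]
          by_cases h' : a' = G.rev a
          · subst h'
            rw [Pi.single_eq_same]
            exact hy
          · rw [Pi.single_eq_of_ne h', map_zero]
        · rw [Pi.single_eq_of_ne h]
          exact map_zero _
      · have hb : bS X s (Pi.single u (Pi.single (G.rev a) y)) = c1 X.d a y := by
          rw [bS_apply, Finset.sum_eq_single u, Finset.sum_eq_single (G.rev a)]
          · rw [Pi.single_eq_same, Pi.single_eq_same, G.rev_rev]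
          · intro a' _ h'
            rw [Pi.single_eq_same, Pi.single_eq_of_ne h', map_zero]
          · intro h; exact absurd (Finset.mem_univ _) h
          · intro u' _ h
            rw [Pi.single_eq_of_ne h]
            exact Finset.sum_eq_zero fun a' _ => map_zero _
          · intro h; exact absurd (Finset.mem_univ _) h
        have hc : c0 X.d s (c1 X.d a y) = 0 := by
          have := dd1 X a y
          rw [hy, map_zero, zero_add] at this
          exact this
        refine ⟨by rw [map_zero, add_zero, hb]; exact hc, ?_⟩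
        rw [HB_mk, mk_eq_iff]
        exact ⟨0, by rw [hb, map_zero, map_zero, add_zero, sub_self]⟩
    · rintro _ ⟨w, rfl⟩
      refine ⟨0, fun u a => by simp, w, by rw [map_zero, zero_add]; exact ddi X s w, ?_⟩
      rw [Hi_apply, mk_eq_iff]
      exact ⟨0, by rw [map_zero, map_zero, zero_add, sub_self]⟩
  exact hle hξ

/-- (II) the secondary class is well defined modulo `U`. -/
theorem R_sub_mem {x' : X.X.V s} {F' : ∀ u, G.E s u → X.X.V u} (h : IsLift X s x F)
    (h' : IsLift X s x' F') (w : X.X.V s) (hw : c0 X.d s w = x - x') : R h - R h' ∈ U X s := by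
  rw [R, R, mk_sub]
  refine mk_mem_U (F - F' - fun _ a => c1 X.d a w) ?_ (-cj X.d s w) (-c2 X.d s w) _ _ ?_
  · intro u a
    have h1 := dd1 X a w
    have h2 : c0 X.d u (c1 X.d a w) = -c1 X.d a (c0 X.d s w) := by
      rw [eq_neg_iff_add_eq_zero, add_comm]; exact h1
    simp only [Pi.sub_apply, map_sub, h.h1, h'.h1, h2, hw]
    abel
  · have h1 := dd2' X s w
    rw [hw, map_sub] at h1
    have h2 : c2 X.d s x - c2 X.d s x' = -(c0 X.d s (c2 X.d s w)) -
        bS X s (fun _ a => c1 X.d a w) - ci X.d s (cj X.d s w) := by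
      rw [← sub_eq_zero, ← h1]; abel
    have h3 : bS X s (F - F' - fun _ a => c1 X.d a w) =
        bS X s F - bS X s F' - bS X s (fun _ a => c1 X.d a w) := by
      rw [map_sub, map_sub]
    rw [h3, map_neg, map_neg]
    calc c2 X.d s x + bS X s F - (c2 X.d s x' + bS X s F')
        = (c2 X.d s x - c2 X.d s x') + (bS X s F - bS X s F') := by abel
      _ = _ := by rw [h2]; abel

theorem IsLift.smul (h : IsLift X s x F) (c : k) : IsLift X s (c • x) (c • F) where
  h0 := by rw [map_smul, h.h0, smul_zero]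
  hj := by rw [map_smul, h.hj, smul_zero]
  h1 := by intro u a; simp only [Pi.smul_apply, map_smul, h.h1, smul_neg]

theorem R_smul (h : IsLift X s x F) (c : k) : R (h.smul c) = c • R h := by
  rw [R, R, mk_smul]
  exact mk_congr X _ (by rw [map_smul, map_smul, smul_add])

variable {p : X.X ⟶ X.X} (hp : Eul X p)
include hp

/-- (I), first half: the lift of `p x`. -/
theorem IsLift.pLift (h : IsLift X s x F) :
    IsLift X s (c0 p s x) (fun u a => c0 p u (F u a) + F u a + c1 p a x) where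
  h0 := by rw [hp.c0, h.h0, map_zero, sub_zero]
  hj := by rw [hp.cj, h.h0, map_zero]
  h1 := by
    intro u a
    have h1 := hp.c1 a x
    rw [h.h0, map_zero, zero_add] at h1
    have h2 : c0 X.d u (c1 p a x) = c0 p u (c1 X.d a x) - c1 X.d a (c0 p s x) := by
      rw [← h1]; abel
    rw [map_add, map_add, h2, hp.c0, h.h1, map_neg]
    abel

/-- (I): `A R(x,F) = R(p x, ..) - R(x,F) + Hi (p_j x)`. -/
theorem Hp_R (h : IsLift X s x F) :
    Hp hp s (R h) = R (h.pLift hp) - R h + Hi X s (cj p s x) := by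
  rw [R, R, Hp_mk, Hi_apply, mk_sub, mk_add, mk_eq_iff]
  refine ⟨c2 p s x + pS p s F, ?_⟩
  have h1 := c2' hp s x
  rw [h.h0, h.hj, map_zero, map_zero, add_zero, zero_add] at h1
  have h2 := p_bS hp s F
  have h3 : pS p s (fun u a => c0 X.d u (F u a)) = -pS p s (fun _ a => c1 X.d a x) := by
    rw [← map_neg]
    congr 1
    funext u a
    exact h.h1 u a
  rw [h3, sub_neg_eq_add] at h2
  have h4 : bS X s (fun u a => c0 p u (F u a) + F u a + c1 p a x) =
      bS X s (fun u a => c0 p u (F u a)) + bS X s F + bS X s (fun _ a => c1 p a x) := by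
    rw [← map_add, ← map_add]
    rfl
  have h5 : c0 p s (c2 X.d s x) = c2 X.d s (c0 p s x) + c0 X.d s (c2 p s x) +
      bS X s (fun _ a => c1 p a x) + ci X.d s (cj p s x) - pS p s (fun _ a => c1 X.d a x) -
      c2 X.d s x := by
    rw [h1]; abel
  rw [map_add, map_add, h2, h5, h4]
  abel

end lift

end Crest.Agent.R175.PTH2
end

-- ▼ part R175/PTK_175
section

/-!
Row 175 (S0263): (K) for rigid T-framed objects (helper175): a lowest eigenvector killed by all
`B, j` and a highest eigenfunctional killing all `B, i` at the same vertex cannot coexist.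
-/

set_option autoImplicit false
set_option linter.unusedSectionVars false
set_option linter.unusedSimpArgs false

open CategoryTheory Crest.Agent.R175.PTA Crest.Agent.R175.PTH Crest.Agent.R175.PTH2

namespace Crest.Agent.R175.PTK

universe u v

/-! ### linear algebra -/

section lin
variable {k : Type*} [Field k] {V M : Type*} [AddCommGroup V] [Module k V] [AddCommGroup M]
  [Module k M]

theorem exists_factor (f : V →ₗ[k] M) (φ : V →ₗ[k] k) (h : ∀ x, f x = 0 → φ x = 0) :
    ∃ θ : M →ₗ[k] k, ∀ x, θ (f x) = φ x := by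
  have h1 : φ ∈ (LinearMap.ker f).dualAnnihilator := by
    rw [Submodule.mem_dualAnnihilator]
    intro x hx
    exact h x hx
  rw [← LinearMap.range_dualMap_eq_dualAnnihilator_ker] at h1
  obtain ⟨θ, hθ⟩ := h1
  exact ⟨θ, fun x => LinearMap.congr_fun hθ x⟩

/-- an injective operator preserving `N` maps `N` onto `N`. -/
theorem exists_pre_mem [FiniteDimensional k V] (S : V →ₗ[k] V) (hS : ∀ x, S x = 0 → x = 0)
    (N : Submodule k V) (hN : ∀ x ∈ N, S x ∈ N) {y : V} (hy : y ∈ N) : ∃ x ∈ N, S x = y := by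
  let S' : N →ₗ[k] N := S.restrict hN
  have hinj : Function.Injective S' := by
    rw [injective_iff_map_eq_zero]
    intro x hx
    exact Subtype.ext (hS x.1 (congrArg Subtype.val hx))
  obtain ⟨x, hx⟩ := (LinearMap.injective_iff_surjective.1 hinj) ⟨y, hy⟩
  exact ⟨x.1, x.2, congrArg Subtype.val hx⟩

theorem mem_of_map_mem [FiniteDimensional k V] (S : V →ₗ[k] V) (hS : ∀ x, S x = 0 → x = 0)
    (N : Submodule k V) (hN : ∀ x ∈ N, S x ∈ N) {y : V} (hy : S y ∈ N) : y ∈ N := by
  obtain ⟨x, hx, h⟩ := exists_pre_mem S hS N hN hy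
  have : y - x = 0 := hS _ (by rw [map_sub, h, sub_self])
  rw [sub_eq_zero.1 this]
  exact hx

end lin

variable {T : Type u} {k : Type v} [Field k] [Fintype T] {G : MG T}

/-- functionals on families indexed by the arrows leaving `s` -/
theorem exists_pi (s : T) (N : T → Type*) [∀ u, AddCommGroup (N u)] [∀ u, Module k (N u)]
    (θ : (∀ u, G.E s u → N u) →ₗ[k] k) :
    ∃ g : ∀ u, G.E s u → (N u →ₗ[k] k), ∀ m, θ m = ∑ u, ∑ a : G.E s u, g u a (m u a) := by
  classical
  refine ⟨fun u a => θ ∘ₗ (LinearMap.single k (fun u => G.E s u → N u) u) ∘ₗ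
    (LinearMap.single k (fun _ : G.E s u => N u) a), fun m => ?_⟩
  have h1 : m = ∑ u, ∑ a : G.E s u, (LinearMap.single k (fun u => G.E s u → N u) u)
      (LinearMap.single k (fun _ : G.E s u => N u) a (m u a)) := by
    have h2 : ∀ u, ∑ a : G.E s u, LinearMap.single k (fun _ : G.E s u => N u) a (m u a) = m u := by
      intro u
      exact Finset.univ_sum_single (m u)
    simp only [← map_sum, h2]
    exact (Finset.univ_sum_single m).symm
  conv_lhs => rw [h1]
  simp only [map_sum, LinearMap.comp_apply]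

/-- a functional on homology extends to cochains -/
theorem exists_ext (X : TOb G k) (s : T) (η : Hv X s →ₗ[k] k) :
    ∃ η0 : X.X.V s →ₗ[k] k, ∀ x hx, η0 x = η (mk X s x hx) := by
  obtain ⟨g, hg⟩ := LinearMap.exists_extend (η ∘ₗ mkL X s)
  refine ⟨g, fun x hx => ?_⟩
  have := LinearMap.congr_fun hg ⟨x, hx⟩
  exact this

/-! ### the source `Q` -/

/-- `k` at every vertex, `d = 0` -/
abbrev Q (G : MG T) (k : Type v) [Field k] : TOb G k where
  X :=
    { V := fun _ => k
      W := fun _ => PUnit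
      gV := fun _ => LinearMap.id
      gW := fun _ => LinearMap.id
      gV_sq := fun _ => rfl
      gW_sq := fun _ => rfl }
  d := 0
  dW := fun _ => rfl
  dd := by simp
  dg := by simp

/-! ### the eigenvector gives a map `Q → X` -/

section existF
variable {X : TOb G k} {p : X.X ⟶ X.X} (hp : Eul X p) {s : T}
include hp

theorem Hp_mem_U {ξ : Hv X s} (h : ξ ∈ U X s) : Hp hp s ξ ∈ U X s := by
  have h1 : U X s ≤ (U X s).comap (Hp hp s) := by
    refine sup_le (iSup_le fun u => iSup_le fun a => ?_) ?_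
    · rintro _ ⟨ξ, rfl⟩
      rw [Submodule.mem_comap, Hp_HB]
      exact HB_mem_U _ _
    · rintro _ ⟨w, rfl⟩
      rw [Submodule.mem_comap, Hp_Hi]
      exact Submodule.zero_mem _
  exact h1 h

/-- existence of lifts -/
theorem exists_lift {x : X.X.V s} (hx : c0 X.d s x = 0)
    (hB : ∀ u (a : G.E s u), HB X a (mk X s x hx) = 0) (hj : Hj X s (mk X s x hx) = 0) :
    ∃ F, IsLift X s x F := by
  have h1 : ∀ u (a : G.E s u), ∃ y, c0 X.d u y = -c1 X.d a x := by
    intro u a
    have h2 := hB u a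
    rw [HB_mk, mk_eq_zero] at h2
    obtain ⟨y, hy⟩ := h2
    exact ⟨-y, by rw [map_neg, hy]⟩
  choose F hF using h1
  exact ⟨F, hx, hj, hF⟩

theorem R_mem_U {x : X.X.V s} {F : ∀ u, G.E s u → X.X.V u} (h : IsLift X s x F) {μ : k}
    (hμ : ∀ ξ : Hv X s, Hp hp s ξ = (μ - 1) • ξ → ξ = 0)
    (hA : Hp hp s (mk X s x h.h0) = μ • mk X s x h.h0) : R h ∈ U X s := by
  refine mem_of_map_mem (Hp hp s - (μ - 1) • LinearMap.id) (fun ξ hξ => hμ ξ ?_) (U X s)
    (fun ξ hξ => ?_) ?_
  · rw [← sub_eq_zero]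
    exact hξ
  · exact Submodule.sub_mem _ (Hp_mem_U hp hξ) (Submodule.smul_mem _ _ hξ)
  · rw [Hp_mk, mk_smul, mk_eq_iff] at hA
    obtain ⟨w, hw⟩ := hA
    have h1 := R_sub_mem (h.pLift hp) (h.smul μ) w hw
    have h2 : (Hp hp s - (μ - 1) • LinearMap.id : Hv X s →ₗ[k] Hv X s) (R h) =
        (R (h.pLift hp) - R (h.smul μ)) + Hi X s (cj p s x) := by
      rw [LinearMap.sub_apply, LinearMap.smul_apply, LinearMap.id_apply, Hp_R hp h, R_smul h, sub_smul,
        one_smul]
      abel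
    rw [h2]
    exact Submodule.add_mem _ h1 (Hi_mem_U _)

theorem existF {μ : k}
    (hμ : ∀ ξ : Hv X s, Hp hp s ξ = (μ - 1) • ξ → ξ = 0) {x : X.X.V s} (hx : c0 X.d s x = 0)
    (hA : Hp hp s (mk X s x hx) = μ • mk X s x hx)
    (hB : ∀ u (a : G.E s u), HB X a (mk X s x hx) = 0) (hj : Hj X s (mk X s x hx) = 0) :
    ∃ f : (Q G k).X ⟶ X.X, D (Q G k) X f = 0 ∧ ∀ c : k, c0 f s c = c • x := by
  classical
  obtain ⟨F, hF⟩ := exists_lift hp hx hB hj
  obtain ⟨m, hm, w, hy, hR⟩ := exists_of_mem_U (R_mem_U hp hF hμ hA)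
  rw [R, mk_eq_iff] at hR
  obtain ⟨z, hz⟩ := hR
  let f : (Q G k).X ⟶ X.X := mkH (Pi.single s (LinearMap.toSpanSingleton k _ x)) (fun _ => 0)
    (Pi.single s (fun t a => LinearMap.toSpanSingleton k _ (F t a - m t a))) (fun _ => 0)
    (Pi.single s (LinearMap.toSpanSingleton k _ (-w)))
    (Pi.single s (LinearMap.toSpanSingleton k _ (-z)))
  have f0s : c0 f s = LinearMap.toSpanSingleton k _ x :=
    Pi.single_eq_same (M := fun t => k →ₗ[k] X.X.V t) s _
  have f0 : ∀ t, t ≠ s → c0 f t = 0 := fun t ht => Pi.single_eq_of_ne ht _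
  have f1s : ∀ t (a : G.E s t), c1 f a = LinearMap.toSpanSingleton k _ (F t a - m t a) := by
    intro t a
    exact congrFun (congrFun (Pi.single_eq_same (M := fun s => ∀ t, G.E s t → (k →ₗ[k] X.X.V t)) s
      (fun t a => LinearMap.toSpanSingleton k _ (F t a - m t a))) t) a
  have f1 : ∀ s' t (a : G.E s' t), s' ≠ s → c1 f a = 0 := by
    intro s' t a hs
    exact congrFun (congrFun (Pi.single_eq_of_ne (M := fun s => ∀ t, G.E s t → (k →ₗ[k] X.X.V t))
      hs (fun t a => LinearMap.toSpanSingleton k _ (F t a - m t a))) t) a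
  have fjs : cj f s = LinearMap.toSpanSingleton k _ (-w) :=
    Pi.single_eq_same (M := fun t => k →ₗ[k] X.X.W t) s _
  have fj : ∀ t, t ≠ s → cj f t = 0 := fun t ht => Pi.single_eq_of_ne ht _
  have f2s : c2 f s = LinearMap.toSpanSingleton k _ (-z) :=
    Pi.single_eq_same (M := fun t => k →ₗ[k] X.X.V t) s _
  have f2 : ∀ t, t ≠ s → c2 f t = 0 := fun t ht => Pi.single_eq_of_ne ht _
  refine ⟨f, ?_, fun c => ?_⟩
  · have h0 : D (Q G k) X f = f ≫ X.d := by
      rw [D_apply, Limits.zero_comp, sub_zero]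
    rw [h0]
    apply hm_ext
    · intro t
      rw [c0_comp]
      by_cases ht : t = s
      · subst ht
        rw [f0s]
        apply LinearMap.ext_ring
        simp [hx]
      · rw [f0 t ht]; simp
    · intro t
      rw [cW_comp]
      have : cW f t = 0 := rfl
      rw [this]; simp
    · intro s' t a
      rw [c1_comp]
      by_cases hs : s' = s
      · subst hs
        rw [f0s, f1s]
        apply LinearMap.ext_ring
        simp [hF.h1, hm]
      · rw [f0 _ hs, f1 _ _ _ hs]; simp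
    · intro t
      rw [ci_comp]
      have : cW f t = 0 := rfl
      have h2 : ci f t = 0 := rfl
      rw [this, h2]; simp
    · intro t
      rw [cj_comp]
      by_cases ht : t = s
      · subst ht
        rw [f0s, fjs]
        apply LinearMap.ext_ring
        have h3 : cj X.d t x = 0 := hj
        simp [h3]
      · rw [f0 t ht, fj t ht]; simp
    · intro t
      rw [c2_comp]
      by_cases ht : t = s
      · subst ht
        rw [f0s, fjs, f2s]
        apply LinearMap.ext_ring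
        have h4 : ∑ u, ∑ a : G.E t u, c1 X.d (G.rev a) ∘ₗ c1 f a =
            LinearMap.toSpanSingleton k _ (bS X t (F - m)) := by
          apply LinearMap.ext_ring
          simp only [LinearMap.sum_apply, LinearMap.comp_apply, f1s,
            LinearMap.toSpanSingleton_apply, one_smul, bS_apply, Pi.sub_apply]
        rw [h4]
        simp only [LinearMap.add_apply, LinearMap.comp_apply, LinearMap.toSpanSingleton_apply,
          one_smul, map_sub, map_neg, hz, c2_zero, LinearMap.zero_apply]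
        abel
      · rw [f0 t ht, fj t ht, f2 t ht]
        have h4 : ∑ u, ∑ a : G.E t u, c1 X.d (G.rev a) ∘ₗ c1 f a = 0 := by
          refine Finset.sum_eq_zero fun u _ => Finset.sum_eq_zero fun a _ => ?_
          rw [f1 _ _ _ ht, LinearMap.comp_zero]
        rw [h4]; simp
  · rw [f0s]; rfl

end existF

/-! ### the functional gives a map `X → Q` -/

section rho
variable {X : TOb G k} {s : T}

/-- the secondary functional -/
def rho (η0 : X.X.V s →ₗ[k] k) (G1 : ∀ u, G.E u s → (X.X.V u →ₗ[k] k)) : X.X.V s →ₗ[k] k :=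
  η0 ∘ₗ c2 X.d s + ∑ u, ∑ a : G.E s u, G1 u (G.rev a) ∘ₗ c1 X.d a

theorem rho_apply (η0 : X.X.V s →ₗ[k] k) (G1 : ∀ u, G.E u s → (X.X.V u →ₗ[k] k))
    (x : X.X.V s) : rho η0 G1 x =
      η0 (c2 X.d s x) + ∑ u, ∑ a : G.E s u, G1 u (G.rev a) (c1 X.d a x) := by
  simp [rho, LinearMap.sum_apply]

variable {η : Hv X s →ₗ[k] k} {η0 : X.X.V s →ₗ[k] k} {G1 : ∀ u, G.E u s → (X.X.V u →ₗ[k] k)}

theorem eta_R (h0 : ∀ x hx, η0 x = η (mk X s x hx))
    (h1 : ∀ u (a : G.E u s) x, G1 u a (c0 X.d u x) = -η0 (c1 X.d a x))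
    {x : X.X.V s} {F : ∀ u, G.E s u → X.X.V u} (h : IsLift X s x F) :
    η (R h) = rho η0 G1 x := by
  rw [R, ← h0, map_add, bS_apply, map_sum, rho_apply]
  congr 1
  refine Finset.sum_congr rfl fun u _ => ?_
  rw [map_sum]
  refine Finset.sum_congr rfl fun a _ => ?_
  have h2 := h1 u (G.rev a) (F u a)
  rw [h.h1, map_neg, neg_inj] at h2
  exact h2.symm

theorem rho_d0 (h0 : ∀ x hx, η0 x = η (mk X s x hx))
    (h1 : ∀ u (a : G.E u s) x, G1 u a (c0 X.d u x) = -η0 (c1 X.d a x))
    (hi : ∀ w, η (Hi X s w) = 0) (w : X.X.V s) : rho η0 G1 (c0 X.d s w) = 0 := by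
  have h2 : ∀ y, η0 (c0 X.d s y) = 0 := by
    intro y
    rw [h0 _ (dd0 X s y), show mk X s (c0 X.d s y) (dd0 X s y) = 0 from
      (mk_eq_zero X _).2 ⟨y, rfl⟩, map_zero]
  have h3 : ∀ w, η0 (ci X.d s w) = 0 := by
    intro w
    rw [h0 _ (ddi X s w)]
    exact hi w
  have h4 : ∑ u, ∑ a : G.E s u, G1 u (G.rev a) (c1 X.d a (c0 X.d s w)) =
      η0 (∑ u, ∑ a : G.E s u, c1 X.d (G.rev a) (c1 X.d a w)) := by
    rw [map_sum]
    refine Finset.sum_congr rfl fun u _ => ?_
    rw [map_sum]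
    refine Finset.sum_congr rfl fun a _ => ?_
    have h5 := dd1 X a w
    rw [← neg_eq_iff_add_eq_zero.2 ((add_comm _ _).trans h5), map_neg, h1, neg_neg]
  have h6 := congrArg η0 (dd2 X s w)
  rw [map_add, map_add, map_add, h2, h3, map_zero, add_zero, add_zero] at h6
  rw [rho_apply, h4]
  exact h6

end rho

section existG
variable {X : TOb G k} {p : X.X ⟶ X.X} (hp : Eul X p) {s : T}
include hp

theorem rho_zero {η : Hv X s →ₗ[k] k} {η0 : X.X.V s →ₗ[k] k}
    {G1 : ∀ u, G.E u s → (X.X.V u →ₗ[k] k)} {ν : k}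
    (hν : ∀ ξ : Hv X s, Hp hp s ξ = (ν + 1) • ξ → ξ = 0)
    (hA : ∀ ξ, η (Hp hp s ξ) = ν * η ξ) (hi : ∀ w, η (Hi X s w) = 0)
    (h0 : ∀ x hx, η0 x = η (mk X s x hx))
    (h1 : ∀ u (a : G.E u s) x, G1 u a (c0 X.d u x) = -η0 (c1 X.d a x))
    {x : X.X.V s} (hx : c0 X.d s x = 0)
    (hB : ∀ u (a : G.E s u), HB X a (mk X s x hx) = 0) (hj : Hj X s (mk X s x hx) = 0) :
    rho η0 G1 x = 0 := by
  let Z : Submodule k (Hv X s) := (⨅ u, ⨅ a : G.E s u, LinearMap.ker (HB X a)) ⊓
    LinearMap.ker (Hj X s)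
  have hZ : ∀ ξ : Hv X s, ξ ∈ Z ↔ (∀ u (a : G.E s u), HB X a ξ = 0) ∧ Hj X s ξ = 0 := by
    intro ξ
    simp only [Z, Submodule.mem_inf, Submodule.mem_iInf, LinearMap.mem_ker]
  obtain ⟨ξ, hξ, hS⟩ := exists_pre_mem (Hp hp s - (ν + 1) • LinearMap.id)
    (fun ξ hξ => hν ξ (by rw [← sub_eq_zero]; exact hξ)) Z (fun ξ hξ => by
      rw [hZ] at hξ ⊢
      rw [LinearMap.sub_apply, LinearMap.smul_apply, LinearMap.id_apply]
      refine ⟨fun u a => ?_, ?_⟩
      · rw [map_sub, map_smul, hξ.1, smul_zero, sub_zero, ← Hp_HB, hξ.1, map_zero]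
      · rw [map_sub, map_smul, hξ.2, smul_zero, sub_zero, Hj_Hp]) ((hZ _).2 ⟨hB, hj⟩)
  rw [hZ] at hξ
  obtain ⟨x', hx', rfl⟩ := mk_surj X ξ
  obtain ⟨F, hF⟩ := exists_lift hp hx' hξ.1 hξ.2
  rw [LinearMap.sub_apply, LinearMap.smul_apply, LinearMap.id_apply, Hp_mk, mk_smul, mk_sub,
    mk_eq_iff] at hS
  obtain ⟨w, hw⟩ := hS
  have e1 : x = c0 p s x' - (ν + 1) • x' - c0 X.d s w := by rw [hw]; abel
  have e2 := hA (R hF)
  rw [Hp_R hp hF, map_add, map_sub, hi, add_zero, eta_R h0 h1 hF, eta_R h0 h1 (hF.pLift hp)] at e2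
  rw [e1, map_sub, map_sub, map_smul, rho_d0 h0 h1 hi, sub_zero, smul_eq_mul]
  linear_combination e2

theorem existG {ν : k} (hν : ∀ ξ : Hv X s, Hp hp s ξ = (ν + 1) • ξ → ξ = 0)
    (η : Hv X s →ₗ[k] k) (hA : ∀ ξ, η (Hp hp s ξ) = ν * η ξ)
    (hB : ∀ u (a : G.E u s) ξ, η (HB X a ξ) = 0) (hi : ∀ w, η (Hi X s w) = 0) :
    ∃ g : X.X ⟶ (Q G k).X, X.d ≫ g = 0 ∧ ∀ x hx, (c0 g s x : k) = η (mk X s x hx) := by
  classical
  obtain ⟨η0, h0⟩ := exists_ext X s η
  have h00 : ∀ y, η0 (c0 X.d s y) = 0 := by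
    intro y
    rw [h0 _ (dd0 X s y), show mk X s (c0 X.d s y) (dd0 X s y) = 0 from
      (mk_eq_zero X _).2 ⟨y, rfl⟩, map_zero]
  have h0i : ∀ w, η0 (ci X.d s w) = 0 := by
    intro w
    rw [h0 _ (ddi X s w)]
    exact hi w
  have hG1 : ∀ u (a : G.E u s), ∃ g : X.X.V u →ₗ[k] k, ∀ x, g (c0 X.d u x) = -η0 (c1 X.d a x) := by
    intro u a
    refine exists_factor (c0 X.d u) (-(η0 ∘ₗ c1 X.d a)) (fun x hx => ?_)
    rw [LinearMap.neg_apply, LinearMap.comp_apply, neg_eq_zero]
    have h3 : c0 X.d s (c1 X.d a x) = 0 := by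
      have := dd1 X a x
      rw [hx, map_zero, zero_add] at this
      exact this
    rw [h0 _ h3]
    exact hB u a (mk X u x hx)
  choose G1 h1 using hG1
  have hrho : ∀ x, c0 X.d s x = 0 → cj X.d s x = 0 →
      (∀ u (a : G.E s u), c1 X.d a x ∈ LinearMap.range (c0 X.d u)) → rho η0 G1 x = 0 := by
    intro x hx hj h
    refine rho_zero hp hν hA hi h0 h1 hx (fun u a => ?_) hj
    obtain ⟨y, hy⟩ := h u a
    rw [HB_mk, mk_eq_zero]
    exact ⟨y, hy⟩
  let Ψ : X.X.V s →ₗ[k] (∀ u, G.E s u → X.X.V u ⧸ LinearMap.range (c0 X.d u)) ×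
      X.X.W s × X.X.V s :=
    LinearMap.prod (LinearMap.pi fun u => LinearMap.pi fun a =>
      (Submodule.mkQ (LinearMap.range (c0 X.d u))) ∘ₗ c1 X.d a)
      (LinearMap.prod (cj X.d s) (c0 X.d s))
  obtain ⟨θ, hθ⟩ := exists_factor Ψ (rho η0 G1) (fun x hx => by
    have e1 := congrArg Prod.fst hx
    have e2 := congrArg (fun q => q.2.1) hx
    have e3 := congrArg (fun q => q.2.2) hx
    refine hrho x e3 e2 (fun u a => ?_)
    have e4 := congrFun (congrFun e1 u) a
    exact (Submodule.Quotient.mk_eq_zero _).1 e4)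
  obtain ⟨g1, hg1⟩ := exists_pi s (fun u => X.X.V u ⧸ LinearMap.range (c0 X.d u))
    (θ ∘ₗ LinearMap.inl k _ _)
  let gW : X.X.W s →ₗ[k] k := θ ∘ₗ LinearMap.inr k _ _ ∘ₗ LinearMap.inl k _ _
  let g2 : X.X.V s →ₗ[k] k := θ ∘ₗ LinearMap.inr k _ _ ∘ₗ LinearMap.inr k _ _
  have hsum : ∀ x, rho η0 G1 x = (∑ u, ∑ a : G.E s u,
      g1 u a (Submodule.mkQ (LinearMap.range (c0 X.d u)) (c1 X.d a x))) + gW (cj X.d s x) +
        g2 (c0 X.d s x) := by
    intro x
    rw [← hθ]
    have e1 : Ψ x = LinearMap.inl k _ _ (Ψ x).1 + LinearMap.inr k _ _ (LinearMap.inl k _ _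
        (cj X.d s x)) + LinearMap.inr k _ _ (LinearMap.inr k _ _ (c0 X.d s x)) := by
      refine Prod.ext ?_ (Prod.ext ?_ ?_)
      · simp
      · simp [Ψ]
      · simp [Ψ]
    rw [e1, map_add, map_add]
    have e2 := hg1 (Ψ x).1
    rw [LinearMap.comp_apply] at e2
    rw [e2]
    rfl
  let G1' : ∀ u, G.E u s → (X.X.V u →ₗ[k] k) := fun u a =>
    G1 u a - g1 u (G.rev a) ∘ₗ Submodule.mkQ (LinearMap.range (c0 X.d u))
  have h1' : ∀ u (a : G.E u s) x, G1' u a (c0 X.d u x) + η0 (c1 X.d a x) = 0 := by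
    intro u a x
    have e : Submodule.mkQ (LinearMap.range (c0 X.d u)) (c0 X.d u x) = 0 :=
      (Submodule.Quotient.mk_eq_zero _).2 ⟨x, rfl⟩
    rw [LinearMap.sub_apply, LinearMap.comp_apply, e, map_zero, sub_zero, h1]
    abel
  have h2' : ∀ x, η0 (c2 X.d s x) + (∑ u, ∑ a : G.E s u, G1' u (G.rev a) (c1 X.d a x)) -
      gW (cj X.d s x) - g2 (c0 X.d s x) = 0 := by
    intro x
    have e := hsum x
    rw [rho_apply] at e
    have e3 : ∑ u, ∑ a : G.E s u, G1' u (G.rev a) (c1 X.d a x) =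
        (∑ u, ∑ a : G.E s u, G1 u (G.rev a) (c1 X.d a x)) - ∑ u, ∑ a : G.E s u,
          g1 u a (Submodule.mkQ (LinearMap.range (c0 X.d u)) (c1 X.d a x)) := by
      rw [← Finset.sum_sub_distrib]
      refine Finset.sum_congr rfl fun u _ => ?_
      rw [← Finset.sum_sub_distrib]
      refine Finset.sum_congr rfl fun a _ => ?_
      simp only [G1', LinearMap.sub_apply, LinearMap.comp_apply, G.rev_rev]
    rw [e3]
    linear_combination e
  let g : X.X ⟶ (Q G k).X := mkH (Pi.single s η0) (fun _ => 0)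
    (fun t u a => Pi.single (M := fun u => G.E t u → (X.X.V t →ₗ[k] k)) s (fun a => G1' t a) u a)
    (Pi.single s (-gW)) (fun _ => 0) (Pi.single s (-g2))
  have g0s : c0 g s = η0 := Pi.single_eq_same (M := fun t => X.X.V t →ₗ[k] k) s _
  have g0 : ∀ t, t ≠ s → c0 g t = 0 := fun t ht => Pi.single_eq_of_ne ht _
  have g1s : ∀ t (a : G.E t s), c1 g a = G1' t a := by
    intro t a
    exact congrFun (Pi.single_eq_same (M := fun u => G.E t u → (X.X.V t →ₗ[k] k)) s
      (fun a => G1' t a)) a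
  have g1' : ∀ t u (a : G.E t u), u ≠ s → c1 g a = 0 := by
    intro t u a hu
    exact congrFun (Pi.single_eq_of_ne (M := fun u => G.E t u → (X.X.V t →ₗ[k] k)) hu
      (fun a => G1' t a)) a
  have gis : ci g s = -gW := Pi.single_eq_same (M := fun t => X.X.W t →ₗ[k] k) s _
  have gi : ∀ t, t ≠ s → ci g t = 0 := fun t ht => Pi.single_eq_of_ne ht _
  have g2s : c2 g s = -g2 := Pi.single_eq_same (M := fun t => X.X.V t →ₗ[k] k) s _
  have g2' : ∀ t, t ≠ s → c2 g t = 0 := fun t ht => Pi.single_eq_of_ne ht _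
  refine ⟨g, ?_, fun x hx => ?_⟩
  · apply hm_ext
    · intro t
      rw [c0_comp]
      by_cases ht : t = s
      · subst ht
        rw [g0s]
        ext x
        exact h00 x
      · rw [g0 t ht]; simp
    · intro t
      rw [cW_comp]
      have : cW g t = 0 := rfl
      rw [this]; simp
    · intro t u a
      rw [c1_comp]
      by_cases hu : u = s
      · subst hu
        rw [g0s, g1s]
        ext x
        exact h1' t a x
      · rw [g0 _ hu, g1' _ _ _ hu]; simp
    · intro t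
      rw [ci_comp]
      by_cases ht : t = s
      · subst ht
        rw [g0s, gis, X.dW]
        ext x
        simp only [LinearMap.comp_zero, zero_add, LinearMap.comp_apply]
        exact h0i x
      · rw [g0 t ht, gi t ht]; simp
    · intro t
      exact Subsingleton.elim _ _
    · intro t
      rw [c2_comp]
      by_cases ht : t = s
      · subst ht
        rw [g0s, gis, g2s]
        ext x
        have h4 : (∑ u, ∑ a : G.E t u, c1 g (G.rev a) ∘ₗ c1 X.d a) x =
            ∑ u, ∑ a : G.E t u, G1' u (G.rev a) (c1 X.d a x) := by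
          simp only [LinearMap.sum_apply, LinearMap.comp_apply, g1s]
        have h5 := h2' x
        simp only [LinearMap.add_apply, LinearMap.comp_apply, h4, LinearMap.neg_apply, c2_zero,
          LinearMap.zero_apply]
        linear_combination h5
      · rw [g0 t ht, gi t ht, g2' t ht]
        have h4 : ∑ u, ∑ a : G.E t u, c1 g (G.rev a) ∘ₗ c1 X.d a = 0 := by
          refine Finset.sum_eq_zero fun u _ => Finset.sum_eq_zero fun a _ => ?_
          rw [g1' _ _ _ ht, LinearMap.zero_comp]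
        rw [h4]; simp
  · rw [g0s]
    exact h0 x hx

end existG

/-! ### (K) -/

theorem gV_cycle (X : TOb G k) (s : T) {x : X.X.V s} (hx : c0 X.d s x = 0) :
    c0 X.d s (X.X.gV s x) = 0 := by
  have h1 : c0 (bar X.d) s x = c0 (-X.d) s x := by rw [TOb.bar_d]
  rw [c0_bar, c0_neg, LinearMap.neg_apply, hx, neg_zero, LinearMap.comp_apply,
    LinearMap.comp_apply] at h1
  have h2 := LinearMap.congr_fun (X.X.gV_sq s) (c0 X.d s (X.X.gV s x))
  rw [LinearMap.comp_apply, h1, map_zero] at h2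
  exact h2.symm


end Crest.Agent.R175.PTK
end

-- ▼ part R175/Euler_184
section

/-!
Row 175 (S0263), task 512 (helper184): the Euler inequality, without parity and without positions.

For all T-framed objects `X Y`, with `d_t = dim H(V_t, d₀)` and `λ_t = dim W_t`,

  `∑_{s,t} #E(s,t) d_s(X) d_t(Y) + ∑_t λ_t(X) d_t(Y) + ∑_t d_t(X) λ_t(Y)`
    `≤ hT X Y + 2 ∑_t d_t(X) d_t(Y)`.

Proof: pass to minimal models; there the differential raises the length, so its rank is at most
`dim (length 0) + dim (length 2)`.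
-/

set_option autoImplicit false
set_option linter.unusedSectionVars false

open CategoryTheory Crest.Agent.R175.PTA Crest.Agent.R175.PTH

namespace Crest.Agent.R175.Euler_184

universe u v

variable {T : Type u} {k : Type v} [Field k] [Fintype T] {G : MG T}

/-! ### Minimal objects -/

/-- the length 0 part, as a linear map -/
def P0 (X Y : Gob G k) : Cp X Y →ₗ[k] (∀ t, X.V t →ₗ[k] Y.V t) where
  toFun f := Cp.f0 f
  map_add' _ _ := rfl
  map_smul' _ _ := rfl

/-- the length 2 part, as a linear map -/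
def P2 (X Y : Gob G k) : Cp X Y →ₗ[k] (∀ t, X.V t →ₗ[k] Y.V t) where
  toFun f := Cp.f2 f
  map_add' _ _ := rfl
  map_smul' _ _ := rfl

theorem ker_le (X Y : FObj G k) :
    LinearMap.ker ((P0 X.X Y.X).prod (P2 X.X Y.X ∘ₗ FD X Y)) ≤ LinearMap.ker (FD X Y) := by
  intro f hf
  obtain ⟨h0, h2⟩ : P0 X.X Y.X f = 0 ∧ P2 X.X Y.X (FD X Y f) = 0 :=
    Prod.mk_eq_zero.1 (LinearMap.mem_ker.1 hf)
  have h0' : ∀ t, Cp.f0 f t = 0 := fun t => congrFun h0 t
  have h2' : ∀ t, Cp.f2 (FD X Y f) t = 0 := fun t => congrFun h2 t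
  rw [LinearMap.mem_ker]
  apply Cp.ext'
  · intro t; rw [f0_FD]; rfl
  · intro s t a; rw [f1_FD, h0', h0']; simp
  · intro t; rw [fi_FD, h0']; simp
  · intro t; rw [fj_FD, h0']; simp
  · intro t; rw [h2']; rfl

theorem finrank_lin (X Y : Gob G k) : Module.finrank k (∀ t, X.V t →ₗ[k] Y.V t) =
    ∑ t, Module.finrank k (X.V t) * Module.finrank k (Y.V t) := by
  rw [Module.finrank_pi_fintype]
  exact Finset.sum_congr rfl fun t _ => Module.finrank_linearMap k k _ _

theorem finrank_Cp (X Y : Gob G k) : Module.finrank k (Cp X Y) =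
    2 * (∑ t, Module.finrank k (X.V t) * Module.finrank k (Y.V t)) +
    ((∑ s, ∑ t, Fintype.card (G.E s t) * (Module.finrank k (X.V s) * Module.finrank k (Y.V t))) +
      (∑ t, Module.finrank k (X.W t) * Module.finrank k (Y.V t)) +
      ∑ t, Module.finrank k (X.V t) * Module.finrank k (Y.W t)) := by
  have e : Module.finrank k (Cp X Y) = Module.finrank k
    ((∀ t, X.V t →ₗ[k] Y.V t) × (∀ s t, G.E s t → (X.V s →ₗ[k] Y.V t)) ×
      (∀ t, X.W t →ₗ[k] Y.V t) × (∀ t, X.V t →ₗ[k] Y.W t) × (∀ t, X.V t →ₗ[k] Y.V t)) := rfl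
  have h1 : Module.finrank k (∀ s t, G.E s t → (X.V s →ₗ[k] Y.V t)) =
      ∑ s, ∑ t, Fintype.card (G.E s t) *
        (Module.finrank k (X.V s) * Module.finrank k (Y.V t)) := by
    rw [Module.finrank_pi_fintype]
    refine Finset.sum_congr rfl fun s _ => ?_
    rw [Module.finrank_pi_fintype]
    refine Finset.sum_congr rfl fun t _ => ?_
    rw [Module.finrank_pi_fintype, Finset.sum_const, Finset.card_univ, smul_eq_mul,
      Module.finrank_linearMap]
  have h2 : Module.finrank k (∀ t, X.W t →ₗ[k] Y.V t) =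
      ∑ t, Module.finrank k (X.W t) * Module.finrank k (Y.V t) := by
    rw [Module.finrank_pi_fintype]
    exact Finset.sum_congr rfl fun t _ => Module.finrank_linearMap k k _ _
  have h3 : Module.finrank k (∀ t, X.V t →ₗ[k] Y.W t) =
      ∑ t, Module.finrank k (X.V t) * Module.finrank k (Y.W t) := by
    rw [Module.finrank_pi_fintype]
    exact Finset.sum_congr rfl fun t _ => Module.finrank_linearMap k k _ _
  rw [e, Module.finrank_prod, Module.finrank_prod, Module.finrank_prod, Module.finrank_prod,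
    h1, h2, h3, finrank_lin]
  omega

/-- the Euler inequality for minimal objects -/
theorem eulerF (X Y : FObj G k) :
    (∑ s, ∑ t, Fintype.card (G.E s t) *
        (Module.finrank k (X.X.V s) * Module.finrank k (Y.X.V t))) +
      (∑ t, Module.finrank k (X.X.W t) * Module.finrank k (Y.X.V t)) +
      (∑ t, Module.finrank k (X.X.V t) * Module.finrank k (Y.X.W t)) ≤
    hT X.toTOb Y.toTOb +
      2 * ∑ t, Module.finrank k (X.X.V t) * Module.finrank k (Y.X.V t) := by
  rw [hT_eq_FD]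
  have h1 := hd_add_two_range (D := FD X Y) (FD_FD X Y)
  have h2 := LinearMap.finrank_range_add_finrank_ker (FD X Y)
  have h3 := LinearMap.finrank_range_add_finrank_ker
    ((P0 X.X Y.X).prod (P2 X.X Y.X ∘ₗ FD X Y))
  have h4 := Submodule.finrank_mono (ker_le X Y)
  have h5 := Submodule.finrank_le (LinearMap.range ((P0 X.X Y.X).prod (P2 X.X Y.X ∘ₗ FD X Y)))
  rw [Module.finrank_prod, finrank_lin] at h5
  have h6 := finrank_Cp X.X Y.X
  omega

/-! ### All objects -/

theorem finrank_Hv (X : TOb G k) (t : T) : Module.finrank k (Hv X t) = hd (c0 X.d t) := by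
  have h1 : Module.finrank k (Hv X t) = Module.finrank k (LinearMap.ker (c0 X.d t) ⧸ bdr X t) :=
    rfl
  have h2 := Submodule.finrank_quotient_add_finrank (bdr X t)
  have h3 : LinearMap.range (c0 X.d t) ≤ LinearMap.ker (c0 X.d t) :=
    range_le_ker fun x => dd0 X t x
  have h4 : Module.finrank k (bdr X t) = Module.finrank k (LinearMap.range (c0 X.d t)) :=
    (Submodule.comapSubtypeEquivOfLe h3).finrank_eq
  rw [h1, hd]
  omega

/-- `dim H(V_t, d₀)` is the multiplicity `dT X t`. -/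
theorem finrank_Hv_dT [DecidableEq T] (X : TOb G k) (t : T) :
    Module.finrank k (Hv X t) = dT X t := by
  rw [finrank_Hv, Res_988.dT_hd]

theorem finrank_Hv_F (F : FObj G k) (t : T) :
    Module.finrank k (Hv F.toTOb t) = Module.finrank k (F.X.V t) := by
  rw [finrank_Hv, FObj.c0_dm, hd_zero]

theorem finrank_Hv_iso {X Y : TOb G k} (h : HIso X Y) (t : T) :
    Module.finrank k (Hv X t) = Module.finrank k (Hv Y t) := by
  classical
  rw [finrank_Hv_dT, finrank_Hv_dT, h.dT_eq t]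

/-- **Euler inequality** for all T-framed objects. -/
theorem euler (h2 : (2 : k) ≠ 0) (X Y : TOb G k) :
    (∑ s, ∑ t, Fintype.card (G.E s t) *
        (Module.finrank k (Hv X s) * Module.finrank k (Hv Y t))) +
      (∑ t, lam X t * Module.finrank k (Hv Y t)) +
      (∑ t, Module.finrank k (Hv X t) * lam Y t) ≤
    hT X Y + 2 * ∑ t, Module.finrank k (Hv X t) * Module.finrank k (Hv Y t) := by
  obtain ⟨F, hF⟩ := exists_min h2 X
  obtain ⟨F', hF'⟩ := exists_min h2 Y
  have e := eulerF F F'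
  rw [← hF.hT_left, ← hF'.hT_right] at e
  simp only [finrank_Hv_iso hF, finrank_Hv_iso hF', finrank_Hv_F, hF.lam_eq, hF'.lam_eq]
  exact e


end Crest.Agent.R175.Euler_184
end

-- ▼ part R175/GlueD1_180
section

/-!
Row 175 (S0263), block (D) for all labels (helper180): (K) for pairs and the Euler inequality for
weighted families of pairwise orthogonal objects, in the language of `QM`.
-/

set_option autoImplicit false
set_option linter.unusedSectionVars false
set_option linter.unusedVariables false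

open CategoryTheory Crest.Agent.R175.PTA

namespace Crest.Agent.R175.GlueD1_180

open Crest.Agent.R175.PTH (Hv Hp HB Hi Hj mk mk_surj mk_eq_zero mk_congr mk_smul Hmap Hmap_mk
  Hmap_eq closed_comp exact_of_hT)
open Crest.Agent.R175.PTQ_4 Crest.Agent.R175.FmE_180 Crest.Agent.R175.DomF_180
open Crest.Agent.R175.PTK (Q)

universe u v

variable {T : Type u} {k : Type v} [Field k] [Fintype T] {G : MG T}

/-- **(K) for pairs**: a functional on `X` and a vector of `X'` (`hT X X' = 0`) at the same vertex. -/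
theorem no_both2 {X X' : TOb G k} {p : X.X ⟶ X.X} {p' : X'.X ⟶ X'.X} (hp : PTH.Eul X p)
    (hp' : PTH.Eul X' p') (hX : hT X X' = 0) {s : T} {μ ν : k}
    (hμ : ∀ ξ : Hv X' s, Hp hp' s ξ = (μ - 1) • ξ → ξ = 0)
    (hν : ∀ ξ : Hv X s, Hp hp s ξ = (ν + 1) • ξ → ξ = 0)
    {ξ : Hv X' s} (hξ : ξ ≠ 0) (hAξ : Hp hp' s ξ = μ • ξ)
    (hBξ : ∀ u (a : G.E s u), HB X' a ξ = 0) (hjξ : Hj X' s ξ = 0)
    {η : Hv X s →ₗ[k] k} (hη : η ≠ 0) (hAη : ∀ ξ, η (Hp hp s ξ) = ν * η ξ)
    (hBη : ∀ u (a : G.E u s) ξ, η (HB X a ξ) = 0) (hiη : ∀ w, η (Hi X s w) = 0) : False := by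
  obtain ⟨x, hx, rfl⟩ := mk_surj X' ξ
  obtain ⟨f, hf, hf0⟩ := PTK.existF hp' hμ hx hAξ hBξ hjξ
  obtain ⟨g, hg, hg0⟩ := PTK.existG hp hν η hAη hBη hiη
  have hg' : D X (Q G k) (bar g) = 0 := by
    rw [D_apply, bar_bar, hg, Limits.comp_zero, sub_zero]
  have hcl : D X X' (bar g ≫ f) = 0 := closed_comp hg' hf
  have hmem : bar g ≫ f ∈ Cs X.X X'.X := by
    intro t
    rw [cW_comp]
    have : cW (bar g) t = 0 := Subsingleton.elim _ _
    rw [this, LinearMap.comp_zero]
  obtain ⟨K, -, hK⟩ := exact_of_hT hX hmem hcl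
  obtain ⟨ξ', hξ'⟩ : ∃ ξ', η ξ' ≠ 0 := by
    by_contra hcon
    push Not at hcon
    exact hη (LinearMap.ext hcon)
  obtain ⟨x', hx', rfl⟩ := mk_surj X ξ'
  have h1 := Hmap_eq hcl (map_zero (D X X')) (by rw [sub_zero, hK]) s
    (mk X s (X.X.gV s x') (PTK.gV_cycle X s hx'))
  have h2 : c0 (bar g ≫ f) s (X.X.gV s x') = η (mk X s x' hx') • x := by
    rw [c0_comp, LinearMap.comp_apply, c0_bar]
    change c0 f s (c0 g s (X.X.gV s (X.X.gV s x'))) = _
    have h3 : X.X.gV s (X.X.gV s x') = x' := LinearMap.congr_fun (X.X.gV_sq s) x'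
    rw [h3, hf0, hg0 x' hx']
  have h4 : mk X' s (η (mk X s x' hx') • x) (by rw [map_smul, hx, smul_zero]) = 0 := by
    rw [Hmap_mk, Hmap_mk] at h1
    rw [mk_congr X' _ h2] at h1
    rw [h1, mk_eq_zero]
    exact ⟨0, by simp⟩
  rw [← mk_smul X' hx] at h4
  rcases smul_eq_zero.1 h4 with h | h
  · exact hξ' h
  · exact hξ h

/-- (K) for pairs, in the language of `QM` -/
theorem K_pair {X X' : TOb G k} {p : X.X ⟶ X.X} {p' : X'.X ⟶ X'.X} (hp : PTH.Eul X p)
    (hp' : PTH.Eul X' p') (hX : hT X X' = 0) {ht : k → ℤ} (ht_add : ∀ μ, ht (μ + 1) = ht μ + 1)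
    {t : T} {a b : ℤ} (hlo : lo ht (qmOf X' hp') a) (hhi : hi ht (qmOf X hp) b)
    (hc : cb ht (qmOf X hp) t b) : ¬ ka ht (qmOf X' hp') t a := by
  rintro ⟨μ, hμ, ξ, hξ, hAξ, hkξ⟩
  obtain ⟨ν, hν, η, hη, hAη, hBη⟩ := hc
  rw [QM.mem_kerA] at hkξ
  refine no_both2 hp hp' hX (s := t) (μ := μ) (ν := ν) ?_ ?_ hξ hAξ hkξ.1 hkξ.2 hη hAη ?_ ?_
  · intro ξ' h'
    by_contra h0
    have h1 := hlo t (μ - 1) ξ' h0 h'
    have h2 := ht_add (μ - 1)
    rw [sub_add_cancel] at h2
    omega
  · intro ξ' h'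
    by_contra h0
    have h1 := hhi t (ν + 1) ξ' h0 h'
    have h2 := ht_add ν
    omega
  · intro u c ξ'
    exact hBη _ (QM.B_mem_imB (X := qmOf X hp) c ξ')
  · intro w
    exact hBη _ (QM.i_mem_imB (X := qmOf X hp) w)

/-! ### the Euler inequality for families -/

/-- the bilinear form -/
noncomputable def bil (G : MG T) (x y : (T → ℝ) × (T → ℝ)) : ℝ :=
  (∑ s, ∑ t, (Fintype.card (G.E s t) : ℝ) * (x.1 s * y.1 t)) + (∑ t, x.2 t * y.1 t) +
    (∑ t, x.1 t * y.2 t) - 2 * ∑ t, x.1 t * y.1 t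

/-- the bilinear form -/
noncomputable def bilL (G : MG T) : ((T → ℝ) × (T → ℝ)) →ₗ[ℝ] ((T → ℝ) × (T → ℝ)) →ₗ[ℝ] ℝ :=
  LinearMap.mk₂ ℝ (bil G)
    (fun x x' y => by
      simp only [bil, Prod.fst_add, Prod.snd_add, Pi.add_apply, add_mul, mul_add,
        Finset.sum_add_distrib]
      ring)
    (fun c x y => by
      simp only [bil, Prod.smul_fst, Prod.smul_snd, Pi.smul_apply, smul_eq_mul, Finset.mul_sum,
        mul_add, mul_sub]
      congr 1
      · congr 1
        · congr 1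
          · exact Finset.sum_congr rfl fun s _ => Finset.sum_congr rfl fun t _ => by ring
          · exact Finset.sum_congr rfl fun t _ => by ring
        · exact Finset.sum_congr rfl fun t _ => by ring
      · exact Finset.sum_congr rfl fun t _ => by ring)
    (fun x y y' => by
      simp only [bil, Prod.fst_add, Prod.snd_add, Pi.add_apply, mul_add,
        Finset.sum_add_distrib]
      ring)
    (fun c x y => by
      simp only [bil, Prod.smul_fst, Prod.smul_snd, Pi.smul_apply, smul_eq_mul, Finset.mul_sum,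
        mul_add, mul_sub]
      congr 1
      · congr 1
        · congr 1
          · exact Finset.sum_congr rfl fun s _ => Finset.sum_congr rfl fun t _ => by ring
          · exact Finset.sum_congr rfl fun t _ => by ring
        · exact Finset.sum_congr rfl fun t _ => by ring
      · exact Finset.sum_congr rfl fun t _ => by ring)

theorem bil_sum {I : Type*} [Fintype I] (ω : I → ℝ) (x : I → (T → ℝ) × (T → ℝ)) :
    bil G (∑ i, ω i • x i) (∑ i, ω i • x i) = ∑ i, ∑ j, ω i * (ω j * bil G (x i) (x j)) := by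
  have h1 : ∀ y, bilL G (∑ i, ω i • x i) y = ∑ i, ω i * bilL G (x i) y := by
    intro y
    rw [map_sum, LinearMap.sum_apply]
    exact Finset.sum_congr rfl fun i _ => by rw [map_smul, LinearMap.smul_apply, smul_eq_mul]
  change bilL G (∑ i, ω i • x i) (∑ i, ω i • x i) = _
  rw [h1]
  refine Finset.sum_congr rfl fun i _ => ?_
  rw [map_sum, Finset.mul_sum]
  refine Finset.sum_congr rfl fun j _ => ?_
  rw [map_smul, smul_eq_mul]
  rfl

theorem bil_le (h2 : (2 : k) ≠ 0) (X Y : TOb G k) (h : hT X Y = 0) :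
    bil G (fun t => (Module.finrank k (Hv X t) : ℝ), fun t => (lam X t : ℝ))
      (fun t => (Module.finrank k (Hv Y t) : ℝ), fun t => (lam Y t : ℝ)) ≤ 0 := by
  have e := Euler_184.euler h2 X Y
  rw [h, zero_add] at e
  have e' : ((∑ s, ∑ t, (Fintype.card (G.E s t) : ℝ) *
        ((Module.finrank k (Hv X s) : ℝ) * (Module.finrank k (Hv Y t) : ℝ)))) +
      (∑ t, (lam X t : ℝ) * (Module.finrank k (Hv Y t) : ℝ)) +
      (∑ t, (Module.finrank k (Hv X t) : ℝ) * (lam Y t : ℝ)) ≤
    2 * ∑ t, (Module.finrank k (Hv X t) : ℝ) * (Module.finrank k (Hv Y t) : ℝ) := by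
    exact_mod_cast e
  unfold bil
  linarith

/-- field `euler` of `DomF` -/
theorem euler_fam (h2 : (2 : k) ≠ 0) {I : Type*} [Fintype I] {ω : I → ℝ} (hω : ∀ i, 0 < ω i)
    (X : I → TOb G k) (p : ∀ i, (X i).X ⟶ (X i).X) (hp : ∀ i, PTH.Eul (X i) (p i))
    (hX : ∀ i j, hT (X i) (X j) = 0) :
    ∑ t, dW ω (fun i => qmOf (X i) (hp i)) t *
      (muW ω (fun i => qmOf (X i) (hp i)) t + lW ω (fun i => qmOf (X i) (hp i)) t) ≤ 0 := by
  let x : I → (T → ℝ) × (T → ℝ) := fun i =>
    (fun t => (Module.finrank k (Hv (X i) t) : ℝ), fun t => (lam (X i) t : ℝ))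
  have h1 : bil G (∑ i, ω i • x i) (∑ i, ω i • x i) ≤ 0 := by
    rw [bil_sum]
    refine Finset.sum_nonpos fun i _ => Finset.sum_nonpos fun j _ => ?_
    exact mul_nonpos_of_nonneg_of_nonpos (hω i).le
      (mul_nonpos_of_nonneg_of_nonpos (hω j).le (bil_le h2 _ _ (hX i j)))
  have hd : ∀ t, (∑ i, ω i • x i).1 t = dW ω (fun i => qmOf (X i) (hp i)) t := by
    intro t
    rw [Prod.fst_sum, Finset.sum_apply]
    rfl
  have hl : ∀ t, (∑ i, ω i • x i).2 t = lW ω (fun i => qmOf (X i) (hp i)) t := by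
    intro t
    rw [Prod.snd_sum, Finset.sum_apply]
    rfl
  unfold bil at h1
  simp only [hd, hl] at h1
  refine le_trans (le_of_eq ?_) h1
  simp only [muW_eq]
  rw [Finset.mul_sum, ← Finset.sum_add_distrib, ← Finset.sum_add_distrib,
    ← Finset.sum_sub_distrib]
  refine Finset.sum_congr rfl fun t _ => ?_
  rw [mul_add, mul_sub, mul_add, Finset.mul_sum]
  have : ∑ u, dW ω (fun i => qmOf (X i) (hp i)) t *
        ((Fintype.card (G.E t u) : ℝ) * dW ω (fun i => qmOf (X i) (hp i)) u) =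
        ∑ u, (Fintype.card (G.E t u) : ℝ) *
        (dW ω (fun i => qmOf (X i) (hp i)) t * dW ω (fun i => qmOf (X i) (hp i)) u) :=
      Finset.sum_congr rfl fun u _ => by ring
  rw [this]
  ring

end Crest.Agent.R175.GlueD1_180
end

-- ▼ part R175/SecA_180
section

/-!
Row 175 (S0263), helper180: positive sections of a finite Coxeter group from Matsumoto's theorem, for
the generators of the Artin group and for their inverses.
-/

set_option autoImplicit false

namespace Crest.Agent.R175.SecA_180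

open Crest.GroupTheory Crest.Agent.R175.DDef_145 Crest.Agent.R175.PTD1_175 CoxeterSystem

variable {S W : Type*} [Group W] {M : CoxeterMatrix S} {cs : CoxeterSystem M W}

theorem prod_inv_eq {G : Type*} [Group G] (f : S → G) (l : List S) :
    (l.map fun s => (f s)⁻¹).prod = ((l.reverse.map f).prod)⁻¹ := by
  induction l with
  | nil => simp
  | cons a l ih => simp [ih]

theorem braid_inv {G : Type*} [Group G] {f : S → G} (h : Braid M f) :
    Braid M (fun s => (f s)⁻¹) := by
  intro s t hst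
  have h1 := h s t hst
  rw [prod_inv_eq, prod_inv_eq, GMon_145.reverse_alt, GMon_145.reverse_alt]
  split_ifs
  · rw [h1]
  · rw [h1]

/-- the section defined by reduced words -/
noncomputable def secOf (cs : CoxeterSystem M W) {A : Type*} [Group A] {f : S → A}
    (h : Braid M f) : Sec cs f where
  pos w := ((cs.exists_isReduced w).choose.map f).prod
  pos_one := by
    have h1 := (cs.exists_isReduced 1).choose_spec
    have h2 : (cs.exists_isReduced 1).choose = [] := by
      rw [← List.length_eq_zero_iff, ← h1.1.eq, ← h1.2, cs.length_one]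
    rw [h2]
    simp
  pos_mul s w hl := by
    have h1 := (cs.exists_isReduced w).choose_spec
    have h2 := (cs.exists_isReduced (cs.simple s * w)).choose_spec
    have h3 : cs.IsReduced (s :: (cs.exists_isReduced w).choose) := by
      rw [CoxeterSystem.IsReduced, cs.wordProd_cons, ← h1.2, hl, List.length_cons, ← h1.1.eq,
        ← h1.2]
    rw [← List.prod_cons, ← List.map_cons]
    refine WB_527.w4 h _ _ h2.1 h3 ?_
    rw [cs.wordProd_cons, ← h1.2, ← h2.2]

/-- the section of the Artin group -/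
noncomputable def secG (cs : CoxeterSystem M W) : Sec cs (artinGen M) := secOf cs (braid_artinGen M)

/-- the section for the inverses -/
noncomputable def secI (cs : CoxeterSystem M W) : Sec cs (fun s => (artinGen M s)⁻¹) :=
  secOf cs (braid_inv (braid_artinGen M))

end Crest.Agent.R175.SecA_180
end

-- ▼ part R175/GlueAdd_445
section

/-!
# R175: members of an orthogonal family of minimisers: `F_m X_j ∈ add (X_{j'} : j' ~ j)`
-/

set_option autoImplicit false
set_option linter.unusedSectionVars false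
set_option linter.unusedVariables false

open scoped Classical
open CategoryTheory Module LinearMap

namespace Crest.Agent.R175.GlueAdd_445

open Crest.Agent.R175.PTA Crest.Agent.R175.GlB_445 Crest.Agent.R175.GluePT_445
open Crest.Agent.R175.FmD_180
open Crest.Agent.R175.KS_303 (Dec)
open Crest.Agent.R175.KSb_303 (Z0 IsZ Ind Sm SumD)

universe u v

variable {T : Type u} {G : MG T} {k : Type v} [Field k] [Fintype T]

theorem cl_of_z0 {X Y : TOb G k} {f : X.X ⟶ Y.X} (h : f ∈ Z0 X Y) : Cl X Y (1 : k) f :=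
  ⟨by ring, by rw [h.1, one_smul], h.2⟩

theorem add_of_isZ {P : TOb G k → Prop} {X : TOb G k} (h : IsZ X) : Add P X := by
  refine ⟨{
    ι := Empty
    fin := inferInstance
    X := fun x => x.elim
    f := fun x => x.elim
    g := fun x => x.elim
    ε := fun x => x.elim
    s := 0
    hP := fun x => x.elim
    hf := fun x => x.elim
    hg := fun x => x.elim
    eq := ?_ }⟩
  have h' : 𝟙 X.X = 0 := h
  simp [h']

theorem add_of_sm {P : TOb G k → Prop} {X A B : TOb G k} (h : Sm X A B) (hA : Add P A)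
    (hB : Add P B) : Add P X := by
  obtain ⟨S⟩ := h
  obtain ⟨a⟩ := hA
  obtain ⟨b⟩ := hB
  refine Add.trans (P := fun W => W = A ∨ W = B) ⟨{
    ι := Bool
    fin := inferInstance
    X := fun x => match x with
      | true => A
      | false => B
    f := fun x => match x with
      | true => S.p1
      | false => S.p2
    g := fun x => match x with
      | true => S.i1
      | false => S.i2
    ε := fun _ => 1
    s := 0
    hP := fun x => match x with
      | true => Or.inl rfl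
      | false => Or.inr rfl
    hf := fun x => match x with
      | true => cl_of_z0 S.hp1
      | false => cl_of_z0 S.hp2
    hg := fun x => match x with
      | true => cl_of_z0 S.hi1
      | false => cl_of_z0 S.hi2
    eq := ?_ }⟩ ?_
  · rw [Fintype.sum_bool, map_zero, add_zero]
    exact S.sum
  · rintro W (rfl | rfl)
    · exact ⟨a⟩
    · exact ⟨b⟩

theorem add_of_dec {X : TOb G k} {l : List (TOb G k)} (h : Dec IsZ Ind Sm X l) :
    ∀ P : TOb G k → Prop, (∀ Y ∈ l, P Y) → Add P X := by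
  induction h with
  | zero h => intro P _; exact add_of_isZ h
  | @ind X h => intro P hP; exact Add.of (hP X (List.mem_singleton.2 rfl))
  | @sum X A B l m h h1 h2 ih1 ih2 =>
    intro P hP
    exact add_of_sm h (ih1 P fun Y hY => hP Y (List.mem_append.2 (Or.inl hY)))
      (ih2 P fun Y hY => hP Y (List.mem_append.2 (Or.inr hY)))

theorem add_of_isSum {X : TOb G k} {l : List (TOb G k)} (h : IsSum X l) (P : TOb G k → Prop)
    (hP : ∀ Y ∈ l, P Y) : Add P X := by
  obtain ⟨X', h1, h2, h3⟩ := h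
  exact Add.hiso (add_of_dec h2 P hP) h1

/-- a shift of `X` is in `add X` -/
theorem add_sh (X : TOb G k) : Add (fun W => W = X) (Shift_936.sh X) := by
  refine ⟨{
    ι := Unit
    fin := inferInstance
    X := fun _ => X
    f := fun _ => Shift_936.th' X
    g := fun _ => Shift_936.th X
    ε := fun _ => -1
    s := 0
    hP := fun _ => rfl
    hf := fun _ => ?_
    hg := fun _ => ?_
    eq := ?_ }⟩
  · exact ⟨by ring, by rw [Shift_936.bar_th']; simp, Shift_936.D_th' X⟩
  · exact ⟨by ring, by rw [Shift_936.bar_th]; simp, Shift_936.D_th X⟩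
  · simp

theorem add_of_sim {X Y : TOb G k} (h : Sim X Y) : Add (fun W => W = Y) X := by
  rcases h with h | h
  · exact Add.of_hiso h rfl
  · exact Add.hiso (add_sh Y) h

section unf

open Crest.Agent.R175.Unf_109 Crest.Agent.R175.UG_27 Crest.Agent.R175.GlueData_445

variable {S : Type} [Fintype S] {M : CoxeterMatrix S} {Λ : Finset ℕ}

/-- **`F_m X_j` is a homotopy retract of a sum of shifts of the neighbours** -/
theorem OFam.add {hΛ : ∀ m ∈ Λ, 4 ≤ m} {φ : ℝ →+* k} {s : S} {X : J Λ → TOb (UG M Λ) k}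
    (h : OFam hΛ φ s X) (m : Λ) (j : J Λ) :
    Add (fun W => ∃ j', nb Λ m j j' ∧ W = X j') (FF M φ hΛ m (X j)) := by
  obtain ⟨l, h1, h2, h3⟩ := h.sum m j
  refine Add.trans (P := fun W => ∃ j', nb Λ m j j' ∧ Sim W (X j')) (add_of_isSum h1 _ ?_) ?_
  · intro Z hZ
    obtain ⟨j', h4, -, -, h5⟩ := h2 Z hZ
    exact ⟨j', h4, h5⟩
  · rintro W ⟨j', h4, h5⟩
    exact Add.mono (add_of_sim h5) fun V hV => ⟨j', h4, hV⟩

end unf

end Crest.Agent.R175.GlueAdd_445
end

-- ▼ part R175/GlueE_445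
section

/-!
# R175: an object with one frame and no projectives is the frame, up to a shift
-/

set_option autoImplicit false
set_option linter.unusedSectionVars false
set_option linter.unusedVariables false

open CategoryTheory Module LinearMap

namespace Crest.Agent.R175.GlueE_445

open Crest.Agent.R175.PTA Crest.Agent.R175.GlB_445 Crest.Agent.R175.GluePT_445

universe u v

variable {T : Type u} {G : MG T} {k : Type v} [Field k] [Fintype T] [DecidableEq T]

theorem sim_frm_of_dT (h2 : (2 : k) ≠ 0) {X : TOb G k} {a : T} (hd : ∀ t, dT X t = 0)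
    (hl : lam X = Pi.single a 1) : Sim X (frm G k a) := by
  obtain ⟨F, hF⟩ := PTA.exists_min h2 X
  have hV : ∀ t, Subsingleton (F.X.V t) := by
    intro t
    have h1 : dT F.toTOb t = 0 := by
      rw [← hd t]
      exact (hF.hT_left _).symm
    rw [Unfr_988.dT_eq] at h1
    exact finrank_zero_iff.1 h1
  have hlF : ∀ t, finrank k (F.X.W t) = (Pi.single a 1 : T → ℕ) t := by
    intro t
    rw [← hl]
    exact (hF.lam_eq t).symm
  have hW : ∀ t, t ≠ a → Subsingleton (F.X.W t) := by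
    intro t ht
    refine (finrank_zero_iff (R := k)).1 ?_
    rw [hlF, Pi.single_eq_of_ne ht]
  have hd0 : F.toTOb.d = 0 := by
    apply hm_ext
    · intro t
      rfl
    · intro t
      exact F.toTOb.dW t
    · intro s t e
      have := hV s
      exact LinearMap.ext fun x => by rw [Subsingleton.elim x 0, map_zero, map_zero]
    · intro t
      have := hV t
      exact LinearMap.ext fun x => Subsingleton.elim _ _
    · intro t
      have := hV t
      exact LinearMap.ext fun x => by rw [Subsingleton.elim x 0, map_zero, map_zero]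
    · intro t
      have := hV t
      exact LinearMap.ext fun x => Subsingleton.elim _ _
  have h1 : finrank k (F.X.W a) = 1 := by rw [hlF, Pi.single_eq_same]
  obtain ⟨c, hc⟩ := GlA_445.one_dim_smul h1 (F.X.gW a)
  have hcc : c * c = 1 := by
    obtain ⟨v, hv0, hv⟩ := finrank_eq_one_iff'.1 h1
    have h3 : (F.X.gW a ∘ₗ F.X.gW a) v = v := by rw [F.X.gW_sq]; rfl
    rw [LinearMap.comp_apply, hc, hc, smul_smul] at h3
    have h4 : (c * c - 1) • v = 0 := by rw [sub_smul, one_smul, h3, sub_self]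
    rcases smul_eq_zero.1 h4 with h5 | h5
    · exact sub_eq_zero.1 h5
    · exact absurd h5 hv0
  have hc' : c = 1 ∨ c = -1 := mul_self_eq_one_iff.1 hcc
  rcases hc' with rfl | rfl
  · left
    refine hF.trans (FmS_303.hiso_free_of F.toTOb hd0 ?_ ?_ _ _ ?_ ?_)
    · intro t
      have := hV t
      exact LinearMap.ext fun x => Subsingleton.elim _ _
    · intro t
      by_cases ht : t = a
      · subst ht
        exact LinearMap.ext fun x => by
          have := hc x
          rw [one_smul] at this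
          exact this
      · have := hW t ht
        exact LinearMap.ext fun x => Subsingleton.elim _ _
    · intro t
      exact finrank_zero_iff.2 (hV t)
    · exact hlF
  · right
    have h6 : HIso (Shift_936.sh F.toTOb) (frm G k a) := by
      refine FmS_303.hiso_free_of (Shift_936.sh F.toTOb) ?_ ?_ ?_ _ _ ?_ ?_
      · rw [Shift_936.sh_d, hd0]
        simp
      · intro t
        have := hV t
        exact LinearMap.ext fun x => Subsingleton.elim (α := F.X.V t) _ _
      · intro t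
        by_cases ht : t = a
        · subst ht
          refine LinearMap.ext fun x => ?_
          have := hc x
          change -(F.X.gW t x) = x
          rw [this, neg_one_smul, neg_neg]
        · have := hW t ht
          exact LinearMap.ext fun x => Subsingleton.elim (α := F.X.W t) _ _
      · intro t
        exact finrank_zero_iff.2 (hV t)
      · exact hlF
    exact hF.trans ((Shift_936.HIso_sh_sh _).symm.trans (Shift_936.HIso_sh h6))

end Crest.Agent.R175.GlueE_445
end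

-- ▼ part R175/GlueH_445
section

/-!
# R175: `Orb` (PTC_505) from the vanishing of all multiplicities at some point of the orbit
-/

set_option autoImplicit false
set_option linter.unusedSectionVars false
set_option linter.unusedVariables false

open scoped Classical
open CategoryTheory Module

namespace Crest.Agent.R175.GlueH_445

open Crest.GroupTheory Crest.Agent.R175.Num_774 Crest.Agent.R175.CatNum_427
open Crest.Agent.R175.Unf_109 Crest.Agent.R175.Lev_788 Crest.Agent.R175.UG_27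
open Crest.Agent.R175.PTA Crest.Agent.R175.GluePT_445 Crest.Agent.R175.GlB_445
open Crest.Agent.R175.Fm_27 Crest.Agent.R175.Pos_418 Crest.Agent.R175.FmC_180
open Crest.Agent.R175.GlueData_445 Crest.Agent.R175.PTC_505

universe v w

variable {S : Type} [Fintype S] {M : CoxeterMatrix S} {Λ : Finset ℕ} {k : Type v} [Field k]

/-- the two shifts -/
theorem hiso_sh_sh {T : Type*} [Fintype T] {G : MG T} (X : TOb G k) :
    HIso (Shift_936.sh X) (PTA.sh X) := by
  refine ⟨{
    p := Shift_936.th' X ≫ toSh X.X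
    q := ofSh X.X ≫ Shift_936.th X
    s := 0
    r := 0
    bp := ?_
    bq := ?_
    Dp := ?_
    Dq := ?_
    pq := ?_
    qp := ?_ }⟩
  · rw [bar_comp, Shift_936.bar_th', bar_toSh, Preadditive.neg_comp, Preadditive.comp_neg, neg_neg]
  · rw [bar_comp, Shift_936.bar_th, bar_ofSh, Preadditive.neg_comp, Preadditive.comp_neg, neg_neg]
  · rw [D_comp, Shift_936.D_th', D_toSh, Limits.comp_zero, Limits.zero_comp, add_zero]
  · rw [D_comp, Shift_936.D_th, D_ofSh, Limits.comp_zero, Limits.zero_comp, add_zero]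
  · rw [map_zero, add_zero, Category.assoc, toSh_ofSh_assoc, Shift_936.th'_th]
  · rw [map_zero, add_zero, Category.assoc, Shift_936.th_th'_assoc, ofSh_toSh]

theorem lam_act_all (L : Lev.{w} Λ M) (r : ArtinGroup M) (x : L.Ob) : L.lam (r • x) = L.lam x := by
  revert x
  refine GlueE_505.gen_ind (fun r => ∀ x : L.Ob, L.lam (r • x) = L.lam x) (by simp) ?_ ?_ r
  · intro s r ih x
    rw [mul_smul, ih, L.lam_act]
  · intro s r ih x
    rw [mul_smul, ih]
    have := L.lam_act s ((artinGen M s)⁻¹ • x)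
    rw [smul_inv_smul] at this
    exact this.symm

/-- **`Orb` from `H = 0`** -/
theorem orb_of_zero {hΛ : ∀ m ∈ Λ, 4 ≤ m} {φ : ℝ →+* k} {L : Lev.{w} Λ M} (R : Rep hΛ φ L)
    (hq : ∀ X Y, HIso X Y → R.q X = R.q Y)
    (HD : ∀ (s : S) (X : J Λ → TOb (UG M Λ) k), OFam hΛ φ s X →
      ∃ (r : ArtinGroup M) (j : J Λ), ∀ t i, L.d (r • R.q (X j)) t i = 0) : Orb R := by
  intro s X hX
  obtain ⟨r, j, h1⟩ := HD s X hX
  refine ⟨r, j, ?_⟩
  obtain ⟨Z, hZ⟩ := R.surj (r • R.q (X j))
  have h2 : (2 : k) ≠ 0 := by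
    rw [← map_ofNat φ 2, Ne, map_eq_zero]
    norm_num
  have hd : ∀ a, dT Z a = 0 := by
    rintro ⟨t, i⟩
    have h3 := h1 t i
    rw [← hZ] at h3
    unfold Lev.d at h3
    rw [R.fr, L.h_symm, R.h] at h3
    unfold dT
    convert h3 using 2
  have hl : PTA.lam Z = Pi.single (s, j) 1 := by
    rw [← hX.lam_eq j]
    funext ⟨t, i⟩
    rw [← R.lam Z t i, hZ, lam_act_all, R.lam]
  have h4 := GlueE_445.sim_frm_of_dT h2 hd (a := (s, j)) (by convert hl)
  rw [← hZ]
  rcases h4 with h4 | h4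
  · left
    exact hq _ _ (by convert h4)
  · right
    refine hq _ _ ((?_ : HIso Z (Shift_936.sh (frm (UG M Λ) k (s, j)))).trans (hiso_sh_sh _))
    convert h4

end Crest.Agent.R175.GlueH_445
end

-- ▼ part R175/GlueD_180
section

/-!
Row 175 (S0263), block (D) for all labels (helper180): the instance of `DomF` over the classes.

`ActD A`: the action `A : ActI M h4` commutes with the parity shift and its generators act by exact
triangles (`TD`).  `zero_of_fam`: every orthogonal `F`-stable family of classes `x` with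
`lam (x j) = e_(s,j)` has a translate with `H = 0`.
-/

set_option autoImplicit false
set_option linter.unusedSectionVars false
set_option linter.unusedVariables false

open scoped Classical
open CategoryTheory

namespace Crest.Agent.R175.GlueD_180

open Crest.GroupTheory Crest.Agent.R175.PTA Crest.Agent.R175.Cls_133 Crest.Agent.R175.UG_27
open Crest.Agent.R175.Unf_109 Crest.Agent.R175.Fm_27 Crest.Agent.R175.FmCls_303
open Crest.Agent.R175.Lev_788 Crest.Agent.R175.LevC_788 Crest.Agent.R175.FmC_180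
open Crest.Agent.R175.FmD_180 (Add Ex ex_of_hT)
open Crest.Agent.R175.FmE_180 Crest.Agent.R175.GlueD1_180 Crest.Agent.R175.DomF_180
open Crest.Agent.R175.PTQ_4 Crest.Agent.R175.PTD1_175 Crest.Agent.R175.SecA_180
open Crest.Agent.R175.GlueData_445 Crest.Agent.R175.GluePT_445 Crest.Agent.R175.GlueAdd_445
open Crest.Agent.R175.Pos_418
open Crest.Agent.R175.KS_303 (Dec)
open Crest.Agent.R175.KSb_303 (IsZ Ind Sm SumD)

/-! ### classes and additive closures -/

section cls

universe u v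

variable {T : Type u} {G : MG T} {k : Type v} [Field k] [Fintype T]

/-- the class of a direct sum -/
theorem cls_sm {X Y Z : TOb G k} (h : Sm X Y Z) : (⟦X⟧ : Cls G k) = ⟦Y⟧ + ⟦Z⟧ := by
  obtain ⟨S⟩ := h
  refine Quotient.sound (AddF_61.hiso_dsum S.i1 S.i2 S.p1 S.p2 S.hi1.1 S.hi2.1 S.hp1.1 S.hp2.1
    S.hi1.2 S.hi2.2 S.hp1.2 S.hp2.2 S.i1p1 ?_ ?_ S.i2p2 S.sum)
  · have h1 := congrArg (fun f => S.i1 ≫ f ≫ S.p2) S.sum
    simp only [Preadditive.add_comp, Preadditive.comp_add, Category.assoc, Category.id_comp,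
      S.i2p2, Category.comp_id] at h1
    rw [← Category.assoc, S.i1p1, Category.id_comp] at h1
    exact add_eq_left.1 h1
  · have h1 := congrArg (fun f => S.i2 ≫ f ≫ S.p1) S.sum
    simp only [Preadditive.add_comp, Preadditive.comp_add, Category.assoc, Category.id_comp,
      S.i1p1, Category.comp_id] at h1
    have h2 : S.i2 ≫ S.p2 ≫ S.i2 ≫ S.p1 = S.i2 ≫ S.p1 := by
      rw [← Category.assoc, S.i2p2, Category.id_comp]
    rw [h2] at h1
    exact add_eq_left.1 h1

theorem cls_isZ {X : TOb G k} (h : IsZ X) : (⟦X⟧ : Cls G k) = 0 :=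
  Quotient.sound (AddF_61.hiso_zero h AddF_61.id_free_zero)

/-- the class of a sum of a list -/
theorem cls_isSum [DecidableEq T] {X : TOb G k} {l : List (TOb G k)} (h : IsSum X l) :
    (⟦X⟧ : Cls G k) = (l.map fun Y => (⟦Y⟧ : Cls G k)).sum := by
  obtain ⟨X', h1, h2, -⟩ := h
  rw [show (⟦X⟧ : Cls G k) = ⟦X'⟧ from Quotient.sound h1]
  exact h2.map_sum (fun Y => (⟦Y⟧ : Cls G k)) (fun _ hz => cls_isZ hz) (fun _ _ _ hs => cls_sm hs)

/-- additive closure from classes -/
theorem add_of_cls {P : TOb G k → Prop} : ∀ (l : List (Cls G k)) (Z : TOb G k),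
    (⟦Z⟧ : Cls G k) = l.sum → (∀ z ∈ l, ∃ W : TOb G k, (⟦W⟧ : Cls G k) = z ∧ Add P W) → Add P Z
  | [], Z, h, _ => by
    have h1 : HIso Z (free G k 0 0) := Quotient.exact h
    exact Add.hiso (add_of_isZ AddF_61.id_free_zero) h1
  | z :: l, Z, h, hl => by
    obtain ⟨W, hW, hPW⟩ := hl z (List.mem_cons_self ..)
    obtain ⟨W', hW'⟩ := Quotient.exists_rep l.sum
    have h1 : Add P W' := add_of_cls l W' hW' fun z' hz' => hl z' (List.mem_cons_of_mem _ hz')
    have h2 : HIso Z (dsum W W') := by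
      refine Quotient.exact (h.trans ?_)
      rw [List.sum_cons, ← hW, ← hW']
      rfl
    refine Add.hiso (add_of_sm (A := W) (B := W') ⟨?_⟩ hPW h1) h2
    exact
      { i1 := inl W.X W'.X
        p1 := fst W.X W'.X
        i2 := inr W.X W'.X
        p2 := snd W.X W'.X
        hi1 := ⟨bar_inl _ _, AddF_61.D_inl W W'⟩
        hp1 := ⟨bar_fst _ _, AddF_61.D_fst W W'⟩
        hi2 := ⟨bar_inr _ _, AddF_61.D_inr W W'⟩
        hp2 := ⟨bar_snd _ _, AddF_61.D_snd W W'⟩
        i1p1 := inl_fst _ _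
        i2p2 := inr_snd _ _
        sum := sum_one _ _ }

end cls

/-! ### families of classes -/

section fam

variable {S : Type} [Fintype S] {M : CoxeterMatrix S} {Λ : Finset ℕ} {h4 : ∀ m ∈ Λ, 4 ≤ m}
  [DistribMulAction (ArtinGroup M) (Cls (UG M Λ) ℂ)]

variable (M) in
/-- properties of the action of the generators -/
structure ActP {Λ : Finset ℕ} (h4 : ∀ m ∈ Λ, 4 ≤ m)
    [DistribMulAction (ArtinGroup M) (Cls (UG M Λ) ℂ)] : Prop where
  h_act : ∀ (s : S) (x y : Cls (UG M Λ) ℂ), hC (artinGen M s • x) (artinGen M s • y) = hC x y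
  lam_act : ∀ (s : S) (x : Cls (UG M Λ) ℂ) (a), lamC (artinGen M s • x) a = lamC x a
  F_act : ∀ (m : ℕ) (hm : m ∈ Λ) (s : S) (x : Cls (UG M Λ) ℂ),
    FmC M h4 hm (artinGen M s • x) = artinGen M s • FmC M h4 hm x
  sh_act : ∀ (s : S) (x : Cls (UG M Λ) ℂ), shC (artinGen M s • x) = artinGen M s • shC x
  td : ∀ (s : S) (X Y : TOb (UG M Λ) ℂ) (p : X.X ⟶ X.X) (q : Y.X ⟶ Y.X) (hp : PTH.Eul X p)
    (hq : PTH.Eul Y q), hT X X = 0 → (⟦Y⟧ : Cls (UG M Λ) ℂ) = artinGen M s • ⟦X⟧ →
    Nonempty (TD {a : S × J Λ | a.1 = s} (qmOf X hp) (qmOf Y hq))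

theorem ActP.h_all (hA : ActP M h4) (r : ArtinGroup M) (x y : Cls (UG M Λ) ℂ) :
    hC (r • x) (r • y) = hC x y := by
  revert x y
  refine GlueE_505.gen_ind (fun r => ∀ x y : Cls (UG M Λ) ℂ, hC (r • x) (r • y) = hC x y)
    (by simp) ?_ ?_ r
  · intro s r ih x y
    rw [mul_smul, mul_smul, ih, hA.h_act]
  · intro s r ih x y
    rw [mul_smul, mul_smul, ih]
    have := hA.h_act s ((artinGen M s)⁻¹ • x) ((artinGen M s)⁻¹ • y)
    rw [smul_inv_smul, smul_inv_smul] at this
    exact this.symm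

theorem ActP.lam_all (hA : ActP M h4) (r : ArtinGroup M) (x : Cls (UG M Λ) ℂ) (a : S × J Λ) :
    lamC (r • x) a = lamC x a := by
  revert x
  refine GlueE_505.gen_ind (fun r => ∀ x : Cls (UG M Λ) ℂ, lamC (r • x) a = lamC x a)
    (by simp) ?_ ?_ r
  · intro s r ih x
    rw [mul_smul, ih, hA.lam_act]
  · intro s r ih x
    rw [mul_smul, ih]
    have := hA.lam_act s ((artinGen M s)⁻¹ • x) a
    rw [smul_inv_smul] at this
    exact this.symm

theorem ActP.F_all (hA : ActP M h4) {m : ℕ} (hm : m ∈ Λ) (r : ArtinGroup M)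
    (x : Cls (UG M Λ) ℂ) : FmC M h4 hm (r • x) = r • FmC M h4 hm x := by
  revert x
  refine GlueE_505.gen_ind (fun r => ∀ x : Cls (UG M Λ) ℂ,
    FmC M h4 hm (r • x) = r • FmC M h4 hm x) (by simp) ?_ ?_ r
  · intro s r ih x
    rw [mul_smul, ih, hA.F_act, mul_smul]
  · intro s r ih x
    rw [mul_smul, ih, mul_smul]
    congr 1
    have := hA.F_act m hm s ((artinGen M s)⁻¹ • x)
    rw [smul_inv_smul] at this
    rw [this, inv_smul_smul]

theorem ActP.sh_all (hA : ActP M h4) (r : ArtinGroup M)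
    (x : Cls (UG M Λ) ℂ) : shC (r • x) = r • shC x := by
  revert x
  refine GlueE_505.gen_ind (fun r => ∀ x : Cls (UG M Λ) ℂ, shC (r • x) = r • shC x)
    (by simp) ?_ ?_ r
  · intro s r ih x
    rw [mul_smul, ih, hA.sh_act, mul_smul]
  · intro s r ih x
    rw [mul_smul, ih, mul_smul]
    congr 1
    have := hA.sh_act s ((artinGen M s)⁻¹ • x)
    rw [smul_inv_smul] at this
    rw [this, inv_smul_smul]

variable (M) in
/-- an orthogonal `F`-stable family of single-framed classes -/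
structure CFam {Λ : Finset ℕ} (h4 : ∀ m ∈ Λ, 4 ≤ m) (s0 : S) (x : J Λ → Cls (UG M Λ) ℂ) :
    Prop where
  lam : ∀ j a, lamC (x j) a = if a = (s0, j) then 1 else 0
  orth : ∀ i j, hC (x i) (x j) = 0
  F : ∀ m (hm : m ∈ Λ) i, ∃ l : List (Cls (UG M Λ) ℂ), FmC M h4 hm (x i) = l.sum ∧
    ∀ z ∈ l, ∃ j, z = x j ∨ z = shC (x j)
  num : ∀ m (hm : m ∈ Λ) i y, hC (FmC M h4 hm (x i)) y = ∑ j ∈ nbs Λ m i, hC (x j) y

theorem CFam.smul (hA : ActP M h4) {s0 : S} {x : J Λ → Cls (UG M Λ) ℂ} (hx : CFam M h4 s0 x)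
    (r : ArtinGroup M) : CFam M h4 s0 (fun i => r • x i) where
  lam j a := by rw [hA.lam_all, hx.lam]
  orth i j := by rw [hA.h_all, hx.orth]
  F m hm i := by
    obtain ⟨l, h1, h2⟩ := hx.F m hm i
    refine ⟨l.map fun z => r • z, ?_, ?_⟩
    · rw [hA.F_all, h1, List.smul_sum]
    · intro z hz
      obtain ⟨w, hw, rfl⟩ := List.mem_map.1 hz
      obtain ⟨j, h3 | h3⟩ := h2 w hw
      · exact ⟨j, Or.inl (by rw [h3])⟩
      · exact ⟨j, Or.inr (by rw [h3, hA.sh_all])⟩
  num m hm i y := by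
    rw [hA.F_all]
    have h1 : y = r • (r⁻¹ • y) := by rw [smul_inv_smul]
    rw [h1, hA.h_all, hx.num]
    exact Finset.sum_congr rfl fun j _ => by rw [hA.h_all]

theorem FmC_fr {m : ℕ} (hm : m ∈ Λ) (s : S) (j : J Λ) :
    FmC M h4 hm (frC (UG M Λ) ℂ (s, j)) = ∑ j' ∈ nbs Λ m j, frC (UG M Λ) ℂ (s, j') := by
  unfold FmC
  rw [FC_fr_of _ (s, j) (nb2 Λ m s j) (fun b => by rw [mem_nb2]; rfl), sum_nb2]

theorem hT_out (x y : Cls (UG M Λ) ℂ) : hT x.out y.out = hC x y := by
  conv_rhs => rw [← Quotient.out_eq x, ← Quotient.out_eq y]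
  rfl

theorem lam_out (x : Cls (UG M Λ) ℂ) (a : S × J Λ) : PTA.lam x.out a = lamC x a := by
  conv_rhs => rw [← Quotient.out_eq x]
  rfl

theorem fin_out (x : Cls (UG M Λ) ℂ) (a : S × J Λ) :
    Module.finrank ℂ (PTH.Hv x.out a) = hC x (frC (UG M Λ) ℂ a) := by
  rw [Euler_184.finrank_Hv_dT]
  conv_rhs => rw [← Quotient.out_eq x]
  rfl

/-! ### the members of a family -/

section mem

variable {s0 : S} {x : J Λ → Cls (UG M Λ) ℂ} (hx : CFam M h4 s0 x)
  {p : ∀ i, (x i).out.X ⟶ (x i).out.X} (hp : ∀ i, PTH.Eul (x i).out (p i))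

include hx in
theorem CFam.hT_out (i j : J Λ) : hT (x i).out (x j).out = 0 := by
  rw [GlueD_180.hT_out, hx.orth]

include hx in
theorem CFam.dW_eq (s : S) (j : J Λ) :
    dW (wt Λ) (fun i => qmOf (x i).out (hp i)) (s, j)
      = wt Λ j * dW (wt Λ) (fun i => qmOf (x i).out (hp i)) (s, j0 h4) := by
  have h1 : ∀ j, dW (wt Λ) (fun i => qmOf (x i).out (hp i)) (s, j)
      = ∑ i, wt Λ i * (hC (x i) (frC (UG M Λ) ℂ (s, j)) : ℝ) := by
    intro j
    refine Finset.sum_congr rfl fun i _ => ?_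
    rw [← fin_out]
    rfl
  rw [h1, h1]
  refine pf h4 (fun j i => (hC (x i) (frC (UG M Λ) ℂ (s, j)) : ℝ)) (fun m hm j i => ?_) j
  rw [nsum_eq_nbs, nsum_eq_nbs]
  have h2 : ∑ j' ∈ nbs Λ m j, hC (x i) (frC (UG M Λ) ℂ (s, j'))
      = ∑ i' ∈ nbs Λ m i, hC (x i') (frC (UG M Λ) ℂ (s, j)) := by
    rw [← hC_sum_right, ← FmC_fr (h4 := h4) hm, ← hx.num m hm]
    unfold FmC
    exact (hC_FC _ _ _).symm
  exact_mod_cast h2

include hx in
theorem CFam.lW_eq (a : S × J Λ) :
    lW (wt Λ) (fun i => qmOf (x i).out (hp i)) a = (if a.1 = s0 then 1 else 0) * wt Λ a.2 := by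
  have h1 : lW (wt Λ) (fun i => qmOf (x i).out (hp i)) a
      = ∑ i, wt Λ i * (lamC (x i) a : ℝ) := by
    refine Finset.sum_congr rfl fun i _ => ?_
    rw [← lam_out]
    rfl
  rw [h1]
  simp only [hx.lam]
  rw [Finset.sum_eq_single a.2]
  · by_cases h : a.1 = s0
    · have : a = (s0, a.2) := Prod.ext h rfl
      rw [if_pos h, if_pos this]; simp
    · have : ¬ a = (s0, a.2) := fun h' => h (by rw [h'])
      rw [if_neg h, if_neg this]; simp
  · intro i _ hi
    have : ¬ a = (s0, i) := fun h' => hi (by rw [h'])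
    rw [if_neg this]; simp
  · intro h; exact absurd (Finset.mem_univ _) h

include hx in
theorem CFam.muW_eq' (hΛ : Good M Λ) (a : S × J Λ) :
    muW (wt Λ) (fun i => qmOf (x i).out (hp i)) a = ((if a.1 = s0 then 1 else 0)
      - mv (Cr M) (fun s => dW (wt Λ) (fun i => qmOf (x i).out (hp i)) (s, j0 h4)) a.1)
        * wt Λ a.2 := by
  have h1 := GlU_505.mv_hwt hΛ
    (fun s => dW (wt Λ) (fun i => qmOf (x i).out (hp i)) (s, j0 h4)) a
  have h2 : ∀ b : S × J Λ, dW (wt Λ) (fun i => qmOf (x i).out (hp i)) b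
      = dW (wt Λ) (fun i => qmOf (x i).out (hp i)) (b.1, j0 h4) * wt Λ b.2 := by
    intro b
    rw [mul_comm]
    exact hx.dW_eq hp b.1 b.2
  rw [muW_eq, hx.lW_eq hp, sub_mul, ← h1, h2 a]
  have h3 : ∑ u, (Fintype.card ((UG M Λ).E a u) : ℝ)
        * dW (wt Λ) (fun i => qmOf (x i).out (hp i)) u
      = ∑ u, (Fintype.card ((UG M Λ).E a u) : ℝ) *
        (dW (wt Λ) (fun i => qmOf (x i).out (hp i)) (u.1, j0 h4) * wt Λ u.2) :=
    Finset.sum_congr rfl fun u _ => by rw [← h2 u]
  rw [h3]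
  ring

include hx in
theorem CFam.add {m : ℕ} (hm : m ∈ Λ) (i : J Λ) :
    Add (fun Z => ∃ j, Z = (x j).out)
      ((Fm M (algebraMap ℝ ℂ) hm ((by norm_num : 2 ≤ 4).trans (h4 m hm))).toFDat.tob
        (x i).out) := by
  obtain ⟨l, h1, h2⟩ := hx.F m hm i
  refine add_of_cls l _ ?_ ?_
  · rw [← h1]
    conv_rhs => rw [← Quotient.out_eq (x i)]
    rfl
  · intro z hz
    obtain ⟨j, h3 | h3⟩ := h2 z hz
    · exact ⟨(x j).out, by rw [Quotient.out_eq, h3], Add.of ⟨j, rfl⟩⟩
    · refine ⟨Shift_936.sh (x j).out, ?_, Add.mono (add_sh _) fun V hV => ⟨j, hV⟩⟩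
      rw [h3]
      conv_rhs => rw [← Quotient.out_eq (x j)]
      exact Quotient.sound (GlueH_445.hiso_sh_sh _)

end mem

/-! ### the instance -/

section inst

variable {s0 : S} {x : J Λ → Cls (UG M Λ) ℂ}

/-- **the instance of `DomF`** -/
noncomputable def domF (hΛ : Good M Λ) (hM : PDm (Cr M)) (hA : ActP M hΛ.four)
    (hx : CFam M hΛ.four s0 x)
    (p : ∀ (r : ArtinGroup M) (i : J Λ), (r • x i).out.X ⟶ (r • x i).out.X)
    (hp : ∀ r i, PTH.Eul ((r • x i).out) (p r i)) (ht : ℂ → ℤ) (h0 : ht 0 = 0)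
    (h1 : ∀ μ, ht (μ + 1) = ht μ + 1) :
    DomF (UG M Λ) ℂ (artinGen M) (ArtinGroup M) (J Λ) where
  ω := wt Λ
  ω_pos := wt_pos Λ
  qm r i := qmOf ((r • x i).out) (hp r i)
  π a := a.1
  wt a := wt Λ a.2
  wt_pos a := wt_pos Λ _
  ht := ht
  ht_add := h1
  ht_zero := h0
  td r s i := by
    refine hA.td s _ _ _ _ (hp r i) (hp _ i) ((hx.smul hA r).hT_out i i) ?_
    rw [Quotient.out_eq, Quotient.out_eq, smul_eq_mul, mul_smul]
  K r i i' t a b _ _ hlo hhi hc :=
    K_pair (hp r i) (hp r i') ((hx.smul hA r).hT_out i i') h1 (hlo i') (hhi i) hc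
  fib r t t' n i htt hc := by
    obtain ⟨s, j⟩ := t
    obtain ⟨s', j'⟩ := t'
    obtain rfl : s = s' := htt
    obtain ⟨μ, rfl, hc'⟩ := Cb_of_cb (hp r i) hc
    obtain ⟨i', hi'⟩ := cb_fibre (S := S) hΛ.four
      (fun m hm => (Fm M (algebraMap ℝ ℂ) hm ((by norm_num : 2 ≤ 4).trans (hΛ.four m hm))).toFDat)
      (fun m hm s i j h => ⟨rfl, h⟩) (X := fun i => (r • x i).out) (p := p r)
      (fun i => eul_of (hp r i)) (fun i i' => ex_of_hT ((hx.smul hA r).hT_out i i'))
      (fun m hm i => (hx.smul hA r).add hm i) hc' j'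
    exact ⟨i', cb_of_Cb (hp r i') hi'⟩
  pf r t t' htt := by
    have htt' : t.1 = t'.1 := htt
    rw [(hx.smul hA r).muW_eq' (hp r) hΛ, (hx.smul hA r).muW_eq' (hp r) hΛ, htt']
    ring
  euler r := euler_fam (by norm_num) (wt_pos Λ) _ _ (hp r) (hx.smul hA r).hT_out
  pd n hn h t := by
    by_contra hne
    have hn0 : n ≠ 0 := fun h => hne (congrFun h t)
    have h2 := cu_pd hΛ hM n hn0
    rw [qf_eq] at h2
    simp only [← GlU_505.mv_card] at h2
    exact absurd h (not_le.2 h2)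

/-- every orthogonal `F`-stable family of classes has a translate with `H = 0` -/
theorem zero_of_fam (hΛ : Good M Λ) (hM : PDm (Cr M)) (hA : ActP M hΛ.four)
    (hx : CFam M hΛ.four s0 x) :
    ∃ r : ArtinGroup M, ∀ i a, hC (r • x i) (frC (UG M Λ) ℂ a) = 0 := by
  have h2 : (2 : ℂ) ≠ 0 := by norm_num
  have he : ∀ (r : ArtinGroup M) (i : J Λ), ∃ p, PTH.Eul ((r • x i).out) p := fun r i =>
    PTH.exists_eul h2 _ ((hx.smul hA r).hT_out i i)
  choose p hp using he
  obtain ⟨ht, h0, h1⟩ := GrB_936.exists_level_add (k := ℂ)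
  haveI : Finite M.Group := finite_of_cr hM
  obtain ⟨r, hr⟩ := (domF hΛ hM hA hx p hp ht h0 h1).exists_zero_H
    (secG M.toCoxeterSystem) (secI M.toCoxeterSystem) 1
  refine ⟨r • (1 : ArtinGroup M), fun i a => ?_⟩
  rw [← fin_out]
  exact hr i a

/-- an orthogonal `F`-stable family of minimisers gives a family of classes -/
theorem cfam_of_ofam (h4 : ∀ m ∈ Λ, 4 ≤ m) {X : J Λ → TOb (UG M Λ) ℂ}
    (hX : OFam h4 (algebraMap ℝ ℂ) s0 X) : CFam M h4 s0 (fun j => (⟦X j⟧ : Cls (UG M Λ) ℂ)) where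
  lam j a := by
    rw [lamC_mk, hX.lam_eq, Pi.single_apply]
  orth i j := hX.orth i j
  F m hm i := by
    obtain ⟨l, h1, h2, -⟩ := hX.sum ⟨m, hm⟩ i
    refine ⟨l.map fun Y => (⟦Y⟧ : Cls (UG M Λ) ℂ), ?_, ?_⟩
    · rw [← cls_isSum h1]
      rfl
    · intro z hz
      obtain ⟨Z, hZ, rfl⟩ := List.mem_map.1 hz
      obtain ⟨j, -, -, -, h3 | h3⟩ := h2 Z hZ
      · exact ⟨j, Or.inl (Quotient.sound h3)⟩
      · exact ⟨j, Or.inr (Quotient.sound (h3.trans (GlueH_445.hiso_sh_sh _)))⟩
  num m hm i y := by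
    obtain ⟨l, h1, h2, h3⟩ := hX.sum ⟨m, hm⟩ i
    obtain ⟨Y, rfl⟩ := Quotient.exists_rep y
    have h4' : hC (FmC M h4 hm (⟦X i⟧ : Cls (UG M Λ) ℂ)) ⟦Y⟧
        = hT (FF M (algebraMap ℝ ℂ) h4 ⟨m, hm⟩ (X i)) Y := rfl
    rw [h4', h1.hT_left]
    have h5 : ∀ Z ∈ l, hT Z Y = ∑ j, PTA.lam Z (s0, j) * hT (X j) Y := by
      intro Z hZ
      obtain ⟨j, -, h6, -, h7⟩ := h2 Z hZ
      have h8 : hT Z Y = hT (X j) Y := by
        rcases h7 with h7 | h7
        · exact h7.hT_left Y
        · rw [h7.hT_left Y, Shift_936.hT_sh_left]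
      rw [h8, Finset.sum_eq_single j]
      · rw [h6, Pi.single_eq_same, one_mul]
      · intro j' _ hj'
        rw [h6, Pi.single_eq_of_ne, zero_mul]
        intro h; exact hj' (Prod.ext_iff.1 h).2
      · intro h; exact absurd (Finset.mem_univ _) h
    have h6 : ∀ l' : List (TOb (UG M Λ) ℂ), (∀ Z ∈ l', Z ∈ l) →
        (l'.map fun Z => hT Z Y).sum = ∑ j, (l'.map PTA.lam).sum (s0, j) * hT (X j) Y := by
      intro l'
      induction l' with
      | nil => intro _; simp
      | cons Z l' ih =>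
        intro hl'
        simp only [List.map_cons, List.sum_cons, Pi.add_apply, add_mul, Finset.sum_add_distrib]
        rw [← ih fun Z' hZ' => hl' Z' (List.mem_cons_of_mem _ hZ'),
          ← h5 Z (hl' Z (List.mem_cons_self ..))]
    rw [h6 l fun _ h => h]
    simp only [h3]
    unfold nbs
    rw [Finset.sum_filter]
    refine Finset.sum_congr rfl fun j _ => ?_
    split_ifs
    · rw [one_mul]; rfl
    · rw [zero_mul]

end inst

end fam

/-! ### the result -/

section final

variable {S : Type} [Fintype S] {M : CoxeterMatrix S} {Λ : Finset ℕ}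

/-- **block (D)**: for every orthogonal `F`-stable family of minimisers there is `r` with
`H (r • X_j) = 0` for all `j` -/
theorem orbit_zero (hΛ : Good M Λ) (hM : PDm (Cr M)) (A : ActI M hΛ.four)
    (hA : letI := A.act; ActP M hΛ.four) (s : S) (X : J Λ → TOb (UG M Λ) ℂ)
    (hX : OFam hΛ.four (algebraMap ℝ ℂ) s X) :
    letI := A.act
    ∃ r : ArtinGroup M, ∀ j a, hC (r • (⟦X j⟧ : Cls (UG M Λ) ℂ)) (frC (UG M Λ) ℂ a) = 0 := by
  letI := A.act
  exact zero_of_fam hΛ hM hA (cfam_of_ofam hΛ.four hX)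

/-- field `orb` of `CatI_788.Inp` -/
theorem orb_cls (hΛ : Good M Λ) (hM : PDm (Cr M)) (A : ActI M hΛ.four)
    (hA : letI := A.act; ActP M hΛ.four) :
    letI := A.act
    ∀ (s : S) (X : J Λ → TOb (UG M Λ) ℂ), OFam hΛ.four (algebraMap ℝ ℂ) s X →
      ∃ (r : ArtinGroup M) (j : J Λ), r • (⟦X j⟧ : Cls (UG M Λ) ℂ) = frC (UG M Λ) ℂ (s, j) ∨
        r • (⟦X j⟧ : Cls (UG M Λ) ℂ) = shC (frC (UG M Λ) ℂ (s, j)) := by
  refine GlueH_445.orb_of_zero (PTC_505.repC A) (fun X Y h => Quotient.sound h) ?_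
  intro s X hX
  obtain ⟨r, hr⟩ := orbit_zero hΛ hM A hA s X hX
  refine ⟨r, j0 hΛ.four, fun t i => ?_⟩
  have h1 := hr (j0 hΛ.four) (t, i)
  rw [hC_symm] at h1
  exact h1


end final

end Crest.Agent.R175.GlueD_180
end

-- ▼ part R175/ActP_180
section

/-!
Row 175 (S0263), helper180: additive functors commute with the parity shift, and the input `ActP` of
`GlueD_180` for an action whose generators act by the twists of the fibres.
-/

set_option autoImplicit false
set_option linter.unusedSectionVars false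
set_option linter.unusedVariables false

open CategoryTheory

namespace Crest.Agent.R175.ActP_180

open Crest.Agent.R175.PTA Crest.Agent.R175.TwG_253 Crest.Agent.R175.AddF_61
open Crest.Agent.R175.TwA_253 (Tw Sum2 Sph)
open Crest.Agent.R175.TU_788 (TU)

universe u v

noncomputable section

/-! ### additive functors and the shift -/

section shift

variable {T : Type u} {G : MG T} {k : Type v} [Field k] [Fintype T]

theorem m_neg' {Φ : TOb G k → TOb G k} (F : AddF Φ) {X Y : TOb G k} (f : X.X ⟶ Y.X) :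
    F.m (X := X) (Y := Y) (-f) = -F.m (X := X) (Y := Y) f := by
  have h := F.m_add (X := X) (Y := Y) f (-f)
  rw [add_neg_cancel, F.m_zero] at h
  exact (neg_eq_of_add_eq_zero_right h.symm).symm

/-- an additive functor commutes with the parity shift -/
theorem hiso_sh {Φ : TOb G k → TOb G k} (F : AddF Φ) (X : TOb G k) :
    HIso (Φ (sh X)) (sh (Φ X)) := by
  have e1 : F.m (X := X) (Y := sh X) (toSh X.X) ≫ F.m (X := sh X) (Y := X) (ofSh X.X)
      = 𝟙 (Φ X).X := by
    rw [← F.m_comp, toSh_ofSh, F.m_id]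
  have e2 : F.m (X := sh X) (Y := X) (ofSh X.X) ≫ F.m (X := X) (Y := sh X) (toSh X.X)
      = 𝟙 (Φ (sh X)).X := by
    rw [← F.m_comp, ofSh_toSh]
    exact F.m_id (sh X)
  have d1 : D (Φ X) (Φ (sh X)) (F.m (X := X) (Y := sh X) (toSh X.X)) = 0 := by
    rw [F.m_D, D_toSh, F.m_zero]
  have d2 : D (Φ (sh X)) (Φ X) (F.m (X := sh X) (Y := X) (ofSh X.X)) = 0 := by
    rw [F.m_D, D_ofSh, F.m_zero]
  refine ⟨{
    p := F.m (X := sh X) (Y := X) (ofSh X.X) ≫ toSh (Φ X).X
    q := ofSh (Φ X).X ≫ F.m (X := X) (Y := sh X) (toSh X.X)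
    s := 0
    r := 0
    bp := ?_
    bq := ?_
    Dp := ?_
    Dq := ?_
    pq := ?_
    qp := ?_ }⟩
  · rw [bar_comp, F.m_bar, bar_toSh, bar_ofSh, m_neg' F, Preadditive.neg_comp,
      Preadditive.comp_neg, neg_neg]
  · rw [bar_comp, F.m_bar, bar_toSh, bar_ofSh, m_neg' F, Preadditive.neg_comp,
      Preadditive.comp_neg, neg_neg]
  · rw [D_comp (Y := Φ X), d2, D_toSh, Limits.comp_zero, Limits.zero_comp, add_zero]
  · rw [D_comp (Y := Φ X), d1, D_ofSh, Limits.comp_zero, Limits.zero_comp, add_zero]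
  · rw [map_zero, add_zero, Category.assoc, toSh_ofSh_assoc, e2]
  · rw [map_zero, add_zero, Category.assoc, ← Category.assoc (F.m _), e1, Category.id_comp,
      ofSh_toSh]

end shift

end

/-! ### the input of `GlueD_180` -/

section act

open Crest.GroupTheory Crest.Agent.R175.Cls_133 Crest.Agent.R175.UG_27 Crest.Agent.R175.Unf_109
open Crest.Agent.R175.FmCls_303 Crest.Agent.R175.LevC_788 Crest.Agent.R175.GlueD_180
open Crest.Agent.R175.PTQ_4 Crest.Agent.R175.FmE_180 Crest.Agent.R175.ActC_788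

variable {S : Type} [Fintype S] {M : CoxeterMatrix S} {Λ : Finset ℕ} {h4 : ∀ m ∈ Λ, 4 ≤ m}

/-- **`ActP` for an action whose generators act by the twists of the fibres** -/
theorem actP_of (A : ActI M h4)
    (hg : letI := A.act; ∀ (s : S) (X : TOb (UG M Λ) ℂ),
      artinGen M s • (⟦X⟧ : Cls (UG M Λ) ℂ) = ⟦TF M Λ s X⟧) :
    letI := A.act
    ActP M h4 := by
  letI := A.act
  refine
    { h_act := A.h_act
      lam_act := A.lam_act
      F_act := A.F_act
      sh_act := ?_
      td := ?_ }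
  · intro s x
    obtain ⟨X, rfl⟩ := Quotient.exists_rep x
    rw [hg, shC_mk, shC_mk, hg]
    exact Quotient.sound (hiso_sh (TUadd_61.fU (fun a : S × J Λ => a.1 = s) (fib_hU M Λ s)) X).symm
  · intro s X Y p q hp hq hX hY
    rw [hg] at hY
    have e : HIso Y (TF M Λ s X) := Quotient.exact hY
    have hYY : hT Y Y = 0 := by
      rw [e.hT_left, e.hT_right, TUh_988.hT_TU]
      exact hX
    exact PTT_4.td_TU' (fun a : S × J Λ => a.1 = s) (fib_hU M Λ s) (by norm_num) (HIso.refl X) e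
      hp hq hX hYY

end act

end Crest.Agent.R175.ActP_180
end

-- ▼ part R175/FinS_131

/-!
Row 175 (S0263): the four last inputs of `CatI_788.Inp`.
-/

set_option autoImplicit false
set_option linter.unusedSectionVars false
set_option linter.unusedVariables false

open CategoryTheory
open scoped Classical

namespace Crest.Agent.R175.FinS_131

open Crest.GroupTheory Crest.Agent.R175.CatI_788 Crest.Agent.R175.ActU_131
open Crest.Agent.R175.VdL_527 Crest.Agent.R175.PdT_788 Crest.Agent.R175.Unf_109 Crest.Agent.R175.Lev_788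

/-- **the inputs** -/
noncomputable def inp (Λ : Finset ℕ) : Inp Λ where
  A := fun M hΛ => act M hΛ
  hact := fun M hΛ T _ t x => ResTU_131.hact hΛ T (good_res hΛ T) t x
  orb := fun M hΛ hM =>
    GlueD_180.orb_cls hΛ hM (act M hΛ) (ActP_180.actP_of (act M hΛ) (fun s X => gen M hΛ s X))
  stb := fun M hΛ hM => TwDI_774.stb_P hΛ hM (act M hΛ) (fun r x => rfl)

/-- **S0263** -/
theorem s0263 (S : Type*) [Finite S] (M : CoxeterMatrix S)
    (P Q : Subgroup (ArtinGroup M)) (hP : IsParabolic M P) (hQ : IsParabolic M Q) :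
    IsParabolic M (P ⊓ Q) :=
  s0263_of_inp inp S M P Q hP hQ

end Crest.Agent.R175.FinS_131
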