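import Crest.Agent.R175.PTA_534

/-!
# Row 175, block F_m, part 3: matrix functors on `Gob G k` and `TOb G k`

`FDat G k` : a symmetric relation `N` on the vertices, scalars `r a ≠ 0` and coefficients
`chi e e'` (`e : a -> b`, `e' : a' -> b'`) of the arrow `e'` in `F e`, such that
`F P_a = ⊕_{a' ~ a} P_{a'}` is a functor (`back`, `back0`) with unit `r a' ^ 2 : V_a -> V_a` at
`(a', a)` and counit `(r a ^ 2)⁻¹`.
-/

set_option autoImplicit false
set_option linter.unusedSectionVars false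
set_option linter.unusedVariables false
set_option linter.unusedSimpArgs false

open CategoryTheory
open scoped Classical

namespace Crest.Agent.R175.Fm_27

open Crest.Agent.R175.PTA

universe v

variable {T : Type} {G : MG T} {k : Type v} [Field k] [Fintype T]

variable (G k) in
/-- data of a matrix functor -/
structure FDat where
  N : T → T → Prop
  symm : ∀ {a b : T}, N a b → N b a
  r : T → k
  r_ne : ∀ a, r a ≠ 0
  chi : ∀ {a b a' b' : T}, G.E a b → G.E a' b' → k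
  back : ∀ {a b a' : T} (e : G.E a b) (f : G.E b a), N a a' →
    (∑ b', ∑ e' : G.E a' b', if N b b' then chi e e' * chi f (G.rev e') else 0)
      = if f = G.rev e then (r a' / r a) ^ 2 else 0
  back0 : ∀ {a a₂ b a' : T} (e : G.E a b) (f : G.E b a₂), N a a' → N a₂ a' → a ≠ a₂ →
    (∑ b', ∑ e' : G.E a' b', if N b b' then chi e e' * chi f (G.rev e') else 0) = 0

/-! ### block matrices of linear maps -/

section mat

variable {ι κ μ : Type} [Fintype ι] [Fintype κ] [Fintype μ]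
  {X : ι → Type v} {Y : κ → Type v} {Z : μ → Type v} {X' X'' : ι → Type v}
  [∀ i, AddCommGroup (X i)] [∀ i, Module k (X i)]
  [∀ i, AddCommGroup (X' i)] [∀ i, Module k (X' i)]
  [∀ i, AddCommGroup (X'' i)] [∀ i, Module k (X'' i)]
  [∀ i, AddCommGroup (Y i)] [∀ i, Module k (Y i)]
  [∀ i, AddCommGroup (Z i)] [∀ i, Module k (Z i)]

/-- block matrix -/
def mat (M : ∀ j i, X i →ₗ[k] Y j) : (∀ i, X i) →ₗ[k] (∀ j, Y j) :=
  LinearMap.pi fun j => ∑ i, M j i ∘ₗ LinearMap.proj i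

/-- diagonal block matrix -/
def dg (D : ∀ i, X i →ₗ[k] X' i) : (∀ i, X i) →ₗ[k] (∀ i, X' i) :=
  LinearMap.pi fun i => D i ∘ₗ LinearMap.proj i

@[simp] theorem mat_apply (M : ∀ j i, X i →ₗ[k] Y j) (x : ∀ i, X i) (j : κ) :
    mat M x j = ∑ i, M j i (x i) := by
  simp [mat]

@[simp] theorem dg_apply (D : ∀ i, X i →ₗ[k] X' i) (x : ∀ i, X i) (i : ι) :
    dg D x i = D i (x i) := by
  simp [dg]

theorem dg_id : dg (fun i => (LinearMap.id : X i →ₗ[k] X i)) = LinearMap.id := by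
  ext x i; simp

theorem dg_comp (D : ∀ i, X i →ₗ[k] X' i) (D' : ∀ i, X' i →ₗ[k] X'' i) :
    dg D' ∘ₗ dg D = dg fun i => D' i ∘ₗ D i := by
  apply LinearMap.ext; intro x; funext i; simp

theorem dg_zero : dg (fun i => (0 : X i →ₗ[k] X' i)) = 0 := by
  apply LinearMap.ext; intro x; funext i; simp

theorem dg_add (D D' : ∀ i, X i →ₗ[k] X' i) : dg (fun i => D i + D' i) = dg D + dg D' := by
  apply LinearMap.ext; intro x; funext i; simp

theorem dg_smul (c : k) (D : ∀ i, X i →ₗ[k] X' i) : dg (fun i => c • D i) = c • dg D := by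
  apply LinearMap.ext; intro x; funext i; simp

theorem mat_zero : mat (fun j i => (0 : X i →ₗ[k] Y j)) = 0 := by
  apply LinearMap.ext; intro x; funext i; simp

theorem mat_add (M M' : ∀ j i, X i →ₗ[k] Y j) :
    mat (fun j i => M j i + M' j i) = mat M + mat M' := by
  apply LinearMap.ext; intro x; funext i; simp [Finset.sum_add_distrib]

theorem mat_smul (c : k) (M : ∀ j i, X i →ₗ[k] Y j) :
    mat (fun j i => c • M j i) = c • mat M := by
  apply LinearMap.ext; intro x; funext i; simp [Finset.smul_sum]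

theorem mat_comp_dg (D : ∀ i, X i →ₗ[k] X' i) (M : ∀ j i, X' i →ₗ[k] Y j) :
    mat M ∘ₗ dg D = mat fun j i => M j i ∘ₗ D i := by
  apply LinearMap.ext; intro x; funext i; simp

theorem dg_comp_mat {Y' : κ → Type v} [∀ i, AddCommGroup (Y' i)] [∀ i, Module k (Y' i)]
    (M : ∀ j i, X i →ₗ[k] Y j) (D : ∀ j, Y j →ₗ[k] Y' j) :
    dg D ∘ₗ mat M = mat fun j i => D j ∘ₗ M j i := by
  apply LinearMap.ext; intro x; funext i; simp


end mat

theorem swap6 {A B B' M : Type*} [AddCommMonoid M] [Fintype A] [Fintype B] [Fintype B']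
    {E : A → B → Type*} {F : B → Type*} {E' : B' → Type*} [∀ a b, Fintype (E a b)]
    [∀ b, Fintype (F b)] [∀ b, Fintype (E' b)]
    (G : ∀ a b, E a b → F b → ∀ b', E' b' → M) :
    (∑ b', ∑ e', ∑ b, ∑ f, ∑ a, ∑ e, G a b e f b' e')
      = ∑ a, ∑ b, ∑ e, ∑ f, ∑ b', ∑ e', G a b e f b' e' := by
  have h1 : ∀ H : (∀ b', E' b' → M), (∑ b', ∑ e', H b' e') = ∑ p : (Σ b', E' b'), H p.1 p.2 :=
    fun H => (Fintype.sum_sigma' H).symm
  simp_rw [h1]
  symm
  calc (∑ a, ∑ b, ∑ e, ∑ f, ∑ p : (Σ b', E' b'), G a b e f p.1 p.2)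
      = ∑ a, ∑ b, ∑ e, ∑ p : (Σ b', E' b'), ∑ f, G a b e f p.1 p.2 := by
        refine Finset.sum_congr rfl fun a _ => Finset.sum_congr rfl fun b _ =>
          Finset.sum_congr rfl fun e _ => Finset.sum_comm
    _ = ∑ a, ∑ b, ∑ p : (Σ b', E' b'), ∑ e, ∑ f, G a b e f p.1 p.2 := by
        refine Finset.sum_congr rfl fun a _ => Finset.sum_congr rfl fun b _ => Finset.sum_comm
    _ = ∑ a, ∑ p : (Σ b', E' b'), ∑ b, ∑ e, ∑ f, G a b e f p.1 p.2 := by
        refine Finset.sum_congr rfl fun a _ => Finset.sum_comm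
    _ = ∑ p : (Σ b', E' b'), ∑ a, ∑ b, ∑ e, ∑ f, G a b e f p.1 p.2 := Finset.sum_comm
    _ = ∑ p : (Σ b', E' b'), ∑ b, ∑ a, ∑ e, ∑ f, G a b e f p.1 p.2 := by
        refine Finset.sum_congr rfl fun p _ => Finset.sum_comm
    _ = ∑ p : (Σ b', E' b'), ∑ b, ∑ a, ∑ f, ∑ e, G a b e f p.1 p.2 := by
        refine Finset.sum_congr rfl fun p _ => Finset.sum_congr rfl fun b _ =>
          Finset.sum_congr rfl fun a _ => Finset.sum_comm
    _ = _ := by
        refine Finset.sum_congr rfl fun p _ => Finset.sum_congr rfl fun b _ => Finset.sum_comm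

namespace FDat

variable (Φ : FDat G k)

/-- index set of `(F V) a'` -/
abbrev Nb (a' : T) : Type := {a : T // Φ.N a a'}

noncomputable instance (a' : T) : Fintype (Φ.Nb a') := Subtype.fintype _

theorem sum_Nb {M : Type*} [AddCommMonoid M] (a' : T) (f : T → M) :
    ∑ a : Φ.Nb a', f a.1 = ∑ a, if Φ.N a a' then f a else 0 := by
  rw [← Finset.sum_filter]
  exact (Finset.sum_subtype _ (by simp) f).symm

/-- scaling ratio -/
noncomputable def ρ (a a' : T) : k := Φ.r a' / Φ.r a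

/-- `F` on objects -/
abbrev ob (X : Gob G k) : Gob G k where
  V a' := ∀ a : Φ.Nb a', X.V a.1
  W a' := ∀ a : Φ.Nb a', X.W a.1
  gV a' := dg fun a => X.gV a.1
  gW a' := dg fun a => X.gW a.1
  gV_sq a' := by rw [dg_comp]; simp [dg_id]
  gW_sq a' := by rw [dg_comp]; simp [dg_id]

/-- `F` on morphisms -/
noncomputable def hom {X Y : Gob G k} (f : X ⟶ Y) : Φ.ob X ⟶ Φ.ob Y :=
  mkH (X := Φ.ob X) (Y := Φ.ob Y)
    (fun a' => dg fun a : Φ.Nb a' => c0 f a.1)
    (fun a' => dg fun a : Φ.Nb a' => cW f a.1)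
    (fun a' b' e' => mat fun (b : Φ.Nb b') (a : Φ.Nb a') =>
      ∑ e : G.E a.1 b.1, Φ.chi e e' • c1 f e)
    (fun a' => dg fun a : Φ.Nb a' => Φ.ρ a.1 a' • ci f a.1)
    (fun a' => dg fun a : Φ.Nb a' => Φ.ρ a.1 a' • cj f a.1)
    (fun a' => dg fun a : Φ.Nb a' => Φ.ρ a.1 a' ^ 2 • c2 f a.1)

section comps
variable {X Y : Gob G k} (f : X ⟶ Y)
theorem c0_hom (a' : T) : c0 (Φ.hom f) a' = dg fun a : Φ.Nb a' => c0 f a.1 := rfl
theorem cW_hom (a' : T) : cW (Φ.hom f) a' = dg fun a : Φ.Nb a' => cW f a.1 := rfl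
theorem c1_hom {a' b' : T} (e' : G.E a' b') : c1 (Φ.hom f) e' =
    mat fun (b : Φ.Nb b') (a : Φ.Nb a') => ∑ e : G.E a.1 b.1, Φ.chi e e' • c1 f e := rfl
theorem ci_hom (a' : T) : ci (Φ.hom f) a' = dg fun a : Φ.Nb a' => Φ.ρ a.1 a' • ci f a.1 := rfl
theorem cj_hom (a' : T) : cj (Φ.hom f) a' = dg fun a : Φ.Nb a' => Φ.ρ a.1 a' • cj f a.1 := rfl
theorem c2_hom (a' : T) : c2 (Φ.hom f) a' = dg fun a : Φ.Nb a' => Φ.ρ a.1 a' ^ 2 • c2 f a.1 :=
  rfl
end comps

theorem hom_id (X : Gob G k) : Φ.hom (𝟙 X) = 𝟙 (Φ.ob X) := by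
  apply hm_ext
  · intro a'; rw [c0_hom]; exact dg_id
  · intro a'; rw [cW_hom]; exact dg_id
  · intro a' b' e'; rw [c1_hom]; simp [mat_zero]
  · intro a'; rw [ci_hom]; simp [dg_zero]
  · intro a'; rw [cj_hom]; simp [dg_zero]
  · intro a'; rw [c2_hom]; simp [dg_zero]

/-- the backtracking sum -/
theorem back_sum {X Y Z : Gob G k} (f : X ⟶ Y) (g : Y ⟶ Z) (a' : T) :
    (∑ b', ∑ e' : G.E a' b', c1 (Φ.hom g) (G.rev e') ∘ₗ c1 (Φ.hom f) e')
      = dg fun a : Φ.Nb a' => Φ.ρ a.1 a' ^ 2 • ∑ b, ∑ e : G.E a.1 b, c1 g (G.rev e) ∘ₗ c1 f e := by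
  apply LinearMap.ext
  intro x
  funext a₂
  have L : (∑ b', ∑ e' : G.E a' b', c1 (Φ.hom g) (G.rev e') ∘ₗ c1 (Φ.hom f) e') x a₂
      = ∑ a : Φ.Nb a', ∑ b : T, ∑ e : G.E a.1 b, ∑ f' : G.E b a₂.1,
        (∑ b', ∑ e' : G.E a' b',
          if Φ.N b b' then Φ.chi e e' * Φ.chi f' (G.rev e') else 0) •
          c1 g f' (c1 f e (x a)) := by
    simp only [LinearMap.sum_apply, Finset.sum_apply, LinearMap.comp_apply, c1_hom, mat_apply,
      map_sum, LinearMap.smul_apply, map_smul, Finset.smul_sum, smul_smul, Finset.sum_smul,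
      ite_smul, zero_smul]
    rw [← swap6 (A := Φ.Nb a') (B := T) (B' := T) (E := fun a b => G.E a.1 b)
      (F := fun b => G.E b a₂.1) (E' := fun b' => G.E a' b')]
    refine Finset.sum_congr rfl fun b' _ => Finset.sum_congr rfl fun e' _ => ?_
    refine (Φ.sum_Nb b' (fun b => ∑ a : Φ.Nb a', ∑ e : G.E a.1 b, ∑ f' : G.E b a₂.1,
      (Φ.chi e e' * Φ.chi f' (G.rev e')) • c1 g f' (c1 f e (x a)))).trans ?_
    refine Finset.sum_congr rfl fun b _ => ?_
    by_cases h : Φ.N b b'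
    · simp only [h, if_true]
      refine Eq.trans (Finset.sum_congr rfl fun a _ => Finset.sum_comm) ?_
      exact Finset.sum_comm
    · simp only [h, if_false, Finset.sum_const_zero]
  rw [L, dg_apply]
  rw [Finset.sum_eq_single a₂]
  · simp only [LinearMap.smul_apply, LinearMap.sum_apply, LinearMap.comp_apply, Finset.smul_sum]
    refine Finset.sum_congr rfl fun b _ => Finset.sum_congr rfl fun e _ => ?_
    rw [Finset.sum_eq_single (G.rev e)]
    · rw [Φ.back e _ a₂.2, if_pos rfl, ρ]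
    · intro f' _ hf'
      rw [Φ.back e _ a₂.2, if_neg hf', zero_smul]
    · simp
  · intro a _ ha
    refine Finset.sum_eq_zero fun b _ => Finset.sum_eq_zero fun e _ =>
      Finset.sum_eq_zero fun f' _ => ?_
    rw [Φ.back0 e f' a.2 a₂.2 (fun h => ha (Subtype.ext h)), zero_smul]
  · simp

theorem hom_comp {X Y Z : Gob G k} (f : X ⟶ Y) (g : Y ⟶ Z) :
    Φ.hom (f ≫ g) = Φ.hom f ≫ Φ.hom g := by
  apply hm_ext
  · intro a'
    rw [c0_comp, c0_hom, c0_hom, c0_hom, dg_comp]; rfl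
  · intro a'
    rw [cW_comp, cW_hom, cW_hom, cW_hom, dg_comp]; rfl
  · intro a' b' e'
    rw [c1_comp, c1_hom, c1_hom, c1_hom, c0_hom, c0_hom, mat_comp_dg, dg_comp_mat, ← mat_add]
    congr 1
    funext b a
    simp only [c1_comp, smul_add, Finset.sum_add_distrib, lcomp_sum, lsum_comp,
      LinearMap.smul_comp, LinearMap.comp_smul]
  · intro a'
    rw [ci_comp, ci_hom, ci_hom, ci_hom, c0_hom, cW_hom, dg_comp, dg_comp, ← dg_add]
    congr 1
    funext a
    simp only [ci_comp, smul_add, LinearMap.smul_comp, LinearMap.comp_smul]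
  · intro a'
    rw [cj_comp, cj_hom, cj_hom, cj_hom, c0_hom, cW_hom, dg_comp, dg_comp, ← dg_add]
    congr 1
    funext a
    simp only [cj_comp, smul_add, LinearMap.smul_comp, LinearMap.comp_smul]
  · intro a'
    rw [c2_comp, back_sum, c2_hom, c2_hom, c2_hom, c0_hom, c0_hom, ci_hom, cj_hom, dg_comp,
      dg_comp, dg_comp, ← dg_add, ← dg_add, ← dg_add]
    congr 1
    funext a
    simp only [c2_comp, smul_add, LinearMap.smul_comp, LinearMap.comp_smul, smul_smul, pow_two]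


/-! ### linearity, parity -/

section lin
variable {X Y : Gob G k}

theorem hom_add (f g : X ⟶ Y) : Φ.hom (f + g) = Φ.hom f + Φ.hom g := by
  apply hm_ext
  · intro a'; rw [c0_add, c0_hom, c0_hom, c0_hom, ← dg_add]; rfl
  · intro a'; rw [cW_add, cW_hom, cW_hom, cW_hom, ← dg_add]; rfl
  · intro a' b' e'
    rw [c1_add, c1_hom, c1_hom, c1_hom, ← mat_add]
    congr 1; funext b a
    simp only [c1_add, smul_add, Finset.sum_add_distrib]
  · intro a'; rw [ci_add, ci_hom, ci_hom, ci_hom, ← dg_add]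
    congr 1; funext a; simp only [ci_add, smul_add]
  · intro a'; rw [cj_add, cj_hom, cj_hom, cj_hom, ← dg_add]
    congr 1; funext a; simp only [cj_add, smul_add]
  · intro a'; rw [c2_add, c2_hom, c2_hom, c2_hom, ← dg_add]
    congr 1; funext a; simp only [c2_add, smul_add]

theorem hom_smul (c : k) (f : X ⟶ Y) : Φ.hom (c • f) = c • Φ.hom f := by
  apply hm_ext
  · intro a'; rw [c0_smul, c0_hom, c0_hom, ← dg_smul]; rfl
  · intro a'; rw [cW_smul, cW_hom, cW_hom, ← dg_smul]; rfl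
  · intro a' b' e'
    rw [c1_smul, c1_hom, c1_hom, ← mat_smul]
    congr 1; funext b a
    simp only [c1_smul, Finset.smul_sum, smul_comm c]
  · intro a'; rw [ci_smul, ci_hom, ci_hom, ← dg_smul]
    congr 1; funext a; simp only [ci_smul, smul_comm c]
  · intro a'; rw [cj_smul, cj_hom, cj_hom, ← dg_smul]
    congr 1; funext a; simp only [cj_smul, smul_comm c]
  · intro a'; rw [c2_smul, c2_hom, c2_hom, ← dg_smul]
    congr 1; funext a; simp only [c2_smul, smul_comm c]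

/-- `F` as a linear map on Homs -/
noncomputable def homL (X Y : Gob G k) : (X ⟶ Y) →ₗ[k] (Φ.ob X ⟶ Φ.ob Y) where
  toFun := Φ.hom
  map_add' := Φ.hom_add
  map_smul' := Φ.hom_smul

@[simp] theorem homL_apply (f : X ⟶ Y) : Φ.homL X Y f = Φ.hom f := rfl

@[simp] theorem hom_zero : Φ.hom (0 : X ⟶ Y) = 0 := (Φ.homL X Y).map_zero
theorem hom_neg (f : X ⟶ Y) : Φ.hom (-f) = -Φ.hom f := (Φ.homL X Y).map_neg f
theorem hom_sub (f g : X ⟶ Y) : Φ.hom (f - g) = Φ.hom f - Φ.hom g := (Φ.homL X Y).map_sub f g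

theorem hom_gam (X : Gob G k) : Φ.hom (gam X) = gam (Φ.ob X) := by
  apply hm_ext
  · intro a'; rfl
  · intro a'; rfl
  · intro a' b' e'; rw [c1_hom, c1_gam, ← mat_zero]
    congr 1; funext b a; simp
  · intro a'; rw [ci_hom, ci_gam, ← dg_zero]
    congr 1; funext a; simp
  · intro a'; rw [cj_hom, cj_gam, ← dg_zero]
    congr 1; funext a; simp
  · intro a'; rw [c2_hom, c2_gam, ← dg_zero]
    congr 1; funext a; simp

theorem hom_bar (f : X ⟶ Y) : Φ.hom (bar f) = bar (Φ.hom f) := by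
  rw [bar, bar, hom_comp, hom_comp, hom_gam, hom_gam]

theorem cW_hom_eq_zero {f : X ⟶ Y} (h : ∀ t, cW f t = 0) (t : T) : cW (Φ.hom f) t = 0 := by
  rw [cW_hom, ← dg_zero]; congr 1; funext a; exact h _

end lin

/-- `F` on T-framed objects -/
noncomputable abbrev tob (X : TOb G k) : TOb G k where
  X := Φ.ob X.X
  d := Φ.hom X.d
  dd := by rw [← hom_comp, X.dd, hom_zero]
  dg := by rw [← hom_gam, ← hom_comp, ← hom_comp, X.dg, hom_neg]
  dW := Φ.cW_hom_eq_zero X.dW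

theorem hom_D {X Y : TOb G k} (f : X.X ⟶ Y.X) :
    Φ.hom (D X Y f) = D (Φ.tob X) (Φ.tob Y) (Φ.hom f) := by
  rw [D_apply, D_apply, hom_sub, hom_comp, hom_comp, hom_bar]

/-- `F` preserves homotopy equivalences -/
noncomputable def heq {X Y : TOb G k} (h : HEquiv X Y) : HEquiv (Φ.tob X) (Φ.tob Y) where
  p := Φ.hom h.p
  q := Φ.hom h.q
  s := Φ.hom h.s
  r := Φ.hom h.r
  bp := by rw [← hom_bar, h.bp]
  bq := by rw [← hom_bar, h.bq]
  Dp := by rw [← hom_D, h.Dp, hom_zero]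
  Dq := by rw [← hom_D, h.Dq, hom_zero]
  pq := by rw [← hom_comp, h.pq, hom_add, hom_id, hom_D]
  qp := by rw [← hom_comp, h.qp, hom_add, hom_id, hom_D]

theorem hIso {X Y : TOb G k} (h : HIso X Y) : HIso (Φ.tob X) (Φ.tob Y) := h.map Φ.heq

end FDat

end Crest.Agent.R175.Fm_27
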