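import Crest.Agent.R175.DDef_145

-- ▼ part R175/DW_145
section

/-!
Row 175, Track D: statements about Coxeter groups (weak order, parabolic subgroups) used for the
Garside theory (helper145).
-/

set_option autoImplicit false

namespace Crest.Agent.R175.DW_145

open Crest.Agent.R175.DDef_145

variable {S W : Type*} [Group W] {M : CoxeterMatrix S} (cs : CoxeterSystem M W)

/-- prefix (weak) order: `w = u * v` with lengths adding. -/
def PL (u w : W) : Prop := cs.length u + cs.length (u⁻¹ * w) = cs.length w

/-- `W_X`, the standard parabolic subgroup. -/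
def WP (X : Set S) : Subgroup W := Subgroup.closure (cs.simple '' X)

/-- `X`-reduced elements: no left descent in `X`. -/
def XRed (X : Set S) (w : W) : Prop := ∀ x ∈ X, ¬ cs.IsLeftDescent w x

/-- (W1) two left descents. -/
def W1 : Prop := ∀ (w : W) (i j : S), i ≠ j → cs.IsLeftDescent w i → cs.IsLeftDescent w j →
  M i j ≠ 0 ∧ PL cs (cs.wordProd (alt i j (M i j))) w












end Crest.Agent.R175.DW_145
end

-- ▼ part R175/GPL_145
section

/-!
Row 175, Track D: reduced products and the prefix order; meets in a finite Coxeter group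
(helper145).
-/

set_option autoImplicit false

namespace Crest.Agent.R175.GPL_145

open Crest.Agent.R175.DDef_145 Crest.Agent.R175.DW_145

variable {S W : Type*} [Group W] {M : CoxeterMatrix S} {cs : CoxeterSystem M W}

/-- the product `u * v` is reduced. -/
def Rd (cs : CoxeterSystem M W) (u v : W) : Prop := cs.length (u * v) = cs.length u + cs.length v

theorem PL_iff {u w : W} : PL cs u w ↔ Rd cs u (u⁻¹ * w) := by
  unfold PL Rd
  rw [mul_inv_cancel_left, eq_comm]

theorem PL_mul {u v : W} (h : Rd cs u v) : PL cs u (u * v) := by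
  rw [PL_iff, inv_mul_cancel_left]; exact h


theorem _root_.Crest.Agent.R175.DW_145.PL.exists_eq {u w : W} (h : PL cs u w) : ∃ v, w = u * v ∧ Rd cs u v :=
  ⟨u⁻¹ * w, by simp, PL_iff.1 h⟩

theorem _root_.Crest.Agent.R175.DW_145.PL.refl (u : W) : PL cs u u := by unfold PL; simp

theorem one_PL (u : W) : PL cs 1 u := by unfold PL; simp

theorem _root_.Crest.Agent.R175.DW_145.PL.length_le {u w : W} (h : PL cs u w) : cs.length u ≤ cs.length w := by
  unfold PL at h; omega

theorem _root_.Crest.Agent.R175.DW_145.PL.trans {u v w : W} (h1 : PL cs u v) (h2 : PL cs v w) : PL cs u w := by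
  unfold PL at *
  have h3 := cs.length_mul_le (u⁻¹ * v) (v⁻¹ * w)
  rw [show u⁻¹ * v * (v⁻¹ * w) = u⁻¹ * w by group] at h3
  have h4 := cs.length_mul_le u (u⁻¹ * w)
  rw [mul_inv_cancel_left] at h4
  omega

theorem _root_.Crest.Agent.R175.DW_145.PL.eq_of_length {u w : W} (h : PL cs u w) (h' : cs.length w ≤ cs.length u) : u = w := by
  unfold PL at h
  have : cs.length (u⁻¹ * w) = 0 := by omega
  rw [cs.length_eq_zero_iff] at this
  exact inv_mul_eq_one.1 this

theorem _root_.Crest.Agent.R175.DW_145.PL.antisymm {u w : W} (h : PL cs u w) (h' : PL cs w u) : u = w :=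
  h.eq_of_length h'.length_le

theorem Rd.one_left (u : W) : Rd cs 1 u := by unfold Rd; simp
theorem Rd.one_right (u : W) : Rd cs u 1 := by unfold Rd; simp

/-- associativity of reducedness -/
theorem Rd.assoc {u v w : W} : (Rd cs u v ∧ Rd cs (u * v) w) ↔ (Rd cs v w ∧ Rd cs u (v * w)) := by
  unfold Rd
  have h1 := cs.length_mul_le u v
  have h2 := cs.length_mul_le (u * v) w
  have h3 := cs.length_mul_le v w
  have h4 := cs.length_mul_le u (v * w)
  rw [← mul_assoc] at h4
  constructor
  · rintro ⟨h5, h6⟩
    rw [← mul_assoc]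
    omega
  · rintro ⟨h5, h6⟩
    rw [← mul_assoc] at h6
    omega


theorem _root_.Crest.Agent.R175.DW_145.PL.mul_left {u a b : W} (h : Rd cs u b) (hab : PL cs a b) : PL cs (u * a) (u * b) := by
  obtain ⟨c, rfl, hc⟩ := hab.exists_eq
  rw [← mul_assoc]
  exact PL_mul (Rd.assoc.2 ⟨hc, h⟩).2

theorem _root_.Crest.Agent.R175.DW_145.PL.of_mul_left {u a b : W} (ha : Rd cs u a) (hb : Rd cs u b)
    (hab : PL cs (u * a) (u * b)) : PL cs a b := by
  unfold PL Rd at *
  rw [show (u * a)⁻¹ * (u * b) = a⁻¹ * b by group] at hab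
  omega


theorem simple_PL_iff {w : W} {i : S} : PL cs (cs.simple i) w ↔ cs.IsLeftDescent w i := by
  unfold PL
  rw [cs.isLeftDescent_iff, cs.length_simple, cs.inv_simple]
  omega

theorem Rd_simple_iff {w : W} {i : S} : Rd cs (cs.simple i) w ↔ ¬ cs.IsLeftDescent w i := by
  unfold Rd
  rw [cs.not_isLeftDescent_iff, cs.length_simple]
  omega

theorem Rd.wordProd_cons {i : S} {ω : List S} :
    cs.IsReduced (i :: ω) ↔ (cs.IsReduced ω ∧ Rd cs (cs.simple i) (cs.wordProd ω)) := by
  unfold CoxeterSystem.IsReduced Rd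
  rw [cs.wordProd_cons, List.length_cons, cs.length_simple]
  have h1 := cs.length_wordProd_le ω
  have h2 := cs.length_mul_le (cs.simple i) (cs.wordProd ω)
  rw [cs.length_simple] at h2
  constructor
  · intro h; omega
  · rintro ⟨h3, h4⟩; omega

theorem IsReduced_append {ω ω' : List S} (h : cs.IsReduced ω) (h' : cs.IsReduced ω')
    (hr : Rd cs (cs.wordProd ω) (cs.wordProd ω')) : cs.IsReduced (ω ++ ω') := by
  unfold CoxeterSystem.IsReduced Rd at *
  rw [cs.wordProd_append, hr, List.length_append, h, h']

/-! ### Finite Coxeter groups: meets and the maximal reduced factor -/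

/-- The properties of a finite Coxeter group that are used: longest element and joins. -/
structure Lat (cs : CoxeterSystem M W) where
  w0 : W
  top : ∀ w, PL cs w w0
  join : ∀ u v : W, ∃ j, PL cs u j ∧ PL cs v j ∧ ∀ w, PL cs u w → PL cs v w → PL cs j w

variable (L : Lat cs)

include L in
theorem exists_meet (u v : W) : ∃ m, PL cs m u ∧ PL cs m v ∧
    ∀ e, PL cs e u → PL cs e v → PL cs e m := by
  classical
  let P : ℕ → Prop := fun n => ∃ m, PL cs m u ∧ PL cs m v ∧ cs.length m = n
  have hP0 : P 0 := ⟨1, one_PL u, one_PL v, cs.length_one⟩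
  have hb : ∀ n, P n → n ≤ cs.length u := by
    rintro n ⟨m, hm, -, rfl⟩; exact hm.length_le
  obtain ⟨m, hmu, hmv, hm⟩ := Nat.findGreatest_spec (P := P) (Nat.zero_le (cs.length u)) hP0
  refine ⟨m, hmu, hmv, fun e heu hev => ?_⟩
  obtain ⟨j, hj1, hj2, hj3⟩ := L.join m e
  have hju := hj3 u hmu heu
  have hjv := hj3 v hmv hev
  have h1 : cs.length j ≤ cs.length m := by
    rw [hm]
    exact Nat.le_findGreatest (hb _ ⟨j, hju, hjv, rfl⟩) ⟨j, hju, hjv, rfl⟩
  have := hj1.eq_of_length h1
  subst this
  exact hj2

theorem Rd_iff_PL {u b : W} : Rd cs u b ↔ PL cs b (u⁻¹ * L.w0) := by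
  have h1 := L.top u
  have h2 := L.top (u * b)
  unfold Rd PL at *
  rw [show (u * b)⁻¹ * L.w0 = b⁻¹ * (u⁻¹ * L.w0) by group] at h2
  omega

include L in
theorem exists_mx (u w : W) : ∃ a, PL cs a w ∧ Rd cs u a ∧
    ∀ b, PL cs b w → Rd cs u b → PL cs b a := by
  obtain ⟨m, h1, h2, h3⟩ := exists_meet L w (u⁻¹ * L.w0)
  refine ⟨m, h1, (Rd_iff_PL L).2 h2, fun b hb hr => h3 b hb ((Rd_iff_PL L).1 hr)⟩

/-- the largest prefix `a` of `w` such that `u * a` is reduced. -/
noncomputable def mx (u w : W) : W := (exists_mx L u w).choose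

theorem mx_PL (u w : W) : PL cs (mx L u w) w := (exists_mx L u w).choose_spec.1
theorem mx_Rd (u w : W) : Rd cs u (mx L u w) := (exists_mx L u w).choose_spec.2.1
theorem PL_mx {u w b : W} (hb : PL cs b w) (hr : Rd cs u b) : PL cs b (mx L u w) :=
  (exists_mx L u w).choose_spec.2.2 b hb hr

theorem mx_eq {u w a : W} (h1 : PL cs a w) (h2 : Rd cs u a)
    (h3 : ∀ b, PL cs b w → Rd cs u b → PL cs b a) : mx L u w = a :=
  (h3 _ (mx_PL L u w) (mx_Rd L u w)).antisymm (PL_mx L h1 h2)

theorem mx_one_left (w : W) : mx L 1 w = w :=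
  mx_eq L (PL.refl w) (Rd.one_left w) fun _ h _ => h

theorem mx_one_right (u : W) : mx L u 1 = 1 :=
  mx_eq L (PL.refl 1) (Rd.one_right u) fun _ h _ => h

/-- composition law -/
theorem mx_mul {s u w : W} (h : Rd cs s u) :
    mx L s (u * mx L u w) = u * mx L (s * u) w := by
  have hb1 := mx_PL L (s * u) w
  have hb2 := mx_Rd L (s * u) w
  set b := mx L (s * u) w with hb
  have h3 : Rd cs u b ∧ Rd cs s (u * b) := Rd.assoc.1 ⟨h, hb2⟩
  have h4 : PL cs b (mx L u w) := PL_mx L hb1 h3.1
  have h5 : PL cs (u * b) (u * mx L u w) := PL.mul_left (mx_Rd L u w) h4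
  refine mx_eq L h5 h3.2 ?_
  -- maximality
  intro c hc hsc
  obtain ⟨m, hm1, hm2, hm3⟩ := exists_meet L (u * mx L u w) (s⁻¹ * L.w0)
  have hum : PL cs u m := hm3 u (PL_mul (mx_Rd L u w)) ((Rd_iff_PL L).1 h)
  obtain ⟨d, rfl, hd⟩ := hum.exists_eq
  have h6 : PL cs d (mx L u w) := PL.of_mul_left hd (mx_Rd L u w) hm1
  have h7 : Rd cs s (u * d) := (Rd_iff_PL L).2 hm2
  have h8 : Rd cs (s * u) d := (Rd.assoc.2 ⟨hd, h7⟩).2
  have h9 : PL cs d b := PL_mx L (h6.trans (mx_PL L u w)) h8
  exact (hm3 c hc ((Rd_iff_PL L).1 hsc)).trans (PL.mul_left h3.1 h9)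

end Crest.Agent.R175.GPL_145
end

-- ▼ part R175/GMon_145

/-!
Row 175, Track D: the Artin monoid of a finite Coxeter group, head function, cancellation
(helper145).
-/

set_option autoImplicit false

namespace Crest.Agent.R175.GMon_145

open Crest.Agent.R175.DDef_145 Crest.Agent.R175.DW_145 Crest.Agent.R175.GPL_145

universe u v

variable {S : Type u} (M : CoxeterMatrix S)

/-- braid relations in the free monoid -/
def brel (M : CoxeterMatrix S) (a b : FreeMonoid S) : Prop :=
  ∃ s t : S, M s t ≠ 0 ∧ a = FreeMonoid.ofList (alt s t (M s t)) ∧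
    b = FreeMonoid.ofList (alt t s (M s t))

/-- the Artin monoid -/
abbrev AM : Type u := PresentedMonoid (brel M)

/-- the atoms of the Artin monoid -/
def at' (s : S) : AM M := PresentedMonoid.of (brel M) s

variable {M}

/-- universal property of the Artin monoid -/
def amLift {N : Type*} [Monoid N] (f : S → N) (hf : Braid M f) : AM M →* N :=
  PresentedMonoid.lift f (by
    rintro a b ⟨s, t, h, rfl, rfl⟩
    have := hf s t h
    rw [FreeMonoid.lift_ofList, FreeMonoid.lift_ofList]
    exact this)

@[simp] theorem amLift_at {N : Type*} [Monoid N] (f : S → N) (hf : Braid M f) (s : S) :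
    amLift f hf (at' M s) = f s := PresentedMonoid.lift_of _ _

theorem mk_ofList (l : List S) :
    PresentedMonoid.mk (brel M) (FreeMonoid.ofList l) = (l.map (at' M)).prod := by
  induction l with
  | nil => rfl
  | cons a l ih =>
    rw [FreeMonoid.ofList_cons, map_mul, ih, List.map_cons, List.prod_cons]
    rfl

/-- every element is a product of atoms -/
theorem exists_list (z : AM M) : ∃ l : List S, z = (l.map (at' M)).prod := by
  obtain ⟨a, rfl⟩ := PresentedMonoid.surjective_mk (rels := brel M) z
  exact ⟨a.toList, by rw [← mk_ofList, FreeMonoid.ofList_toList]⟩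

theorem induction_left {P : AM M → Prop} (h1 : P 1) (h2 : ∀ s z, P z → P (at' M s * z)) (z : AM M) :
    P z := by
  obtain ⟨l, rfl⟩ := exists_list z
  induction l with
  | nil => exact h1
  | cons a l ih => rw [List.map_cons, List.prod_cons]; exact h2 a _ ih

theorem braid_at : Braid M (at' M) := by
  intro s t h
  rw [← mk_ofList, ← mk_ofList]
  exact PresentedMonoid.mk_eq_mk_of_rel ⟨s, t, h, rfl, rfl⟩

/-- degree -/
def degH : AM M →* Multiplicative ℕ :=
  amLift (fun _ => Multiplicative.ofAdd 1) (by
    intro s t h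
    simp)

def deg (z : AM M) : ℕ := Multiplicative.toAdd (degH z)

@[simp] theorem deg_one : deg (1 : AM M) = 0 := by simp [deg]
@[simp] theorem deg_mul (x y : AM M) : deg (x * y) = deg x + deg y := by simp [deg]
@[simp] theorem deg_at (s : S) : deg (at' M s) = 1 := by simp [deg, degH]

theorem deg_list (l : List S) : deg ((l.map (at' M)).prod) = l.length := by
  induction l with
  | nil => simp
  | cons a l ih => rw [List.map_cons, List.prod_cons, deg_mul, ih, deg_at, List.length_cons]; ring

theorem eq_one_of_deg {z : AM M} (h : deg z = 0) : z = 1 := by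
  obtain ⟨l, rfl⟩ := exists_list z
  rw [deg_list] at h
  rw [List.length_eq_zero_iff.1 h]; simp

theorem exists_at_mul {z : AM M} (h : z ≠ 1) : ∃ s z', z = at' M s * z' := by
  obtain ⟨l, rfl⟩ := exists_list z
  cases l with
  | nil => simp at h
  | cons a l => exact ⟨a, _, by rw [List.map_cons, List.prod_cons]⟩

/-! ### Reversal -/

theorem reverse_alt (s t : S) (m : ℕ) :
    (alt s t m).reverse = if Even m then alt t s m else alt s t m := by
  have key : ∀ (m : ℕ) (s t : S), alt s t (m + 1) = alt s t m ++ [if Even m then s else t] := by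
    intro m
    induction m with
    | zero => intro s t; simp [alt_succ]
    | succ m ih =>
      intro s t
      rw [alt_succ, ih t s, alt_succ s t m, List.cons_append]
      by_cases hm : Even m
      · rw [if_pos hm, if_neg (by rwa [Nat.even_add_one, not_not])]
      · rw [if_neg hm, if_pos (by rwa [Nat.even_add_one])]
  induction m generalizing s t with
  | zero => simp
  | succ m ih =>
    conv_lhs => rw [alt_succ, List.reverse_cons, ih t s]
    by_cases hm : Even m
    · rw [if_pos hm, if_neg (by rwa [Nat.even_add_one, not_not]), key m s t, if_pos hm]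
    · rw [if_neg hm, if_pos (by rwa [Nat.even_add_one]), key m t s, if_neg hm]

theorem prod_op_eq {N : Type*} [Monoid N] (f : S → N) (l : List S) :
    (l.map (fun s => MulOpposite.op (f s))).prod = MulOpposite.op ((l.reverse.map f).prod) := by
  induction l with
  | nil => simp
  | cons a l ih => simp [ih]

theorem braid_op {N : Type*} [Monoid N] {f : S → N} (hf : Braid M f) :
    Braid M (fun s => MulOpposite.op (f s)) := by
  intro s t h
  rw [prod_op_eq, prod_op_eq, reverse_alt, reverse_alt]
  by_cases hm : Even (M s t)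
  · rw [if_pos hm, if_pos hm, hf s t h]
  · rw [if_neg hm, if_neg hm, hf s t h]

/-- reversal anti-automorphism -/
def revH : AM M →* (AM M)ᵐᵒᵖ := amLift (fun s => MulOpposite.op (at' M s)) (braid_op braid_at)

def rev (z : AM M) : AM M := (revH z).unop

@[simp] theorem rev_one : rev (1 : AM M) = 1 := by simp [rev]
@[simp] theorem rev_mul (x y : AM M) : rev (x * y) = rev y * rev x := by simp [rev]
@[simp] theorem rev_at (s : S) : rev (at' M s) = at' M s := by simp [rev, revH]

@[simp] theorem rev_rev (z : AM M) : rev (rev z) = z := by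
  induction z using induction_left with
  | h1 => simp
  | h2 s z ih => simp [ih]

/-! ### The section `W → A⁺` -/

variable {W : Type v} [Group W] {cs : CoxeterSystem M W}

/-- the statement of Matsumoto's theorem for the atoms of the Artin monoid -/
def Mats (cs : CoxeterSystem M W) : Prop := ∀ ω ω' : List S,
  cs.IsReduced ω → cs.IsReduced ω' → cs.wordProd ω = cs.wordProd ω' →
    (ω.map (at' M)).prod = (ω'.map (at' M)).prod

/-- All facts on the finite Coxeter group that are used for the construction. -/
structure Dat (cs : CoxeterSystem M W) extends Lat cs where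
  mats : Mats cs
  alt_red : ∀ (i j : S) (k : ℕ), i ≠ j → (M i j = 0 ∨ k ≤ M i j) →
    cs.length (cs.wordProd (alt i j k)) = k
  two : ∀ (w : W) (i j : S), i ≠ j → cs.IsLeftDescent w i → cs.IsLeftDescent w j →
    M i j ≠ 0 ∧ PL cs (cs.wordProd (alt i j (M i j))) w

variable (D : Dat cs)

noncomputable def redWord (cs : CoxeterSystem M W) (w : W) : List S := (cs.exists_isReduced w).choose

theorem redWord_red (w : W) : cs.IsReduced (redWord cs w) := (cs.exists_isReduced w).choose_spec.1
theorem redWord_prod (w : W) : cs.wordProd (redWord cs w) = w :=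
  (cs.exists_isReduced w).choose_spec.2.symm

variable (cs) in
/-- the section -/
noncomputable def sg (w : W) : AM M := ((redWord cs w).map (at' M)).prod

include D in
theorem sg_wordProd {ω : List S} (h : cs.IsReduced ω) :
    sg cs (cs.wordProd ω) = (ω.map (at' M)).prod :=
  D.mats _ _ (redWord_red _) h (redWord_prod _)

include D in
theorem sg_mul {u v : W} (h : Rd cs u v) : sg cs (u * v) = sg cs u * sg cs v := by
  have h1 : cs.IsReduced (redWord cs u ++ redWord cs v) :=
    IsReduced_append (redWord_red u) (redWord_red v) (by rw [redWord_prod, redWord_prod]; exact h)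
  have h2 := sg_wordProd D h1
  rw [cs.wordProd_append, redWord_prod, redWord_prod] at h2
  rw [h2, List.map_append, List.prod_append]
  rfl

include D in
theorem sg_one : sg cs 1 = 1 := by
  have := sg_wordProd D (ω := []) (by unfold CoxeterSystem.IsReduced; simp)
  simpa using this

include D in
theorem sg_simple (i : S) : sg cs (cs.simple i) = at' M i := by
  have := sg_wordProd D (ω := [i]) (by unfold CoxeterSystem.IsReduced; simp)
  simpa using this


include D in
theorem sg_PL {u w : W} (h : PL cs u w) : sg cs w = sg cs u * sg cs (u⁻¹ * w) := by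
  rw [← sg_mul D (PL_iff.1 h), mul_inv_cancel_left]

/-! ### The action on `W × A⁺` -/

/-- the action of an element `u` of `W` (as a simple element) -/
noncomputable def ph (u : W) (p : W × AM M) : W × AM M :=
  (u * mx D.toLat u p.1, sg cs ((mx D.toLat u p.1)⁻¹ * p.1) * p.2)

theorem ph_mul {s u : W} (h : Rd cs s u) (p : W × AM M) :
    ph D s (ph D u p) = ph D (s * u) p := by
  obtain ⟨w, y⟩ := p
  have h1 := mx_mul D.toLat (w := w) h
  set a := mx D.toLat u w with ha
  set b := mx D.toLat (s * u) w with hb
  have hbw := mx_PL D.toLat (s * u) w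
  rw [← hb] at hbw
  have haw := mx_PL D.toLat u w
  rw [← ha] at haw
  have hba : PL cs b a := by
    refine PL_mx D.toLat hbw ?_
    exact (Rd.assoc.1 ⟨h, mx_Rd D.toLat (s * u) w⟩).1
  have hr : Rd cs (b⁻¹ * a) (a⁻¹ * w) := by
    unfold Rd PL at *
    rw [show b⁻¹ * a * (a⁻¹ * w) = b⁻¹ * w by group]
    omega
  unfold ph
  simp only
  rw [← ha, h1, ← hb, ← mul_assoc, ← mul_assoc]
  congr 1
  rw [show (u * b)⁻¹ * (u * a) = b⁻¹ * a by group, ← sg_mul D hr]
  congr 2
  group

theorem ph_one (p : W × AM M) : ph D 1 p = p := by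
  obtain ⟨w, y⟩ := p
  unfold ph
  simp only [mx_one_left, one_mul, inv_mul_cancel, sg_one D]

theorem ph_list (ω : List S) (h : cs.IsReduced ω) (p : W × AM M) :
    ω.foldr (fun s q => ph D (cs.simple s) q) p = ph D (cs.wordProd ω) p := by
  induction ω with
  | nil => simp [ph_one]
  | cons i ω ih =>
    obtain ⟨h1, h2⟩ := Rd.wordProd_cons.1 h
    rw [List.foldr_cons, ih h1, ph_mul D h2, cs.wordProd_cons]

theorem prod_end {α : Type*} (f : S → Function.End α) (l : List S) (p : α) :
    ((l.map f).prod : Function.End α) p = l.foldr (fun s q => f s q) p := by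
  induction l with
  | nil => rfl
  | cons a l ih =>
    rw [List.map_cons, List.prod_cons, List.foldr_cons, ← ih]
    rfl

theorem wordProd_alt (cs : CoxeterSystem M W) (i j : S) :
    cs.wordProd (alt i j (M i j)) = cs.wordProd (alt j i (M i j)) := by
  by_cases h0 : M i j = 0
  · rw [h0]; simp
  by_cases hij : i = j
  · subst hij; rfl
  -- from the braid relation of Mathlib
  have key : ∀ (m : ℕ) (s t : S), CoxeterSystem.alternatingWord s t m = (alt t s m).reverse := by
    intro m
    induction m with
    | zero => intro s t; rfl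
    | succ m ih =>
      intro s t
      rw [CoxeterSystem.alternatingWord_succ, ih, alt_succ, List.reverse_cons, List.concat_eq_append]
  have hb := cs.wordProd_braidWord_eq i j
  simp only [CoxeterSystem.braidWord, M.symmetric j i] at hb
  rw [key, key, cs.wordProd_reverse, cs.wordProd_reverse, inv_inj] at hb
  exact hb.symm

/-- the generators of the action -/
noncomputable def phE (s : S) : Function.End (W × AM M) := ph D (cs.simple s)

/-- braid relations for the action -/
theorem braid_ph : Braid M (phE D) := by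
  intro s t h
  by_cases hst : s = t
  · subst hst; rfl
  funext p
  rw [prod_end, prod_end]
  change (alt s t (M s t)).foldr (fun s q => ph D (cs.simple s) q) p =
    (alt t s (M s t)).foldr (fun s q => ph D (cs.simple s) q) p
  rw [ph_list D _ (by
      unfold CoxeterSystem.IsReduced
      rw [D.alt_red s t _ hst (Or.inr le_rfl), length_alt]),
    ph_list D _ (by
      unfold CoxeterSystem.IsReduced
      rw [D.alt_red t s _ (Ne.symm hst) (Or.inr (M.symmetric s t).le), length_alt]),
    wordProd_alt cs]

/-- the action of the Artin monoid on `W × A⁺` -/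
noncomputable def Ph : AM M →* Function.End (W × AM M) :=
  amLift (phE D) (braid_ph D)

theorem Ph_at (s : S) (p : W × AM M) : Ph D (at' M s) p = ph D (cs.simple s) p := by
  unfold Ph; rw [amLift_at]; rfl

theorem Ph_mul (x y : AM M) (p : W × AM M) : Ph D (x * y) p = Ph D x (Ph D y p) := by
  rw [map_mul]; rfl

theorem Ph_one (p : W × AM M) : Ph D 1 p = p := by rw [map_one]; rfl

theorem Ph_sg (u : W) (p : W × AM M) : Ph D (sg cs u) p = ph D u p := by
  have h := ph_list D (redWord cs u) (redWord_red u) p
  rw [redWord_prod] at h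
  rw [← h]
  unfold sg
  rw [map_list_prod, List.map_map]
  have h2 := prod_end (phE D) (redWord cs u) p
  change _ = (redWord cs u).foldr (fun s q => phE D s q) p
  rw [← h2]
  congr 2

/-- the action on the first coordinate does not depend on the second one -/
theorem Ph_fst (z : AM M) (w : W) (y y' : AM M) : (Ph D z (w, y)).1 = (Ph D z (w, y')).1 := by
  induction z using induction_left with
  | h1 => simp [Ph_one]
  | h2 s z ih =>
    rw [Ph_mul, Ph_mul, Ph_at, Ph_at]
    unfold ph
    simp only [ih]

theorem Ph_val (z : AM M) (p : W × AM M) :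
    sg cs (Ph D z p).1 * (Ph D z p).2 = z * (sg cs p.1 * p.2) := by
  induction z using induction_left with
  | h1 => simp [Ph_one]
  | h2 s z ih =>
    rw [Ph_mul, Ph_at]
    set q := Ph D z p with hq
    unfold ph
    simp only
    rw [sg_mul D (mx_Rd _ _ _), sg_simple D, mul_assoc, ← mul_assoc (sg cs (mx D.toLat _ _)),
      ← sg_PL D (mx_PL _ _ _), ih, mul_assoc]

/-- head and tail -/
noncomputable def hd (z : AM M) : W := (Ph D z (1, 1)).1
noncomputable def tl (z : AM M) : AM M := (Ph D z (1, 1)).2

theorem hd_tl (z : AM M) : sg cs (hd D z) * tl D z = z := by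
  have := Ph_val D z (1, 1)
  rw [sg_one D, one_mul, mul_one] at this
  exact this

include D in
theorem at_mul_cancel {s : S} {x y : AM M} (h : at' M s * x = at' M s * y) : x = y := by
  have key : ∀ z : AM M, z = sg cs (cs.simple s * (Ph D (at' M s * z) (1, 1)).1) *
      (Ph D (at' M s * z) (1, 1)).2 := by
    intro z
    have h1 := hd_tl D z
    rw [Ph_mul, Ph_at]
    change z = sg cs (cs.simple s * (ph D (cs.simple s) (hd D z, tl D z)).1) *
      (ph D (cs.simple s) (hd D z, tl D z)).2
    unfold ph
    simp only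
    rw [cs.simple_mul_simple_cancel_left, ← mul_assoc, ← sg_PL D (mx_PL _ _ _)]
    exact h1.symm
  rw [key x, h, ← key y]

include D in
theorem mul_left_cancel' {z x y : AM M} (h : z * x = z * y) : x = y := by
  induction z using induction_left generalizing x y with
  | h1 => simpa using h
  | h2 s z ih =>
    rw [mul_assoc, mul_assoc] at h
    exact ih (at_mul_cancel D h)

include D in
theorem mul_right_cancel'' {z x y : AM M} (h : x * z = y * z) : x = y := by
  have h1 : rev (x * z) = rev (y * z) := by rw [h]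
  rw [rev_mul, rev_mul] at h1
  have h2 := mul_left_cancel' D h1
  rw [← rev_rev x, h2, rev_rev]

theorem hd_sg_mul (u : W) (z : AM M) : hd D (sg cs u * z) = u * mx D.toLat u (hd D z) := by
  unfold hd
  rw [Ph_mul, Ph_sg]
  rfl


theorem hd_sg (u : W) : hd D (sg cs u) = u := by
  have := hd_sg_mul D u 1
  rw [mul_one] at this
  rw [this]
  have h1 : hd D (1 : AM M) = 1 := by unfold hd; rw [Ph_one]
  rw [h1, mx_one_right, mul_one]

theorem hd_mul (x y : AM M) : hd D (x * y) = hd D (x * sg cs (hd D y)) := by
  have h2 : ∀ z w, (Ph D z (w, (1 : AM M))).1 = hd D (z * sg cs w) := by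
    intro z w
    unfold hd
    rw [Ph_mul]
    have h3 : (Ph D (sg cs w) (1, 1)).1 = w := hd_sg D w
    have h4 : Ph D (sg cs w) (1, 1) = (w, (Ph D (sg cs w) (1, 1)).2) := by
      conv_lhs => rw [← Prod.eta (Ph D (sg cs w) (1, 1)), h3]
    rw [h4]
    exact Ph_fst D z w _ _
  rw [← h2]
  unfold hd
  rw [Ph_mul]
  exact Ph_fst D x _ _ _

theorem sg_dvd_iff {u : W} {z : AM M} : sg cs u ∣ z ↔ PL cs u (hd D z) := by
  constructor
  · rintro ⟨y, rfl⟩
    rw [hd_sg_mul]
    exact PL_mul (mx_Rd _ _ _)
  · intro h
    rw [← hd_tl D z, sg_PL D h, mul_assoc]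
    exact Dvd.intro _ rfl

theorem at_dvd_iff {s : S} {z : AM M} : at' M s ∣ z ↔ cs.IsLeftDescent (hd D z) s := by
  rw [← sg_simple D, sg_dvd_iff D, simple_PL_iff]

include D in
/-- two atoms dividing `z` -/
theorem two_atoms {s t : S} {z : AM M} (hst : s ≠ t) (hs : at' M s ∣ z) (ht : at' M t ∣ z) :
    M s t ≠ 0 ∧ ((alt s t (M s t)).map (at' M)).prod ∣ z := by
  obtain ⟨h1, h2⟩ := D.two (hd D z) s t hst ((at_dvd_iff D).1 hs) ((at_dvd_iff D).1 ht)
  refine ⟨h1, ?_⟩
  rw [← sg_wordProd D, sg_dvd_iff D]
  · exact h2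
  · unfold CoxeterSystem.IsReduced
    rw [D.alt_red s t _ hst (Or.inr le_rfl), length_alt]

end Crest.Agent.R175.GMon_145
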