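import Mathlib
import Crest.Agent.R175.Geo2_974

/-!
# R175 (S0264), geometry 3 : the quadratic form `stabSq` of a geometric action

* `stabSq_pos` (G4) : positive on elements of infinite order;
* `stabSq_conj`, `stabIp_conj` : conjugation invariance;
* `stabSq_zpow_mul_zpow` : quadratic on commuting pairs;
* `tendsto_len_div` : asymptotics of `len x (g ^ 2 ^ k) / 2 ^ k`.
-/

set_option autoImplicit false

open Set Crest.Geometry Filter Topology

namespace Crest.Agent.R175.Geo

open R244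

section Quad

variable {G : Type*} [Group G] {ℓ : G → ℝ}

theorem tendsto_len_div (h : QuadLength ℓ) (g : G) :
    Tendsto (fun k : ℕ => ℓ (g ^ 2 ^ k) / 2 ^ k) atTop (𝓝 (Real.sqrt (stabSq ℓ g))) := by
  have h1 := (h.tendsto_stabSq g).sqrt
  refine h1.congr fun k => ?_
  have e : (4 : ℝ) ^ k = (2 ^ k) ^ 2 := by rw [← pow_mul, mul_comm k 2, pow_mul]; norm_num
  rw [e, ← div_pow, Real.sqrt_sq]
  have := h.nonneg (g ^ 2 ^ k)
  positivity

theorem stabSq_le (h : QuadLength ℓ) (g : G) : stabSq ℓ g ≤ ℓ g ^ 2 := by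
  have := (h.antitone_seq g)
  have h2 := this.le_of_tendsto (h.tendsto_stabSq g) 0
  simpa using h2

theorem sqrt_stabSq_le (h : QuadLength ℓ) (g : G) : Real.sqrt (stabSq ℓ g) ≤ ℓ g :=
  Real.sqrt_le_iff.2 ⟨h.nonneg g, stabSq_le h g⟩

theorem stabSq_conj (h : QuadLength ℓ) (g c : G) : stabSq ℓ (c * g * c⁻¹) = stabSq ℓ g := by
  have key : ∀ g c : G, Real.sqrt (stabSq ℓ (c * g * c⁻¹)) ≤ Real.sqrt (stabSq ℓ g) := by
    intro g c
    have h1 := tendsto_len_div h (c * g * c⁻¹)
    have h2 : Tendsto (fun k : ℕ => (2 * ℓ c) / 2 ^ k) atTop (𝓝 0) := by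
      refine Tendsto.div_atTop tendsto_const_nhds ?_
      exact tendsto_pow_atTop_atTop_of_one_lt (by norm_num)
    have h3 := (tendsto_len_div h g).add h2
    rw [add_zero] at h3
    refine le_of_tendsto_of_tendsto' h1 h3 fun k => ?_
    rw [← add_div]
    refine div_le_div_of_nonneg_right ?_ (by positivity)
    have e : (c * g * c⁻¹) ^ 2 ^ k = c * g ^ 2 ^ k * c⁻¹ := conj_pow
    rw [e]
    have a1 := h.mul_le (c * g ^ 2 ^ k) c⁻¹
    have a2 := h.mul_le c (g ^ 2 ^ k)
    rw [h.inv] at a1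
    linarith
  have k1 := key g c
  have k2 := key (c * g * c⁻¹) c⁻¹
  have e : c⁻¹ * (c * g * c⁻¹) * c⁻¹⁻¹ = g := by group
  rw [e] at k2
  have k3 := le_antisymm k1 k2
  rwa [Real.sqrt_inj (QuadLength.stabSq_nonneg _) (QuadLength.stabSq_nonneg _)] at k3

theorem stabIp_conj (h : QuadLength ℓ) (f g c : G) :
    stabIp ℓ (c * f * c⁻¹) (c * g * c⁻¹) = stabIp ℓ f g := by
  unfold stabIp
  have e : c * f * c⁻¹ * (c * g * c⁻¹) = c * (f * g) * c⁻¹ := by group
  rw [e, stabSq_conj h, stabSq_conj h, stabSq_conj h]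

theorem stabIp_conj_right (h : QuadLength ℓ) {f c : G} (hc : Commute f c) (g : G) :
    stabIp ℓ f (c * g * c⁻¹) = stabIp ℓ f g := by
  have e : c * f * c⁻¹ = f := by rw [← hc.eq, mul_assoc, mul_inv_cancel, mul_one]
  have := stabIp_conj h f g c
  rwa [e] at this

theorem stabIp_pow_right (h : QuadLength ℓ) {f z : G} (hz : Commute f z) (k : ℕ) :
    stabIp ℓ f (z ^ k) = k * stabIp ℓ f z := by
  induction k with
  | zero => simp [h.stabIp_one]
  | succ k ih =>
    rw [pow_succ, h.stabIp_mul (hz.pow_right k) hz, ih]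
    push_cast; ring

theorem stabIp_zpow_right (h : QuadLength ℓ) {f z : G} (hz : Commute f z) (k : ℤ) :
    stabIp ℓ f (z ^ k) = k * stabIp ℓ f z := by
  obtain ⟨n, rfl | rfl⟩ := k.eq_nat_or_neg
  · rw [zpow_natCast, stabIp_pow_right h hz]; simp
  · rw [zpow_neg, zpow_natCast, h.stabIp_inv (hz.pow_right n), stabIp_pow_right h hz]
    push_cast; ring

theorem stabSq_mul (f g : G) :
    stabSq ℓ (f * g) = stabSq ℓ f + 2 * stabIp ℓ f g + stabSq ℓ g := by
  unfold stabIp; ring

theorem stabSq_zpow (h : QuadLength ℓ) (f : G) (k : ℤ) : stabSq ℓ (f ^ k) = k ^ 2 * stabSq ℓ f := by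
  obtain ⟨n, rfl | rfl⟩ := k.eq_nat_or_neg
  · rw [zpow_natCast, h.stabSq_pow]; simp
  · rw [zpow_neg, zpow_natCast, h.stabSq_inv, h.stabSq_pow]; push_cast; ring

theorem stabSq_zpow_mul_zpow (h : QuadLength ℓ) {f z : G} (hz : Commute f z) (i j : ℤ) :
    stabSq ℓ (f ^ i * z ^ j) = i ^ 2 * stabSq ℓ f + 2 * i * j * stabIp ℓ f z
      + j ^ 2 * stabSq ℓ z := by
  have hc : Commute (f ^ i) z := hz.zpow_left i
  rw [stabSq_mul, stabIp_zpow_right h hc, stabSq_zpow h, stabSq_zpow h,
    QuadLength.stabIp_comm hc, stabIp_zpow_right h hz.symm, QuadLength.stabIp_comm hz.symm]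
  ring

/-- Adding an orthogonal commuting factor increases `stabSq`. -/
theorem stabSq_le_mul (h : QuadLength ℓ) {f c : G} (hc : Commute f c) (h0 : stabIp ℓ c f = 0)
    (m : ℤ) : stabSq ℓ f ≤ stabSq ℓ (f * c ^ m) := by
  rw [stabSq_mul, stabIp_zpow_right h hc, QuadLength.stabIp_comm hc, h0]
  have := QuadLength.stabSq_nonneg (ℓ := ℓ) (c ^ m)
  simp only [mul_zero, add_zero]
  linarith


end Quad

universe u

variable {X : Type u} [MetricSpace X] [ProperSpace X] {G : Type*} [Group G] [MulAction G X]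

/-- (G4) The stable length is positive on elements of infinite order. -/
theorem stabSq_pos (hX : IsCAT0Space X) (hG : IsGeometricAction G X) (x : X) (g : G)
    (hg : ∀ n : ℕ, 0 < n → g ^ n ≠ 1) : 0 < stabSq (len (G := G) x) g := by
  classical
  have hi := hG.1
  obtain ⟨K, hK, hcov⟩ := hG.2.2
  have hfin := finite_moves hG hK 1
  -- conjugates of `g` have no fixed point
  have hfix : ∀ c : G, ∀ k : X, (c⁻¹ * g * c) • k ≠ k := by
    intro c k hk
    have h1 := hG.2.1 {k} isCompact_singleton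
    set f := c⁻¹ * g * c with hf
    have hpow : ∀ n : ℕ, f ^ n • k = k := by
      intro n
      induction n with
      | zero => simp
      | succ n ih => rw [pow_succ, mul_smul, hk, ih]
    have h2 : (Set.range fun n : ℕ => f ^ n).Finite := by
      refine h1.subset ?_
      rintro _ ⟨n, rfl⟩
      exact ⟨k, ⟨k, rfl, hpow n⟩, rfl⟩
    have h3 : ¬ Function.Injective fun n : ℕ => f ^ n := fun hinj =>
      Set.infinite_range_of_injective hinj h2
    rw [Function.Injective] at h3
    push Not at h3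
    obtain ⟨m, n, hmn, hne⟩ := h3
    have hne2 : f ^ m = f ^ n := hmn
    have main : ∀ m n : ℕ, m < n → f ^ m = f ^ n → False := by
      intro m n hlt he
      have e1 : f ^ (n - m) = 1 := by
        have : f ^ n = f ^ m * f ^ (n - m) := by rw [← pow_add]; congr 1; omega
        rw [this] at he
        exact (mul_eq_left.1 he.symm)
      have e2 : f ^ (n - m) = c⁻¹ * g ^ (n - m) * c := by
        have := conj_pow (i := n - m) (a := c⁻¹) (b := g)
        rw [inv_inv] at this
        rw [hf, this]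
      rw [e2] at e1
      have e3 : g ^ (n - m) = 1 := by
        have : g ^ (n - m) = c * (c⁻¹ * g ^ (n - m) * c) * c⁻¹ := by group
        rw [this, e1]; group
      exact hg _ (by omega) e3
    rcases lt_or_gt_of_ne hne with h | h
    · exact main m n h hne2
    · exact main n m h hne2.symm
  -- a uniform lower bound of the displacement
  obtain ⟨δ, hδ, hlow⟩ : ∃ δ : ℝ, 0 < δ ∧ ∀ y : X, δ ≤ dist y (g • y) := by
    -- for each of the finitely many elements a positive lower bound on `K`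
    have hb : ∀ f : G, ∃ δ : ℝ, 0 < δ ∧ ((∃ c : G, f = c⁻¹ * g * c) → ∀ k ∈ K,
        δ ≤ dist k (f • k)) := by
      intro f
      by_cases hf : ∃ c : G, f = c⁻¹ * g * c
      · obtain ⟨c, rfl⟩ := hf
        rcases K.eq_empty_or_nonempty with hKe | hKn
        · exact ⟨1, one_pos, fun _ k hk => by rw [hKe] at hk; exact absurd hk (notMem_empty k)⟩
        · have hcont : Continuous fun k : X => dist k ((c⁻¹ * g * c) • k) :=
            continuous_id.dist (isometry_smul X (c⁻¹ * g * c)).continuous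
          obtain ⟨k₀, hk₀, hmin⟩ := hK.exists_isMinOn hKn hcont.continuousOn
          refine ⟨dist k₀ ((c⁻¹ * g * c) • k₀), ?_, fun _ k hk => hmin hk⟩
          exact dist_pos.2 (Ne.symm (hfix c k₀))
      · exact ⟨1, one_pos, fun h => absurd h hf⟩
    choose δ hδpos hδ using hb
    -- minimum over the finite set
    obtain ⟨d, hd, hdl⟩ : ∃ d : ℝ, 0 < d ∧ ∀ f ∈ hfin.toFinset, d ≤ δ f := by
      rcases hfin.toFinset.eq_empty_or_nonempty with he | hne
      · exact ⟨1, one_pos, fun f hf => by rw [he] at hf; exact absurd hf (Finset.notMem_empty f)⟩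
      · obtain ⟨f₀, hf₀, hmin⟩ := hfin.toFinset.exists_min_image δ hne
        exact ⟨δ f₀, hδpos f₀, hmin⟩
    refine ⟨min d 1, lt_min hd one_pos, fun y => ?_⟩
    obtain ⟨c, k, hk, hky⟩ := hcov y
    have hky' : c • k = y := hky
    have e : dist y (g • y) = dist k ((c⁻¹ * g * c) • k) := by
      rw [← hky', ← dist_smul c k, smul_smul, smul_smul]
      congr 2
      group
    rw [e]
    by_cases h1 : dist k ((c⁻¹ * g * c) • k) ≤ 1
    · have hm : (c⁻¹ * g * c) ∈ hfin.toFinset := by
        rw [Set.Finite.mem_toFinset]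
        exact ⟨k, hk, h1⟩
      exact (min_le_left _ _).trans ((hdl _ hm).trans (hδ _ ⟨c, rfl⟩ k hk))
    · push Not at h1
      exact (min_le_right _ _).trans h1.le
  -- doubling
  have hdouble : ∀ (δ : ℝ), 0 ≤ δ → ∀ f : G, (∀ y : X, δ ≤ dist y (f • y)) →
      ∀ y : X, 2 * δ ≤ dist y ((f ^ 2) • y) := by
    intro δ hδ f hf y
    obtain ⟨m, hm⟩ := exists_mid hX y (f • y)
    -- `f • m` is a midpoint of `f • y` and `f² • y`
    have hm' : ∀ q : X, dist q (f • m) ^ 2 ≤
        (dist q (f • y) ^ 2 + dist q (f • f • y) ^ 2) / 2 - dist (f • y) (f • f • y) ^ 2 / 4 := by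
      intro q
      have := hm (f⁻¹ • q)
      rw [← dist_smul f (f⁻¹ • q) m, ← dist_smul f (f⁻¹ • q) y,
        ← dist_smul f (f⁻¹ • q) (f • y), smul_inv_smul, ← dist_smul f y (f • y)] at this
      exact this
    have h1 := midline (f • y) y (f • f • y) m (f • m) (fun q => by
      have := hm q
      rw [dist_comm (f • y) y, add_comm (dist q (f • y) ^ 2)]
      exact this) hm'
    have h2 := hf m
    rw [pow_two, mul_smul]
    linarith
  have hpow : ∀ k : ℕ, ∀ y : X, 2 ^ k * δ ≤ dist y ((g ^ 2 ^ k) • y) := by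
    intro k
    induction k with
    | zero => intro y; simpa using hlow y
    | succ k ih =>
      intro y
      have := hdouble (2 ^ k * δ) (by positivity) (g ^ 2 ^ k) ih y
      rw [← pow_mul, ← pow_succ] at this
      calc 2 ^ (k + 1) * δ = 2 * (2 ^ k * δ) := by ring
        _ ≤ _ := this
  have hq := quadLength (G := G) hX hi x
  have hlim := hq.tendsto_stabSq g
  have hle : δ ^ 2 ≤ stabSq (len (G := G) x) g := by
    refine ge_of_tendsto' hlim fun k => ?_
    rw [le_div_iff₀ (by positivity)]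
    have h1 := hpow k x
    have h2 : (2 ^ k * δ) ^ 2 ≤ (len x (g ^ 2 ^ k)) ^ 2 :=
      pow_le_pow_left₀ (by positivity) h1 2
    calc δ ^ 2 * 4 ^ k = (2 ^ k * δ) ^ 2 := by
          rw [mul_pow, ← pow_mul, mul_comm k 2, pow_mul]; norm_num; ring
      _ ≤ _ := h2
  exact lt_of_lt_of_le (by positivity) hle

end Crest.Agent.R175.Geo
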