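import Mathlib
import Crest.Agent.R175.PTA_534

-- ▼ part R175/LES_445
section

/-!
# R175 / homology of a differential space and short exact sequences (dimension form)

`hh D = dim ker D - dim range D`.  For `0 -> V1 -> V -> V2 -> 0` compatible with the differentials:
`hh D <= hh D1 + hh D2`, with strict inequality iff the connecting map is nonzero.
-/

namespace Crest.Agent.R175.LES_445

open Module LinearMap

variable {k : Type*} [Field k]
variable {V V1 V2 : Type*} [AddCommGroup V] [Module k V] [AddCommGroup V1] [Module k V1]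
  [AddCommGroup V2] [Module k V2]

/-- dimension of the homology of a differential space -/
noncomputable def hh (D : V →ₗ[k] V) : ℕ := finrank k (ker D) - finrank k (range D)

theorem range_le_ker {D : V →ₗ[k] V} (hD : ∀ x, D (D x) = 0) : range D ≤ ker D := by
  rintro _ ⟨x, rfl⟩
  exact hD x

variable [FiniteDimensional k V] [FiniteDimensional k V1] [FiniteDimensional k V2]

theorem hh_add {D : V →ₗ[k] V} (hD : ∀ x, D (D x) = 0) :
    hh D + 2 * finrank k (range D) = finrank k V := by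
  have h1 := D.finrank_range_add_finrank_ker
  have h2 := Submodule.finrank_mono (range_le_ker hD)
  unfold hh
  omega

/-- every class is zero iff `hh = 0` -/
theorem hh_eq_zero {D : V →ₗ[k] V} (hD : ∀ x, D (D x) = 0) :
    hh D = 0 ↔ ∀ x, D x = 0 → ∃ y, D y = x := by
  have h2 := Submodule.finrank_mono (range_le_ker hD)
  constructor
  · intro h x hx
    have h3 : finrank k (range D) = finrank k (ker D) := by
      unfold hh at h
      omega
    have h4 := Submodule.eq_of_le_of_finrank_eq (range_le_ker hD) h3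
    have h5 : x ∈ ker D := hx
    rw [← h4] at h5
    exact h5
  · intro h
    have h3 : range D = ker D := by
      refine le_antisymm (range_le_ker hD) ?_
      intro x hx
      exact h x hx
    unfold hh
    rw [h3]
    omega

section Seq

variable {D : V →ₗ[k] V} {D1 : V1 →ₗ[k] V1} {D2 : V2 →ₗ[k] V2}
  {i : V1 →ₗ[k] V} {p : V →ₗ[k] V2}

theorem rank_add (hi : Function.Injective i) (hp : Function.Surjective p) (hpi : ∀ x, p (i x) = 0)
    (hD1 : ∀ x, D (i x) = i (D1 x)) (hD2 : ∀ x, p (D x) = D2 (p x)) :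
    finrank k (range D1) + finrank k (range D2) ≤ finrank k (range D) := by
  set q : range D →ₗ[k] V2 := p ∘ₗ (range D).subtype with hq
  have h1 := q.finrank_range_add_finrank_ker
  have h2 : range q = range D2 := by
    ext y
    constructor
    · rintro ⟨⟨_, x, rfl⟩, rfl⟩
      exact ⟨p x, (hD2 x).symm⟩
    · rintro ⟨z, rfl⟩
      obtain ⟨x, rfl⟩ := hp z
      exact ⟨⟨D x, x, rfl⟩, hD2 x⟩
  let f : range D1 →ₗ[k] ker q :=
    { toFun := fun x => ⟨⟨i x.1, by obtain ⟨y, hy⟩ := x.2; exact ⟨i y, by rw [hD1, hy]⟩⟩, hpi _⟩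
      map_add' := fun x y => by ext; simp
      map_smul' := fun c x => by ext; simp }
  have h3 : finrank k (range D1) ≤ finrank k (ker q) := by
    refine LinearMap.finrank_le_finrank_of_injective (f := f) ?_
    intro x y hxy
    have h4 : i x.1 = i y.1 := by
      have := congrArg (fun z : ker q => (z.1.1 : V)) hxy
      exact this
    exact Subtype.ext (hi h4)
  rw [h2] at h1
  omega

theorem rank_add_lt (hi : Function.Injective i) (hp : Function.Surjective p)
    (hpi : ∀ x, p (i x) = 0)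
    (hD1 : ∀ x, D (i x) = i (D1 x)) (hD2 : ∀ x, p (D x) = D2 (p x))
    {v : V} {a : V1} (hv : D v = i a) (ha : ∀ y, D1 y ≠ a) :
    finrank k (range D1) + finrank k (range D2) < finrank k (range D) := by
  set q : range D →ₗ[k] V2 := p ∘ₗ (range D).subtype with hq
  have h1 := q.finrank_range_add_finrank_ker
  have h2 : range q = range D2 := by
    ext y
    constructor
    · rintro ⟨⟨_, x, rfl⟩, rfl⟩
      exact ⟨p x, (hD2 x).symm⟩
    · rintro ⟨z, rfl⟩
      obtain ⟨x, rfl⟩ := hp z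
      exact ⟨⟨D x, x, rfl⟩, hD2 x⟩
  set S : Submodule k V1 := range D1 ⊔ Submodule.span k {a} with hS
  have hSD : ∀ x ∈ S, i x ∈ range D := by
    intro x hx
    have : S ≤ (range D).comap i := by
      refine sup_le ?_ ?_
      · rintro _ ⟨y, rfl⟩
        exact ⟨i y, hD1 y⟩
      · rw [Submodule.span_le]
        intro y hy
        rw [Set.mem_singleton_iff] at hy
        subst hy
        exact ⟨v, hv⟩
    exact this hx
  let f : S →ₗ[k] ker q :=
    { toFun := fun x => ⟨⟨i x.1, hSD x.1 x.2⟩, hpi _⟩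
      map_add' := fun x y => by ext; simp
      map_smul' := fun c x => by ext; simp }
  have h3 : finrank k S ≤ finrank k (ker q) := by
    refine LinearMap.finrank_le_finrank_of_injective (f := f) ?_
    intro x y hxy
    have h4 : i x.1 = i y.1 := by
      have := congrArg (fun z : ker q => (z.1.1 : V)) hxy
      exact this
    exact Subtype.ext (hi h4)
  have h5 : finrank k (range D1) < finrank k S := by
    refine Submodule.finrank_lt_finrank_of_lt ?_
    refine lt_of_le_of_ne le_sup_left ?_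
    intro heq
    have h6 : a ∈ S := Submodule.mem_sup_right (Submodule.mem_span_singleton_self a)
    rw [← heq] at h6
    obtain ⟨y, hy⟩ := h6
    exact ha y hy
  rw [h2] at h1
  omega

/-- **subadditivity** -/
theorem hh_le (hi : Function.Injective i) (hp : Function.Surjective p) (hpi : ∀ x, p (i x) = 0)
    (hdim : finrank k V = finrank k V1 + finrank k V2)
    (hD : ∀ x, D (D x) = 0) (hDD1 : ∀ x, D1 (D1 x) = 0) (hDD2 : ∀ x, D2 (D2 x) = 0)
    (hD1 : ∀ x, D (i x) = i (D1 x)) (hD2 : ∀ x, p (D x) = D2 (p x)) :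
    hh D ≤ hh D1 + hh D2 := by
  have h1 := hh_add hD
  have h2 := hh_add hDD1
  have h3 := hh_add hDD2
  have h4 := rank_add hi hp hpi hD1 hD2
  omega

/-- **strict subadditivity** when the connecting map is nonzero -/
theorem hh_lt (hi : Function.Injective i) (hp : Function.Surjective p) (hpi : ∀ x, p (i x) = 0)
    (hdim : finrank k V = finrank k V1 + finrank k V2)
    (hD : ∀ x, D (D x) = 0) (hDD1 : ∀ x, D1 (D1 x) = 0) (hDD2 : ∀ x, D2 (D2 x) = 0)
    (hD1 : ∀ x, D (i x) = i (D1 x)) (hD2 : ∀ x, p (D x) = D2 (p x))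
    {v : V} {a : V1} (hv : D v = i a) (ha : ∀ y, D1 y ≠ a) :
    hh D + 2 ≤ hh D1 + hh D2 := by
  have h1 := hh_add hD
  have h2 := hh_add hDD1
  have h3 := hh_add hDD2
  have h4 := rank_add_lt hi hp hpi hD1 hD2 hv ha
  omega

end Seq

end Crest.Agent.R175.LES_445
end

-- ▼ part R175/Ocone_259
section

set_option autoImplicit false

open CategoryTheory

namespace Crest.Agent.R175.Ocone_259

open Crest.Agent.R175.PTA Module

universe u v

variable {T : Type u} {G : MG T} {k : Type v} [Field k]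

/-- direct sum of graded objects -/
abbrev gsum (X Y : Gob G k) : Gob G k where
  V t := X.V t × Y.V t
  W t := X.W t × Y.W t
  gV t := (X.gV t).prodMap (Y.gV t)
  gW t := (X.gW t).prodMap (Y.gW t)
  gV_sq t := by
    rw [LinearMap.prodMap_comp, X.gV_sq, Y.gV_sq, LinearMap.prodMap_id]
  gW_sq t := by
    rw [LinearMap.prodMap_comp, X.gW_sq, Y.gW_sq, LinearMap.prodMap_id]

variable (X Y : Gob G k)

def il : X ⟶ gsum X Y :=
  mkH (fun _ => LinearMap.inl k _ _) (fun _ => LinearMap.inl k _ _) (fun _ _ _ => 0) (fun _ => 0)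
    (fun _ => 0) (fun _ => 0)
def ir : Y ⟶ gsum X Y :=
  mkH (fun _ => LinearMap.inr k _ _) (fun _ => LinearMap.inr k _ _) (fun _ _ _ => 0) (fun _ => 0)
    (fun _ => 0) (fun _ => 0)
def pl : gsum X Y ⟶ X :=
  mkH (fun _ => LinearMap.fst k _ _) (fun _ => LinearMap.fst k _ _) (fun _ _ _ => 0) (fun _ => 0)
    (fun _ => 0) (fun _ => 0)
def pr : gsum X Y ⟶ Y :=
  mkH (fun _ => LinearMap.snd k _ _) (fun _ => LinearMap.snd k _ _) (fun _ _ _ => 0) (fun _ => 0)
    (fun _ => 0) (fun _ => 0)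

section simps
variable (t : T)
@[simp] theorem c0_il : c0 (il X Y) t = LinearMap.inl k _ _ := rfl
@[simp] theorem cW_il : cW (il X Y) t = LinearMap.inl k _ _ := rfl
@[simp] theorem c1_il {s t : T} (a : G.E s t) : c1 (il X Y) a = 0 := rfl
@[simp] theorem ci_il : ci (il X Y) t = 0 := rfl
@[simp] theorem cj_il : cj (il X Y) t = 0 := rfl
@[simp] theorem c2_il : c2 (il X Y) t = 0 := rfl
@[simp] theorem c0_ir : c0 (ir X Y) t = LinearMap.inr k _ _ := rfl
@[simp] theorem cW_ir : cW (ir X Y) t = LinearMap.inr k _ _ := rfl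
@[simp] theorem c1_ir {s t : T} (a : G.E s t) : c1 (ir X Y) a = 0 := rfl
@[simp] theorem ci_ir : ci (ir X Y) t = 0 := rfl
@[simp] theorem cj_ir : cj (ir X Y) t = 0 := rfl
@[simp] theorem c2_ir : c2 (ir X Y) t = 0 := rfl
@[simp] theorem c0_pl : c0 (pl X Y) t = LinearMap.fst k _ _ := rfl
@[simp] theorem cW_pl : cW (pl X Y) t = LinearMap.fst k _ _ := rfl
@[simp] theorem c1_pl {s t : T} (a : G.E s t) : c1 (pl X Y) a = 0 := rfl
@[simp] theorem ci_pl : ci (pl X Y) t = 0 := rfl
@[simp] theorem cj_pl : cj (pl X Y) t = 0 := rfl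
@[simp] theorem c2_pl : c2 (pl X Y) t = 0 := rfl
@[simp] theorem c0_pr : c0 (pr X Y) t = LinearMap.snd k _ _ := rfl
@[simp] theorem cW_pr : cW (pr X Y) t = LinearMap.snd k _ _ := rfl
@[simp] theorem c1_pr {s t : T} (a : G.E s t) : c1 (pr X Y) a = 0 := rfl
@[simp] theorem ci_pr : ci (pr X Y) t = 0 := rfl
@[simp] theorem cj_pr : cj (pr X Y) t = 0 := rfl
@[simp] theorem c2_pr : c2 (pr X Y) t = 0 := rfl
end simps

variable [Fintype T]

@[simp] theorem il_pl : il X Y ≫ pl X Y = 𝟙 X := by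
  apply hm_ext <;> intros <;> simp
@[simp] theorem ir_pr : ir X Y ≫ pr X Y = 𝟙 Y := by
  apply hm_ext <;> intros <;> simp
@[simp] theorem il_pr : il X Y ≫ pr X Y = 0 := by
  apply hm_ext <;> intros <;> simp
@[simp] theorem ir_pl : ir X Y ≫ pl X Y = 0 := by
  apply hm_ext <;> intros <;> simp
theorem tot_id : pl X Y ≫ il X Y + pr X Y ≫ ir X Y = 𝟙 (gsum X Y) := by
  apply hm_ext
  · intro t; ext x <;> simp
  · intro t; ext x <;> simp
  · intros; simp
  · intros; simp
  · intros; simp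
  · intros; simp

@[simp] theorem il_pl_assoc {Z : Gob G k} (f : X ⟶ Z) : il X Y ≫ pl X Y ≫ f = f := by
  rw [← Category.assoc, il_pl, Category.id_comp]
@[simp] theorem ir_pr_assoc {Z : Gob G k} (f : Y ⟶ Z) : ir X Y ≫ pr X Y ≫ f = f := by
  rw [← Category.assoc, ir_pr, Category.id_comp]
@[simp] theorem il_pr_assoc {Z : Gob G k} (f : Y ⟶ Z) : il X Y ≫ pr X Y ≫ f = 0 := by
  rw [← Category.assoc, il_pr, Limits.zero_comp]
@[simp] theorem ir_pl_assoc {Z : Gob G k} (f : X ⟶ Z) : ir X Y ≫ pl X Y ≫ f = 0 := by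
  rw [← Category.assoc, ir_pl, Limits.zero_comp]

theorem gam_gsum : gam (gsum X Y) = pl X Y ≫ gam X ≫ il X Y + pr X Y ≫ gam Y ≫ ir X Y := by
  apply hm_ext
  · intro t; ext x <;> simp [gsum]
  · intro t; ext x <;> simp [gsum]
  · intros; simp
  · intros; simp
  · intros; simp
  · intros; simp

@[simp] theorem il_gam : il X Y ≫ gam (gsum X Y) = gam X ≫ il X Y := by
  rw [gam_gsum]; simp
@[simp] theorem ir_gam : ir X Y ≫ gam (gsum X Y) = gam Y ≫ ir X Y := by
  rw [gam_gsum]; simp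
@[simp] theorem gam_pl : gam (gsum X Y) ≫ pl X Y = pl X Y ≫ gam X := by
  rw [gam_gsum]; simp
@[simp] theorem gam_pr : gam (gsum X Y) ≫ pr X Y = pr X Y ≫ gam Y := by
  rw [gam_gsum]; simp

@[simp] theorem bar_il : bar (il X Y) = il X Y := by
  rw [bar, il_gam]; simp
@[simp] theorem bar_ir : bar (ir X Y) = ir X Y := by
  rw [bar, ir_gam]; simp
@[simp] theorem bar_pl : bar (pl X Y) = pl X Y := by
  rw [bar, ← Category.assoc, gam_pl]; simp
@[simp] theorem bar_pr : bar (pr X Y) = pr X Y := by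
  rw [bar, ← Category.assoc, gam_pr]; simp

section cone

variable {Y Y' : TOb G k} (a : Y.X ⟶ Y'.X)

/-- the cone of an odd closed map of `Cs` -/
abbrev ocone (hD : D Y Y' a = 0) (ho : bar a = -a) (hW : ∀ t, cW a t = 0) : TOb G k where
  X := gsum Y.X Y'.X
  d := pl _ _ ≫ Y.d ≫ il _ _ + pl _ _ ≫ a ≫ ir _ _ + pr _ _ ≫ Y'.d ≫ ir _ _
  dd := by
    have h : a ≫ Y'.d + Y.d ≫ a = 0 := by
      have := hD
      rw [D_apply, ho, Preadditive.comp_neg, sub_neg_eq_add] at this
      exact this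
    simp only [Preadditive.add_comp, Preadditive.comp_add, Category.assoc, il_pl_assoc,
      il_pr_assoc, ir_pl_assoc, ir_pr_assoc, Limits.comp_zero, add_zero, zero_add,
      TOb.dd_assoc]
    rw [← Preadditive.comp_add, ← Category.assoc Y.d, ← Category.assoc a, ← Preadditive.add_comp,
      add_comm (Y.d ≫ a), h]
    simp
  dg := by
    have h : a ≫ gam Y'.X = -(gam Y.X ≫ a) := by
      have h1 : gam Y.X ≫ bar a = gam Y.X ≫ (-a) := by rw [ho]
      rw [bar, gam_gam_assoc, Preadditive.comp_neg] at h1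
      exact h1
    rw [gam_gsum]
    simp only [Preadditive.add_comp, Preadditive.comp_add, Category.assoc, il_pl_assoc,
      il_pr_assoc, ir_pl_assoc, ir_pr_assoc, Limits.comp_zero, add_zero, zero_add, neg_add]
    have e1 : Y.d ≫ gam Y.X ≫ il Y.X Y'.X = -(gam Y.X ≫ Y.d ≫ il Y.X Y'.X) := by
      rw [← Category.assoc, Y.dg]; simp
    have e2 : a ≫ gam Y'.X ≫ ir Y.X Y'.X = -(gam Y.X ≫ a ≫ ir Y.X Y'.X) := by
      rw [← Category.assoc, h]; simp
    have e3 : Y'.d ≫ gam Y'.X ≫ ir Y.X Y'.X = -(gam Y'.X ≫ Y'.d ≫ ir Y.X Y'.X) := by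
      rw [← Category.assoc, Y'.dg]; simp
    rw [e1, e2, e3]
    simp only [Preadditive.comp_neg]
    abel
  dW t := by
    simp [hW t]

variable (hD : D Y Y' a = 0) (ho : bar a = -a) (hW : ∀ t, cW a t = 0)

theorem ir_d : ir Y.X Y'.X ≫ (ocone a hD ho hW).d = Y'.d ≫ ir Y.X Y'.X := by
  simp [ocone]

theorem d_pl : (ocone a hD ho hW).d ≫ pl Y.X Y'.X = pl Y.X Y'.X ≫ Y.d := by
  simp [ocone]

theorem lam_ocone (t : T) : lam (ocone a hD ho hW) t = lam Y t + lam Y' t :=
  Module.finrank_prod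

theorem ci_ocone (t : T) (x : Y.X.W t × Y'.X.W t) :
    ci (ocone a hD ho hW).d t x = (ci Y.d t x.1, ci a t x.1 + ci Y'.d t x.2) := by
  refine Prod.ext ?_ ?_ <;> simp

theorem cj_ocone (t : T) (x : Y.X.V t × Y'.X.V t) :
    cj (ocone a hD ho hW).d t x = (cj Y.d t x.1, cj a t x.1 + cj Y'.d t x.2) := by
  refine Prod.ext ?_ ?_ <;> simp

/-- `hT` is subadditive on cones -/
theorem hT_ocone_le (X : TOb G k) : hT X (ocone a hD ho hW) ≤ hT X Y + hT X Y' := by
  have key := LES_445.hh_le (k := k) (D := DC X (ocone a hD ho hW)) (D1 := DC X Y')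
    (D2 := DC X Y)
    (i := { toFun := fun f => ⟨f.1 ≫ ir Y.X Y'.X, Cs_comp_right f.2 _⟩
            map_add' := fun f g => Subtype.ext (by simp)
            map_smul' := fun c f => Subtype.ext (by simp) })
    (p := { toFun := fun f => ⟨f.1 ≫ pl Y.X Y'.X, Cs_comp_right f.2 _⟩
            map_add' := fun f g => Subtype.ext (by simp)
            map_smul' := fun c f => Subtype.ext (by simp) })
    ?_ ?_ ?_ ?_ DC_DC DC_DC DC_DC ?_ ?_
  · rw [add_comm]; exact key
  · intro f g h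
    have h1 : f.1 ≫ ir Y.X Y'.X = g.1 ≫ ir Y.X Y'.X := congrArg Subtype.val h
    have h2 := congrArg (fun z => z ≫ pr Y.X Y'.X) h1
    simp only [Category.assoc, ir_pr, Category.comp_id] at h2
    exact Subtype.ext h2
  · intro f
    refine ⟨⟨f.1 ≫ il Y.X Y'.X, Cs_comp_right f.2 _⟩, Subtype.ext ?_⟩
    simp
  · intro f
    refine Subtype.ext ?_
    simp
  · -- dimensions
    let e : Cs X.X (gsum Y.X Y'.X) ≃ₗ[k] Cs X.X Y'.X × Cs X.X Y.X :=
      { toFun := fun f => (⟨f.1 ≫ pr Y.X Y'.X, Cs_comp_right f.2 _⟩,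
          ⟨f.1 ≫ pl Y.X Y'.X, Cs_comp_right f.2 _⟩)
        map_add' := fun f g => by ext1 <;> exact Subtype.ext (by simp)
        map_smul' := fun c f => by ext1 <;> exact Subtype.ext (by simp)
        invFun := fun p => ⟨p.1.1 ≫ ir Y.X Y'.X + p.2.1 ≫ il Y.X Y'.X,
          Submodule.add_mem _ (Cs_comp_right p.1.2 _) (Cs_comp_right p.2.2 _)⟩
        left_inv := fun f => Subtype.ext (by
          simp only [Category.assoc]
          rw [← Preadditive.comp_add, add_comm, tot_id, Category.comp_id])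
        right_inv := fun p => by
          ext1 <;> exact Subtype.ext (by simp) }
    rw [← Module.finrank_prod]
    exact e.finrank_eq
  · intro f
    refine Subtype.ext ?_
    change D X (ocone a hD ho hW) (f.1 ≫ ir Y.X Y'.X) = (D X Y' f.1) ≫ ir Y.X Y'.X
    rw [D_apply, D_apply, bar_comp, bar_ir, Category.assoc, ir_d, Preadditive.sub_comp]
    simp
  · intro f
    refine Subtype.ext ?_
    change (D X (ocone a hD ho hW) f.1) ≫ pl Y.X Y'.X = D X Y (f.1 ≫ pl Y.X Y'.X)
    rw [D_apply, D_apply, Preadditive.sub_comp, Category.assoc, d_pl, bar_comp, bar_pl]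
    simp

end cone

end Crest.Agent.R175.Ocone_259
end

-- ▼ part R175/QI_61
section

/-!
# Quasi-isomorphism lemma for spaces with a differential (row 175)

`hd_eq` : `(C, D)`, `(C', D')` finite dimensional, `S ≤ C` stable under `D`, `q : S → C'` onto with
`q D = D' q`, `ker q` acyclic, `C / S` acyclic  ⇒  `hd D = hd D'`.
`hd_prod_zero` : a direct factor with zero differential.
-/

set_option autoImplicit false

namespace Crest.Agent.R175.QI_61

open Crest.Agent.R175.PTA

universe v w w'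

variable {k : Type v} [Field k] {C : Type w} [AddCommGroup C] [Module k C] [FiniteDimensional k C]
  {C' : Type w'} [AddCommGroup C'] [Module k C'] [FiniteDimensional k C']

/-- the homology -/
abbrev Hm (D : C →ₗ[k] C) : Type w :=
  (LinearMap.ker D) ⧸ (LinearMap.range D).submoduleOf (LinearMap.ker D)

theorem finrank_Hm {D : C →ₗ[k] C} (h : ∀ x, D (D x) = 0) : Module.finrank k (Hm D) = hd D := by
  have h1 : Module.finrank k (Hm D) + Module.finrank k ((LinearMap.range D).submoduleOf (LinearMap.ker D))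
      = Module.finrank k (LinearMap.ker D) := Submodule.finrank_quotient_add_finrank _
  have h2 : Module.finrank k ((LinearMap.range D).submoduleOf (LinearMap.ker D))
      = Module.finrank k (LinearMap.range D) :=
    (Submodule.submoduleOfEquivOfLe (range_le_ker h)).finrank_eq
  have h3 := hd_add_range h
  omega

theorem hd_eq {D : C →ₗ[k] C} {D' : C' →ₗ[k] C'} (h : ∀ x, D (D x) = 0) (h' : ∀ x, D' (D' x) = 0)
    (S : Submodule k C) (hS : ∀ x ∈ S, D x ∈ S) (q : S →ₗ[k] C')
    (hq : Function.Surjective q) (hqD : ∀ x : S, q ⟨D x, hS x x.2⟩ = D' (q x))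
    (hk : ∀ x : S, q x = 0 → D x = 0 → ∃ y : S, q y = 0 ∧ D y = x)
    (hc : ∀ x, D x ∈ S → ∃ y, x - D y ∈ S) : hd D = hd D' := by
  classical
  -- cocycles in `S`
  let Z : Submodule k C := S ⊓ LinearMap.ker D
  let φ0 : Z →ₗ[k] LinearMap.ker D := Submodule.inclusion inf_le_right
  let φ : Z →ₗ[k] Hm D := (Submodule.mkQ _) ∘ₗ φ0
  let ψ0 : Z →ₗ[k] LinearMap.ker D' := LinearMap.codRestrict _
    (q ∘ₗ Submodule.inclusion inf_le_left) (fun x => by
      have h1 := hqD (Submodule.inclusion inf_le_left x)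
      have h2 : (⟨D (Submodule.inclusion (inf_le_left : Z ≤ S) x : C), hS _ (Submodule.inclusion (inf_le_left : Z ≤ S) x).2⟩ : S) = 0 :=
        Subtype.ext x.2.2
      rw [h2, map_zero] at h1
      exact h1.symm)
  let ψ : Z →ₗ[k] Hm D' := (Submodule.mkQ _) ∘ₗ ψ0
  have hφ : Function.Surjective φ := by
    intro z
    obtain ⟨z, rfl⟩ := Submodule.mkQ_surjective _ z
    obtain ⟨y, hy⟩ := hc z (by rw [show D (z : C) = 0 from z.2]; exact S.zero_mem)
    refine ⟨⟨(z : C) - D y, hy, ?_⟩, ?_⟩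
    · show D ((z : C) - D y) = 0
      rw [map_sub, h, show D (z : C) = 0 from z.2, sub_zero]
    · show Submodule.mkQ _ _ = Submodule.mkQ _ _
      rw [← sub_eq_zero, ← map_sub, Submodule.mkQ_apply, Submodule.Quotient.mk_eq_zero]
      show (z : C) - D y - z ∈ LinearMap.range D
      exact ⟨-y, by rw [map_neg]; abel⟩
  have hψ : Function.Surjective ψ := by
    intro z
    obtain ⟨z, rfl⟩ := Submodule.mkQ_surjective _ z
    obtain ⟨x, hx⟩ := hq z
    obtain ⟨y, hy, hy2⟩ := hk ⟨D x, hS x x.2⟩ (by rw [hqD, hx]; exact z.2) (h x)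
    have hy2' : D (y : C) = D (x : C) := hy2
    refine ⟨⟨(x : C) - y, S.sub_mem x.2 y.2, ?_⟩, ?_⟩
    · show D ((x : C) - y) = 0
      rw [map_sub, hy2', sub_self]
    · show Submodule.mkQ _ _ = Submodule.mkQ _ _
      congr 1
      apply Subtype.ext
      show q (x - y) = z
      rw [map_sub, hx, hy, sub_zero]
  have hker : LinearMap.ker φ = LinearMap.ker ψ := by
    ext x
    rw [LinearMap.mem_ker, LinearMap.mem_ker]
    show Submodule.mkQ _ _ = 0 ↔ Submodule.mkQ _ _ = 0
    rw [Submodule.mkQ_apply, Submodule.Quotient.mk_eq_zero, Submodule.mkQ_apply,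
      Submodule.Quotient.mk_eq_zero]
    show (x : C) ∈ LinearMap.range D ↔ q (Submodule.inclusion inf_le_left x) ∈ LinearMap.range D'
    constructor
    · rintro ⟨y, hy⟩
      obtain ⟨y', hy'⟩ := hc y (by rw [hy]; exact x.2.1)
      refine ⟨q ⟨_, hy'⟩, ?_⟩
      rw [← hqD]
      congr 1
      apply Subtype.ext
      show D (y - D y') = x
      rw [map_sub, h, sub_zero, hy]
    · rintro ⟨y', hy'⟩
      obtain ⟨y, rfl⟩ := hq y'
      rw [← hqD] at hy'
      obtain ⟨w, hw, hw2⟩ := hk (Submodule.inclusion inf_le_left x - ⟨D y, hS y y.2⟩)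
        (by rw [map_sub, hy', sub_self]) (by
          show D ((x : C) - D y) = 0
          rw [map_sub, h, sub_zero]; exact x.2.2)
      have hw2' : D (w : C) = (x : C) - D y := hw2
      refine ⟨(y : C) + w, ?_⟩
      rw [map_add, hw2']; abel
  have e1 := LinearMap.finrank_range_add_finrank_ker φ
  have e2 := LinearMap.finrank_range_add_finrank_ker ψ
  rw [LinearMap.range_eq_top.2 hφ, finrank_top, finrank_Hm h] at e1
  rw [LinearMap.range_eq_top.2 hψ, finrank_top, finrank_Hm h'] at e2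
  rw [hker] at e1
  omega

theorem hd_prod_zero {D : C →ₗ[k] C} (h : ∀ x, D (D x) = 0) :
    hd (LinearMap.prodMap D (0 : C' →ₗ[k] C')) = hd D + Module.finrank k C' := by
  have h2 : ∀ x, (LinearMap.prodMap D (0 : C' →ₗ[k] C')) ((LinearMap.prodMap D (0 : C' →ₗ[k] C')) x) = 0 := by
    intro x
    exact Prod.ext (h x.1) rfl
  have e1 := hd_add_two_range h
  have e2 := hd_add_two_range h2
  have e3 : Module.finrank k (LinearMap.range (LinearMap.prodMap D (0 : C' →ₗ[k] C')))
      = Module.finrank k (LinearMap.range D) := by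
    have : LinearMap.range (LinearMap.prodMap D (0 : C' →ₗ[k] C'))
        = (LinearMap.range D).map (LinearMap.inl k C C') := by
      ext x
      simp only [LinearMap.mem_range, Submodule.mem_map]
      constructor
      · rintro ⟨y, rfl⟩
        exact ⟨D y.1, ⟨y.1, rfl⟩, rfl⟩
      · rintro ⟨_, ⟨y, rfl⟩, rfl⟩
        exact ⟨(y, 0), rfl⟩
    rw [this]
    exact (Submodule.equivMapOfInjective _ LinearMap.inl_injective _).finrank_eq.symm
  rw [e3, Module.finrank_prod] at e2
  omega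

end Crest.Agent.R175.QI_61
end

-- ▼ part R175/Red_61

/-!
# RED (row 175, task 458): reduction of a T-framed object at all vertices at once

`C : TOb G k`, `R : RD C` = spaces `K t` with parity `gK`, even maps `u t : K t → W t`,
`Xi t : W t → K t` with `Xi u = 0`, `Xi j i u = 1`.  Then `v = i u`, `xi = Xi j`, `eta = xi i`,
`pr = 1 - v xi`, and the reduced object `R.ob = C^b` has
`V = ker xi`, `W s = (ker Xi ∩ ker eta) × ∏_{a : t → s} K t`, `d = d`, `B = pr B`, `e = pr e`,
`i (w, κ) = i w + ∑ pr B_a v κ_a`, `j x = ((1 - u eta) j x, (xi B_(rev a) x)_a)`.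

Main results:
* `RD.hT_red` : `hT X C = hT X R.ob + ∑ t, dim K t * lam X t`;
* `RD.lam_ob` : `lam R.ob s + 2 dim K s = lam C s + ∑ t, #E t s * dim K t`;
* `RD.finrank_V` : `dim V^b t + dim K t = dim V t`.

The form of the proof (subspace `S`, quotient map `q`) is helper272's (post 2661).
-/

set_option autoImplicit false
set_option linter.unusedSectionVars false
set_option linter.unusedVariables false
set_option linter.unusedSimpArgs false

open CategoryTheory

namespace Crest.Agent.R175.Red_61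

open Crest.Agent.R175.PTA

universe u v

variable {T : Type u} {G : MG T} {k : Type v} [Field k] [Fintype T]

/-! ### elementwise equations of a T-framed object -/

section el

theorem gV2 (C : Gob G k) (t : T) (x : C.V t) : C.gV t (C.gV t x) = x :=
  LinearMap.congr_fun (C.gV_sq t) x
theorem gW2 (C : Gob G k) (t : T) (x : C.W t) : C.gW t (C.gW t x) = x :=
  LinearMap.congr_fun (C.gW_sq t) x

variable (C : TOb G k)

theorem e_dd (t : T) (x : C.X.V t) : c0 C.d t (c0 C.d t x) = 0 :=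
  LinearMap.congr_fun (congrArg (fun f => c0 f t) C.dd) x

theorem e_dB {s t : T} (a : G.E s t) (x : C.X.V s) :
    c1 C.d a (c0 C.d s x) + c0 C.d t (c1 C.d a x) = 0 :=
  LinearMap.congr_fun (congrArg (fun f => c1 f a) C.dd) x

theorem e_di (t : T) (x : C.X.W t) : c0 C.d t (ci C.d t x) = 0 := by
  have h := LinearMap.congr_fun (congrArg (fun f => ci f t) C.dd) x
  have h2 : ci C.d t (cW C.d t x) + c0 C.d t (ci C.d t x) = 0 := h
  rwa [C.dW, LinearMap.zero_apply, map_zero, zero_add] at h2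

theorem e_jd (t : T) (x : C.X.V t) : cj C.d t (c0 C.d t x) = 0 := by
  have h := LinearMap.congr_fun (congrArg (fun f => cj f t) C.dd) x
  have h2 : cj C.d t (c0 C.d t x) + cW C.d t (cj C.d t x) = 0 := h
  rwa [C.dW, LinearMap.zero_apply, add_zero] at h2

theorem e_mc (t : T) (x : C.X.V t) :
    c2 C.d t (c0 C.d t x) + c0 C.d t (c2 C.d t x)
      + (∑ s, ∑ a : G.E t s, c1 C.d (G.rev a) (c1 C.d a x)) + ci C.d t (cj C.d t x) = 0 := by
  have h : c2 (C.d ≫ C.d) t x = 0 := LinearMap.congr_fun (congrArg (fun f => c2 f t) C.dd) x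
  rw [c2_comp] at h
  simpa only [LinearMap.add_apply, LinearMap.comp_apply, LinearMap.sum_apply] using h

theorem e_gd (t : T) (x : C.X.V t) : c0 C.d t (C.X.gV t x) = - C.X.gV t (c0 C.d t x) := by
  have h := LinearMap.congr_fun (congrArg (fun f => c0 f t) C.dg) x
  simp only [c0_comp, c0_gam, c0_neg, LinearMap.comp_apply, LinearMap.neg_apply] at h
  rw [h, neg_neg]

theorem e_gB {s t : T} (a : G.E s t) (x : C.X.V s) :
    c1 C.d a (C.X.gV s x) = - C.X.gV t (c1 C.d a x) := by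
  have h := LinearMap.congr_fun (congrArg (fun f => c1 f a) C.dg) x
  simp only [c1_comp, c0_gam, c1_gam, c1_neg, LinearMap.comp_apply, LinearMap.neg_apply,
    LinearMap.add_apply, LinearMap.zero_apply, zero_add, add_zero, map_zero] at h
  rw [h, neg_neg]

theorem e_gi (t : T) (x : C.X.W t) : ci C.d t (C.X.gW t x) = - C.X.gV t (ci C.d t x) := by
  have h := LinearMap.congr_fun (congrArg (fun f => ci f t) C.dg) x
  simp only [ci_comp, c0_gam, cW_gam, ci_gam, ci_neg, LinearMap.comp_apply, LinearMap.neg_apply,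
    LinearMap.add_apply, LinearMap.zero_apply, zero_add, add_zero, map_zero] at h
  rw [h, neg_neg]

theorem e_gj (t : T) (x : C.X.V t) : cj C.d t (C.X.gV t x) = - C.X.gW t (cj C.d t x) := by
  have h := LinearMap.congr_fun (congrArg (fun f => cj f t) C.dg) x
  simp only [cj_comp, c0_gam, cW_gam, cj_gam, cj_neg, LinearMap.comp_apply, LinearMap.neg_apply,
    LinearMap.add_apply, LinearMap.zero_apply, zero_add, add_zero, map_zero] at h
  rw [h, neg_neg]

theorem e_ge (t : T) (x : C.X.V t) : c2 C.d t (C.X.gV t x) = - C.X.gV t (c2 C.d t x) := by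
  have h := LinearMap.congr_fun (congrArg (fun f => c2 f t) C.dg) x
  simp only [c2_comp, c0_gam, c1_gam, ci_gam, cj_gam, c2_gam, c2_neg, LinearMap.comp_apply, LinearMap.neg_apply,
    LinearMap.add_apply, LinearMap.zero_apply, zero_add, add_zero, map_zero, LinearMap.zero_comp,
    LinearMap.comp_zero, Finset.sum_const_zero] at h
  rw [h, neg_neg]

end el

/-! ### reduction data -/

/-- reduction data at all vertices -/
structure RD (C : TOb G k) where
  K : T → Type v
  [K1 : ∀ t, AddCommGroup (K t)]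
  [K2 : ∀ t, Module k (K t)]
  [K3 : ∀ t, FiniteDimensional k (K t)]
  gK : ∀ t, K t →ₗ[k] K t
  gK2 : ∀ t x, gK t (gK t x) = x
  u : ∀ t, K t →ₗ[k] C.X.W t
  Xi : ∀ t, C.X.W t →ₗ[k] K t
  gu : ∀ t x, C.X.gW t (u t x) = u t (gK t x)
  gXi : ∀ t x, Xi t (C.X.gW t x) = gK t (Xi t x)
  Xu : ∀ t x, Xi t (u t x) = 0
  Xjiu : ∀ t x, Xi t (cj C.d t (ci C.d t (u t x))) = x

attribute [instance] RD.K1 RD.K2 RD.K3

namespace RD
variable {C : TOb G k} (R : RD C)

/-- `ξ = Ξ j`. -/
def xi (t : T) : C.X.V t →ₗ[k] R.K t := R.Xi t ∘ₗ cj C.d t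
/-- `v = i u`. -/
def v (t : T) : R.K t →ₗ[k] C.X.V t := ci C.d t ∘ₗ R.u t
/-- `η = ξ i`. -/
def eta (t : T) : C.X.W t →ₗ[k] R.K t := R.xi t ∘ₗ ci C.d t

theorem xi_apply (t : T) (x : C.X.V t) : R.xi t x = R.Xi t (cj C.d t x) := rfl
theorem v_apply (t : T) (x : R.K t) : R.v t x = ci C.d t (R.u t x) := rfl
theorem eta_apply (t : T) (x : C.X.W t) : R.eta t x = R.xi t (ci C.d t x) := rfl

theorem xi_v (t : T) (x : R.K t) : R.xi t (R.v t x) = x := R.Xjiu t x
theorem eta_u (t : T) (x : R.K t) : R.eta t (R.u t x) = x := R.Xjiu t x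
theorem xi_d (t : T) (x : C.X.V t) : R.xi t (c0 C.d t x) = 0 := by
  rw [xi_apply, e_jd, map_zero]
theorem d_v (t : T) (x : R.K t) : c0 C.d t (R.v t x) = 0 := e_di C t _
theorem xi_g (t : T) (x : C.X.V t) : R.xi t (C.X.gV t x) = - R.gK t (R.xi t x) := by
  rw [xi_apply, e_gj, map_neg, R.gXi, xi_apply]
theorem v_g (t : T) (x : R.K t) : C.X.gV t (R.v t x) = - R.v t (R.gK t x) := by
  rw [v_apply, v_apply, ← R.gu, e_gi, neg_neg]
theorem eta_g (t : T) (x : C.X.W t) : R.eta t (C.X.gW t x) = R.gK t (R.eta t x) := by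
  rw [eta_apply, e_gi, map_neg, xi_g, neg_neg, eta_apply]

/-- The projection `1 - v ξ` onto `ker ξ`. -/
def pr (t : T) : C.X.V t →ₗ[k] LinearMap.ker (R.xi t) :=
  LinearMap.codRestrict _ (LinearMap.id - R.v t ∘ₗ R.xi t) (fun x => by
    rw [LinearMap.mem_ker, LinearMap.sub_apply, map_sub, LinearMap.id_apply, LinearMap.comp_apply,
      xi_v, sub_self])

theorem pr_coe (t : T) (x : C.X.V t) : (R.pr t x : C.X.V t) = x - R.v t (R.xi t x) := rfl

/-- The frames which survive at `t`. -/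
abbrev W' (t : T) : Submodule k (C.X.W t) := LinearMap.ker (R.Xi t) ⊓ LinearMap.ker (R.eta t)

/-- The projection `1 - u η`, from `ker Ξ` to `ker Ξ ∩ ker η`. -/
def prW (t : T) : LinearMap.ker (R.Xi t) →ₗ[k] R.W' t :=
  LinearMap.codRestrict _ ((LinearMap.id - R.u t ∘ₗ R.eta t) ∘ₗ (LinearMap.ker (R.Xi t)).subtype)
    (fun x => by
    rw [Submodule.mem_inf, LinearMap.mem_ker, LinearMap.mem_ker]
    constructor
    · simp only [LinearMap.comp_apply, LinearMap.sub_apply, LinearMap.id_apply, map_sub, R.Xu,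
        Submodule.subtype_apply, sub_zero]
      exact x.2
    · simp only [LinearMap.comp_apply, LinearMap.sub_apply, LinearMap.id_apply, map_sub, R.eta_u,
        Submodule.subtype_apply, sub_self])


theorem Xi_mem {t : T} (x : R.W' t) : R.Xi t (x : C.X.W t) = 0 := x.2.1
theorem eta_mem {t : T} (x : R.W' t) : R.eta t (x : C.X.W t) = 0 := x.2.2

theorem pr_of_mem {t : T} {x : C.X.V t} (h : R.xi t x = 0) : (R.pr t x : C.X.V t) = x := by
  rw [pr_coe, h, map_zero, sub_zero]

theorem pr_v (t : T) (x : R.K t) : R.pr t (R.v t x) = 0 := by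
  apply Subtype.ext
  rw [pr_coe, xi_v, sub_self]; rfl


theorem d_pr (t : T) (x : C.X.V t) : c0 C.d t (R.pr t x : C.X.V t) = c0 C.d t x := by
  rw [pr_coe, map_sub, d_v, sub_zero]

theorem g_mem {t : T} {x : C.X.V t} (h : R.xi t x = 0) : R.xi t (C.X.gV t x) = 0 := by
  rw [xi_g, h, map_zero, neg_zero]

theorem pr_g (t : T) (x : C.X.V t) :
    (R.pr t (C.X.gV t x) : C.X.V t) = C.X.gV t (R.pr t x : C.X.V t) := by
  rw [pr_coe, pr_coe, xi_g, map_sub, v_g, map_neg]

/-- the restriction of `gV` to `ker ξ`. -/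
def gVb (t : T) : LinearMap.ker (R.xi t) →ₗ[k] LinearMap.ker (R.xi t) :=
  LinearMap.codRestrict _ (C.X.gV t ∘ₗ (LinearMap.ker (R.xi t)).subtype) (fun x => R.g_mem x.2)

theorem gVb_coe {t : T} (x : LinearMap.ker (R.xi t)) :
    (R.gVb t x : C.X.V t) = C.X.gV t (x : C.X.V t) := rfl

/-- the restriction of `gW` to `ker Ξ ∩ ker η`. -/
def gW' (t : T) : R.W' t →ₗ[k] R.W' t :=
  LinearMap.codRestrict _ (C.X.gW t ∘ₗ (R.W' t).subtype) (fun x => by
    rw [Submodule.mem_inf, LinearMap.mem_ker, LinearMap.mem_ker]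
    constructor
    · show R.Xi t (C.X.gW t x) = 0
      rw [R.gXi, R.Xi_mem, map_zero]
    · show R.eta t (C.X.gW t x) = 0
      rw [R.eta_g, R.eta_mem, map_zero])

theorem gW'_coe {t : T} (x : R.W' t) : (R.gW' t x : C.X.W t) = C.X.gW t (x : C.X.W t) := rfl

/-- the new frames at `s`: one copy of `K t` for every edge `t → s` (in `Type v`). -/
abbrev Nw (s : T) : Type v :=
  ∀ n : Fin (Fintype.card T), G.E ((Fintype.equivFin T).symm n) s → R.K ((Fintype.equivFin T).symm n)

/-- the new frames, indexed by the edges `t → s` -/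
noncomputable def un (s : T) : R.Nw s ≃ₗ[k] (∀ t, G.E t s → R.K t) :=
  LinearEquiv.piCongrLeft k (fun t => G.E t s → R.K t) (Fintype.equivFin T).symm

/-- `i` on the new frames. -/
noncomputable def ib (s : T) : (R.W' s × R.Nw s) →ₗ[k] LinearMap.ker (R.xi s) :=
  LinearMap.coprod (R.pr s ∘ₗ ci C.d s ∘ₗ (R.W' s).subtype)
    ((∑ t, ∑ a : G.E t s, R.pr s ∘ₗ c1 C.d a ∘ₗ R.v t ∘ₗ LinearMap.proj a ∘ₗ LinearMap.proj t)
      ∘ₗ (R.un s).toLinearMap)

theorem ib_apply (s : T) (w : R.W' s) (κ : R.Nw s) :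
    R.ib s (w, κ) = R.pr s (ci C.d s w)
      + ∑ t, ∑ a : G.E t s, R.pr s (c1 C.d a (R.v t (R.un s κ t a))) := by
  simp [ib]

/-- first component of `j` -/
def jb1 (s : T) : LinearMap.ker (R.xi s) →ₗ[k] R.W' s :=
  R.prW s ∘ₗ LinearMap.codRestrict _ (cj C.d s ∘ₗ (LinearMap.ker (R.xi s)).subtype) (fun x => x.2)

theorem jb1_coe {s : T} (x : LinearMap.ker (R.xi s)) :
    (R.jb1 s x : C.X.W s) = cj C.d s x - R.u s (R.eta s (cj C.d s x)) := rfl

/-- second component of `j` -/
noncomputable def jb2 (s : T) : LinearMap.ker (R.xi s) →ₗ[k] R.Nw s :=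
  (R.un s).symm.toLinearMap ∘ₗ LinearMap.pi fun t => LinearMap.pi fun a =>
    R.xi t ∘ₗ c1 C.d (G.rev a) ∘ₗ (LinearMap.ker (R.xi s)).subtype

theorem un_jb2 {s : T} (x : LinearMap.ker (R.xi s)) (t : T) (a : G.E t s) :
    R.un s (R.jb2 s x) t a = R.xi t (c1 C.d (G.rev a) x) := by
  simp [jb2]

/-- the parity on the new frames -/
noncomputable def gN (s : T) : R.Nw s →ₗ[k] R.Nw s :=
  (R.un s).symm.toLinearMap ∘ₗ (LinearMap.pi fun t => LinearMap.pi fun a =>
    - (R.gK t ∘ₗ LinearMap.proj a ∘ₗ LinearMap.proj t)) ∘ₗ (R.un s).toLinearMap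

theorem un_gN {s : T} (κ : R.Nw s) (t : T) (a : G.E t s) :
    R.un s (R.gN s κ) t a = - R.gK t (R.un s κ t a) := by
  simp [gN]

/-- the underlying graded object of the reduced object -/
noncomputable def obX : Gob G k where
  V t := LinearMap.ker (R.xi t)
  W s := R.W' s × R.Nw s
  gV t := R.gVb t
  gW s := LinearMap.prodMap (R.gW' s) (R.gN s)
  gV_sq t := LinearMap.ext fun x => Subtype.ext (gV2 C.X t x)
  gW_sq t := LinearMap.ext fun x => by
    apply Prod.ext
    · exact Subtype.ext (gW2 C.X t x.1)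
    · apply (R.un t).injective
      funext s a
      show R.un t (R.gN t (R.gN t x.2)) s a = R.un t x.2 s a
      rw [un_gN, un_gN, map_neg, R.gK2, neg_neg]

/-- the differential of the reduced object -/
noncomputable def obd : R.obX ⟶ R.obX :=
  mkH (X := R.obX) (Y := R.obX)
    (fun t => R.pr t ∘ₗ c0 C.d t ∘ₗ (LinearMap.ker (R.xi t)).subtype) (fun _ => 0)
    (fun s t a => R.pr t ∘ₗ c1 C.d a ∘ₗ (LinearMap.ker (R.xi s)).subtype)
    R.ib (fun s => LinearMap.prod (R.jb1 s) (R.jb2 s))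
    (fun s => R.pr s ∘ₗ c2 C.d s ∘ₗ (LinearMap.ker (R.xi s)).subtype)

theorem x_mc (t : T) (x : LinearMap.ker (R.xi t)) :
    R.pr t (c2 C.d t (R.pr t (c0 C.d t x))) + R.pr t (c0 C.d t (R.pr t (c2 C.d t x)))
      + (∑ s, ∑ a : G.E t s, R.pr t (c1 C.d (G.rev a) (R.pr s (c1 C.d a x))))
      + R.ib t (R.jb1 t x, R.jb2 t x) = 0 := by
  rw [ib_apply, R.pr_of_mem (R.xi_d t x), d_pr, jb1_coe]
  simp only [un_jb2]
  have h1 : ∀ s (a : G.E t s), R.pr t (c1 C.d (G.rev a) (R.pr s (c1 C.d a x)))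
      = R.pr t (c1 C.d (G.rev a) (c1 C.d a x))
        - R.pr t (c1 C.d (G.rev a) (R.v s (R.xi s (c1 C.d a x)))) := by
    intro s a
    rw [pr_coe, map_sub, map_sub]
  simp only [h1, Finset.sum_sub_distrib]
  have h2 : ∀ s, ∑ a : G.E s t, R.pr t (c1 C.d a (R.v s (R.xi s (c1 C.d (G.rev a) x))))
      = ∑ a : G.E t s, R.pr t (c1 C.d (G.rev a) (R.v s (R.xi s (c1 C.d a x)))) := by
    intro s
    refine (Fintype.sum_equiv (⟨G.rev, G.rev, G.rev_rev, G.rev_rev⟩ : G.E t s ≃ G.E s t) _ _ ?_).symm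
    intro a
    show _ = R.pr t (c1 C.d (G.rev a) (R.v s (R.xi s (c1 C.d (G.rev (G.rev a)) x))))
    rw [G.rev_rev]
  simp only [h2]
  have h3 : R.pr t (ci C.d t (cj C.d t x - R.u t (R.eta t (cj C.d t x)))) = R.pr t (ci C.d t (cj C.d t x)) := by
    rw [map_sub, map_sub, ← v_apply, pr_v, sub_zero]
  rw [h3]
  have h4 := congrArg (R.pr t) (e_mc C t x)
  simp only [map_add, map_zero, map_sum] at h4
  have h5 : ∀ a b c d e : LinearMap.ker (R.xi t), a + b + c + d = 0 → a + b + (c - e) + (d + e) = 0 := by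
    intro a b c d e h
    rw [← h]; abel
  exact h5 _ _ _ _ _ h4

theorem x_0 (t : T) (x : LinearMap.ker (R.xi t)) :
    R.pr t (c0 C.d t (R.pr t (c0 C.d t x))) = 0 := by
  apply Subtype.ext
  rw [d_pr, e_dd, map_zero]

theorem x_1 {s t : T} (a : G.E s t) (x : LinearMap.ker (R.xi s)) :
    R.pr t (c1 C.d a (R.pr s (c0 C.d s x))) + R.pr t (c0 C.d t (R.pr t (c1 C.d a x))) = 0 := by
  rw [d_pr, ← map_add, R.pr_of_mem (R.xi_d s x), e_dB, map_zero]

theorem x_i (t : T) (w : R.W' t) (κ : R.Nw t) :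
    R.pr t (c0 C.d t (R.ib t (w, κ))) = 0 := by
  apply Subtype.ext
  rw [R.pr_of_mem (R.xi_d t _), ib_apply]
  simp only [Submodule.coe_add, map_add, Submodule.coe_sum, map_sum, d_pr, e_di]
  simp only [map_zero, zero_add, ZeroMemClass.coe_zero]
  apply Finset.sum_eq_zero
  intro s _
  apply Finset.sum_eq_zero
  intro a _
  have h := e_dB C a (R.v s (R.un t κ s a))
  rwa [d_v, map_zero, zero_add] at h

theorem x_j1 (t : T) (x : LinearMap.ker (R.xi t)) : R.jb1 t (R.pr t (c0 C.d t x)) = 0 := by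
  apply Subtype.ext
  rw [jb1_coe, R.pr_of_mem (R.xi_d t x), e_jd, map_zero, map_zero, sub_zero]; rfl

theorem x_j2 (t : T) (x : LinearMap.ker (R.xi t)) : R.jb2 t (R.pr t (c0 C.d t x)) = 0 := by
  apply (R.un t).injective
  funext s a
  rw [un_jb2, R.pr_of_mem (R.xi_d t x), map_zero]
  have h := e_dB C (G.rev a) (x : C.X.V t)
  rw [eq_neg_of_add_eq_zero_left h, map_neg, xi_d, neg_zero]; rfl

theorem g_0 (t : T) (x : LinearMap.ker (R.xi t)) :
    R.gVb t (R.pr t (c0 C.d t x)) = - R.pr t (c0 C.d t (R.gVb t x)) := by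
  apply Subtype.ext
  rw [Submodule.coe_neg, gVb_coe, gVb_coe, e_gd, map_neg, Submodule.coe_neg, ← pr_g, neg_neg]

theorem g_1 {s t : T} (a : G.E s t) (x : LinearMap.ker (R.xi s)) :
    R.gVb t (R.pr t (c1 C.d a x)) = - R.pr t (c1 C.d a (R.gVb s x)) := by
  apply Subtype.ext
  rw [Submodule.coe_neg, gVb_coe, gVb_coe, e_gB, map_neg, Submodule.coe_neg, ← pr_g, neg_neg]

theorem g_2 (t : T) (x : LinearMap.ker (R.xi t)) :
    R.gVb t (R.pr t (c2 C.d t x)) = - R.pr t (c2 C.d t (R.gVb t x)) := by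
  apply Subtype.ext
  rw [Submodule.coe_neg, gVb_coe, gVb_coe, e_ge, map_neg, Submodule.coe_neg, ← pr_g, neg_neg]

theorem g_i (t : T) (w : R.W' t) (κ : R.Nw t) :
    R.gVb t (R.ib t (w, κ)) = - R.ib t (R.gW' t w, R.gN t κ) := by
  apply Subtype.ext
  rw [Submodule.coe_neg, gVb_coe, ib_apply, ib_apply, gW'_coe, e_gi]
  simp only [Submodule.coe_add, map_add, Submodule.coe_sum, map_sum, map_neg, Submodule.coe_neg,
    ← pr_g, neg_add, neg_neg]
  congr 1
  rw [← Finset.sum_neg_distrib]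
  refine Finset.sum_congr rfl fun s _ => ?_
  rw [← Finset.sum_neg_distrib]
  refine Finset.sum_congr rfl fun a _ => ?_
  have h := R.v_g s (R.un t κ s a)
  have h2 := e_gB C a (R.v s (R.un t κ s a))
  rw [h, map_neg, neg_inj] at h2
  rw [un_gN, map_neg, map_neg, map_neg, h2, Submodule.coe_neg, neg_neg]

theorem g_j1 (t : T) (x : LinearMap.ker (R.xi t)) :
    R.gW' t (R.jb1 t x) = - R.jb1 t (R.gVb t x) := by
  apply Subtype.ext
  rw [Submodule.coe_neg, gW'_coe, jb1_coe, jb1_coe, gVb_coe, e_gj, map_neg, map_neg, map_sub, R.gu,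
    R.eta_g]
  abel

theorem g_j2 (t : T) (x : LinearMap.ker (R.xi t)) :
    R.gN t (R.jb2 t x) = - R.jb2 t (R.gVb t x) := by
  apply (R.un t).injective
  funext s a
  rw [un_gN, un_jb2, map_neg]
  show _ = - R.un t (R.jb2 t (R.gVb t x)) s a
  rw [un_jb2, gVb_coe, e_gB, map_neg, xi_g, neg_neg]

/-- **the reduced object** `C^b`. -/
noncomputable def ob : TOb G k where
  X := R.obX
  d := R.obd
  dd := by
    apply hm_ext
    · intro t
      exact LinearMap.ext fun x => R.x_0 t x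
    · intro t
      rfl
    · intro s t a
      exact LinearMap.ext fun x => R.x_1 a x
    · intro t
      refine LinearMap.ext fun x => ?_
      show R.ib t 0 + R.pr t (c0 C.d t (R.ib t (x.1, x.2))) = 0
      rw [map_zero, x_i, add_zero]
    · intro t
      refine LinearMap.ext fun (x : LinearMap.ker (R.xi t)) => ?_
      show (R.jb1 t (R.pr t (c0 C.d t x)), R.jb2 t (R.pr t (c0 C.d t x))) + 0 = 0
      rw [x_j1, x_j2, add_zero]; rfl
    · intro t
      refine LinearMap.ext fun x => ?_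
      have h := R.x_mc t x
      rw [c2_comp]
      simp only [LinearMap.add_apply, LinearMap.comp_apply, LinearMap.sum_apply]
      exact h
  dg := by
    apply hm_ext
    · intro t
      exact LinearMap.ext fun x => R.g_0 t x
    · intro t
      rw [cW_comp, cW_neg, cW_comp]
      show _ ∘ₗ 0 = - (0 ∘ₗ _)
      rw [LinearMap.comp_zero, LinearMap.zero_comp, neg_zero]
    · intro s t a
      refine LinearMap.ext fun x => ?_
      rw [c1_comp, c1_neg, c1_comp]
      simp only [c1_gam, c0_gam, LinearMap.zero_comp, LinearMap.comp_zero, zero_add, add_zero]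
      exact R.g_1 a x
    · intro t
      refine LinearMap.ext fun x => ?_
      rw [ci_comp, ci_neg, ci_comp]
      simp only [ci_gam, c0_gam, cW_gam, LinearMap.zero_comp, LinearMap.comp_zero, zero_add, add_zero]
      exact R.g_i t x.1 x.2
    · intro t
      refine LinearMap.ext fun x => ?_
      rw [cj_comp, cj_neg, cj_comp]
      simp only [cj_gam, c0_gam, cW_gam, LinearMap.zero_comp, LinearMap.comp_zero, zero_add, add_zero]
      exact Prod.ext (R.g_j1 t x) (R.g_j2 t x)
    · intro t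
      refine LinearMap.ext fun x => ?_
      rw [c2_comp, c2_neg, c2_comp]
      simp only [c2_gam, c1_gam, ci_gam, cj_gam, c0_gam, cW_gam, LinearMap.zero_comp, LinearMap.comp_zero, zero_add,
        add_zero, Finset.sum_const_zero]
      exact R.g_2 t x
  dW _ := rfl

/-! ### coordinates of the reduced object -/

/-- `1 - v ξ` as an endomorphism -/
def P (t : T) : C.X.V t →ₗ[k] C.X.V t := LinearMap.id - R.v t ∘ₗ R.xi t

theorem P_apply (t : T) (x : C.X.V t) : R.P t x = x - R.v t (R.xi t x) := rfl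
theorem P_of_mem {t : T} {x : C.X.V t} (h : R.xi t x = 0) : R.P t x = x := by
  rw [P_apply, h, map_zero, sub_zero]
theorem P_g (t : T) (x : C.X.V t) : R.P t (C.X.gV t x) = C.X.gV t (R.P t x) := by
  rw [P_apply, P_apply, xi_g, map_sub, v_g, map_neg]
theorem P_v (t : T) (x : R.K t) : R.P t (R.v t x) = 0 := by
  rw [P_apply, xi_v, sub_self]
theorem P_d (t : T) (x : C.X.V t) : R.P t (c0 C.d t x) = c0 C.d t x := R.P_of_mem (R.xi_d t x)

/-- the inclusion `V^b → V` -/
noncomputable def coV (t : T) : R.ob.X.V t →ₗ[k] C.X.V t := (LinearMap.ker (R.xi t)).subtype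
/-- the projection `W^b → W` -/
noncomputable def coW (t : T) : R.ob.X.W t →ₗ[k] C.X.W t := (R.W' t).subtype ∘ₗ LinearMap.fst k (R.W' t) (R.Nw t)
/-- the projection of `W^b` to the new frames -/
noncomputable def coN (t : T) : R.ob.X.W t →ₗ[k] (∀ s, G.E s t → R.K s) :=
  (R.un t).toLinearMap ∘ₗ LinearMap.snd k (R.W' t) (R.Nw t)

theorem coV_inj (t : T) : Function.Injective (R.coV t) := Subtype.val_injective
theorem W_ext {t : T} {x y : R.ob.X.W t} (h : R.coW t x = R.coW t y)
    (h' : ∀ s a, R.coN t x s a = R.coN t y s a) : x = y := by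
  apply Prod.ext
  · exact Subtype.ext h
  · exact (R.un t).injective (funext fun s => funext fun a => h' s a)

theorem xi_coV (t : T) (x : R.ob.X.V t) : R.xi t (R.coV t x) = 0 := Subtype.prop (p := (· ∈ LinearMap.ker (R.xi t))) x
theorem Xi_coW (t : T) (x : R.ob.X.W t) : R.Xi t (R.coW t x) = 0 := x.1.2.1
theorem eta_coW (t : T) (x : R.ob.X.W t) : R.eta t (R.coW t x) = 0 := x.1.2.2


theorem coV_d (t : T) (x : R.ob.X.V t) : R.coV t (c0 R.ob.d t x) = c0 C.d t (R.coV t x) :=
  R.pr_of_mem (R.xi_d t (R.coV t x))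
theorem coV_B {s t : T} (a : G.E s t) (x : R.ob.X.V s) :
    R.coV t (c1 R.ob.d a x) = R.P t (c1 C.d a (R.coV s x)) := rfl
theorem coV_e (t : T) (x : R.ob.X.V t) : R.coV t (c2 R.ob.d t x) = R.P t (c2 C.d t (R.coV t x)) := rfl
theorem coV_i (t : T) (w : R.ob.X.W t) : R.coV t (ci R.ob.d t w)
    = R.P t (ci C.d t (R.coW t w)) + ∑ s, ∑ a : G.E s t, R.P t (c1 C.d a (R.v s (R.coN t w s a))) := by
  have h : R.coV t (ci R.ob.d t w) = ((R.ib t (w.1, w.2) : LinearMap.ker (R.xi t)) : C.X.V t) := rfl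
  rw [h, ib_apply]
  simp only [Submodule.coe_add, Submodule.coe_sum]
  rfl
theorem coW_j (t : T) (x : R.ob.X.V t) : R.coW t (cj R.ob.d t x)
    = cj C.d t (R.coV t x) - R.u t (R.eta t (cj C.d t (R.coV t x))) := rfl
theorem coN_j (t : T) (x : R.ob.X.V t) (s : T) (a : G.E s t) : R.coN t (cj R.ob.d t x) s a
    = R.xi s (c1 C.d (G.rev a) (R.coV t x)) :=
  R.un_jb2 _ s a
theorem coV_g (t : T) (x : R.ob.X.V t) : R.coV t (R.ob.X.gV t x) = C.X.gV t (R.coV t x) := rfl
theorem coW_g (t : T) (x : R.ob.X.W t) : R.coW t (R.ob.X.gW t x) = C.X.gW t (R.coW t x) := rfl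
theorem coN_g (t : T) (x : R.ob.X.W t) (s : T) (a : G.E s t) :
    R.coN t (R.ob.X.gW t x) s a = - R.gK s (R.coN t x s a) := R.un_gN _ s a

end RD

/-! ### elementwise form of the differential of the Hom complex -/

section De

variable {X Y : TOb G k} {f : X.X ⟶ Y.X}

theorem D_0 (t : T) (x : X.X.V t) : c0 (D X Y f) t x
    = c0 Y.d t (c0 f t x) - Y.X.gV t (c0 f t (X.X.gV t (c0 X.d t x))) := by
  rw [D_apply, c0_sub, c0_comp, c0_comp, c0_bar]; rfl

theorem D_1 {s t : T} (a : G.E s t) (x : X.X.V s) : c1 (D X Y f) a x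
    = c1 Y.d a (c0 f s x) + c0 Y.d t (c1 f a x) - (Y.X.gV t (c1 f a (X.X.gV s (c0 X.d s x)))
      + Y.X.gV t (c0 f t (X.X.gV t (c1 X.d a x)))) := by
  rw [D_apply, c1_sub, c1_comp, c1_comp, c0_bar, c1_bar]; rfl

theorem D_i (hf : f ∈ Cs X.X Y.X) (t : T) (x : X.X.W t) : ci (D X Y f) t x
    = c0 Y.d t (ci f t x) - Y.X.gV t (c0 f t (X.X.gV t (ci X.d t x))) := by
  rw [D_apply, ci_sub, ci_comp, ci_comp, c0_bar, hf t, X.dW, LinearMap.comp_zero,
    LinearMap.comp_zero, zero_add, zero_add]; rfl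

theorem D_j (t : T) (x : X.X.V t) : cj (D X Y f) t x
    = cj Y.d t (c0 f t x) + cW Y.d t (cj f t x) - (Y.X.gW t (cj f t (X.X.gV t (c0 X.d t x)))
      + cW (bar f) t (cj X.d t x)) := by
  rw [D_apply, cj_sub, cj_comp, cj_comp, cj_bar]; rfl

theorem D_j' (hf : f ∈ Cs X.X Y.X) (t : T) (x : X.X.V t) : cj (D X Y f) t x
    = cj Y.d t (c0 f t x) - Y.X.gW t (cj f t (X.X.gV t (c0 X.d t x))) := by
  rw [D_j, Y.dW, (bar_mem_Cs hf) t, LinearMap.zero_apply, LinearMap.zero_apply, add_zero, add_zero]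

theorem D_2 (t : T) (x : X.X.V t) : c2 (D X Y f) t x
    = c2 Y.d t (c0 f t x) + c0 Y.d t (c2 f t x)
      + (∑ s, ∑ a : G.E t s, c1 Y.d (G.rev a) (c1 f a x)) + ci Y.d t (cj f t x)
      - (Y.X.gV t (c2 f t (X.X.gV t (c0 X.d t x))) + Y.X.gV t (c0 f t (X.X.gV t (c2 X.d t x)))
        + (∑ s, ∑ a : G.E t s, Y.X.gV t (c1 f (G.rev a) (X.X.gV s (c1 X.d a x))))
        + Y.X.gV t (ci f t (X.X.gW t (cj X.d t x)))) := by
  rw [D_apply, c2_sub, c2_comp, c2_comp, c0_bar, c2_bar, ci_bar]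
  simp only [LinearMap.sub_apply, LinearMap.add_apply, LinearMap.comp_apply, LinearMap.sum_apply,
    c1_bar]

end De

namespace RD
variable {C : TOb G k} (R : RD C) (X : TOb G k)

/-- the subcomplex `S` -/
def S : Submodule k (Cs X.X C.X) where
  carrier := {f | (∀ t x, R.xi t (c0 f.1 t x) = 0) ∧ (∀ t x, R.Xi t (cj f.1 t x) = 0)}
  add_mem' {f g} hf hg := by
    refine ⟨fun t x => ?_, fun t x => ?_⟩
    · show R.xi t (c0 f.1 t x + c0 g.1 t x) = 0
      rw [map_add, hf.1, hg.1, add_zero]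
    · show R.Xi t (cj f.1 t x + cj g.1 t x) = 0
      rw [map_add, hf.2, hg.2, add_zero]
  zero_mem' := ⟨fun t x => map_zero _, fun t x => map_zero _⟩
  smul_mem' c f hf := by
    refine ⟨fun t x => ?_, fun t x => ?_⟩
    · show R.xi t (c • c0 f.1 t x) = 0
      rw [map_smul, hf.1, smul_zero]
    · show R.Xi t (c • cj f.1 t x) = 0
      rw [map_smul, hf.2, smul_zero]

theorem S_D (f : Cs X.X C.X) (h : f ∈ R.S X) : DC X C f ∈ R.S X := by
  constructor
  · intro t x
    show R.xi t (c0 (D X C f.1) t x) = 0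
    rw [D_0, map_sub, xi_d, xi_g, h.1, map_zero, neg_zero, sub_zero]
  · intro t x
    show R.Xi t (cj (D X C f.1) t x) = 0
    rw [D_j' f.2, map_sub, R.gXi, h.2, map_zero, sub_zero, ← xi_apply, h.1]

/-- underlying morphism of `q f` -/
noncomputable def qH (f : R.S X) : X.X ⟶ R.ob.X :=
  mkH (X := X.X) (Y := R.ob.X)
    (fun t => LinearMap.codRestrict (LinearMap.ker (R.xi t)) (c0 f.1.1 t) (f.2.1 t)) (fun _ => 0)
    (fun s t a => R.pr t ∘ₗ c1 f.1.1 a)
    (fun t => R.pr t ∘ₗ ci f.1.1 t)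
    (fun t => LinearMap.prod (R.prW t ∘ₗ LinearMap.codRestrict _ (cj f.1.1 t) (f.2.2 t))
      ((R.un t).symm.toLinearMap ∘ₗ
        (LinearMap.pi fun s => LinearMap.pi fun a => R.xi s ∘ₗ c1 f.1.1 (G.rev a))))
    (fun t => R.pr t ∘ₗ c2 f.1.1 t)

section qHl
variable (f : R.S X)
theorem qH_0 (t : T) (x : X.X.V t) : R.coV t (c0 (R.qH X f) t x) = c0 f.1.1 t x := rfl
theorem qH_W (t : T) : cW (R.qH X f) t = 0 := rfl
theorem qH_1 {s t : T} (a : G.E s t) (x : X.X.V s) :
    R.coV t (c1 (R.qH X f) a x) = R.P t (c1 f.1.1 a x) := rfl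
theorem qH_i (t : T) (x : X.X.W t) : R.coV t (ci (R.qH X f) t x) = R.P t (ci f.1.1 t x) := rfl
theorem qH_2 (t : T) (x : X.X.V t) : R.coV t (c2 (R.qH X f) t x) = R.P t (c2 f.1.1 t x) := rfl
theorem qH_j1 (t : T) (x : X.X.V t) : R.coW t (cj (R.qH X f) t x)
      = cj f.1.1 t x - R.u t (R.eta t (cj f.1.1 t x)) := rfl
theorem qH_j2 (t : T) (x : X.X.V t) (s : T) (a : G.E s t) :
    R.coN t (cj (R.qH X f) t x) s a = R.xi s (c1 f.1.1 (G.rev a) x) := by
  show R.un t ((R.un t).symm _) s a = _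
  rw [LinearEquiv.apply_symm_apply]; rfl

theorem qH_mem : R.qH X f ∈ Cs X.X R.ob.X := fun _ => rfl

theorem D_qH : D X R.ob (R.qH X f) = R.qH X ⟨DC X C f.1, R.S_D X f.1 f.2⟩ := by
  have hf : f.1.1 ∈ Cs X.X C.X := f.1.2
  have hf0 : ∀ t x, R.xi t (c0 f.1.1 t x) = 0 := f.2.1
  have hfj : ∀ t x, R.Xi t (cj f.1.1 t x) = 0 := f.2.2
  have e : ((⟨DC X C f.1, R.S_D X f.1 f.2⟩ : R.S X).1.1) = D X C f.1.1 := rfl
  apply hm_ext
  · intro t
    refine LinearMap.ext fun x => R.coV_inj t ?_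
    rw [qH_0, e, D_0, D_0, map_sub, coV_d, coV_g, qH_0, qH_0]
  · intro t
    rw [D_apply, cW_sub, cW_comp, cW_comp, R.ob.dW, X.dW, qH_W, LinearMap.comp_zero,
      LinearMap.comp_zero, sub_zero, qH_W]
  · intro s t a
    refine LinearMap.ext fun x => R.coV_inj t ?_
    rw [qH_1, e, D_1, D_1, map_sub, map_add, map_add, coV_B, coV_g, coV_g, coV_d, qH_0, qH_0, qH_1,
      qH_1, map_sub, map_add, map_add, P_g, P_g, P_d, R.P_of_mem (hf0 _ _)]
    congr 2
    rw [P_apply, map_sub, d_v, sub_zero]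
  · intro t
    refine LinearMap.ext fun x => R.coV_inj t ?_
    rw [qH_i, e, D_i hf, D_i (R.qH_mem X f), map_sub, coV_d, coV_g, qH_0, qH_i, map_sub, P_g, P_d,
      R.P_of_mem (hf0 _ _)]
    congr 1
    rw [P_apply, map_sub, d_v, sub_zero]
  · intro t
    refine LinearMap.ext fun x => R.W_ext ?_ ?_
    · rw [qH_j1, e, D_j' hf, D_j' (R.qH_mem X f), map_sub, coW_g, coW_j, qH_0, qH_j1]
      rw [map_sub, map_sub, map_sub, R.eta_g, ← R.gu]
      abel
    · intro s a
      rw [qH_j2, e, D_1, D_j' (R.qH_mem X f), map_sub]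
      show R.coN t (cj R.ob.d t (c0 (R.qH X f) t x)) s a
        - R.coN t (R.ob.X.gW t (cj (R.qH X f) t (X.X.gV t (c0 X.d t x)))) s a = _
      rw [coN_j, coN_g, qH_0, qH_j2, map_sub, map_add, map_add, xi_d, xi_g, xi_g, hf0, map_zero,
        neg_zero, add_zero, add_zero]
  · intro t
    refine LinearMap.ext fun x => R.coV_inj t ?_
    have h1 : ∀ s (a : G.E t s), R.P t (c1 C.d (G.rev a) (R.P s (c1 f.1.1 a x)))
        = R.P t (c1 C.d (G.rev a) (c1 f.1.1 a x))
          - R.P t (c1 C.d (G.rev a) (R.v s (R.xi s (c1 f.1.1 a x)))) := by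
      intro s a
      rw [R.P_apply s, map_sub, map_sub]
    have h2 : ∀ s, ∑ a : G.E s t, R.P t (c1 C.d a (R.v s (R.xi s (c1 f.1.1 (G.rev a) x))))
        = ∑ a : G.E t s, R.P t (c1 C.d (G.rev a) (R.v s (R.xi s (c1 f.1.1 a x)))) := by
      intro s
      refine (Fintype.sum_equiv (⟨G.rev, G.rev, G.rev_rev, G.rev_rev⟩ : G.E t s ≃ G.E s t) _ _ ?_).symm
      intro a
      show _ = R.P t (c1 C.d (G.rev a) (R.v s (R.xi s (c1 f.1.1 (G.rev (G.rev a)) x))))
      rw [G.rev_rev]
    have h3 : ∀ y, R.P t (ci C.d t (R.u t y)) = 0 := fun y => R.P_v t y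
    have h4 : c0 C.d t (R.P t (c2 f.1.1 t x)) = c0 C.d t (c2 f.1.1 t x) := by
      rw [P_apply, map_sub, d_v, sub_zero]
    rw [qH_2, e, D_2, D_2]
    simp only [map_sub, map_add, map_sum, coV_e, coV_d, coV_B, coV_i, coV_g, qH_0, qH_1, qH_2, qH_i,
      qH_j1, qH_j2, h1, h2, h3, h4, P_d, P_g, R.P_of_mem (hf0 _ _), Finset.sum_sub_distrib]
    abel

theorem DC_qH : DC X R.ob ⟨R.qH X f, R.qH_mem X f⟩
    = ⟨R.qH X ⟨DC X C f.1, R.S_D X f.1 f.2⟩, R.qH_mem X _⟩ :=
  Subtype.ext (R.D_qH X f)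

end qHl

/-- the map `q` -/
noncomputable def q : R.S X →ₗ[k] Cs X.X R.ob.X × (∀ t, X.X.W t →ₗ[k] R.K t) where
  toFun f := (⟨R.qH X f, R.qH_mem X f⟩, fun t => R.xi t ∘ₗ ci f.1.1 t)
  map_add' f g := by
    apply Prod.ext
    · apply Subtype.ext
      apply hm_ext
      · intro t; rfl
      · intro t
        show (0 : X.X.W t →ₗ[k] R.ob.X.W t) = 0 + 0
        rw [add_zero]
      · intro s t a
        exact LinearMap.ext fun x => (R.pr t).map_add _ _
      · intro t
        exact LinearMap.ext fun x => (R.pr t).map_add _ _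
      · intro t
        refine LinearMap.ext fun x => R.W_ext ?_ fun s a => ?_
        · show R.coW t (cj (R.qH X (f + g)) t x) = R.coW t (cj (R.qH X f) t x + cj (R.qH X g) t x)
          rw [map_add, qH_j1, qH_j1, qH_j1]
          show (cj f.1.1 t x + cj g.1.1 t x) - R.u t (R.eta t (cj f.1.1 t x + cj g.1.1 t x)) = _
          rw [map_add, map_add]; abel
        · show R.coN t (cj (R.qH X (f + g)) t x) s a
            = R.coN t (cj (R.qH X f) t x + cj (R.qH X g) t x) s a
          rw [map_add]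
          show _ = R.coN t (cj (R.qH X f) t x) s a + R.coN t (cj (R.qH X g) t x) s a
          rw [qH_j2, qH_j2, qH_j2]
          exact (R.xi s).map_add _ _
      · intro t
        exact LinearMap.ext fun x => (R.pr t).map_add _ _
    · funext t
      exact LinearMap.ext fun x => (R.xi t).map_add _ _
  map_smul' c f := by
    apply Prod.ext
    · apply Subtype.ext
      apply hm_ext
      · intro t; rfl
      · intro t
        show (0 : X.X.W t →ₗ[k] R.ob.X.W t) = c • 0
        rw [smul_zero]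
      · intro s t a
        exact LinearMap.ext fun x => (R.pr t).map_smul _ _
      · intro t
        exact LinearMap.ext fun x => (R.pr t).map_smul _ _
      · intro t
        refine LinearMap.ext fun x => R.W_ext ?_ fun s a => ?_
        · show R.coW t (cj (R.qH X (c • f)) t x) = R.coW t (c • cj (R.qH X f) t x)
          rw [map_smul, qH_j1, qH_j1]
          show (c • cj f.1.1 t x) - R.u t (R.eta t (c • cj f.1.1 t x)) = _
          rw [map_smul, map_smul, smul_sub]
        · show R.coN t (cj (R.qH X (c • f)) t x) s a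
            = R.coN t (c • cj (R.qH X f) t x) s a
          rw [map_smul]
          show _ = c • R.coN t (cj (R.qH X f) t x) s a
          rw [qH_j2, qH_j2]
          exact (R.xi s).map_smul _ _
      · intro t
        exact LinearMap.ext fun x => (R.pr t).map_smul _ _
    · funext t
      exact LinearMap.ext fun x => (R.xi t).map_smul _ _

theorem q_D (f : R.S X) : R.q X ⟨DC X C f.1, R.S_D X f.1 f.2⟩
    = (LinearMap.prodMap (DC X R.ob) (0 : (∀ t, X.X.W t →ₗ[k] R.K t) →ₗ[k] _)) (R.q X f) := by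
  apply Prod.ext
  · exact (R.DC_qH X f).symm
  · funext t
    refine LinearMap.ext fun x => ?_
    show R.xi t (ci (D X C f.1.1) t x) = 0
    rw [D_i f.1.2, map_sub, xi_d, xi_g, f.2.1, map_zero, neg_zero, sub_zero]

theorem q_surj : Function.Surjective (R.q X) := by
  rintro ⟨⟨g, hg⟩, κ⟩
  let f : X.X ⟶ C.X := mkH (fun t => R.coV t ∘ₗ c0 g t) (fun _ => 0)
    (fun s t a => R.coV t ∘ₗ c1 g a + R.v t ∘ₗ LinearMap.proj (G.rev a) ∘ₗ LinearMap.proj t
      ∘ₗ R.coN s ∘ₗ cj g s)
    (fun t => R.coV t ∘ₗ ci g t + R.v t ∘ₗ κ t)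
    (fun t => R.coW t ∘ₗ cj g t)
    (fun t => R.coV t ∘ₗ c2 g t)
  have hf : (⟨f, fun _ => rfl⟩ : Cs X.X C.X) ∈ R.S X := by
    refine ⟨fun t x => ?_, fun t x => ?_⟩
    · exact R.xi_coV t _
    · exact R.Xi_coW t _
  refine ⟨⟨_, hf⟩, ?_⟩
  apply Prod.ext
  · apply Subtype.ext
    show R.qH X ⟨⟨f, fun _ => rfl⟩, hf⟩ = g
    apply hm_ext
    · intro t
      exact LinearMap.ext fun x => R.coV_inj t rfl
    · intro t
      rw [qH_W, hg t]
    · intro s t a
      refine LinearMap.ext fun x => R.coV_inj t ?_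
      rw [qH_1]
      show R.P t (R.coV t (c1 g a x) + R.v t (R.coN s (cj g s x) t (G.rev a))) = _
      rw [map_add, P_v, add_zero, R.P_of_mem (R.xi_coV t _)]
    · intro t
      refine LinearMap.ext fun x => R.coV_inj t ?_
      rw [qH_i]
      show R.P t (R.coV t (ci g t x) + R.v t (κ t x)) = _
      rw [map_add, P_v, add_zero, R.P_of_mem (R.xi_coV t _)]
    · intro t
      refine LinearMap.ext fun x => R.W_ext ?_ fun s a => ?_
      · rw [qH_j1]
        show R.coW t (cj g t x) - R.u t (R.eta t (R.coW t (cj g t x))) = _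
        rw [eta_coW, map_zero, sub_zero]
      · rw [qH_j2]
        show R.xi s (R.coV s (c1 g (G.rev a) x)
          + R.v s (R.coN t (cj g t x) s (G.rev (G.rev a)))) = _
        rw [map_add, xi_v, xi_coV, zero_add, G.rev_rev]
    · intro t
      refine LinearMap.ext fun x => R.coV_inj t ?_
      rw [qH_2]
      exact R.P_of_mem (R.xi_coV t _)
  · funext t
    refine LinearMap.ext fun x => ?_
    show R.xi t (R.coV t (ci g t x) + R.v t (κ t x)) = κ t x
    rw [map_add, xi_v, xi_coV, zero_add]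

theorem q_ker (f : R.S X) (hq : R.q X f = 0) (hD : DC X C f.1 = 0) :
    ∃ y : R.S X, R.q X y = 0 ∧ DC X C y.1 = f.1 := by
  have hq1 : R.qH X f = 0 := congrArg (fun p => p.1.1) hq
  have hq2 : ∀ t x, R.xi t (ci f.1.1 t x) = 0 := fun t x =>
    LinearMap.congr_fun (congrFun (congrArg (fun p => p.2) hq) t) x
  have h0 : ∀ t x, c0 f.1.1 t x = 0 := by
    intro t x
    rw [← qH_0, hq1]; rfl
  have h1 : ∀ s t (a : G.E s t) x, c1 f.1.1 a x = 0 := by
    intro s t a x
    have e1 := R.qH_1 X f a x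
    have e2 := R.qH_j2 X f s x t (G.rev a)
    rw [hq1] at e1 e2
    have e1' : R.P t (c1 f.1.1 a x) = 0 := by rw [← e1]; rfl
    have e2' : R.xi t (c1 f.1.1 a x) = 0 := by
      rw [G.rev_rev] at e2
      rw [← e2]
      show R.coN s 0 t (G.rev a) = 0
      rw [map_zero]; rfl
    rw [P_apply, e2', map_zero, sub_zero] at e1'
    exact e1'
  have hi : ∀ t x, ci f.1.1 t x = 0 := by
    intro t x
    have e1 := R.qH_i X f t x
    rw [hq1, P_apply, hq2, map_zero, sub_zero] at e1
    rw [← e1]; rfl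
  have hj : ∀ t x, cj f.1.1 t x = R.u t (R.eta t (cj f.1.1 t x)) := by
    intro t x
    have e1 := R.qH_j1 X f t x
    rw [hq1] at e1
    have e2 : R.coW t (cj (0 : X.X ⟶ R.ob.X) t x) = 0 := (R.coW t).map_zero
    rw [e2] at e1
    exact (sub_eq_zero.1 e1.symm)
  have h2 : ∀ t x, c2 f.1.1 t x = R.v t (R.xi t (c2 f.1.1 t x)) := by
    intro t x
    have e1 := R.qH_2 X f t x
    rw [hq1, P_apply] at e1
    have e2 : R.coV t (c2 (0 : X.X ⟶ R.ob.X) t x) = 0 := (R.coV t).map_zero
    rw [e2] at e1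
    exact (sub_eq_zero.1 e1.symm)
  have hD1 : D X C f.1.1 = 0 := congrArg Subtype.val hD
  have key : ∀ t x, cj f.1.1 t x
      = - C.X.gW t (R.u t (R.xi t (c2 f.1.1 t (X.X.gV t (c0 X.d t x))))) := by
    intro t x
    have e1 : c2 (D X C f.1.1) t x = 0 := by rw [hD1]; rfl
    rw [D_2] at e1
    simp only [h0, h1, hi, map_zero, Finset.sum_const_zero, add_zero, zero_add] at e1
    have e2 : c0 C.d t (c2 f.1.1 t x) = 0 := by rw [h2, d_v]
    rw [e2, zero_add, sub_eq_zero] at e1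
    have e3 := congrArg (R.xi t) e1
    rw [← eta_apply, h2 t (X.X.gV t (c0 X.d t x)), v_g, map_neg, xi_v] at e3
    rw [hj, e3, map_neg, R.gu]
  let y : X.X ⟶ C.X := mkH (fun _ => 0) (fun _ => 0) (fun _ _ _ => 0) (fun _ => 0)
    (fun t => R.u t ∘ₗ R.xi t ∘ₗ c2 f.1.1 t) (fun _ => 0)
  have hy0 : ∀ t x, c0 y t x = 0 := fun _ _ => rfl
  have hy1 : ∀ s t (a : G.E s t) x, c1 y a x = 0 := fun _ _ _ _ => rfl
  have hyi : ∀ t x, ci y t x = 0 := fun _ _ => rfl
  have hyj : ∀ t x, cj y t x = R.u t (R.xi t (c2 f.1.1 t x)) := fun _ _ => rfl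
  have hy2 : ∀ t x, c2 y t x = 0 := fun _ _ => rfl
  have hyC : y ∈ Cs X.X C.X := fun _ => rfl
  have hyS : (⟨y, hyC⟩ : Cs X.X C.X) ∈ R.S X := by
    refine ⟨fun t x => ?_, fun t x => ?_⟩
    · show R.xi t (c0 y t x) = 0
      rw [hy0, map_zero]
    · show R.Xi t (cj y t x) = 0
      rw [hyj, R.Xu]
  refine ⟨⟨⟨y, hyC⟩, hyS⟩, ?_, ?_⟩
  · apply Prod.ext
    · apply Subtype.ext
      show R.qH X ⟨⟨y, hyC⟩, hyS⟩ = 0
      apply hm_ext
      · intro t
        exact LinearMap.ext fun x => R.coV_inj t rfl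
      · intro t; rfl
      · intro s t a
        refine LinearMap.ext fun x => R.coV_inj t ?_
        rw [qH_1]
        show R.P t (c1 y a x) = R.coV t 0
        rw [hy1, map_zero, map_zero]
      · intro t
        refine LinearMap.ext fun x => R.coV_inj t ?_
        rw [qH_i]
        show R.P t (ci y t x) = R.coV t 0
        rw [hyi, map_zero, map_zero]
      · intro t
        refine LinearMap.ext fun x => R.W_ext ?_ fun s a => ?_
        · rw [qH_j1]
          show cj y t x - R.u t (R.eta t (cj y t x)) = R.coW t 0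
          rw [hyj, eta_u, sub_self, map_zero]
        · rw [qH_j2]
          show R.xi s (c1 y (G.rev a) x) = R.coN t 0 s a
          rw [hy1, map_zero, map_zero]; rfl
      · intro t
        refine LinearMap.ext fun x => R.coV_inj t ?_
        rw [qH_2]
        show R.P t (c2 y t x) = R.coV t 0
        rw [hy2, map_zero, map_zero]
    · funext t
      refine LinearMap.ext fun x => ?_
      show R.xi t (ci y t x) = 0
      rw [hyi, map_zero]
  · apply Subtype.ext
    show D X C y = f.1.1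
    apply hm_ext
    · intro t
      refine LinearMap.ext fun x => ?_
      rw [D_0, hy0, hy0, h0, map_zero, map_zero, sub_zero]
    · intro t
      rw [f.1.2 t]
      exact D_mem_Cs hyC t
    · intro s t a
      refine LinearMap.ext fun x => ?_
      rw [D_1, hy0, hy0, hy1, hy1, h1, map_zero, map_zero, map_zero, add_zero, sub_zero]
    · intro t
      refine LinearMap.ext fun x => ?_
      rw [D_i hyC, hy0, hyi, hi, map_zero, map_zero, sub_zero]
    · intro t
      refine LinearMap.ext fun x => ?_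
      rw [D_j' hyC, hy0, hyj, key, map_zero, zero_sub]
    · intro t
      refine LinearMap.ext fun x => ?_
      rw [D_2]
      simp only [hy0, hy1, hyi, hyj, hy2, map_zero, Finset.sum_const_zero, add_zero, zero_add,
        sub_zero]
      exact (h2 t x).symm

theorem S_quot (f : Cs X.X C.X) (hf : DC X C f ∈ R.S X) : ∃ y, f - DC X C y ∈ R.S X := by
  let y : X.X ⟶ C.X := mkH (fun t => R.v t ∘ₗ R.Xi t ∘ₗ cj f.1 t) (fun _ => 0) (fun _ _ _ => 0)
    (fun _ => 0) (fun _ => 0) (fun _ => 0)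
  have hyC : y ∈ Cs X.X C.X := fun _ => rfl
  have hy0 : ∀ t x, c0 y t x = R.v t (R.Xi t (cj f.1 t x)) := fun _ _ => rfl
  have hyj : ∀ t x, cj y t x = 0 := fun _ _ => rfl
  have e1 : ∀ t x, R.xi t (c0 f.1 t x)
      = R.gK t (R.Xi t (cj f.1 t (X.X.gV t (c0 X.d t x)))) := by
    intro t x
    have h : R.Xi t (cj (D X C f.1) t x) = 0 := hf.2 t x
    rw [D_j' f.2, map_sub, R.gXi, sub_eq_zero, ← xi_apply] at h
    exact h
  refine ⟨⟨y, hyC⟩, fun t x => ?_, fun t x => ?_⟩
  · show R.xi t (c0 f.1 t x - c0 (D X C y) t x) = 0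
    rw [D_0, hy0, hy0, d_v, zero_sub, v_g, neg_neg, map_sub, xi_v, e1, sub_self]
  · show R.Xi t (cj f.1 t x - cj (D X C y) t x) = 0
    rw [D_j' hyC, hy0, hyj, map_zero, sub_zero, map_sub, ← xi_apply, xi_v, sub_self]

/-- **RED**: the reduction formula. -/
theorem hT_red : hT X C = hT X R.ob + ∑ t, Module.finrank k (R.K t) * lam X t := by
  have h1 : hd (DC X C) = hd (LinearMap.prodMap (DC X R.ob)
      (0 : (∀ t, X.X.W t →ₗ[k] R.K t) →ₗ[k] (∀ t, X.X.W t →ₗ[k] R.K t))) := by
    refine QI_61.hd_eq (fun x => DC_DC x) ?_ (R.S X) (R.S_D X) (R.q X) (R.q_surj X) (R.q_D X)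
      (R.q_ker X) (R.S_quot X)
    intro x
    exact Prod.ext (DC_DC x.1) rfl
  have h2 := QI_61.hd_prod_zero (C' := ∀ t, X.X.W t →ₗ[k] R.K t)
    (D := DC X R.ob) (fun x => DC_DC x)
  rw [hT, h1, h2, hT, Module.finrank_pi_fintype]
  congr 1
  refine Finset.sum_congr rfl fun t _ => ?_
  rw [Module.finrank_linearMap, lam, mul_comm]

/-! ### dimensions -/



theorem finrank_W' (t : T) :
    Module.finrank k (R.W' t) + 2 * Module.finrank k (R.K t) = Module.finrank k (C.X.W t) := by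
  have hs : Function.Surjective (LinearMap.prod (R.Xi t) (R.eta t)) := by
    rintro ⟨a, b⟩
    refine ⟨cj C.d t (R.v t a) + R.u t (b - R.eta t (cj C.d t (R.v t a))), ?_⟩
    apply Prod.ext
    · show R.Xi t _ = a
      rw [map_add, R.Xu, add_zero, ← xi_apply, xi_v]
    · show R.eta t _ = b
      rw [map_add, eta_u, add_sub_cancel]
  have h := LinearMap.finrank_range_add_finrank_ker (LinearMap.prod (R.Xi t) (R.eta t))
  rw [LinearMap.range_eq_top.2 hs, finrank_top, Module.finrank_prod, LinearMap.ker_prod] at h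
  rw [← h]; ring

theorem lam_ob (s : T) : lam R.ob s + 2 * Module.finrank k (R.K s)
    = lam C s + ∑ t, Fintype.card (G.E t s) * Module.finrank k (R.K t) := by
  have h1 : lam R.ob s = Module.finrank k (R.W' s) + Module.finrank k (R.Nw s) :=
    Module.finrank_prod
  have h2 : Module.finrank k (R.Nw s) = ∑ t, Fintype.card (G.E t s) * Module.finrank k (R.K t) := by
    rw [(R.un s).finrank_eq, Module.finrank_pi_fintype]
    refine Finset.sum_congr rfl fun t _ => ?_
    rw [Module.finrank_pi_fintype, Finset.sum_const, Finset.card_univ, smul_eq_mul]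
  have h3 : _ = lam C s := R.finrank_W' s
  rw [← h3, h1, h2]; ring


end RD

end Crest.Agent.R175.Red_61
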