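import Crest.Agent.R175.PTB_534
import Crest.Agent.R175.KS_303
import Crest.Agent.R175.PTA_534

-- ▼ part R175/GlA_445
section

/-!
# R175 / GLUE-PT, part A: indecomposable T-framed objects with one frame

* `ZE X`: the algebra of even closed endomorphisms; nilpotent or unit if idempotents are trivial.
* `Ind X`: minimal, nonzero, only trivial even closed idempotents.
* `frame_unit`: for an indecomposable single-framed `X`, an even closed endomorphism which is nonzero
  on the frame is invertible.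
* `hiso_of_frames`: two indecomposable single-framed objects with even closed maps in both directions
  whose composite is nonzero on the frame are isomorphic.
-/

set_option autoImplicit false
set_option linter.unusedSectionVars false
set_option linter.unusedVariables false

open CategoryTheory Module LinearMap

namespace Crest.Agent.R175.GlA_445

open Crest.Agent.R175.PTA

universe u v

variable {T : Type u} {G : MG T} {k : Type v} [Field k] [Fintype T]

/-! ### one-dimensional spaces -/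

theorem one_dim_smul {V : Type*} [AddCommGroup V] [Module k V] (h : finrank k V = 1)
    (f : V →ₗ[k] V) : ∃ c : k, ∀ x, f x = c • x := by
  obtain ⟨v, hv0, hv⟩ := finrank_eq_one_iff'.1 h
  obtain ⟨c, hc⟩ := hv (f v)
  refine ⟨c, fun x => ?_⟩
  obtain ⟨a, rfl⟩ := hv x
  rw [map_smul, ← hc, smul_smul, smul_smul, mul_comm]

/-! ### the algebra of even closed endomorphisms -/

/-- even closed endomorphisms -/
def ZE (X : TOb G k) : Subalgebra k (End X.X) where
  carrier := {f | bar f = f ∧ D X X f = 0}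
  mul_mem' := by
    rintro f g ⟨hf, hf'⟩ ⟨hg, hg'⟩
    change bar (g ≫ f) = g ≫ f ∧ D X X (g ≫ f) = 0
    refine ⟨?_, ?_⟩
    · rw [bar_comp]
      change bar g ≫ bar f = g ≫ f
      rw [hf, hg]
    · rw [D_comp_left hg']
      rw [hf', Limits.comp_zero]
  add_mem' := by
    rintro f g ⟨hf, hf'⟩ ⟨hg, hg'⟩
    refine ⟨?_, ?_⟩
    · change bar ((f : X.X ⟶ X.X) + g) = f + g
      rw [bar_add, hf, hg]
    · change D X X ((f : X.X ⟶ X.X) + g) = 0
      rw [map_add, hf', hg', add_zero]
  algebraMap_mem' := by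
    intro r
    have : (algebraMap k (End X.X) r : X.X ⟶ X.X) = r • 𝟙 X.X := by
      rw [Algebra.algebraMap_eq_smul_one]
      rfl
    refine ⟨?_, ?_⟩
    · rw [this, bar_smul, bar_id]
    · rw [this, map_smul, D_id, smul_zero]


instance (X : TOb G k) : FiniteDimensional k (End X.X) :=
  inferInstanceAs (FiniteDimensional k (X.X ⟶ X.X))

/-- only trivial even closed idempotents -/
def IdTriv (X : TOb G k) : Prop :=
  ∀ e : X.X ⟶ X.X, bar e = e → D X X e = 0 → e ≫ e = e → e = 0 ∨ e = 𝟙 X.X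

/-- minimal -/
def Mnl (X : TOb G k) : Prop := ∀ t, c0 X.d t = 0

/-- indecomposable -/
structure Ind (X : TOb G k) : Prop where
  mnl : Mnl X
  ne : 𝟙 X.X ≠ 0
  idem : IdTriv X

theorem nil_or_unit {X : TOb G k} (hX : IdTriv X) (c : X.X ⟶ X.X) (hc : bar c = c)
    (hD : D X X c = 0) : IsNilpotent (show End X.X from c) ∨
      ∃ c' : X.X ⟶ X.X, bar c' = c' ∧ D X X c' = 0 ∧ c ≫ c' = 𝟙 _ ∧ c' ≫ c = 𝟙 _ := by
  have h1 : ∀ e : ZE X, e * e = e → e = 0 ∨ e = 1 := by
    intro e he
    have h2 := hX e.1 e.2.1 e.2.2 (by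
      have h3 : e.1 * e.1 = e.1 := congrArg Subtype.val he
      exact h3)
    rcases h2 with h2 | h2
    · left; exact Subtype.ext h2
    · right; exact Subtype.ext h2
  rcases KS_303.nil_or_unit k h1 (⟨c, hc, hD⟩ : ZE X) with ⟨n, hn⟩ | h
  · left
    refine ⟨n, ?_⟩
    have := congrArg Subtype.val hn
    exact this
  · right
    obtain ⟨⟨a, b, hab, hba⟩, ha⟩ := h
    have ha' : a.1 = (show End X.X from c) := congrArg Subtype.val ha
    have e1 : a.1 * b.1 = 1 := congrArg Subtype.val hab
    have e2 : b.1 * a.1 = 1 := congrArg Subtype.val hba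
    rw [ha'] at e1 e2
    exact ⟨b.1, b.2.1, b.2.2, e2, e1⟩

/-- the frame part of an endomorphism -/
def cWa (X : Gob G k) (t : T) : End X →ₐ[k] Module.End k (X.W t) where
  toFun f := cW (f : X ⟶ X) t
  map_one' := rfl
  map_mul' _ _ := rfl
  map_zero' := rfl
  map_add' _ _ := rfl
  commutes' r := by
    have h1 : (algebraMap k (End X) r : X ⟶ X) = r • 𝟙 X := by
      rw [Algebra.algebraMap_eq_smul_one]
      rfl
    rw [h1, cW_smul, cW_id]
    ext x
    simp

theorem not_nil_of_frame {X : Gob G k} {t : T} (h1 : finrank k (X.W t) = 1) {c : X ⟶ X}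
    (hc : cW c t ≠ 0) : ¬ IsNilpotent (show End X from c) := by
  rintro ⟨n, hn⟩
  obtain ⟨a, ha⟩ := one_dim_smul h1 (cW c t)
  have h2 : (cW c t : Module.End k (X.W t)) ^ n = 0 := by
    have h3 := congrArg (cWa X t) hn
    rw [map_pow, map_zero] at h3
    exact h3
  have h4 : ∀ m : ℕ, ∀ x, ((cW c t : Module.End k (X.W t)) ^ m) x = a ^ m • x := by
    intro m
    induction m with
    | zero => intro x; simp
    | succ m ih =>
      intro x
      rw [pow_succ', Module.End.mul_apply, ih, ha, smul_smul, pow_succ']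
  have ha0 : a ≠ 0 := by
    rintro rfl
    apply hc
    ext x
    rw [ha, zero_smul]
    rfl
  obtain ⟨v, hv0, -⟩ := finrank_eq_one_iff'.1 h1
  have h5 := h4 n v
  rw [h2] at h5
  have h6 : (0 : X.W t) = a ^ n • v := h5
  exact hv0 ((smul_eq_zero.1 h6.symm).resolve_left (pow_ne_zero n ha0))

/-- **an even closed endomorphism nonzero on the frame is invertible** -/
theorem frame_unit {X : TOb G k} (hX : IdTriv X) {t : T} (h1 : finrank k (X.X.W t) = 1)
    {c : X.X ⟶ X.X} (hb : bar c = c) (hD : D X X c = 0) (hc : cW c t ≠ 0) :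
    ∃ c' : X.X ⟶ X.X, bar c' = c' ∧ D X X c' = 0 ∧ c ≫ c' = 𝟙 _ ∧ c' ≫ c = 𝟙 _ :=
  (nil_or_unit hX c hb hD).resolve_left (not_nil_of_frame h1 hc)

/-- **two indecomposable objects with one frame at `t` are isomorphic** if there are even closed maps
in both directions, nonzero on the frame -/
theorem hiso_of_frames {X Y : TOb G k} (hX : IdTriv X) (hY : IdTriv Y) {t : T}
    (h1 : finrank k (X.X.W t) = 1) (h2 : finrank k (Y.X.W t) = 1)
    {f : X.X ⟶ Y.X} {g : Y.X ⟶ X.X} (bf : bar f = f) (bg : bar g = g) (Df : D X Y f = 0)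
    (Dg : D Y X g = 0) (hf : cW f t ≠ 0) (hg : cW g t ≠ 0) : HIso X Y := by
  -- composites
  have key : ∀ (V V' : Type v) [AddCommGroup V] [Module k V] [AddCommGroup V'] [Module k V]
      [Module k V'], True := fun _ _ _ _ _ _ _ => trivial
  have hcomp : cW (f ≫ g) t ≠ 0 := by
    rw [cW_comp]
    intro h0
    apply hf
    -- `cW g t` is injective
    have hinj : Function.Injective (cW g t) := by
      rw [← LinearMap.ker_eq_bot, Submodule.eq_bot_iff]
      intro x hx
      by_contra hx0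
      obtain ⟨v, hv0, hv⟩ := finrank_eq_one_iff'.1 h2
      apply hg
      ext y
      obtain ⟨a, ha⟩ := hv x
      obtain ⟨b, hb⟩ := hv y
      have ha0 : a ≠ 0 := by
        rintro rfl
        apply hx0
        rw [← ha, zero_smul]
      have hgv : cW g t v = 0 := by
        have h3 : cW g t (a • v) = 0 := by rw [ha]; exact hx
        rw [map_smul] at h3
        exact (smul_eq_zero.1 h3).resolve_left ha0
      rw [← hb, map_smul, hgv, smul_zero]
      rfl
    ext x
    have h3 := LinearMap.congr_fun h0 x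
    have h4 : cW g t (cW f t x) = 0 := h3
    have h5 : cW f t x = 0 := hinj (by rw [h4, map_zero])
    rw [h5]
    rfl
  have hcomp' : cW (g ≫ f) t ≠ 0 := by
    rw [cW_comp]
    intro h0
    apply hg
    have hinj : Function.Injective (cW f t) := by
      rw [← LinearMap.ker_eq_bot, Submodule.eq_bot_iff]
      intro x hx
      by_contra hx0
      obtain ⟨v, hv0, hv⟩ := finrank_eq_one_iff'.1 h1
      apply hf
      ext y
      obtain ⟨a, ha⟩ := hv x
      obtain ⟨b, hb⟩ := hv y
      have ha0 : a ≠ 0 := by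
        rintro rfl
        apply hx0
        rw [← ha, zero_smul]
      have hgv : cW f t v = 0 := by
        have h3 : cW f t (a • v) = 0 := by rw [ha]; exact hx
        rw [map_smul] at h3
        exact (smul_eq_zero.1 h3).resolve_left ha0
      rw [← hb, map_smul, hgv, smul_zero]
      rfl
    ext x
    have h3 := LinearMap.congr_fun h0 x
    have h4 : cW f t (cW g t x) = 0 := h3
    have h5 : cW g t x = 0 := hinj (by rw [h4, map_zero])
    rw [h5]
    rfl
  obtain ⟨c, bc, Dc, c1, c2⟩ := frame_unit hX h1 (c := f ≫ g) (by rw [bar_comp, bf, bg])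
    (by rw [D_comp_left Df, Dg, Limits.comp_zero]) hcomp
  obtain ⟨c', bc', Dc', c1', c2'⟩ := frame_unit hY h2 (c := g ≫ f) (by rw [bar_comp, bf, bg])
    (by rw [D_comp_left Dg, Df, Limits.comp_zero]) hcomp'
  -- right inverse of `f` : `g ≫ c`; left inverse: `c' ≫ g`
  have hl : (c' ≫ g) ≫ f = 𝟙 _ := by rw [Category.assoc, c2']
  have hr : f ≫ (g ≫ c) = 𝟙 _ := by rw [← Category.assoc, c1]
  have heq : c' ≫ g = g ≫ c := by
    calc c' ≫ g = (c' ≫ g) ≫ (f ≫ (g ≫ c)) := by rw [hr, Category.comp_id]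
      _ = ((c' ≫ g) ≫ f) ≫ (g ≫ c) := by simp only [Category.assoc]
      _ = g ≫ c := by rw [hl, Category.id_comp]
  exact ⟨HEquiv.ofIso f (g ≫ c) bf (by rw [bar_comp, bg, bc]) Df
    (by rw [D_comp_left Dg, Dc, Limits.comp_zero]) hr (by rw [← heq, hl])⟩

/-- the sign of a homogeneous map which is nonzero on one-dimensional frames of the same space -/
theorem sign_one {X : TOb G k} {t : T} (h1 : finrank k (X.X.W t) = 1) {ε : k}
    {c : X.X ⟶ X.X} (hb : bar c = ε • c) (hc : cW c t ≠ 0) : ε = 1 := by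
  obtain ⟨a, ha⟩ := one_dim_smul h1 (cW c t)
  have h2 : cW (bar c) t = cW c t := by
    rw [cW_bar]
    ext x
    have h3 : (X.X.gW t ∘ₗ X.X.gW t) x = x := by rw [X.X.gW_sq]; rfl
    change X.X.gW t (cW c t (X.X.gW t x)) = cW c t x
    rw [ha, ha, map_smul]
    congr 1
  rw [hb, cW_smul] at h2
  by_contra hne
  apply hc
  have h4 : (ε - 1) • cW c t = 0 := by rw [sub_smul, one_smul, h2, sub_self]
  exact (smul_eq_zero.1 h4).resolve_left (sub_ne_zero.2 hne)

end Crest.Agent.R175.GlA_445
end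

-- ▼ part R175/Shift_936

/-!
# Parity shift of T-framed objects (row 175, S0263; helper936, task 514)

`sh X` : same spaces, `gV, gW ↦ -gV, -gW`, `d ↦ -d`.  `th X : X ⟶ sh X` (all components the
identity) is an odd closed isomorphism with inverse `th' X`.
* `hT_sh_left / hT_sh_right / hT_sh_sh`, the same for `hD`;
* `HIso_sh`, `HIso_sh_sh`, `HIso_sh_iff`;
* `lam_sh`;
* `oddIso`: an odd closed map `a : X ⟶ Y` which is invertible up to homotopy gives `HIso X (sh Y)`;
* a space of odd cocycles into `Y` is the space of even cocycles into `sh Y` (`toSh`).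
* `HEquiv.refl/symm/trans` live elsewhere; here only what concerns the shift.
-/

set_option autoImplicit false
set_option linter.unusedSectionVars false

open CategoryTheory

namespace Crest.Agent.R175.Shift_936

open Crest.Agent.R175.PTA

universe u v w

variable {T : Type u} {G : MG T} {k : Type v} [Field k]

/-- parity shift of a graded object -/
abbrev shG (X : Gob G k) : Gob G k where
  V := X.V
  W := X.W
  gV t := -X.gV t
  gW t := -X.gW t
  gV_sq t := by rw [LinearMap.neg_comp, LinearMap.comp_neg, neg_neg, X.gV_sq]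
  gW_sq t := by rw [LinearMap.neg_comp, LinearMap.comp_neg, neg_neg, X.gW_sq]

@[simp] theorem gV_shG (X : Gob G k) (t : T) : (shG X).gV t = -X.gV t := rfl
@[simp] theorem gW_shG (X : Gob G k) (t : T) : (shG X).gW t = -X.gW t := rfl

variable [Fintype T]

/-- the identity `X ⟶ sh X` (odd) -/
def thG (X : Gob G k) : X ⟶ shG X :=
  mkH (fun _ => LinearMap.id) (fun _ => LinearMap.id) (fun _ _ _ => 0) (fun _ => 0) (fun _ => 0)
    (fun _ => 0)

/-- the identity `sh X ⟶ X` (odd) -/
def thG' (X : Gob G k) : shG X ⟶ X :=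
  mkH (fun _ => LinearMap.id) (fun _ => LinearMap.id) (fun _ _ _ => 0) (fun _ => 0) (fun _ => 0)
    (fun _ => 0)

section lems
variable (X : Gob G k)
@[simp] theorem c0_thG (t : T) : c0 (thG X) t = LinearMap.id := rfl
@[simp] theorem cW_thG (t : T) : cW (thG X) t = LinearMap.id := rfl
@[simp] theorem c1_thG {s t : T} (a : G.E s t) : c1 (thG X) a = 0 := rfl
@[simp] theorem ci_thG (t : T) : ci (thG X) t = 0 := rfl
@[simp] theorem cj_thG (t : T) : cj (thG X) t = 0 := rfl
@[simp] theorem c2_thG (t : T) : c2 (thG X) t = 0 := rfl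
@[simp] theorem c0_thG' (t : T) : c0 (thG' X) t = LinearMap.id := rfl
@[simp] theorem cW_thG' (t : T) : cW (thG' X) t = LinearMap.id := rfl
@[simp] theorem c1_thG' {s t : T} (a : G.E s t) : c1 (thG' X) a = 0 := rfl
@[simp] theorem ci_thG' (t : T) : ci (thG' X) t = 0 := rfl
@[simp] theorem cj_thG' (t : T) : cj (thG' X) t = 0 := rfl
@[simp] theorem c2_thG' (t : T) : c2 (thG' X) t = 0 := rfl

@[simp] theorem thG_thG' : thG X ≫ thG' X = 𝟙 X := by
  apply hm_ext <;> intros <;> simp
@[simp] theorem thG'_thG : thG' X ≫ thG X = 𝟙 (shG X) := by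
  apply hm_ext <;> intros <;> simp
@[simp] theorem thG_thG'_assoc {Y : Gob G k} (f : X ⟶ Y) : thG X ≫ thG' X ≫ f = f := by
  rw [← Category.assoc, thG_thG', Category.id_comp]
@[simp] theorem thG'_thG_assoc {Y : Gob G k} (f : shG X ⟶ Y) : thG' X ≫ thG X ≫ f = f := by
  rw [← Category.assoc, thG'_thG, Category.id_comp]

@[simp] theorem gam_shG : gam (shG X) = -(thG' X ≫ gam X ≫ thG X) := by
  apply hm_ext <;> intros <;> simp

@[simp] theorem bar_thG : bar (thG X) = -thG X := by
  simp only [bar, gam_shG, Preadditive.comp_neg]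
  rw [thG_thG'_assoc, gam_gam_assoc]
@[simp] theorem bar_thG' : bar (thG' X) = -thG' X := by
  simp only [bar, gam_shG, Preadditive.neg_comp, Category.assoc]
  rw [thG_thG'_assoc, gam_gam, Category.comp_id]
end lems

/-- parity shift of a T-framed object -/
abbrev sh (X : TOb G k) : TOb G k where
  X := shG X.X
  d := -(thG' X.X ≫ X.d ≫ thG X.X)
  dd := by simp
  dg := by
    simp only [gam_shG, Preadditive.comp_neg, Preadditive.neg_comp, neg_neg, Category.assoc,
      thG_thG'_assoc]
    have h := X.dg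
    have h2 : X.d ≫ gam X.X ≫ thG X.X = -(gam X.X ≫ X.d ≫ thG X.X) := by
      rw [← Category.assoc, h, Preadditive.neg_comp, Category.assoc]
    rw [h2]
    simp
  dW t := by simp

theorem sh_d (X : TOb G k) : (sh X).d = -(thG' X.X ≫ X.d ≫ thG X.X) := rfl

/-- the odd closed isomorphism `X ⟶ sh X` -/
def th (X : TOb G k) : X.X ⟶ (sh X).X := thG X.X
/-- its inverse -/
def th' (X : TOb G k) : (sh X).X ⟶ X.X := thG' X.X

section thl
variable (X : TOb G k)
@[simp] theorem th_th' : th X ≫ th' X = 𝟙 X.X := thG_thG' X.X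
@[simp] theorem th'_th : th' X ≫ th X = 𝟙 (sh X).X := thG'_thG X.X
@[simp] theorem th_th'_assoc {Y : Gob G k} (f : X.X ⟶ Y) : th X ≫ th' X ≫ f = f :=
  thG_thG'_assoc X.X f
@[simp] theorem th'_th_assoc {Y : Gob G k} (f : (sh X).X ⟶ Y) : th' X ≫ th X ≫ f = f :=
  thG'_thG_assoc X.X f
@[simp] theorem bar_th : bar (th X) = -th X := bar_thG X.X
@[simp] theorem bar_th' : bar (th' X) = -th' X := bar_thG' X.X
@[simp] theorem cW_th (t : T) : cW (th X) t = LinearMap.id := rfl
@[simp] theorem cW_th' (t : T) : cW (th' X) t = LinearMap.id := rfl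

@[simp] theorem D_th : D X (sh X) (th X) = 0 := by
  rw [D_apply, bar_th, sh_d]
  simp only [Preadditive.comp_neg, sub_neg_eq_add]
  show -(thG X.X ≫ thG' X.X ≫ X.d ≫ thG X.X) + X.d ≫ thG X.X = 0
  rw [thG_thG'_assoc]; abel

@[simp] theorem D_th' : D (sh X) X (th' X) = 0 := by
  rw [D_apply, bar_th', sh_d]
  simp only [Preadditive.comp_neg, Preadditive.neg_comp, neg_neg, Category.assoc]
  show thG' X.X ≫ X.d - thG' X.X ≫ X.d ≫ thG X.X ≫ thG' X.X = 0
  rw [thG_thG', Category.comp_id, sub_self]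
end thl

/-! ### invariance of the dimensions -/

/-- `hd` is invariant under an isomorphism which commutes with the differentials up to a non-zero
scalar. -/
theorem hd_congr_smul {K K' : Type*} [AddCommGroup K] [Module k K] [AddCommGroup K'] [Module k K']
    (D : K →ₗ[k] K) (D' : K' →ₗ[k] K') (φ : K ≃ₗ[k] K') (c : k) (hc : c ≠ 0)
    (h : ∀ x, D' (φ x) = c • φ (D x)) : hd D = hd D' := by
  have hk : LinearMap.ker D' = (LinearMap.ker D).map φ.toLinearMap := by
    ext y
    simp only [LinearMap.mem_ker, Submodule.mem_map, LinearEquiv.coe_coe]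
    constructor
    · intro hy
      refine ⟨φ.symm y, ?_, by simp⟩
      have h1 := h (φ.symm y)
      rw [φ.apply_symm_apply, hy] at h1
      have h2 := (smul_eq_zero.mp h1.symm).resolve_left hc
      exact (LinearEquiv.map_eq_zero_iff φ).mp h2
    · rintro ⟨x, hx, rfl⟩
      rw [h, hx, map_zero, smul_zero]
  have hr : LinearMap.range D' = (LinearMap.range D).map φ.toLinearMap := by
    ext y
    simp only [LinearMap.mem_range, Submodule.mem_map, LinearEquiv.coe_coe]
    constructor
    · rintro ⟨x, rfl⟩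
      refine ⟨c • D (φ.symm x), ⟨c • φ.symm x, by rw [map_smul]⟩, ?_⟩
      rw [map_smul, ← h, φ.apply_symm_apply]
    · rintro ⟨_, ⟨x, rfl⟩, rfl⟩
      refine ⟨c⁻¹ • φ x, ?_⟩
      rw [map_smul, h, smul_smul, inv_mul_cancel₀ hc, one_smul]
  rw [hd, hd, hk, hr, LinearEquiv.finrank_map_eq, LinearEquiv.finrank_map_eq]


/-- post-composition with an isomorphism, on all maps -/
def postcomp {X Y : Gob G k} (p : X ⟶ Y) (q : Y ⟶ X) (hpq : p ≫ q = 𝟙 X) (hqp : q ≫ p = 𝟙 Y)
    (Z : Gob G k) : (Z ⟶ X) ≃ₗ[k] (Z ⟶ Y) where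
  toFun f := f ≫ p
  invFun f := f ≫ q
  map_add' f g := by simp
  map_smul' c f := by simp
  left_inv f := by simp only [Category.assoc, hpq, Category.comp_id]
  right_inv f := by simp only [Category.assoc, hqp, Category.comp_id]

/-- pre-composition on the maps with `cW = 0` -/
def precompC {X Y : Gob G k} (p : X ⟶ Y) (q : Y ⟶ X) (hpq : p ≫ q = 𝟙 X) (hqp : q ≫ p = 𝟙 Y)
    (Z : Gob G k) : Cs Y Z ≃ₗ[k] Cs X Z where
  toFun f := ⟨p ≫ f.1, Cs_comp_left _ f.2⟩
  invFun f := ⟨q ≫ f.1, Cs_comp_left _ f.2⟩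
  map_add' f g := Subtype.ext (by simp)
  map_smul' c f := Subtype.ext (by simp)
  left_inv f := Subtype.ext (by simp only [← Category.assoc, hqp, Category.id_comp])
  right_inv f := Subtype.ext (by simp only [← Category.assoc, hpq, Category.id_comp])

/-- post-composition on the maps with `cW = 0` -/
def postcompC {X Y : Gob G k} (p : X ⟶ Y) (q : Y ⟶ X) (hpq : p ≫ q = 𝟙 X) (hqp : q ≫ p = 𝟙 Y)
    (Z : Gob G k) : Cs Z X ≃ₗ[k] Cs Z Y where
  toFun f := ⟨f.1 ≫ p, Cs_comp_right f.2 _⟩
  invFun f := ⟨f.1 ≫ q, Cs_comp_right f.2 _⟩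
  map_add' f g := Subtype.ext (by simp)
  map_smul' c f := Subtype.ext (by simp)
  left_inv f := Subtype.ext (by simp only [Category.assoc, hpq, Category.comp_id])
  right_inv f := Subtype.ext (by simp only [Category.assoc, hqp, Category.comp_id])

section inv
variable (X Y : TOb G k)

theorem D_th_comp (f : (sh X).X ⟶ Y.X) : D X Y (th X ≫ f) = th X ≫ D (sh X) Y f := by
  rw [D_comp, D_th]; simp

theorem D_comp_th (f : X.X ⟶ Y.X) : D X (sh Y) (f ≫ th Y) = -(D X Y f ≫ th Y) := by
  rw [D_comp, D_th]; simp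

theorem D_th'_comp (f : X.X ⟶ Y.X) : D (sh X) Y (th' X ≫ f) = th' X ≫ D X Y f := by
  rw [D_comp, D_th']; simp

theorem D_comp_th' (f : X.X ⟶ (sh Y).X) : D X Y (f ≫ th' Y) = -(D X (sh Y) f ≫ th' Y) := by
  rw [D_comp, D_th']; simp


theorem hD_sh_right : hD X (sh Y) = hD X Y := by
  symm
  apply hd_congr_smul (D X Y) (D X (sh Y))
    (postcomp (th Y) (th' Y) (th_th' Y) (th'_th Y) X.X) (-1) (by simp)
  intro f
  rw [neg_one_smul]
  exact D_comp_th X Y f

theorem hT_sh_left : hT (sh X) Y = hT X Y := by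
  apply hd_congr_smul (DC (sh X) Y) (DC X Y)
    (precompC (th X) (th' X) (th_th' X) (th'_th X) Y.X) 1 one_ne_zero
  intro f
  rw [one_smul]
  exact Subtype.ext (D_th_comp X Y f.1)

theorem hT_sh_right : hT X (sh Y) = hT X Y := by
  symm
  apply hd_congr_smul (DC X Y) (DC X (sh Y))
    (postcompC (th Y) (th' Y) (th_th' Y) (th'_th Y) X.X) (-1) (by simp)
  intro f
  rw [neg_one_smul]
  exact Subtype.ext (D_comp_th X Y f.1)


@[simp] theorem lam_sh (t : T) : lam (sh X) t = lam X t := rfl

end inv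

/-! ### conjugation by the shift -/

section conj
variable {X Y Z : TOb G k}

/-- the shift on morphisms -/
def shf (f : X.X ⟶ Y.X) : (sh X).X ⟶ (sh Y).X := th' X ≫ f ≫ th Y

@[simp] theorem shf_id : shf (𝟙 X.X) = 𝟙 (sh X).X := by simp [shf]
theorem shf_comp (f : X.X ⟶ Y.X) (g : Y.X ⟶ Z.X) : shf (f ≫ g) = shf f ≫ shf g := by
  simp [shf]
theorem shf_add (f g : X.X ⟶ Y.X) : shf (f + g) = shf f + shf g := by simp [shf]
@[simp] theorem shf_zero : shf (0 : X.X ⟶ Y.X) = 0 := by simp [shf]

@[simp] theorem bar_shf (f : X.X ⟶ Y.X) : bar (shf f) = shf (bar f) := by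
  simp [shf]

theorem D_shf (f : X.X ⟶ Y.X) : D (sh X) (sh Y) (shf f) = -shf (D X Y f) := by
  rw [shf, D_th'_comp, D_comp_th]
  simp [shf]


theorem shf_injective {f g : X.X ⟶ Y.X} (h : shf f = shf g) : f = g := by
  have := congrArg (fun a => th X ≫ a ≫ th' Y) h
  simpa [shf] using this

/-- the shift of a homotopy equivalence -/
def _root_.Crest.Agent.R175.PTA.HEquiv.sh (e : HEquiv X Y) : HEquiv (sh X) (sh Y) where
  p := shf e.p
  q := shf e.q
  s := -shf e.s
  r := -shf e.r
  bp := by rw [bar_shf, e.bp]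
  bq := by rw [bar_shf, e.bq]
  Dp := by rw [D_shf, e.Dp]; simp
  Dq := by rw [D_shf, e.Dq]; simp
  pq := by
    rw [← shf_comp, e.pq, shf_add, shf_id, map_neg, D_shf, neg_neg]
  qp := by
    rw [← shf_comp, e.qp, shf_add, shf_id, map_neg, D_shf, neg_neg]

theorem HIso_sh (h : HIso X Y) : HIso (sh X) (sh Y) := h.map fun e => e.sh

/-- `sh (sh X)` is `X` -/
theorem HIso_sh_sh (X : TOb G k) : HIso (sh (sh X)) X :=
  ⟨{ p := th' (sh X) ≫ th' X
     q := th X ≫ th (sh X)
     s := 0
     r := 0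
     bp := by simp
     bq := by simp
     Dp := by rw [D_comp, D_th', D_th']; simp
     Dq := by rw [D_comp, D_th, D_th]; simp
     pq := by simp
     qp := by simp }⟩




end conj

/-! ### even and odd parts -/

section parts
variable {X Y : TOb G k}


/-- The parts of a cocycle are cocycles. -/
theorem D_parts (h2 : (2 : k) ≠ 0) (f : X.X ⟶ Y.X) (hf : D X Y f = 0) :
    ∃ a b : X.X ⟶ Y.X, f = a + b ∧ bar a = a ∧ bar b = -b ∧ D X Y a = 0 ∧ D X Y b = 0 := by
  have hb : D X Y (bar f) = 0 := by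
    have := bar_D (X := X) (Y := Y) f
    rw [hf, bar_zero] at this
    rw [← neg_eq_zero, ← this]
  refine ⟨(2⁻¹ : k) • (f + bar f), (2⁻¹ : k) • (f - bar f), ?_, ?_, ?_, ?_, ?_⟩
  · rw [← smul_add]
    have : f + bar f + (f - bar f) = (2 : k) • f := by rw [two_smul]; abel
    rw [this, smul_smul, inv_mul_cancel₀ h2, one_smul]
  · simp only [bar_smul, bar_add, bar_bar]; rw [add_comm]
  · simp only [bar_smul, bar_sub, bar_bar]; rw [← smul_neg, neg_sub]
  · rw [map_smul, map_add, hf, hb]; simp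
  · rw [map_smul, map_sub, hf, hb]; simp


end parts

/-! ### minimal objects -/




end Crest.Agent.R175.Shift_936
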