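import Mathlib
import Crest.Agent.R175.Red_61_Mg
import Crest.Agent.R175.Dual_338
import Crest.Agent.R175.Shift_936_Mg
import Crest.Agent.R175.UG_27
import Crest.Agent.R175.FmC_180
import Crest.Agent.R175.Lev_788

-- ▼ part R175/LocA_356
section

set_option autoImplicit false

namespace Crest.Agent.R175.LocA_356

open Module

universe u v w

/-- every element is a scalar plus a nilpotent element -/
def ScNil (k : Type u) (Z : Type v) [Field k] [Ring Z] [Algebra k Z] : Prop :=
  ∀ z : Z, ∃ c : k, IsNilpotent (z - algebraMap k Z c)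

section idem

variable {k : Type u} {Z : Type v} [Field k] [Ring Z] [Algebra k Z]

/-- a finite dimensional algebra over an algebraically closed field without non-trivial idempotents:
every element is a scalar plus a nilpotent element. -/
theorem scNil_of_idem [IsAlgClosed k] [FiniteDimensional k Z]
    (h : ∀ e : Z, e * e = e → e = 0 ∨ e = 1) : ScNil k Z := by
  intro z
  rcases subsingleton_or_nontrivial Z with hZ | hZ
  · exact ⟨0, ⟨0, Subsingleton.elim _ _⟩⟩
  have hint : IsIntegral k z := IsIntegral.of_finite k z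
  have hdeg : 0 < (minpoly k z).degree := minpoly.degree_pos hint
  obtain ⟨c, hc⟩ := IsAlgClosed.exists_root (minpoly k z) (ne_of_gt hdeg)
  have hne : minpoly k z ≠ 0 := minpoly.ne_zero hint
  obtain ⟨q, hq, hqc⟩ := Polynomial.exists_eq_pow_rootMultiplicity_mul_and_not_dvd
    (minpoly k z) hne c
  set m := (minpoly k z).rootMultiplicity c with hm
  have hmpos : 0 < m := (Polynomial.rootMultiplicity_pos hne).2 hc
  have hcop : IsCoprime ((Polynomial.X - Polynomial.C c) ^ m) q := by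
    apply IsCoprime.pow_left
    exact (Polynomial.irreducible_X_sub_C c).coprime_iff_not_dvd.2 hqc
  obtain ⟨u, v, huv⟩ := hcop
  refine ⟨c, m, ?_⟩
  have hz : Polynomial.aeval z ((Polynomial.X - Polynomial.C c) ^ m)
      = (z - algebraMap k Z c) ^ m := by simp
  rw [← hz]
  set p := (Polynomial.X - Polynomial.C c) ^ m with hp
  have hpq : Polynomial.aeval z (p * q) = 0 := by
    rw [← hq]; exact minpoly.aeval k z
  have hsum : Polynomial.aeval z (u * p) + Polynomial.aeval z (v * q) = 1 := by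
    rw [← map_add, huv, map_one]
  have he : Polynomial.aeval z (u * p) * Polynomial.aeval z (u * p)
      = Polynomial.aeval z (u * p) := by
    have h1 : Polynomial.aeval z (u * p) * Polynomial.aeval z (v * q) = 0 := by
      rw [← map_mul, show u * p * (v * q) = (u * v) * (p * q) by ring, map_mul, hpq, mul_zero]
    calc Polynomial.aeval z (u * p) * Polynomial.aeval z (u * p)
        = Polynomial.aeval z (u * p) * Polynomial.aeval z (u * p)
            + Polynomial.aeval z (u * p) * Polynomial.aeval z (v * q) := by rw [h1, add_zero]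
      _ = Polynomial.aeval z (u * p) * (Polynomial.aeval z (u * p)
            + Polynomial.aeval z (v * q)) := by rw [mul_add]
      _ = Polynomial.aeval z (u * p) := by rw [hsum, mul_one]
  rcases h _ he with h0 | h1
  · -- `aeval (u p) = 0`, so `aeval (v q) = 1`, so `p z = 0`
    rw [h0, zero_add] at hsum
    calc Polynomial.aeval z p = Polynomial.aeval z p * 1 := by rw [mul_one]
      _ = Polynomial.aeval z p * Polynomial.aeval z (v * q) := by rw [hsum]
      _ = 0 := by
        rw [← map_mul, show p * (v * q) = v * (p * q) by ring, map_mul, hpq, mul_zero]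
  · -- `aeval (u p) = 1`, so `q z = 0`: contradiction with minimality
    exfalso
    have hq0 : Polynomial.aeval z q = 0 := by
      calc Polynomial.aeval z q = Polynomial.aeval z (u * p) * Polynomial.aeval z q := by
            rw [h1, one_mul]
        _ = 0 := by
          rw [← map_mul, show u * p * q = u * (p * q) by ring, map_mul, hpq, mul_zero]
    have hqne : q ≠ 0 := by
      rintro rfl
      exact hne (by rw [hq, mul_zero])
    have hle : (minpoly k z).natDegree ≤ q.natDegree :=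
      Polynomial.natDegree_le_of_dvd (minpoly.dvd k z hq0) hqne
    have hpne : p ≠ 0 := by
      rw [hp]; exact pow_ne_zero _ (Polynomial.X_sub_C_ne_zero c)
    have hnd : (minpoly k z).natDegree = m + q.natDegree := by
      rw [hq, Polynomial.natDegree_mul hpne hqne, hp, Polynomial.natDegree_pow,
        Polynomial.natDegree_X_sub_C, mul_one]
    omega


/-- in a finite dimensional algebra with `ScNil`, the product of a nilpotent element with any element is
nilpotent -/
theorem ScNil.mul_nil [FiniteDimensional k Z] (h : ScNil k Z) {n : Z} (hn : IsNilpotent n) (a : Z) :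
    IsNilpotent (a * n) := by
  obtain ⟨c, hc⟩ := h (a * n)
  by_cases hc0 : c = 0
  · simpa [hc0] using hc
  -- `a * n = c + nilpotent` is a unit, so `n` is left invertible, contradiction unless `Z` trivial
  have hu : IsUnit (a * n) := by
    have h1 : IsUnit (algebraMap k Z c) := (IsUnit.mk0 c hc0).map (algebraMap k Z)
    have h2 : a * n = (a * n - algebraMap k Z c) + algebraMap k Z c := by abel
    rw [h2]
    exact hc.isUnit_add_right_of_commute h1 (Algebra.commute_algebraMap_right _ _)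
  obtain ⟨b, hb⟩ := hu
  obtain ⟨m, hm⟩ := hn
  -- `(b⁻¹ a) n = 1`, so `(b⁻¹ a)^m n^m = 1`
  have hl : ((↑b⁻¹ : Z) * a) * n = 1 := by
    rw [mul_assoc, ← hb]; simp
  have hpow : ∀ j : ℕ, ∃ y : Z, y * n ^ j = 1 := by
    intro j
    induction j with
    | zero => exact ⟨1, by simp⟩
    | succ j ih =>
      obtain ⟨y, hy⟩ := ih
      refine ⟨((↑b⁻¹ : Z) * a) * y, ?_⟩
      rw [pow_succ, mul_assoc, ← mul_assoc y, hy, one_mul, hl]
  obtain ⟨y, hy⟩ := hpow m
  rw [hm, mul_zero] at hy
  refine ⟨0, ?_⟩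
  rw [pow_zero, ← hy]

theorem ScNil.nil_mul [FiniteDimensional k Z] (h : ScNil k Z) {n : Z} (hn : IsNilpotent n) (a : Z) :
    IsNilpotent (n * a) := by
  obtain ⟨m, hm⟩ := h.mul_nil hn a
  refine ⟨m + 1, ?_⟩
  have : ∀ j : ℕ, (n * a) ^ (j + 1) = n * (a * n) ^ j * a := by
    intro j
    induction j with
    | zero => simp
    | succ j ih => rw [pow_succ, ih, pow_succ]; simp [mul_assoc]
  rw [this, hm, mul_zero, zero_mul]

theorem ScNil.add_nil [FiniteDimensional k Z] (h : ScNil k Z) {n n' : Z} (hn : IsNilpotent n)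
    (hn' : IsNilpotent n') : IsNilpotent (n + n') := by
  obtain ⟨c, hc⟩ := h (n + n')
  by_cases hc0 : c = 0
  · simpa [hc0] using hc
  have hu : IsUnit (n + n') := by
    have h1 : IsUnit (algebraMap k Z c) := (IsUnit.mk0 c hc0).map (algebraMap k Z)
    have h2 : n + n' = (n + n' - algebraMap k Z c) + algebraMap k Z c := by abel
    rw [h2]
    exact hc.isUnit_add_right_of_commute h1 (Algebra.commute_algebraMap_right _ _)
  obtain ⟨b, hb⟩ := hu
  -- `1 = b⁻¹ n + b⁻¹ n'`, both nilpotent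
  have h3 : IsNilpotent ((↑b⁻¹ : Z) * n) := h.mul_nil hn _
  have h4 : IsNilpotent ((↑b⁻¹ : Z) * n') := h.mul_nil hn' _
  have h5 : (↑b⁻¹ : Z) * n' = 1 - (↑b⁻¹ : Z) * n := by
    have : (↑b⁻¹ : Z) * (n + n') = 1 := by rw [← hb]; simp
    rw [mul_add] at this
    rw [← this]; abel
  have h6 : IsUnit ((↑b⁻¹ : Z) * n') := by
    rw [h5]; exact h3.isUnit_one_sub
  have h7 : IsUnit n' := by
    have : n' = (b : Z) * ((↑b⁻¹ : Z) * n') := by rw [← mul_assoc]; simp
    rw [this]; exact b.isUnit.mul h6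
  rcases subsingleton_or_nontrivial Z with hZ | hZ
  · exact ⟨0, Subsingleton.elim _ _⟩
  · exact absurd h7 hn'.not_isUnit

/-- the character of a (non-trivial) algebra with `ScNil` -/
theorem ScNil.character [FiniteDimensional k Z] [Nontrivial Z] (h : ScNil k Z) :
    ∃ c : Z →ₐ[k] k, ∀ z, IsNilpotent (z - algebraMap k Z (c z)) := by
  have h0 := h
  choose c hc using h0
  have huniq : ∀ (z : Z) (x : k), IsNilpotent (z - algebraMap k Z x) → x = c z := by
    intro z x hx
    have h1 : IsNilpotent ((z - algebraMap k Z x) + -(z - algebraMap k Z (c z))) :=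
      ScNil.add_nil h hx (hc z).neg
    have h2 : (z - algebraMap k Z x) + -(z - algebraMap k Z (c z)) = algebraMap k Z (c z - x) := by
      rw [map_sub]; abel
    rw [h2] at h1
    by_contra hne
    have h3 : IsUnit (algebraMap k Z (c z - x)) :=
      (IsUnit.mk0 _ (sub_ne_zero.2 (Ne.symm hne))).map (algebraMap k Z)
    exact h1.not_isUnit h3
  have hmul : ∀ x y, c (x * y) = c x * c y := by
    intro x y
    symm
    apply huniq
    have : x * y - algebraMap k Z (c x * c y)
        = (x - algebraMap k Z (c x)) * y + algebraMap k Z (c x) * (y - algebraMap k Z (c y)) := by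
      rw [map_mul, sub_mul, mul_sub]; abel
    rw [this]
    exact ScNil.add_nil h (ScNil.nil_mul h (hc x) y) (ScNil.mul_nil h (hc y) _)
  have hadd : ∀ x y, c (x + y) = c x + c y := by
    intro x y
    symm
    apply huniq
    have : x + y - algebraMap k Z (c x + c y)
        = (x - algebraMap k Z (c x)) + (y - algebraMap k Z (c y)) := by
      rw [map_add]; abel
    rw [this]
    exact ScNil.add_nil h (hc x) (hc y)
  have halg : ∀ r : k, c (algebraMap k Z r) = r := by
    intro r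
    symm
    apply huniq
    rw [sub_self]
    exact IsNilpotent.zero
  refine ⟨{ toFun := c, map_one' := ?_, map_mul' := hmul, map_zero' := ?_, map_add' := hadd,
            commutes' := halg }, hc⟩
  · have := halg 1
    rwa [map_one] at this
  · have := halg 0
    rwa [map_zero] at this

end idem

section tri

variable {k : Type u} [Field k]

/-- a nil, multiplicatively closed linear space of endomorphisms of `W ≠ 0` is killed from the left by
a non-zero functional -/
theorem exists_functional {W : Type v} [AddCommGroup W] [Module k W] [FiniteDimensional k W]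
    [Nontrivial W] (N : Submodule k (Module.End k W)) (hmul : ∀ f ∈ N, ∀ g ∈ N, f * g ∈ N)
    (hnil : ∀ f ∈ N, IsNilpotent f) :
    ∃ φ : W →ₗ[k] k, φ ≠ 0 ∧ ∀ f ∈ N, φ ∘ₗ f = 0 := by
  classical
  -- `R φ = {φ ∘ a : a ∈ k + N}`
  let A : Submodule k (Module.End k W) := Submodule.span k {1} ⊔ N
  have hA1 : (1 : Module.End k W) ∈ A := Submodule.mem_sup_left (Submodule.mem_span_singleton_self _)
  have hAN : N ≤ A := le_sup_right
  have hAmem : ∀ a ∈ A, ∃ t : k, ∃ n ∈ N, a = t • 1 + n := by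
    intro a ha
    obtain ⟨y, hy, z, hz, rfl⟩ := Submodule.mem_sup.1 ha
    obtain ⟨t, rfl⟩ := Submodule.mem_span_singleton.1 hy
    exact ⟨t, z, hz, rfl⟩
  let pre : (W →ₗ[k] k) → (Module.End k W →ₗ[k] (W →ₗ[k] k)) := fun φ => φ.compRight k
  let R : (W →ₗ[k] k) → Submodule k (W →ₗ[k] k) := fun φ => A.map (pre φ)
  have hex : ∃ n : ℕ, ∃ φ : W →ₗ[k] k, φ ≠ 0 ∧ finrank k (R φ) = n := by
    obtain ⟨w, hw⟩ := exists_ne (0 : W)
    obtain ⟨φ, hφ⟩ := Module.Projective.exists_dual_ne_zero k hw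
    refine ⟨_, φ, ?_, rfl⟩
    rintro rfl
    exact hφ rfl
  obtain ⟨φ, hφ0, hφn⟩ := Nat.find_spec hex
  refine ⟨φ, hφ0, ?_⟩
  intro f hf
  by_contra hne
  -- `R (φ f) ≤ R φ`, equality by minimality
  have hle : R (φ ∘ₗ f) ≤ R φ := by
    rintro _ ⟨a, ha, rfl⟩
    obtain ⟨t, n, hn, rfl⟩ := hAmem a ha
    refine ⟨t • f + f * n, hAN (N.add_mem (N.smul_mem t hf) (hmul f hf n hn)), ?_⟩
    ext w
    simp [pre, LinearMap.compRight_apply]
  have hmin : finrank k (R φ) ≤ finrank k (R (φ ∘ₗ f)) := by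
    rw [hφn]
    exact Nat.find_min' hex ⟨φ ∘ₗ f, hne, rfl⟩
  have heq : R (φ ∘ₗ f) = R φ := Submodule.eq_of_le_of_finrank_le hle hmin
  have hmem : φ ∈ R (φ ∘ₗ f) := by
    rw [heq]
    exact ⟨1, hA1, by ext w; simp [pre, LinearMap.compRight_apply]⟩
  obtain ⟨a, ha, haφ⟩ := hmem
  obtain ⟨t, n, hn, rfl⟩ := hAmem a ha
  have hg : t • f + f * n ∈ N := N.add_mem (N.smul_mem t hf) (hmul f hf n hn)
  have hφg : φ ∘ₗ (t • f + f * n) = φ := by
    have haφ' : (φ ∘ₗ f) ∘ₗ (t • (1 : Module.End k W) + n) = φ := haφ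
    have : φ ∘ₗ (t • f + f * n) = (φ ∘ₗ f) ∘ₗ (t • (1 : Module.End k W) + n) := by
      ext w
      simp
    rw [this, haφ']
  have hpow : ∀ j : ℕ, φ ∘ₗ ((t • f + f * n) ^ j) = φ := by
    intro j
    induction j with
    | zero => ext w; simp
    | succ j ih =>
      rw [pow_succ]
      calc φ ∘ₗ ((t • f + f * n) ^ j * (t • f + f * n))
          = (φ ∘ₗ ((t • f + f * n) ^ j)) ∘ₗ (t • f + f * n) := by ext w; rfl
        _ = φ := by rw [ih, hφg]
  obtain ⟨m, hm⟩ := hnil _ hg
  have := hpow m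
  rw [hm] at this
  apply hφ0
  rw [← this]
  ext w
  simp

/-- triangular basis: diagonal coordinates vanish -/
theorem exists_basis (n : ℕ) : ∀ {W : Type v} [AddCommGroup W] [Module k W] [FiniteDimensional k W],
    finrank k W = n → ∀ (N : Submodule k (Module.End k W)), (∀ f ∈ N, ∀ g ∈ N, f * g ∈ N) →
    (∀ f ∈ N, IsNilpotent f) →
    ∃ b : Basis (Fin n) k W, ∀ f ∈ N, ∀ i, b.repr (f (b i)) i = 0 := by
  induction n with
  | zero =>
    intro W _ _ _ hW N _ _
    exact ⟨finBasisOfFinrankEq k W hW, fun f _ i => i.elim0⟩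
  | succ n ih =>
    intro W _ _ _ hW N hmul hnil
    have hnt : Nontrivial W := Module.nontrivial_of_finrank_pos (R := k) (by omega)
    obtain ⟨φ, hφ0, hφ⟩ := exists_functional N hmul hnil
    let H : Submodule k W := LinearMap.ker φ
    have hNH : ∀ f ∈ N, ∀ w, f w ∈ H := by
      intro f hf w
      have := congrArg (fun ψ : W →ₗ[k] k => ψ w) (hφ f hf)
      simpa [H, LinearMap.mem_ker] using this
    have hHdim : finrank k H = n := by
      have h1 := LinearMap.finrank_range_add_finrank_ker φ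
      have h2 : finrank k (LinearMap.range φ) = 1 := by
        have : LinearMap.range φ = ⊤ := by
          rw [LinearMap.range_eq_top]
          exact LinearMap.surjective hφ0
        rw [this, finrank_top, finrank_self]
      rw [h2, hW] at h1
      show finrank k (LinearMap.ker φ) = n
      omega
    -- restriction to `H`
    let res : N →ₗ[k] Module.End k H :=
      { toFun := fun f => (f : Module.End k W).restrict (fun w _ => hNH f.1 f.2 w)
        map_add' := fun f g => by ext w; rfl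
        map_smul' := fun c f => by ext w; rfl }
    have hres : ∀ (f : N) (w : H), ((res f w : H) : W) = (f : Module.End k W) (w : W) := fun f w => rfl
    obtain ⟨b', hb'⟩ := ih hHdim (LinearMap.range res) (by
        rintro _ ⟨f, rfl⟩ _ ⟨g, rfl⟩
        refine ⟨⟨f.1 * g.1, hmul _ f.2 _ g.2⟩, ?_⟩
        ext w
        rfl) (by
        rintro _ ⟨f, rfl⟩
        obtain ⟨m, hm⟩ := hnil f.1 f.2
        refine ⟨m, ?_⟩
        ext w
        have : ∀ j : ℕ, (((res f) ^ j) w : W) = ((f : Module.End k W) ^ j) (w : W) := by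
          intro j
          induction j generalizing w with
          | zero => simp
          | succ j ihj =>
            rw [pow_succ, pow_succ, Module.End.mul_apply, Module.End.mul_apply, ihj, hres]
        rw [this, hm]
        simp)
    obtain ⟨y, hy⟩ : ∃ y : W, φ y = 1 := LinearMap.surjective hφ0 1
    have hli : ∀ (c : k), ∀ x ∈ H, c • y + x = 0 → c = 0 := by
      intro c x hx h
      have := congrArg φ h
      rw [map_add, map_smul, hy, LinearMap.mem_ker.1 hx, map_zero, add_zero] at this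
      simpa using this
    have hsp : ∀ z : W, ∃ c : k, z + c • y ∈ H := by
      intro z
      refine ⟨-φ z, ?_⟩
      rw [LinearMap.mem_ker, map_add, map_smul, hy]
      simp
    let b : Basis (Fin (n + 1)) k W := Basis.mkFinCons y b' hli hsp
    have hb0 : b 0 = y := by simp [b, Basis.coe_mkFinCons]
    have hbs : ∀ i : Fin n, b i.succ = (b' i : W) := by intro i; simp [b, Basis.coe_mkFinCons]
    -- coordinates of an element of `H`
    have hco : ∀ (h : H), b.repr (h : W) 0 = 0 ∧ ∀ i : Fin n, b.repr (h : W) i.succ = b'.repr h i := by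
      intro h
      have hexp : (h : W) = ∑ i : Fin (n + 1),
          (Fin.cons 0 (fun i => b'.repr h i) : Fin (n + 1) → k) i • b i := by
        rw [Fin.sum_univ_succ]
        simp only [Fin.cons_zero, zero_smul, zero_add, Fin.cons_succ, hbs]
        conv_lhs => rw [← b'.sum_repr h]
        rw [Submodule.coe_sum]
        simp
      have hrep : ∀ i, b.repr (h : W) i = (Fin.cons 0 (fun i => b'.repr h i) : Fin (n + 1) → k) i := by
        intro i
        conv_lhs => rw [hexp]
        rw [Basis.repr_sum_self]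
      refine ⟨by rw [hrep]; rfl, fun i => by rw [hrep]; rfl⟩
    refine ⟨b, ?_⟩
    intro f hf i
    refine Fin.cases ?_ (fun i => ?_) i
    · exact (hco ⟨f (b 0), hNH f hf _⟩).1
    · have h1 := (hco ⟨f (b i.succ), hNH f hf _⟩).2 i
      rw [show ((⟨f (b i.succ), hNH f hf _⟩ : H) : W) = f (b i.succ) from rfl] at h1
      rw [h1]
      have h2 : (⟨f (b i.succ), hNH f hf _⟩ : H) = res ⟨f, hf⟩ (b' i) := by
        apply Subtype.ext
        rw [hres]
        show f (b i.succ) = f (b' i : W)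
        rw [hbs]
      rw [h2]
      exact hb' _ ⟨_, rfl⟩ i

/-- invertible diagonal endomorphism in a basis -/
theorem trace_diag {W : Type v} [AddCommGroup W] [Module k W] [FiniteDimensional k W] {n : ℕ}
    (b : Basis (Fin n) k W) (x : Fin n → k) (hx : ∀ i, x i ≠ 0) :
    ∃ D : W ≃ₗ[k] W, ∀ f : Module.End k W,
      LinearMap.trace k W (D.toLinearMap ∘ₗ f) = ∑ i, x i * b.repr (f (b i)) i := by
  classical
  let D0 : W →ₗ[k] W := b.constr k (fun i => x i • b i)
  let D1 : W →ₗ[k] W := b.constr k (fun i => (x i)⁻¹ • b i)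
  have h01 : D0 ∘ₗ D1 = LinearMap.id := by
    apply b.ext
    intro i
    simp [D0, D1, smul_smul, inv_mul_cancel₀ (hx i)]
  have h10 : D1 ∘ₗ D0 = LinearMap.id := by
    apply b.ext
    intro i
    simp [D0, D1, smul_smul, mul_inv_cancel₀ (hx i)]
  refine ⟨LinearEquiv.ofLinearMap D0 D1 h01 h10, ?_⟩
  intro f
  rw [show (LinearEquiv.ofLinearMap D0 D1 h01 h10).toLinearMap = D0 from rfl,
    LinearMap.trace_eq_matrix_trace k b, Matrix.trace]
  apply Finset.sum_congr rfl
  intro i _
  rw [Matrix.diag_apply, LinearMap.toMatrix_apply, LinearMap.comp_apply]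
  have : ∀ w : W, b.repr (D0 w) i = x i * b.repr w i := by
    intro w
    have hw : D0 w = ∑ j, (x j * b.repr w j) • b j := by
      conv_lhs => rw [← b.sum_repr w]
      rw [map_sum]
      apply Finset.sum_congr rfl
      intro j _
      rw [map_smul, Basis.constr_basis, smul_smul, mul_comm]
    rw [hw, Basis.repr_sum_self]
  exact this _

end tri

section loc

variable {k : Type u} [Field k]

open Classical in
/-- non-zero scalars with sum zero -/
theorem exists_scalars [Infinite k] {κ : Type*} [Fintype κ] [DecidableEq κ] (h : 2 ≤ Fintype.card κ) :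
    ∃ x : κ → k, (∀ i, x i ≠ 0) ∧ ∑ i, x i = 0 := by
  obtain ⟨i0, i1, hne⟩ := Fintype.exists_pair_of_one_lt_card (by omega : 1 < Fintype.card κ)
  let S : k := ∑ i ∈ (Finset.univ.erase i0).erase i1, (1 : k)
  obtain ⟨t, ht⟩ := Infinite.exists_notMem_finset ({0, -S} : Finset k)
  simp only [Finset.mem_insert, Finset.mem_singleton, not_or] at ht
  refine ⟨fun i => if i = i0 then t else if i = i1 then -S - t else 1, ?_, ?_⟩
  · intro i
    by_cases h0 : i = i0
    · simp [h0, ht.1]
    · by_cases h1 : i = i1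
      · simp only [h0, if_false, h1, if_true, if_neg (Ne.symm hne)]
        intro h
        apply ht.2
        exact (sub_eq_zero.1 h).symm
      · simp [h0, h1]
  · rw [← Finset.add_sum_erase _ _ (Finset.mem_univ i0),
      ← Finset.add_sum_erase (Finset.univ.erase i0) _ (Finset.mem_erase.2 ⟨Ne.symm hne,
        Finset.mem_univ i1⟩)]
    have hS : ∑ i ∈ (Finset.univ.erase i0).erase i1,
        (if i = i0 then t else if i = i1 then -S - t else 1) = S := by
      apply Finset.sum_congr rfl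
      intro i hi
      rw [Finset.mem_erase, Finset.mem_erase] at hi
      rw [if_neg hi.2.1, if_neg hi.1]
    rw [hS]
    simp only [if_true, if_neg (Ne.symm hne)]
    ring

/-- **LEMMA LOC.** -/
theorem loc [Infinite k] {Z : Type v} [Ring Z] [Algebra k Z] [FiniteDimensional k Z]
    (h : ScNil k Z) {ι : Type*} [Fintype ι] (W : ι → Type w) [∀ s, AddCommGroup (W s)]
    [∀ s, Module k (W s)] [∀ s, FiniteDimensional k (W s)] (ρ : ∀ s, Z →ₐ[k] Module.End k (W s))
    (hdim : 2 ≤ ∑ s, finrank k (W s)) :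
    ∃ A0 : ∀ s, W s ≃ₗ[k] W s, ∀ z : Z,
      ∑ s, LinearMap.trace k (W s) ((A0 s).toLinearMap ∘ₗ ρ s z) = 0 := by
  classical
  have hnt : Nontrivial Z := by
    by_contra hZ
    rw [not_nontrivial_iff_subsingleton] at hZ
    have hW : ∀ s, finrank k (W s) = 0 := by
      intro s
      rw [Module.finrank_eq_zero_iff_of_free]
      constructor
      intro x y
      have h1 : (1 : Module.End k (W s)) = 0 := by
        rw [← map_one (ρ s), Subsingleton.elim (1 : Z) 0, map_zero]
      have h2 : ∀ x : W s, x = 0 := fun x => by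
        have := congrArg (fun f : Module.End k (W s) => f x) h1
        simpa using this
      rw [h2 x, h2 y]
    simp [hW] at hdim
  obtain ⟨c, hc⟩ := h.character
  let N : Submodule k Z := LinearMap.ker c.toLinearMap
  have hN : ∀ z ∈ N, IsNilpotent z := by
    intro z hz
    have h1 : c z = 0 := hz
    have := hc z
    rwa [h1, map_zero, sub_zero] at this
  have hb : ∀ s, ∃ b : Basis (Fin (finrank k (W s))) k (W s), ∀ z ∈ N, ∀ i,
      b.repr (ρ s z (b i)) i = 0 := by
    intro s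
    obtain ⟨b, hb⟩ := exists_basis (finrank k (W s)) (W := W s) rfl
      (N.map (ρ s).toLinearMap) (by
        rintro _ ⟨x, hx, rfl⟩ _ ⟨y, hy, rfl⟩
        refine ⟨x * y, ?_, ?_⟩
        · show c (x * y) = 0
          have : c x = 0 := hx
          rw [map_mul, this, zero_mul]
        · exact map_mul (ρ s) x y) (by
        rintro _ ⟨x, hx, rfl⟩
        exact (hN x hx).map (ρ s))
    exact ⟨b, fun z hz i => hb _ ⟨z, hz, rfl⟩ i⟩
  choose b hb using hb
  obtain ⟨x, hx, hxs⟩ := exists_scalars (k := k) (κ := Σ s, Fin (finrank k (W s))) (by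
    rw [Fintype.card_sigma]
    simpa using hdim)
  choose D hD using fun s => trace_diag (b s) (fun i => x ⟨s, i⟩) (fun i => hx _)
  refine ⟨D, ?_⟩
  intro z
  have hz : ∀ s i, (b s).repr (ρ s z (b s i)) i = c z := by
    intro s i
    have h1 : z - algebraMap k Z (c z) ∈ N := by
      show c (z - algebraMap k Z (c z)) = 0
      rw [map_sub, AlgHom.commutes]
      simp
    have h2 := hb s _ h1 i
    rw [map_sub, AlgHom.commutes, LinearMap.sub_apply, map_sub, Finsupp.sub_apply,
      Module.algebraMap_end_apply, map_smul, Finsupp.smul_apply, Basis.repr_self,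
      Finsupp.single_eq_same, smul_eq_mul, mul_one] at h2
    exact sub_eq_zero.1 h2
  calc ∑ s, LinearMap.trace k (W s) ((D s).toLinearMap ∘ₗ ρ s z)
      = ∑ s, ∑ i, x ⟨s, i⟩ * c z := by
        apply Finset.sum_congr rfl
        intro s _
        rw [hD]
        apply Finset.sum_congr rfl
        intro i _
        rw [hz]
    _ = (∑ p : Σ s, Fin (finrank k (W s)), x p) * c z := by
        rw [Finset.sum_mul, Fintype.sum_sigma]
    _ = 0 := by rw [hxs, zero_mul]

/-- LEMMA LOC in the form of the application: `Z` has no non-trivial idempotents. -/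
theorem loc_of_idem [IsAlgClosed k] {Z : Type v} [Ring Z] [Algebra k Z] [FiniteDimensional k Z]
    (h : ∀ e : Z, e * e = e → e = 0 ∨ e = 1) {ι : Type*} [Fintype ι] (W : ι → Type w)
    [∀ s, AddCommGroup (W s)] [∀ s, Module k (W s)] [∀ s, FiniteDimensional k (W s)]
    (ρ : ∀ s, Z →ₐ[k] Module.End k (W s)) (hdim : 2 ≤ ∑ s, finrank k (W s)) :
    ∃ A0 : ∀ s, W s ≃ₗ[k] W s, ∀ z : Z,
      ∑ s, LinearMap.trace k (W s) ((A0 s).toLinearMap ∘ₗ ρ s z) = 0 :=
  loc (scNil_of_idem h) W ρ hdim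

end loc

end Crest.Agent.R175.LocA_356
end

-- ▼ part R175/LocE_259
section

set_option autoImplicit false

namespace Crest.Agent.R175.LocE_259

open Module

universe u v w

variable {k : Type u} [Field k]

section inv

variable {W : Type w} [AddCommGroup W] [Module k W]

/-- the even part of an involution -/
def evn (g : W →ₗ[k] W) : Submodule k W := LinearMap.ker (g - LinearMap.id)

/-- the odd part of an involution -/
def odd (g : W →ₗ[k] W) : Submodule k W := LinearMap.ker (g + LinearMap.id)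

theorem mem_evn {g : W →ₗ[k] W} {x : W} : x ∈ evn g ↔ g x = x := by
  simp [evn, sub_eq_zero]

theorem mem_odd {g : W →ₗ[k] W} {x : W} : x ∈ odd g ↔ g x = -x := by
  simp [odd, add_eq_zero_iff_eq_neg]

theorem isCompl_evn_odd (h2 : (2 : k) ≠ 0) {g : W →ₗ[k] W} (hg : ∀ x, g (g x) = x) :
    IsCompl (evn g) (odd g) := by
  refine IsCompl.of_eq ?_ ?_
  · rw [Submodule.eq_bot_iff]
    rintro x ⟨h1, h3⟩
    have h1' := mem_evn.1 h1
    have h3' := mem_odd.1 h3
    rw [h1'] at h3'
    have : (2 : k) • x = 0 := by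
      rw [two_smul]
      nth_rewrite 1 [h3']
      simp
    exact (smul_eq_zero.1 this).resolve_left h2
  · rw [Submodule.eq_top_iff']
    intro x
    have hx : x = (2 : k)⁻¹ • (x + g x) + (2 : k)⁻¹ • (x - g x) := by
      rw [← smul_add]
      have : x + g x + (x - g x) = (2 : k) • x := by
        rw [two_smul]; abel
      rw [this, smul_smul, inv_mul_cancel₀ h2, one_smul]
    rw [hx]
    refine Submodule.add_mem_sup ?_ ?_
    · refine Submodule.smul_mem _ _ (mem_evn.2 ?_)
      rw [map_add, hg]; abel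
    · refine Submodule.smul_mem _ _ (mem_odd.2 ?_)
      rw [map_sub, hg]; abel

end inv

/-- the block `b` of an involution -/
def blk {W : Type w} [AddCommGroup W] [Module k W] (g : W →ₗ[k] W) : Bool → Submodule k W
  | true => evn g
  | false => odd g

theorem blk_map {W : Type w} [AddCommGroup W] [Module k W] {g f : W →ₗ[k] W}
    (hf : ∀ x, f (g x) = g (f x)) (b : Bool) : ∀ x ∈ blk g b, f x ∈ blk g b := by
  cases b
  · intro x hx
    have := mem_odd.1 hx
    refine mem_odd.2 ?_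
    rw [← hf, this, map_neg]
  · intro x hx
    have := mem_evn.1 hx
    refine mem_evn.2 ?_
    rw [← hf, this]

/-- **LEMMA LOC, parity version.** -/
theorem loc_even [IsAlgClosed k] (h2 : (2 : k) ≠ 0) {Z : Type v} [Ring Z] [Algebra k Z]
    [FiniteDimensional k Z] (hid : ∀ e : Z, e * e = e → e = 0 ∨ e = 1)
    {ι : Type*} [Fintype ι] (W : ι → Type w)
    [∀ s, AddCommGroup (W s)] [∀ s, Module k (W s)] [∀ s, FiniteDimensional k (W s)]
    (g : ∀ s, W s →ₗ[k] W s) (hg : ∀ s x, g s (g s x) = x)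
    (ρ : ∀ s, Z →ₐ[k] Module.End k (W s)) (hρ : ∀ s z x, ρ s z (g s x) = g s (ρ s z x))
    (hdim : 2 ≤ ∑ s, finrank k (W s)) :
    ∃ A0 : ∀ s, W s ≃ₗ[k] W s, (∀ s x, A0 s (g s x) = g s (A0 s x)) ∧
      ∀ z : Z, ∑ s, LinearMap.trace k (W s) ((A0 s).toLinearMap ∘ₗ ρ s z) = 0 := by
  classical
  -- the blocks
  let W' : ι × Bool → Type w := fun p => blk (g p.1) p.2
  let _ : ∀ p, AddCommGroup (W' p) := fun p => inferInstanceAs (AddCommGroup (blk (g p.1) p.2))
  let _ : ∀ p, Module k (W' p) := fun p => inferInstanceAs (Module k (blk (g p.1) p.2))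
  have : ∀ p, FiniteDimensional k (W' p) :=
    fun p => inferInstanceAs (FiniteDimensional k (blk (g p.1) p.2))
  let ρ' : ∀ p, Z →ₐ[k] Module.End k (W' p) := fun p =>
    { toFun := fun z => (ρ p.1 z).restrict (blk_map (hρ p.1 z) p.2)
      map_one' := by
        ext x; simp [LinearMap.restrict_apply]
      map_mul' := by
        intro z z'
        ext x; simp [LinearMap.restrict_apply]
      map_zero' := by
        ext x; simp [LinearMap.restrict_apply]
      map_add' := by
        intro z z'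
        ext x; simp [LinearMap.restrict_apply]
      commutes' := by
        intro c
        ext x
        rw [LinearMap.coe_restrict_apply, AlgHom.commutes, Module.algebraMap_end_apply,
          Module.algebraMap_end_apply]
        rfl }
  have hc : ∀ s, IsCompl (evn (g s)) (odd (g s)) := fun s => isCompl_evn_odd h2 (hg s)
  have hfin : ∀ s, finrank k (W s) = finrank k (evn (g s)) + finrank k (odd (g s)) := fun s =>
    (Submodule.finrank_add_eq_of_isCompl (hc s)).symm
  have hdim' : 2 ≤ ∑ p, finrank k (W' p) := by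
    rw [Fintype.sum_prod_type]
    refine hdim.trans_eq (Finset.sum_congr rfl fun s _ => ?_)
    rw [Fintype.sum_bool, hfin s]
    rfl
  obtain ⟨A, hA⟩ := LocA_356.loc_of_idem hid W' ρ' hdim'
  let e : ∀ s, (evn (g s) × odd (g s)) ≃ₗ[k] W s := fun s => Submodule.prodEquivOfIsCompl _ _ (hc s)
  let A' : ∀ s, (evn (g s) × odd (g s)) ≃ₗ[k] (evn (g s) × odd (g s)) := fun s =>
    (A (s, true)).prodCongr (A (s, false))
  have key : ∀ s (f : W s →ₗ[k] W s) (hf : ∀ x, f (g s x) = g s (f x))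
      (y : evn (g s) × odd (g s)),
      f (e s y) = e s (⟨f y.1, blk_map hf true _ y.1.2⟩, ⟨f y.2, blk_map hf false _ y.2.2⟩) := by
    intro s f hf y
    simp [e]
  refine ⟨fun s => (e s).symm.trans ((A' s).trans (e s)), ?_, ?_⟩
  · intro s x
    obtain ⟨y, rfl⟩ := (e s).surjective x
    have hgg : ∀ y : evn (g s) × odd (g s), g s (e s y) = e s (y.1, -y.2) := by
      intro y
      have h1 := mem_evn.1 y.1.2
      have h3 := mem_odd.1 y.2.2
      simp [e, h1, h3]
    simp only [LinearEquiv.trans_apply, LinearEquiv.symm_apply_apply]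
    rw [hgg, LinearEquiv.symm_apply_apply, hgg]
    refine congrArg (e s) ?_
    exact Prod.ext rfl (map_neg (A (s, false)) y.2)
  · intro z
    have := hA z
    rw [Fintype.sum_prod_type] at this
    rw [← this]
    refine Finset.sum_congr rfl fun s _ => ?_
    rw [Fintype.sum_bool]
    have h1 : (((e s).symm.trans ((A' s).trans (e s))).toLinearMap ∘ₗ ρ s z)
        = (e s).conj (LinearMap.prodMap
            ((A (s, true)).toLinearMap ∘ₗ ρ' (s, true) z)
            ((A (s, false)).toLinearMap ∘ₗ ρ' (s, false) z)) := by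
      ext x
      obtain ⟨y, rfl⟩ := (e s).surjective x
      simp only [LinearMap.comp_apply, LinearEquiv.coe_coe, LinearEquiv.conj_apply_apply,
        LinearEquiv.symm_apply_apply, LinearEquiv.trans_apply]
      rw [key s (ρ s z) (hρ s z) y]
      simp only [LinearEquiv.symm_apply_apply]
      rfl
    rw [h1, LinearMap.trace_conj', LinearMap.trace_prodMap']
    rfl

end Crest.Agent.R175.LocE_259
end

-- ▼ part R175/StepA_259
section

set_option autoImplicit false

open CategoryTheory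

namespace Crest.Agent.R175.StepA_259

open Crest.Agent.R175.PTA Crest.Agent.R175.Ocone_259 Module

universe u v

variable {T : Type u} {G : MG T} {k : Type v} [Field k] [Fintype T]

/-- the path map `W → W'` of a map `a : Y → Y'` (through `V` and `V'`) -/
def path {Y Y' : TOb G k} (a : Y.X ⟶ Y'.X) (t : T) : Y.X.W t →ₗ[k] Y'.X.W t :=
  cj a t ∘ₗ ci Y.d t + cj Y'.d t ∘ₗ ci a t

theorem path_apply {Y Y' : TOb G k} (a : Y.X ⟶ Y'.X) (t : T) (x : Y.X.W t) :
    path a t x = cj a t (ci Y.d t x) + cj Y'.d t (ci a t x) := rfl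

variable (G k) in
/-- the statement of RED (all vertices at once, target side, non-minimal objects) -/
def REDstmt : Prop :=
  ∀ (C : TOb G k) (K : T → Type v) [∀ t, AddCommGroup (K t)] [∀ t, Module k (K t)]
    [∀ t, FiniteDimensional k (K t)] (gK : ∀ t, K t →ₗ[k] K t) (_ : ∀ t x, gK t (gK t x) = x)
    (u : ∀ t, K t →ₗ[k] C.X.W t) (Xi : ∀ t, C.X.W t →ₗ[k] K t)
    (_ : ∀ t x, C.X.gW t (u t x) = u t (gK t x)) (_ : ∀ t x, Xi t (C.X.gW t x) = gK t (Xi t x))
    (_ : ∀ t x, Xi t (u t x) = 0) (_ : ∀ t x, Xi t (cj C.d t (ci C.d t (u t x))) = x),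
    ∃ C' : TOb G k, (∀ X : TOb G k, hT X C = hT X C' + ∑ t, finrank k (K t) * lam X t) ∧
      ∀ s, lam C' s + 2 * finrank k (K s) =
        lam C s + ∑ t, Fintype.card (G.E t s) * finrank k (K t)

/-- RED, from `Red_61` -/
theorem red : REDstmt G k := by
  intro C K _ _ _ gK hgK u Xi hu hXi h0 h1
  let R : Red_61.RD C :=
    { K := K, gK := gK, gK2 := hgK, u := u, Xi := Xi, gu := hu, gXi := hXi, Xu := h0, Xjiu := h1 }
  refine ⟨R.ob, fun X => R.hT_red X, fun s => ?_⟩
  exact R.lam_ob s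

theorem conered {Y Y' : TOb G k} (a : Y.X ⟶ Y'.X) (hD : D Y Y' a = 0)
    (ho : bar a = -a) (hW : ∀ t, cW a t = 0)
    (K : T → Type v) [∀ t, AddCommGroup (K t)] [∀ t, Module k (K t)]
    [∀ t, FiniteDimensional k (K t)] (gK : ∀ t, K t →ₗ[k] K t) (hgK : ∀ t x, gK t (gK t x) = x)
    (p : ∀ t, K t →ₗ[k] Y.X.W t) (q : ∀ t, Y'.X.W t →ₗ[k] K t)
    (hp : ∀ t x, Y.X.gW t (p t x) = p t (gK t x)) (hq : ∀ t x, q t (Y'.X.gW t x) = gK t (q t x))
    (h1 : ∀ t x, q t (path a t (p t x)) = x) :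
    ∃ C' : TOb G k,
      (∀ X : TOb G k, hT X C' + ∑ t, finrank k (K t) * lam X t ≤ hT X Y + hT X Y') ∧
      ∀ s, lam C' s + 2 * finrank k (K s) =
        lam Y s + lam Y' s + ∑ t, Fintype.card (G.E t s) * finrank k (K t) := by
  obtain ⟨C', h2, h3⟩ := red (ocone a hD ho hW) K gK hgK
    (fun t => LinearMap.inl k (Y.X.W t) (Y'.X.W t) ∘ₗ p t)
    (fun t => q t ∘ₗ LinearMap.snd k (Y.X.W t) (Y'.X.W t))
    (fun t x => Prod.ext (hp t x) (map_zero (Y'.X.gW t))) (fun t x => hq t _)
    (fun t x => map_zero (q t))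
    (fun t x => by
      change q t (cj (ocone a hD ho hW).d t (ci (ocone a hD ho hW).d t (p t x, 0))).2 = x
      rw [ci_ocone, cj_ocone]
      change q t (cj a t (ci Y.d t (p t x)) + cj Y'.d t (ci a t (p t x) + ci Y'.d t 0)) = x
      rw [map_zero, add_zero, ← path_apply]
      exact h1 t x)
  refine ⟨C', fun X => ?_, fun s => ?_⟩
  · rw [← h2]
    exact hT_ocone_le a hD ho hW X
  · rw [h3, lam_ocone]

section redA

variable (Y : TOb G k)

/-- the algebra of even closed endomorphisms -/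
def Z0 : Subalgebra k (End Y.X) where
  carrier := {z | bar (X := Y.X) (Y := Y.X) z = z ∧ D Y Y z = 0}
  mul_mem' := by
    rintro a b ⟨ha, ha'⟩ ⟨hb, hb'⟩
    constructor
    · rw [End.mul_def, bar_comp, ha, hb]
    · rw [End.mul_def, D_comp, ha', hb']
      simp
  add_mem' := by
    rintro a b ⟨ha, ha'⟩ ⟨hb, hb'⟩
    exact ⟨by rw [bar_add, ha, hb], by rw [map_add, ha', hb', add_zero]⟩
  algebraMap_mem' := by
    intro r
    have h : (algebraMap k (End Y.X) r) = r • 𝟙 Y.X := by
      rw [Algebra.algebraMap_eq_smul_one]; rfl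
    rw [h]
    exact ⟨by rw [bar_smul, bar_id], by rw [map_smul, D_id, smul_zero]⟩

variable {Y}


instance : FiniteDimensional k (End Y.X) := inferInstanceAs (FiniteDimensional k (Y.X ⟶ Y.X))

instance : FiniteDimensional k (Z0 Y) :=
  inferInstanceAs (FiniteDimensional k (Subalgebra.toSubmodule (Z0 Y)))

/-- the action on the frames -/
def rho (t : T) : Z0 Y →ₐ[k] Module.End k (Y.X.W t) where
  toFun z := cW (X := Y.X) (Y := Y.X) z.1 t
  map_one' := rfl
  map_mul' a b := rfl
  map_zero' := rfl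
  map_add' a b := rfl
  commutes' r := by
    have h : (algebraMap k (Z0 Y) r : End Y.X) = r • 𝟙 Y.X := by
      rw [Subalgebra.coe_algebraMap, Algebra.algebraMap_eq_smul_one]; rfl
    change cW (X := Y.X) (Y := Y.X) (algebraMap k (Z0 Y) r : End Y.X) t = _
    rw [h, cW_smul, cW_id, Module.algebraMap_end_eq_smul_id]


/-- **step (A)** -/
theorem redA [IsAlgClosed k] (h2 : (2 : k) ≠ 0)
    (hid : ∀ e : Y.X ⟶ Y.X, bar e = e → D Y Y e = 0 → e ≫ e = e → e = 0 ∨ e = 𝟙 Y.X)
    (hlam : 2 ≤ ∑ t, lam Y t) :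
    ∃ C' : TOb G k, (∀ X : TOb G k, hT X C' + ∑ t, lam Y t * lam X t ≤ hT X Y + hT X Y) ∧
      ∀ s, lam C' s = ∑ t, Fintype.card (G.E t s) * lam Y t := by
  have hsq : ∀ (t : T) (x : Y.X.W t), Y.X.gW t (Y.X.gW t x) = x := fun t x =>
    LinearMap.congr_fun (Y.X.gW_sq t) x
  obtain ⟨A0, hA, hA'⟩ := LocE_259.loc_even h2 (Z := Z0 Y)
    (by
      intro e he
      have h := hid e.1 e.2.1 e.2.2 (congrArg Subtype.val he)
      rcases h with h | h
      · exact Or.inl (Subtype.ext h)
      · exact Or.inr (Subtype.ext h))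
    (fun t => Y.X.W t) (fun t => Y.X.gW t) hsq rho
    (by
      intro t z x
      have h := congrArg (fun f => cW (X := Y.X) (Y := Y.X) f t) z.2.1
      have h' : cW (bar (X := Y.X) (Y := Y.X) z.1) t (Y.X.gW t x)
          = cW (X := Y.X) (Y := Y.X) z.1 t (Y.X.gW t x) := by rw [z.2.1]
      rw [cW_bar] at h'
      change Y.X.gW t (cW (X := Y.X) (Y := Y.X) z.1 t (Y.X.gW t (Y.X.gW t x))) = _ at h'
      rw [hsq] at h'
      exact h'.symm)
    hlam
  obtain ⟨a, haW, haD, hao, hap'⟩ := Dual_338.exists_path_odd' (X := Y) (Y := Y) h2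
    (fun t => (A0 t).toLinearMap) (fun t => LinearMap.ext fun x => (hA t x).symm)
    (fun z hz hz' => hA' ⟨z, hz', hz⟩)
  have hap : ∀ t x, path a t x = Y.X.gW t (A0 t x) := by
    intro t x
    have h := LinearMap.congr_fun (hap' t) x
    rw [Dual_338.path, hao] at h
    simp only [LinearMap.sub_apply, LinearMap.comp_apply, ci_neg, LinearMap.neg_apply, map_neg,
      sub_neg_eq_add] at h
    exact h
  obtain ⟨C', h3, h4⟩ := conered a haD hao haW (fun t => Y.X.W t) (fun t => Y.X.gW t) hsq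
    (fun t => LinearMap.id) (fun t => (A0 t).symm.toLinearMap ∘ₗ Y.X.gW t) (fun _ _ => rfl)
    (by
      intro t x
      change (A0 t).symm (Y.X.gW t (Y.X.gW t x)) = Y.X.gW t ((A0 t).symm (Y.X.gW t x))
      apply (A0 t).injective
      rw [hA, LinearEquiv.apply_symm_apply, LinearEquiv.apply_symm_apply])
    (by
      intro t x
      rw [LinearMap.id_apply, hap]
      change (A0 t).symm (Y.X.gW t (Y.X.gW t (A0 t x))) = x
      rw [hsq]
      exact (A0 t).symm_apply_apply x)
  refine ⟨C', h3, fun s => ?_⟩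
  have h5 := h4 s
  simp only [lam] at h5 ⊢
  omega

end redA

end Crest.Agent.R175.StepA_259
end

-- ▼ part R175/MinB_445
section

/-!
# R175 / (P_T): the abstract minimisation ((5) of #2434, (B) of #2527)

`PTMin T` lists what the blocks deliver (definition of framed objects, Krull-Schmidt existence,
(A) = RED on the cone of an invertible path, DUAL, cones); the conclusion is that a negative value
of `Phi` produces an indecomposable single-framed object `Z` minimising `Phi / g`, unique in its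
type, with `H(Z, Z') = 0` for all minimisers `Z'`.

No definition of framed objects is used.  `Sim` = isomorphic up to a shift.
-/

namespace Crest.Agent.R175.MinB_445

open Finset

universe u v

variable {T : Type v} [Fintype T]

/-- number of frames -/
def tot (m : T → ℕ) : ℕ := ∑ t, m t

/-- weighted number of frames -/
def wt (c : T → ℝ) (m : T → ℕ) : ℝ := ∑ t, c t * (m t : ℝ)

theorem wt_add (c : T → ℝ) (m n : T → ℕ) : wt c (m + n) = wt c m + wt c n := by
  simp only [wt, Pi.add_apply, Nat.cast_add, mul_add, Finset.sum_add_distrib]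

theorem wt_zero (c : T → ℝ) : wt c (0 : T → ℕ) = 0 := by
  simp [wt]

theorem wt_single [DecidableEq T] (c : T → ℝ) (t : T) : wt c (Pi.single t 1) = c t := by
  unfold wt
  rw [Finset.sum_eq_single t]
  · simp
  · intro b _ hb
    simp [Pi.single_eq_of_ne hb]
  · intro h
    exact absurd (Finset.mem_univ t) h

theorem wt_nonneg {c : T → ℝ} (hc : ∀ t, 0 < c t) (m : T → ℕ) : 0 ≤ wt c m :=
  Finset.sum_nonneg fun t _ => mul_nonneg (hc t).le (Nat.cast_nonneg _)

theorem wt_pos {c : T → ℝ} (hc : ∀ t, 0 < c t) {m : T → ℕ} (hm : m ≠ 0) : 0 < wt c m := by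
  obtain ⟨t, ht⟩ : ∃ t, m t ≠ 0 := by
    by_contra h
    push Not at h
    exact hm (funext h)
  refine Finset.sum_pos' (fun s _ => mul_nonneg (hc s).le (Nat.cast_nonneg _)) ⟨t, Finset.mem_univ t, ?_⟩
  exact mul_pos (hc t) (Nat.cast_pos.mpr (Nat.pos_of_ne_zero ht))

theorem wt_mono {c c' : T → ℝ} (h : ∀ t, c t ≤ c' t) (m : T → ℕ) : wt c m ≤ wt c' m :=
  Finset.sum_le_sum fun t _ => mul_le_mul_of_nonneg_right (h t) (Nat.cast_nonneg _)

theorem wt_smul (a : ℝ) (c : T → ℝ) (m : T → ℕ) : wt (fun t => a * c t) m = a * wt c m := by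
  unfold wt
  rw [Finset.mul_sum]
  exact Finset.sum_congr rfl fun t _ => by ring

/-- a dimension vector has no, one, or at least two frames -/
theorem tot_cases [DecidableEq T] (m : T → ℕ) : m = 0 ∨ (∃ t, m = Pi.single t 1) ∨ 2 ≤ tot m := by
  by_cases h0 : m = 0
  · exact Or.inl h0
  right
  by_cases h2 : 2 ≤ tot m
  · exact Or.inr h2
  left
  obtain ⟨t, ht⟩ : ∃ t, m t ≠ 0 := by
    by_contra h
    push Not at h
    exact h0 (funext h)
  have hle : m t ≤ tot m := Finset.single_le_sum (f := m) (fun _ _ => Nat.zero_le _) (Finset.mem_univ t)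
  have h1 : m t = 1 := by omega
  refine ⟨t, funext fun s => ?_⟩
  by_cases hs : s = t
  · subst hs
    simp [h1]
  · rw [Pi.single_eq_of_ne hs]
    have h3 : m t + m s ≤ tot m := by
      unfold tot
      rw [← Finset.add_sum_erase Finset.univ m (Finset.mem_univ t)]
      have := Finset.single_le_sum (f := m) (fun _ _ => Nat.zero_le _)
        (Finset.mem_erase.mpr ⟨hs, Finset.mem_univ s⟩)
      omega
    omega

/-- What the blocks of (P_T) deliver. -/
structure PTMin (T : Type v) [Fintype T] [DecidableEq T] where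
  /-- framed objects -/
  Ob : Type u
  /-- isomorphic (up to a shift) -/
  Sim : Ob → Ob → Prop
  /-- number of frames of each type -/
  lam : Ob → T → ℕ
  /-- `Phi X = h(X, Y) - h . lam X` -/
  Phi : Ob → ℝ
  /-- total dimension of the full Hom (the `H_D` of #2434, `h_full` of #2527) -/
  hf : Ob → Ob → ℕ
  /-- indecomposable -/
  Ind : Ob → Prop
  /-- `H_T(Z, Z') = 0` -/
  Hz : Ob → Ob → Prop
  /-- `g X = sum_t gam t * lam X t` -/
  gam : T → ℝ
  /-- `w X = sum_t om t * lam X t` -/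
  om : T → ℝ
  /-- lower bound -/
  K : ℝ
  gam_pos : ∀ t, 0 < gam t
  om_pos : ∀ t, 0 < om t
  hf_sim : ∀ {Z X X' : Ob}, Sim X X' → hf Z X = hf Z X'
  /-- every object is a finite sum of indecomposables -/
  dec : ∀ X, ∃ l : List Ob, (∀ Y ∈ l, Ind Y) ∧ lam X = (l.map lam).sum ∧
    Phi X = (l.map Phi).sum ∧ ∀ Z, hf Z X = (l.map (hf Z)).sum
  Phi_zero : ∀ X, lam X = 0 → 0 ≤ Phi X
  Phi_bound : ∀ X, -K * wt gam (lam X) ≤ Phi X
  /-- (A) of #2527, (4) of #2434 -/
  redA : ∀ Y, Ind Y → 2 ≤ tot (lam Y) →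
    ∃ Y', Phi Y' ≤ 2 * Phi Y ∧ wt gam (lam Y') = 2 * wt gam (lam Y) - wt om (lam Y)
  /-- discreteness of the values on single-framed objects -/
  disc : ∀ (t : T) (x : ℝ), Set.Finite {y : ℝ | y ≤ x ∧ ∃ X, lam X = Pi.single t 1 ∧ Phi X = y}
  /-- RED for a cone with `path <> 0`, and DUAL if all `path`s vanish in both directions -/
  uniq : ∀ (t : T) (Z Z' : Ob), Ind Z → Ind Z' → lam Z = Pi.single t 1 → lam Z' = Pi.single t 1 →
    ¬ Sim Z Z' → ∃ Y', Phi Y' ≤ Phi Z + Phi Z' ∧ wt gam (lam Y') = 2 * gam t - om t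
  /-- the cone of a nonzero class of `H_T(Z, Z')` (for objects of the same type only if they are
  isomorphic: `H_T -> H_D` is injective only then) -/
  nz : ∀ (t t' : T) (Z Z' : Ob), Ind Z → Ind Z' → lam Z = Pi.single t 1 → lam Z' = Pi.single t' 1 →
    (t = t' → Sim Z Z') → ¬ Hz Z Z' → ∃ U, lam U = lam Z + lam Z' ∧ Phi U ≤ Phi Z + Phi Z' ∧
      ∃ Q, hf Q U < hf Q Z + hf Q Z'

namespace PTMin

variable [DecidableEq T] (P : PTMin.{u, v} T)

/-- `g X` -/
def g (X : P.Ob) : ℝ := wt P.gam (P.lam X)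

theorem g_nonneg (X : P.Ob) : 0 ≤ P.g X := wt_nonneg P.gam_pos _

theorem g_of_zero {X : P.Ob} (h : P.lam X = 0) : P.g X = 0 := by
  rw [g, h, wt_zero]

theorem g_of_single {X : P.Ob} {t : T} (h : P.lam X = Pi.single t 1) : P.g X = P.gam t := by
  rw [g, h, wt_single]

theorem g_pos {X : P.Ob} (h : P.lam X ≠ 0) : 0 < P.g X := wt_pos P.gam_pos h

theorem wt_list_sum (c : T → ℝ) (l : List P.Ob) :
    wt c (l.map P.lam).sum = (l.map fun Y => wt c (P.lam Y)).sum := by
  induction l with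
  | nil => simp [wt_zero]
  | cons Y l ih => simp only [List.map_cons, List.sum_cons, wt_add, ih]

/-- a lower bound on indecomposables is a lower bound on all objects -/
theorem le_of_ind {a : ℝ} (h : ∀ Y, P.Ind Y → a * P.g Y ≤ P.Phi Y) (X : P.Ob) :
    a * P.g X ≤ P.Phi X := by
  obtain ⟨l, hl, h1, h2, -⟩ := P.dec X
  rw [g, h1, wt_list_sum, h2, ← List.sum_map_mul_left]
  exact List.sum_le_sum fun Y hY => h Y (hl Y hY)

/-- the gain constant of (A) -/
theorem exists_kap : ∃ kap : ℝ, 0 < kap ∧ ∀ t, 2 * kap * P.gam t ≤ P.om t := by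
  classical
  rcases isEmpty_or_nonempty T with hT | hT
  · exact ⟨1, one_pos, fun t => (hT.false t).elim⟩
  · let f : T → ℝ := fun t => P.om t / (2 * P.gam t)
    obtain ⟨t0, -, ht0⟩ := Finset.exists_min_image (Finset.univ : Finset T) f
      ⟨Classical.arbitrary T, Finset.mem_univ _⟩
    have hf0 : ∀ t, 0 < f t := fun t => div_pos (P.om_pos t) (mul_pos two_pos (P.gam_pos t))
    refine ⟨f t0, hf0 t0, fun t => ?_⟩
    have h1 : f t0 ≤ f t := ht0 t (Finset.mem_univ t)
    have h2 : (0 : ℝ) < 2 * P.gam t := mul_pos two_pos (P.gam_pos t)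
    have h3 : f t * (2 * P.gam t) = P.om t := div_mul_cancel₀ _ h2.ne'
    nlinarith

/-- (A): a lower bound on all objects improves on indecomposables with at least two frames -/
theorem improve {a : ℝ} (h : ∀ X, a * P.g X ≤ P.Phi X) {Y : P.Ob} (hY : P.Ind Y)
    (h2 : 2 ≤ tot (P.lam Y)) : a * (P.g Y - wt P.om (P.lam Y) / 2) ≤ P.Phi Y := by
  obtain ⟨Y', h3, h4⟩ := P.redA Y hY h2
  have h5 := h Y'
  rw [g, h4] at h5
  have h6 : P.g Y = wt P.gam (P.lam Y) := rfl
  rw [h6]
  nlinarith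

/-- `Z` is a minimiser of type `t` for the ratio `a` -/
structure Mz (a : ℝ) (t : T) (Z : P.Ob) : Prop where
  ind : P.Ind Z
  lam : P.lam Z = Pi.single t 1
  phi : P.Phi Z = a * P.gam t

/-- **attained**: if `Phi` is negative somewhere, the infimum of `Phi / g` is attained at an
indecomposable single-framed object -/
theorem attained {X0 : P.Ob} (hX0 : P.Phi X0 < 0) :
    ∃ a : ℝ, a < 0 ∧ (∀ X, a * P.g X ≤ P.Phi X) ∧ ∃ t Z, P.Mz a t Z := by
  classical
  have hlam0 : P.lam X0 ≠ 0 := fun h => absurd (P.Phi_zero X0 h) (not_le.mpr hX0)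
  obtain ⟨kap, hk0, hk⟩ := P.exists_kap
  -- the infimum
  set S : Set ℝ := {r | ∃ X, P.lam X ≠ 0 ∧ P.Phi X / P.g X = r} with hS
  have hSne : S.Nonempty := ⟨_, X0, hlam0, rfl⟩
  have hSbd : BddBelow S := by
    refine ⟨-P.K, ?_⟩
    rintro r ⟨X, hX, rfl⟩
    rw [le_div_iff₀ (P.g_pos hX)]
    exact P.Phi_bound X
  set th := sInf S with hth
  have hth_le : ∀ X, th * P.g X ≤ P.Phi X := by
    intro X
    by_cases hX : P.lam X = 0
    · rw [P.g_of_zero hX, mul_zero]
      exact P.Phi_zero X hX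
    · have h1 : th ≤ P.Phi X / P.g X := csInf_le hSbd ⟨X, hX, rfl⟩
      rwa [le_div_iff₀ (P.g_pos hX)] at h1
  have hth_neg : th < 0 := by
    have h1 : th ≤ P.Phi X0 / P.g X0 := csInf_le hSbd ⟨X0, hlam0, rfl⟩
    exact lt_of_le_of_lt h1 (div_neg_of_neg_of_pos hX0 (P.g_pos hlam0))
  have hbig : ∀ Y, P.Ind Y → 2 ≤ tot (P.lam Y) → (1 - kap) * th * P.g Y ≤ P.Phi Y := by
    intro Y hY h2
    have h3 := P.improve hth_le hY h2
    have h4 : 2 * kap * P.g Y ≤ wt P.om (P.lam Y) := by
      have := wt_mono hk (P.lam Y)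
      rwa [wt_smul] at this
    nlinarith
  -- any bound valid on singles and not below `(1 - kap) * th` is valid
  have hkey : ∀ b : ℝ, (∀ t Z, P.lam Z = Pi.single t 1 → b * P.gam t ≤ P.Phi Z) → b ≤ 0 →
      b ≤ th := by
    intro b hb hb0
    by_contra hlt
    push Not at hlt
    have h1 : th < (1 - kap) * th := by nlinarith
    set c := min b ((1 - kap) * th) with hc
    have hc1 : th < c := lt_min hlt h1
    have hc2 : ∀ Y, P.Ind Y → c * P.g Y ≤ P.Phi Y := by
      intro Y hY
      rcases tot_cases (P.lam Y) with h0 | ⟨t, ht⟩ | h2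
      · rw [P.g_of_zero h0, mul_zero]
        exact P.Phi_zero Y h0
      · rw [P.g_of_single ht]
        exact le_trans (mul_le_mul_of_nonneg_right (min_le_left _ _) (P.gam_pos t).le) (hb t Y ht)
      · exact le_trans (mul_le_mul_of_nonneg_right (min_le_right _ _) (P.g_nonneg Y)) (hbig Y hY h2)
    have hc3 : ∀ r ∈ S, c ≤ r := by
      rintro r ⟨X, hX, rfl⟩
      rw [le_div_iff₀ (P.g_pos hX)]
      exact P.le_of_ind hc2 X
    exact absurd (le_csInf hSne hc3) (not_le.mpr hc1)
  -- the values on singles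
  have hattain : ∃ t Z, P.lam Z = Pi.single t 1 ∧ P.Phi Z ≤ th * P.gam t := by
    by_contra hno
    push Not at hno
    -- for each type a bound better than `th`
    have hbt : ∀ t, ∃ b : ℝ, th < b ∧ b ≤ 0 ∧ ∀ Z, P.lam Z = Pi.single t 1 → b * P.gam t ≤ P.Phi Z := by
      intro t
      by_cases hneg : ∃ Z, P.lam Z = Pi.single t 1 ∧ P.Phi Z < 0
      · obtain ⟨Z1, hZ1, hZ1'⟩ := hneg
        have hfin := P.disc t 0
        set V : Set ℝ := {y : ℝ | y ≤ 0 ∧ ∃ X, P.lam X = Pi.single t 1 ∧ P.Phi X = y} with hV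
        have hVne : V.Nonempty := ⟨P.Phi Z1, hZ1'.le, Z1, hZ1, rfl⟩
        obtain ⟨y0, ⟨hy0, Z0, hZ0, hZ0'⟩, hmin⟩ := Set.exists_min_image V id hfin hVne
        simp only [id] at hmin
        have hg := P.gam_pos t
        have hlt : th * P.gam t < y0 := by
          rw [← hZ0']
          exact hno t Z0 hZ0
        refine ⟨y0 / P.gam t, ?_, ?_, ?_⟩
        · rwa [lt_div_iff₀ hg]
        · exact div_nonpos_of_nonpos_of_nonneg hy0 hg.le
        · intro Z hZ
          rw [div_mul_cancel₀ _ hg.ne']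
          by_cases hZ0 : P.Phi Z ≤ 0
          · exact hmin _ ⟨hZ0, Z, hZ, rfl⟩
          · exact le_trans hy0 (not_le.mp hZ0).le
      · push Not at hneg
        refine ⟨0, hth_neg, le_refl _, fun Z hZ => ?_⟩
        rw [zero_mul]
        exact hneg Z hZ
    choose b hb1 hb2 hb3 using hbt
    rcases isEmpty_or_nonempty T with hT | hT
    · exact absurd (funext fun t => (hT.false t).elim) hlam0
    obtain ⟨t0, -, ht0⟩ := Finset.exists_min_image (Finset.univ : Finset T) b
      ⟨Classical.arbitrary T, Finset.mem_univ _⟩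
    have h1 := hkey (b t0) (fun t Z hZ => le_trans
      (mul_le_mul_of_nonneg_right (ht0 t (Finset.mem_univ t)) (P.gam_pos t).le) (hb3 t Z hZ)) (hb2 t0)
    exact absurd h1 (not_le.mpr (hb1 t0))
  obtain ⟨t, Z, hZ, hZ'⟩ := hattain
  -- pass to the framed indecomposable summand
  obtain ⟨l, hl, h1, h2, -⟩ := P.dec Z
  refine ⟨th, hth_neg, hth_le, t, ?_⟩
  rw [hZ] at h1
  have hex : ∃ Y ∈ l, P.lam Y ≠ 0 := by
    by_contra hno
    push Not at hno
    have h3 : (l.map P.lam).sum = 0 := by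
      apply List.sum_eq_zero
      intro x hx
      obtain ⟨Y, hY, rfl⟩ := List.mem_map.mp hx
      exact hno Y hY
    rw [h3] at h1
    have h4 := congrFun h1 t
    simp at h4
  obtain ⟨Y, hY, hY0⟩ := hex
  obtain ⟨l1, l2, rfl⟩ := List.append_of_mem hY
  have hsum : Pi.single t 1 = P.lam Y + ((l1 ++ l2).map P.lam).sum := by
    rw [h1]
    simp only [List.map_append, List.map_cons, List.sum_append, List.sum_cons]
    abel
  have hphi : P.Phi Z = P.Phi Y + ((l1 ++ l2).map P.Phi).sum := by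
    rw [h2]
    simp only [List.map_append, List.map_cons, List.sum_append, List.sum_cons]
    ring
  have hYl : P.lam Y = Pi.single t 1 := by
    funext s
    have h5 := congrFun hsum s
    rw [Pi.add_apply] at h5
    by_cases hs : s = t
    · subst hs
      obtain ⟨s', hs'⟩ : ∃ s', P.lam Y s' ≠ 0 := by
        by_contra h
        push Not at h
        exact hY0 (funext h)
      by_cases hs2 : s' = s
      · subst hs2
        rw [Pi.single_eq_same] at h5 ⊢
        omega
      · have h6 := congrFun hsum s'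
        rw [Pi.add_apply, Pi.single_eq_of_ne hs2] at h6
        omega
    · rw [Pi.single_eq_of_ne hs] at h5 ⊢
      omega
  have hrest : 0 ≤ ((l1 ++ l2).map P.Phi).sum := by
    apply List.sum_nonneg
    intro x hx
    obtain ⟨X, hX, rfl⟩ := List.mem_map.mp hx
    apply P.Phi_zero
    have h6 : ((l1 ++ l2).map P.lam).sum = 0 := by
      rw [hYl] at hsum
      have := hsum
      exact (add_eq_left.mp this.symm)
    obtain ⟨l3, l4, hl34⟩ := List.append_of_mem (List.mem_map.mpr ⟨X, hX, rfl⟩ : P.lam X ∈ (l1 ++ l2).map P.lam)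
    rw [hl34] at h6
    simp only [List.sum_append, List.sum_cons] at h6
    funext s
    have h7 := congrFun h6 s
    simp only [Pi.add_apply, Pi.zero_apply] at h7 ⊢
    omega
  refine ⟨Y, hl Y hY, hYl, le_antisymm ?_ ?_⟩
  · linarith
  · have := hth_le Y
    rwa [P.g_of_single hYl] at this

section Min

variable {a : ℝ} (ha : a < 0) (hmin : ∀ X, a * P.g X ≤ P.Phi X)

include ha hmin

/-- an object with `Phi = a g` is a sum of minimisers and of unframed objects with `Phi = 0` -/
theorem pieces {X : P.Ob} (hX : P.Phi X ≤ a * P.g X) :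
    ∃ l : List P.Ob, (∀ Y ∈ l, (P.lam Y = 0 ∧ P.Phi Y = 0) ∨ ∃ t, P.Mz a t Y) ∧
      P.lam X = (l.map P.lam).sum ∧ ∀ Z, P.hf Z X = (l.map (P.hf Z)).sum := by
  obtain ⟨l, hl, h1, h2, h3⟩ := P.dec X
  refine ⟨l, ?_, h1, h3⟩
  -- equality for each piece
  have heq : ∀ Y ∈ l, P.Phi Y = a * P.g Y := by
    intro Y hY
    obtain ⟨l1, l2, rfl⟩ := List.append_of_mem hY
    have h4 : a * P.g X = a * P.g Y + ((l1 ++ l2).map fun Y => a * P.g Y).sum := by
      rw [g, h1, wt_list_sum, ← List.sum_map_mul_left]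
      simp only [List.map_append, List.map_cons, List.sum_append, List.sum_cons, g]
      ring
    have h5 : P.Phi X = P.Phi Y + ((l1 ++ l2).map P.Phi).sum := by
      rw [h2]
      simp only [List.map_append, List.map_cons, List.sum_append, List.sum_cons]
      ring
    have h6 : ((l1 ++ l2).map fun Y => a * P.g Y).sum ≤ ((l1 ++ l2).map P.Phi).sum :=
      List.sum_le_sum fun Y _ => hmin Y
    have h7 := hmin Y
    linarith
  intro Y hY
  have h4 := heq Y hY
  rcases tot_cases (P.lam Y) with h0 | ⟨t, ht⟩ | h5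
  · left
    refine ⟨h0, ?_⟩
    rw [h4, P.g_of_zero h0, mul_zero]
  · right
    exact ⟨t, hl Y hY, ht, by rw [h4, P.g_of_single ht]⟩
  · exfalso
    have h6 := P.improve hmin (hl Y hY) h5
    have h7 : P.lam Y ≠ 0 := by
      intro h0
      rw [h0] at h5
      simp [tot] at h5
    have h8 := wt_pos P.om_pos h7
    rw [h4] at h6
    nlinarith

/-- **unique** in its type -/
theorem unique {t : T} {Z Z' : P.Ob} (hZ : P.Mz a t Z) (hZ' : P.Mz a t Z') : P.Sim Z Z' := by
  by_contra hno
  obtain ⟨Y', h1, h2⟩ := P.uniq t Z Z' hZ.ind hZ'.ind hZ.lam hZ'.lam hno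
  have h3 := hmin Y'
  rw [g, h2] at h3
  rw [hZ.phi, hZ'.phi] at h1
  have h4 := P.om_pos t
  nlinarith

/-- **`H_T(Z, Z') = 0`** for all pairs of minimisers -/
theorem orth {t t' : T} {Z Z' : P.Ob} (hZ : P.Mz a t Z) (hZ' : P.Mz a t' Z') : P.Hz Z Z' := by
  classical
  by_contra hno
  obtain ⟨U, h1, h2, Q, h3⟩ := P.nz t t' Z Z' hZ.ind hZ'.ind hZ.lam hZ'.lam
    (fun h => by subst h; exact P.unique ha hmin hZ hZ') hno
  have hgU : P.g U = P.gam t + P.gam t' := by
    rw [g, h1, wt_add]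
    have e1 : wt P.gam (P.lam Z) = P.gam t := P.g_of_single hZ.lam
    have e2 : wt P.gam (P.lam Z') = P.gam t' := P.g_of_single hZ'.lam
    rw [e1, e2]
  have h4 : P.Phi U ≤ a * P.g U := by
    rw [hgU]
    rw [hZ.phi, hZ'.phi] at h2
    linarith
  obtain ⟨l, hl, h5, h6⟩ := P.pieces ha hmin h4
  -- the value of `hf Q` on the minimiser of type `s`
  let F : T → ℕ := fun s => if h : ∃ Y, P.Mz a s Y then P.hf Q h.choose else 0
  have hF : ∀ s Y, P.Mz a s Y → F s = P.hf Q Y := by
    intro s Y hY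
    have hex : ∃ Y, P.Mz a s Y := ⟨Y, hY⟩
    have e1 : F s = P.hf Q hex.choose := dif_pos hex
    rw [e1]
    exact P.hf_sim (P.unique ha hmin hex.choose_spec hY)
  have hge : ∀ l : List P.Ob, (∀ Y ∈ l, (P.lam Y = 0 ∧ P.Phi Y = 0) ∨ ∃ t, P.Mz a t Y) →
      ∑ s, (l.map P.lam).sum s * F s ≤ (l.map (P.hf Q)).sum := by
    intro l
    induction l with
    | nil => intro _; simp
    | cons Y l ih =>
      intro hl
      have ih' := ih fun X hX => hl X (List.mem_cons_of_mem _ hX)
      have hY : ∑ s, P.lam Y s * F s ≤ P.hf Q Y := by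
        rcases hl Y List.mem_cons_self with ⟨h0, -⟩ | ⟨s, hs⟩
        · rw [h0]
          simp
        · rw [hs.lam, Finset.sum_eq_single s]
          · rw [Pi.single_eq_same, one_mul, hF s Y hs]
          · intro b _ hb
            rw [Pi.single_eq_of_ne hb, zero_mul]
          · intro h
            exact absurd (Finset.mem_univ s) h
      simp only [List.map_cons, List.sum_cons, Pi.add_apply, add_mul, Finset.sum_add_distrib]
      exact Nat.add_le_add hY ih'
  have h7 := hge l hl
  rw [← h5, ← h6, h1] at h7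
  have h8 : ∑ s, (P.lam Z + P.lam Z') s * F s = F t + F t' := by
    simp only [Pi.add_apply, add_mul, Finset.sum_add_distrib]
    rw [hZ.lam, hZ'.lam]
    congr 1
    · rw [Finset.sum_eq_single t]
      · rw [Pi.single_eq_same, one_mul]
      · intro b _ hb
        rw [Pi.single_eq_of_ne hb, zero_mul]
      · intro h
        exact absurd (Finset.mem_univ t) h
    · rw [Finset.sum_eq_single t']
      · rw [Pi.single_eq_same, one_mul]
      · intro b _ hb
        rw [Pi.single_eq_of_ne hb, zero_mul]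
      · intro h
        exact absurd (Finset.mem_univ t') h
  rw [h8, hF t Z hZ, hF t' Z' hZ'] at h7
  omega

end Min

/-- **(P_T) from the analysis of the minimisers**: if a family of pairwise orthogonal
single-framed minimisers with negative `Phi` is impossible, then `Phi >= 0`. -/
theorem Phi_nonneg
    (hD : ∀ a : ℝ, a < 0 → (∀ X, a * P.g X ≤ P.Phi X) →
      (∀ t t' Z Z', P.Mz a t Z → P.Mz a t' Z' → P.Hz Z Z') →
      (∀ t Z Z', P.Mz a t Z → P.Mz a t Z' → P.Sim Z Z') →
      ∀ t Z, P.Mz a t Z → False) (X : P.Ob) : 0 ≤ P.Phi X := by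
  by_contra hneg
  push Not at hneg
  obtain ⟨a, ha, hmin, t, Z, hZ⟩ := P.attained hneg
  exact hD a ha hmin (fun t t' Z Z' hZ hZ' => P.orth ha hmin hZ hZ')
    (fun t Z Z' hZ hZ' => P.unique ha hmin hZ hZ') t Z hZ


end PTMin

end Crest.Agent.R175.MinB_445
end

-- ▼ part R175/MinF_445
section

/-!
# R175 / (P_T), labels > 3: the minimisers are stable under the functors `F m`

`PTMinF T` = `PTMin T` with direct sum decompositions (`IsSum X l`: `X` is isomorphic to the direct
sum of the list `l`), the separate-frame dimension `hT`, and self-adjoint functors `F m` for which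
`Phi` and `gam` are eigenvectors.

Result `F_pieces`: for a minimiser `Z` of type `t`, `F m Z` is a direct sum of minimisers (no unframed
summand), with `N m t' t` of them of type `t'`.
-/

namespace Crest.Agent.R175.MinF_445

open Finset Crest.Agent.R175.MinB_445

universe u v w

/-- `PTMin` with functors -/
structure PTMinF (T : Type v) [Fintype T] [DecidableEq T] (M : Type w) extends PTMin.{u, v} T where
  /-- `X` is isomorphic to the direct sum of the list -/
  IsSum : Ob → List Ob → Prop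
  /-- dimension of `H_T(X, Y)` (frames separate) -/
  hT : Ob → Ob → ℕ
  Hz_iff : ∀ X Y, Hz X Y ↔ hT X Y = 0
  dec_sum : ∀ X, ∃ l, IsSum X l ∧ ∀ Y ∈ l, Ind Y
  sum_lam : ∀ {X l}, IsSum X l → lam X = (l.map lam).sum
  sum_Phi : ∀ {X l}, IsSum X l → Phi X = (l.map Phi).sum
  sum_hT : ∀ {X l}, IsSum X l → ∀ Z, hT Z X = (l.map (hT Z)).sum
  /-- an unframed object is not orthogonal to itself -/
  hT_self : ∀ Q, Ind Q → lam Q = 0 → hT Q Q ≠ 0
  /-- the cone of a nonzero class `Q -> Z`, `Q` unframed: its framed summand is not `Z` -/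
  orthQ : ∀ (t : T) (Q Z : Ob), lam Q = 0 → Ind Z → lam Z = Pi.single t 1 → hT Q Z ≠ 0 →
    ∃ U, lam U = lam Z ∧ Phi U ≤ Phi Q + Phi Z ∧ ∀ l, IsSum U l → ∀ Y ∈ l, ¬ Sim Y Z
  /-- the functors -/
  F : M → Ob → Ob
  /-- the matrix of `F m` on the types -/
  N : M → T → T → ℕ
  /-- the eigenvalue -/
  del : M → ℝ
  lam_F : ∀ m X t, lam (F m X) t = ∑ t', N m t t' * lam X t'
  Phi_F : ∀ m X, Phi (F m X) = del m * Phi X
  gam_F : ∀ m t', ∑ t, gam t * (N m t t' : ℝ) = del m * gam t'
  adj : ∀ m X Y, hT (F m X) Y = hT X (F m Y)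

namespace PTMinF

variable {T : Type v} [Fintype T] [DecidableEq T] {M : Type w} (P : PTMinF.{u, v, w} T M)

theorem g_F (m : M) (X : P.Ob) : P.toPTMin.g (P.F m X) = P.del m * P.toPTMin.g X := by
  unfold PTMin.g wt
  have h1 : ∀ t, (P.lam (P.F m X) t : ℝ) = ∑ t', (P.N m t t' : ℝ) * (P.lam X t' : ℝ) := by
    intro t
    rw [P.lam_F]
    push_cast
    rfl
  simp only [h1, Finset.mul_sum]
  rw [Finset.sum_comm]
  refine Finset.sum_congr rfl fun t' _ => ?_
  have h2 := P.gam_F m t'
  calc ∑ t, P.gam t * ((P.N m t t' : ℝ) * (P.lam X t' : ℝ))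
      = (∑ t, P.gam t * (P.N m t t' : ℝ)) * (P.lam X t' : ℝ) := by
        rw [Finset.sum_mul]
        exact Finset.sum_congr rfl fun t _ => by ring
    _ = P.del m * (P.gam t' * (P.lam X t' : ℝ)) := by
        rw [h2]
        ring

section Min

variable {a : ℝ} (ha : a < 0) (hmin : ∀ X, a * P.toPTMin.g X ≤ P.Phi X)

include ha hmin

/-- the pieces of a minimal object, for a given decomposition -/
theorem pieces' {X : P.Ob} (hX : P.Phi X ≤ a * P.toPTMin.g X) {l : List P.Ob}
    (hs : P.IsSum X l) (hl : ∀ Y ∈ l, P.Ind Y) :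
    ∀ Y ∈ l, (P.lam Y = 0 ∧ P.Phi Y = 0) ∨ ∃ t, P.toPTMin.Mz a t Y := by
  have h1 := P.sum_lam hs
  have h2 := P.sum_Phi hs
  -- equality for each piece
  have heq : ∀ Y ∈ l, P.Phi Y = a * P.toPTMin.g Y := by
    intro Y hY
    obtain ⟨l1, l2, rfl⟩ := List.append_of_mem hY
    have h4 : a * P.toPTMin.g X =
        a * P.toPTMin.g Y + ((l1 ++ l2).map fun Y => a * P.toPTMin.g Y).sum := by
      rw [PTMin.g, h1, PTMin.wt_list_sum, ← List.sum_map_mul_left]
      simp only [List.map_append, List.map_cons, List.sum_append, List.sum_cons, PTMin.g]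
      ring
    have h5 : P.Phi X = P.Phi Y + ((l1 ++ l2).map P.Phi).sum := by
      rw [h2]
      simp only [List.map_append, List.map_cons, List.sum_append, List.sum_cons]
      ring
    have h6 : ((l1 ++ l2).map fun Y => a * P.toPTMin.g Y).sum ≤ ((l1 ++ l2).map P.Phi).sum :=
      List.sum_le_sum fun Y _ => hmin Y
    have h7 := hmin Y
    linarith
  intro Y hY
  have h4 := heq Y hY
  rcases tot_cases (P.lam Y) with h0 | ⟨t, ht⟩ | h5
  · left
    refine ⟨h0, ?_⟩
    rw [h4, P.toPTMin.g_of_zero h0, mul_zero]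
  · right
    exact ⟨t, hl Y hY, ht, by rw [h4, P.toPTMin.g_of_single ht]⟩
  · exfalso
    have h6 := P.toPTMin.improve hmin (hl Y hY) h5
    have h7 : P.lam Y ≠ 0 := by
      intro h0
      rw [h0] at h5
      simp [tot] at h5
    have h8 := wt_pos P.om_pos h7
    rw [h4] at h6
    nlinarith

/-- an unframed object with `Phi <= 0` is left orthogonal to the minimisers -/
theorem orth_unframed {Q Z : P.Ob} {t : T} (hQ : P.lam Q = 0) (hQ' : P.Phi Q ≤ 0)
    (hZ : P.toPTMin.Mz a t Z) : P.hT Q Z = 0 := by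
  by_contra hne
  obtain ⟨U, h1, h2, h3⟩ := P.orthQ t Q Z hQ hZ.ind hZ.lam hne
  have hgU : P.toPTMin.g U = P.gam t := by
    rw [PTMin.g, h1]
    exact P.toPTMin.g_of_single hZ.lam
  have hU : P.Phi U ≤ a * P.toPTMin.g U := by
    rw [hgU, ← hZ.phi]
    linarith
  obtain ⟨l, hl, hind⟩ := P.dec_sum U
  have h4 := P.pieces' ha hmin hU hl hind
  have h5 := P.sum_lam hl
  rw [h1, hZ.lam] at h5
  -- a framed piece
  have hex : ∃ Y ∈ l, P.lam Y ≠ 0 := by
    by_contra hno
    push Not at hno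
    have h6 : (l.map P.lam).sum = 0 := by
      apply List.sum_eq_zero
      intro x hx
      obtain ⟨Y, hY, rfl⟩ := List.mem_map.mp hx
      exact hno Y hY
    rw [h6] at h5
    have h7 := congrFun h5 t
    simp at h7
  obtain ⟨Y, hY, hY0⟩ := hex
  rcases h4 Y hY with ⟨h6, -⟩ | ⟨s, hs⟩
  · exact hY0 h6
  · have hst : s = t := by
      by_contra hne
      obtain ⟨l1, l2, rfl⟩ := List.append_of_mem hY
      have h7 := congrFun h5 s
      simp only [List.map_append, List.map_cons, List.sum_append, List.sum_cons,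
        Pi.add_apply] at h7
      rw [Pi.single_eq_of_ne hne, hs.lam, Pi.single_eq_same] at h7
      omega
    subst hst
    exact h3 l hl Y hY (P.toPTMin.unique ha hmin hs hZ)

/-- **`F m` of a minimiser is a sum of minimisers** -/
theorem F_pieces {t : T} {Z : P.Ob} (hZ : P.toPTMin.Mz a t Z) (m : M) :
    ∃ l, P.IsSum (P.F m Z) l ∧ (∀ Y ∈ l, ∃ t', P.toPTMin.Mz a t' Y) ∧
      ∀ t', (l.map P.lam).sum t' = P.N m t' t := by
  obtain ⟨l, hl, hind⟩ := P.dec_sum (P.F m Z)
  have hF : P.Phi (P.F m Z) ≤ a * P.toPTMin.g (P.F m Z) := by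
    rw [P.Phi_F, P.g_F, hZ.phi, P.toPTMin.g_of_single hZ.lam]
    apply le_of_eq
    ring
  have h1 := P.pieces' ha hmin hF hl hind
  refine ⟨l, hl, ?_, ?_⟩
  · intro Q hQ
    rcases h1 Q hQ with ⟨h2, h3⟩ | h2
    · exfalso
      have h4 : P.lam (P.F m Q) = 0 := by
        funext s
        rw [P.lam_F, h2]
        simp
      have h5 : P.Phi (P.F m Q) ≤ 0 := by
        rw [P.Phi_F, h3, mul_zero]
      have h6 := P.orth_unframed ha hmin h4 h5 hZ
      rw [P.adj, P.sum_hT hl] at h6
      have h7 : P.hT Q Q = 0 := by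
        obtain ⟨l1, l2, rfl⟩ := List.append_of_mem hQ
        simp only [List.map_append, List.map_cons, List.sum_append, List.sum_cons] at h6
        omega
      exact P.hT_self Q (hind Q hQ) h2 h7
    · exact h2
  · intro t'
    rw [← P.sum_lam hl, P.lam_F, hZ.lam, Finset.sum_eq_single t]
    · rw [Pi.single_eq_same, mul_one]
    · intro b _ hb
      rw [Pi.single_eq_of_ne hb, mul_zero]
    · intro h
      exact absurd (Finset.mem_univ t) h

/-- the set of types of minimisers is stable -/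
theorem types_stable {t t' : T} {Z : P.Ob} (hZ : P.toPTMin.Mz a t Z) (m : M)
    (hN : P.N m t' t ≠ 0) : ∃ Z', P.toPTMin.Mz a t' Z' := by
  obtain ⟨l, hl, h1, h2⟩ := P.F_pieces ha hmin hZ m
  by_contra hno
  push Not at hno
  apply hN
  rw [← h2 t']
  have h3 : ∀ Y ∈ l, P.lam Y t' = 0 := by
    intro Y hY
    obtain ⟨s, hs⟩ := h1 Y hY
    by_cases hst : t' = s
    · subst hst
      exact absurd hs (hno Y)
    · rw [hs.lam, Pi.single_eq_of_ne hst]
  clear h1 h2 hl
  induction l with
  | nil => rfl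
  | cons Y l ih =>
    simp only [List.map_cons, List.sum_cons, Pi.add_apply]
    rw [h3 Y List.mem_cons_self, ih fun X hX => h3 X (List.mem_cons_of_mem _ hX)]

end Min

/-- **(P_T) for all labels, from the analysis of an `F`-stable orthogonal family.**
`X t`, `t ∈ S`, is the family of all minimisers (one for each type in the finite set `S` of types). -/
theorem Phi_nonneg
    (hD : ∀ (S : Set T) (X : T → P.Ob), S.Nonempty →
      (∀ t ∈ S, P.Ind (X t)) → (∀ t ∈ S, P.lam (X t) = Pi.single t 1) →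
      (∀ t ∈ S, ∀ t' ∈ S, P.hT (X t) (X t') = 0) →
      (∀ m, ∀ t ∈ S, ∀ t', P.N m t' t ≠ 0 → t' ∈ S) →
      (∀ m, ∀ t ∈ S, ∃ l, P.IsSum (P.F m (X t)) l ∧
        (∀ Y ∈ l, ∃ t' ∈ S, P.lam Y = Pi.single t' 1 ∧ P.Ind Y ∧ P.Sim Y (X t')) ∧
        ∀ t', (l.map P.lam).sum t' = P.N m t' t) →
      ∃ t ∈ S, 0 ≤ P.Phi (X t)) (X : P.Ob) : 0 ≤ P.Phi X := by
  classical
  refine P.toPTMin.Phi_nonneg (fun a ha hmin ho hu t Z hZ => ?_) X
  let S : Set T := {t | ∃ Z, P.toPTMin.Mz a t Z}
  let W : T → P.Ob := fun t => if h : ∃ Z, P.toPTMin.Mz a t Z then h.choose else Z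
  have hW : ∀ t ∈ S, P.toPTMin.Mz a t (W t) := by
    intro t ht
    have ht' : ∃ Z, P.toPTMin.Mz a t Z := ht
    have h1 : W t = ht'.choose := dif_pos ht'
    rw [h1]
    exact ht'.choose_spec
  obtain ⟨t0, ht0, h0⟩ := hD S W ⟨t, Z, hZ⟩ (fun t ht => (hW t ht).ind) (fun t ht => (hW t ht).lam)
    (fun t ht t' ht' => (P.Hz_iff _ _).mp (ho t t' _ _ (hW t ht) (hW t' ht')))
    (fun m t ht t' hN => P.types_stable ha hmin (hW t ht) m hN)
    (fun m t ht => by
      obtain ⟨l, h1, h2, h3⟩ := P.F_pieces ha hmin (hW t ht) m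
      refine ⟨l, h1, fun Y hY => ?_, h3⟩
      obtain ⟨t', ht'⟩ := h2 Y hY
      exact ⟨t', ⟨Y, ht'⟩, ht'.lam, ht'.ind, hu t' Y (W t') ht' (hW t' ⟨Y, ht'⟩)⟩)
  have h1 := (hW t0 ht0).phi
  have h2 := P.gam_pos t0
  nlinarith

end PTMinF

end Crest.Agent.R175.MinF_445
end

-- ▼ part R175/GlN_445
section

/-!
# R175 / GLUE-PT: numeric facts

`a s t : ℕ` = number of edges between `s` and `t`.
-/

set_option autoImplicit false

namespace Crest.Agent.R175.GlN_445

open Finset Crest.Agent.R175.MinB_445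

variable {T : Type*} [Fintype T]

/-- finitely many vectors of natural numbers below a bound -/
theorem finite_below {I : Type*} [Fintype I] (w : I → ℝ) (hw : ∀ i, 0 < w i) (B : ℝ) :
    ({v : I → ℕ | ∑ i, w i * (v i : ℝ) ≤ B} : Set (I → ℕ)).Finite := by
  classical
  have : ({v : I → ℕ | ∑ i, w i * (v i : ℝ) ≤ B} : Set (I → ℕ)) ⊆
      Set.Icc 0 (fun i => ⌈B / w i⌉₊) := by
    classical
    intro v hv
    refine ⟨fun i => Nat.zero_le _, fun i => ?_⟩
    have h1 : w i * (v i : ℝ) ≤ B := by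
      refine le_trans ?_ hv
      exact Finset.single_le_sum (f := fun j => w j * (v j : ℝ))
        (fun j _ => mul_nonneg (hw j).le (Nat.cast_nonneg _)) (Finset.mem_univ i)
    have h2 : (v i : ℝ) ≤ B / w i := by
      rw [le_div_iff₀ (hw i)]
      linarith [mul_comm (w i) (v i : ℝ)]
    exact_mod_cast h2.trans (Nat.le_ceil _)
  exact (Set.finite_Icc _ _).subset this

/-- discreteness of `Phi` on objects with a fixed frame vector -/
theorem disc {I Ob : Type*} [Fintype I] (c : I → ℝ) (hc : ∀ i, 0 < c i) (n : Ob → I → ℕ)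
    (P : Ob → Prop) (b x : ℝ) :
    Set.Finite {y : ℝ | y ≤ x ∧ ∃ X, P X ∧ ∑ i, c i * (n X i : ℝ) - b = y} := by
  refine ((finite_below c hc (x + b)).image fun v => ∑ i, c i * (v i : ℝ) - b).subset ?_
  rintro y ⟨hy, X, -, rfl⟩
  refine ⟨n X, ?_, rfl⟩
  change ∑ i, c i * (n X i : ℝ) ≤ x + b
  linarith

/-- lower bound -/
theorem bound (gam ht : T → ℝ) (hg : ∀ t, 0 < gam t) (m : T → ℕ) {p : ℝ} (hp : 0 ≤ p) :
    -(∑ t, |ht t| / gam t) * wt gam m ≤ p - ∑ t, ht t * (m t : ℝ) := by
  have h1 : ∑ t, ht t * (m t : ℝ) ≤ (∑ t, |ht t| / gam t) * wt gam m := by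
    unfold wt
    rw [Finset.mul_sum]
    refine Finset.sum_le_sum fun t _ => ?_
    have h2 : |ht t| / gam t ≤ ∑ s, |ht s| / gam s :=
      Finset.single_le_sum (f := fun s => |ht s| / gam s)
        (fun s _ => div_nonneg (abs_nonneg _) (hg s).le) (Finset.mem_univ t)
    have h3 : 0 ≤ gam t * (m t : ℝ) := mul_nonneg (hg t).le (Nat.cast_nonneg _)
    calc ht t * (m t : ℝ) ≤ |ht t| * (m t : ℝ) :=
          mul_le_mul_of_nonneg_right (le_abs_self _) (Nat.cast_nonneg _)
      _ = |ht t| / gam t * (gam t * (m t : ℝ)) := by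
          rw [← mul_assoc, div_mul_cancel₀ _ (hg t).ne']
      _ ≤ _ := mul_le_mul_of_nonneg_right h2 h3
  linarith

/-- adjacency moved from the frame vector to the weight -/
theorem sum_adj (a : T → T → ℕ) (f : T → ℝ) (m : T → ℕ) :
    ∑ t, f t * ((∑ s, a s t * m s : ℕ) : ℝ) = ∑ s, (∑ t, (a s t : ℝ) * f t) * (m s : ℝ) := by
  simp only [Nat.cast_sum, Nat.cast_mul, Finset.mul_sum, Finset.sum_mul]
  rw [Finset.sum_comm]
  exact Finset.sum_congr rfl fun s _ => Finset.sum_congr rfl fun t _ => by ring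

/-- `gam . (A m) = 2 gam . m - om . m` -/
theorem wt_adj (a : T → T → ℕ) {gam om : T → ℝ}
    (h : ∀ s, 2 * gam s - ∑ t, (a s t : ℝ) * gam t = om s) {m n : T → ℕ}
    (hn : ∀ t, n t = ∑ s, a s t * m s) : wt gam n = 2 * wt gam m - wt om m := by
  have h1 : wt gam n = ∑ s, (∑ t, (a s t : ℝ) * gam t) * (m s : ℝ) := by
    rw [← sum_adj]
    exact Finset.sum_congr rfl fun t _ => by rw [hn t]
  rw [h1]
  unfold wt
  rw [Finset.mul_sum, ← Finset.sum_sub_distrib]
  refine Finset.sum_congr rfl fun s _ => ?_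
  rw [← h s]
  ring

/-- the value of `Phi` on the reduced cone -/
theorem phi_red (a : T → T → ℕ) {I : Type*} [Fintype I] {c : I → ℝ} (hc : ∀ i, 0 < c i)
    {ht : T → ℝ} {L : I → T → ℕ}
    (hL : ∀ s, 2 * ht s - ∑ t, (a s t : ℝ) * ht t ≤ ∑ i, c i * (L i s : ℝ))
    {m n : T → ℕ} (hn : ∀ t, n t = ∑ s, a s t * m s) {u v : I → ℕ}
    (huv : ∀ i, v i + ∑ s, L i s * m s ≤ 2 * u i) :
    ∑ i, c i * (v i : ℝ) - ∑ t, ht t * (n t : ℝ) ≤
      2 * (∑ i, c i * (u i : ℝ) - ∑ t, ht t * (m t : ℝ)) := by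
  have h1 : ∑ t, ht t * (n t : ℝ) = ∑ s, (∑ t, (a s t : ℝ) * ht t) * (m s : ℝ) := by
    rw [← sum_adj]
    exact Finset.sum_congr rfl fun t _ => by rw [hn t]
  have h2 : ∑ i, c i * (v i : ℝ) + ∑ s, (∑ i, c i * (L i s : ℝ)) * (m s : ℝ) ≤
      2 * ∑ i, c i * (u i : ℝ) := by
    have h3 : ∑ s, (∑ i, c i * (L i s : ℝ)) * (m s : ℝ) =
        ∑ i, c i * ((∑ s, L i s * m s : ℕ) : ℝ) := by
      simp only [Nat.cast_sum, Nat.cast_mul, Finset.mul_sum, Finset.sum_mul]
      rw [Finset.sum_comm]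
      exact Finset.sum_congr rfl fun s _ => Finset.sum_congr rfl fun t _ => by ring
    rw [h3, ← Finset.sum_add_distrib, Finset.mul_sum]
    refine Finset.sum_le_sum fun i _ => ?_
    have h4 : (v i : ℝ) + ((∑ s, L i s * m s : ℕ) : ℝ) ≤ 2 * (u i : ℝ) := by
      exact_mod_cast huv i
    nlinarith [hc i]
  have h5 : ∑ s, (2 * ht s - ∑ t, (a s t : ℝ) * ht t) * (m s : ℝ) ≤
      ∑ s, (∑ i, c i * (L i s : ℝ)) * (m s : ℝ) :=
    Finset.sum_le_sum fun s _ => mul_le_mul_of_nonneg_right (hL s) (Nat.cast_nonneg _)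
  have h6 : ∑ s, (2 * ht s - ∑ t, (a s t : ℝ) * ht t) * (m s : ℝ) =
      2 * ∑ s, ht s * (m s : ℝ) - ∑ s, (∑ t, (a s t : ℝ) * ht t) * (m s : ℝ) := by
    rw [Finset.mul_sum, ← Finset.sum_sub_distrib]
    exact Finset.sum_congr rfl fun s _ => by ring
  rw [h1]
  linarith

/-- the value of `Phi` on the cone reduced at one vertex with one frame -/
theorem phi_red_one [DecidableEq T] (a : T → T → ℕ) {I : Type*} [Fintype I] {c : I → ℝ}
    (hc : ∀ i, 0 < c i) {ht : T → ℝ} {L : I → T → ℕ}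
    (hL : ∀ s, 2 * ht s - ∑ t, (a s t : ℝ) * ht t ≤ ∑ i, c i * (L i s : ℝ)) (t0 : T)
    {n : T → ℕ} (hn : ∀ t, n t = a t0 t) {u u' v : I → ℕ}
    (huv : ∀ i, v i + L i t0 ≤ u i + u' i) :
    ∑ i, c i * (v i : ℝ) - ∑ t, ht t * (n t : ℝ) ≤
      (∑ i, c i * (u i : ℝ) - ht t0) + (∑ i, c i * (u' i : ℝ) - ht t0) := by
  have h1 : ∑ t, ht t * (n t : ℝ) = ∑ t, (a t0 t : ℝ) * ht t :=
    Finset.sum_congr rfl fun t _ => by rw [hn t]; ring
  have h2 : ∑ i, c i * (v i : ℝ) + ∑ i, c i * (L i t0 : ℝ) ≤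
      ∑ i, c i * (u i : ℝ) + ∑ i, c i * (u' i : ℝ) := by
    rw [← Finset.sum_add_distrib, ← Finset.sum_add_distrib]
    refine Finset.sum_le_sum fun i _ => ?_
    have h4 : (v i : ℝ) + (L i t0 : ℝ) ≤ (u i : ℝ) + (u' i : ℝ) := by
      exact_mod_cast huv i
    nlinarith [hc i]
  have h3 := hL t0
  rw [h1]
  linarith

end Crest.Agent.R175.GlN_445
end

-- ▼ part R175/GlB_445
section

/-!
# R175 / GLUE-PT, part B: two indecomposable objects with one frame of the same type

`red_or_iso`: two objects with trivial idempotents and a single frame at `t` are isomorphic up to a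
shift, or there is `C'` with `hT X C' + lam X t ≤ hT X Z + hT X Z'` and `lam C' s = #E t s`.
-/

set_option autoImplicit false
set_option linter.unusedSectionVars false
set_option linter.unusedVariables false

open CategoryTheory Module LinearMap

namespace Crest.Agent.R175.GlB_445

open Crest.Agent.R175.PTA Crest.Agent.R175.GlA_445 Crest.Agent.R175.Shift_936
open Crest.Agent.R175.StepA_259 (conered)

universe u v

variable {T : Type u} {G : MG T} {k : Type v} [Field k] [Fintype T] [DecidableEq T]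

/-- single frame at `t` -/
def Sing (X : TOb G k) (t : T) : Prop := lam X = Pi.single t 1

theorem Sing.one {X : TOb G k} {t : T} (h : Sing X t) : finrank k (X.X.W t) = 1 := by
  have h1 := congrFun h t
  rw [Pi.single_eq_same] at h1
  exact h1

theorem Sing.zero {X : TOb G k} {t s : T} (h : Sing X t) (hs : s ≠ t) :
    Subsingleton (X.X.W s) := by
  have h1 := congrFun h s
  rw [Pi.single_eq_of_ne hs] at h1
  exact finrank_zero_iff.1 h1

/-- isomorphic up to a shift -/
def Sim (X Y : TOb G k) : Prop := HIso X Y ∨ HIso X (sh Y)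

theorem bij_of_ne {X Y : Gob G k} {t : T} (hX1 : finrank k (X.W t) = 1)
    (hX0 : ∀ s, s ≠ t → Subsingleton (X.W s)) (hY1 : finrank k (Y.W t) = 1)
    (hY0 : ∀ s, s ≠ t → Subsingleton (Y.W s)) (f : ∀ s, X.W s →ₗ[k] Y.W s) (hf : f t ≠ 0) :
    ∀ s, Function.Bijective (f s) := by
  intro s
  by_cases hs : s = t
  · subst hs
    have hinj : Function.Injective (f s) := by
      rw [← LinearMap.ker_eq_bot, Submodule.eq_bot_iff]
      intro x hx
      by_contra hx0
      obtain ⟨v, hv0, hv⟩ := finrank_eq_one_iff'.1 hX1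
      apply hf
      ext y
      obtain ⟨a, ha⟩ := hv x
      obtain ⟨b, hb⟩ := hv y
      have ha0 : a ≠ 0 := by
        rintro rfl
        apply hx0
        rw [← ha, zero_smul]
      have hgv : f s v = 0 := by
        have h3 : f s (a • v) = 0 := by rw [ha]; exact hx
        rw [map_smul] at h3
        exact (smul_eq_zero.1 h3).resolve_left ha0
      rw [← hb, map_smul, hgv, smul_zero]
      rfl
    exact ⟨hinj, (LinearMap.injective_iff_surjective_of_finrank_eq_finrank
      (hX1.trans hY1.symm)).1 hinj⟩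
  · have h1 := hX0 s hs
    have h2 := hY0 s hs
    exact ⟨fun x y _ => Subsingleton.elim _ _, fun y => ⟨0, Subsingleton.elim _ _⟩⟩

/-- the frame parity of a single-framed object is a sign -/
theorem sign {X : TOb G k} {t : T} (hX : Sing X t) :
    (∀ x, X.X.gW t x = x) ∨ (∀ x, X.X.gW t x = -x) := by
  obtain ⟨c, hc⟩ := one_dim_smul hX.one (X.X.gW t)
  obtain ⟨v, hv0, -⟩ := finrank_eq_one_iff'.1 hX.one
  have h1 : X.X.gW t (X.X.gW t v) = v := LinearMap.congr_fun (X.X.gW_sq t) v
  rw [hc, hc, smul_smul] at h1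
  have h2 : (c * c - 1) • v = 0 := by rw [sub_smul, h1, one_smul, sub_self]
  have h3 := (smul_eq_zero.1 h2).resolve_right hv0
  have h4 : (c - 1) * (c + 1) = 0 := by linear_combination h3
  rcases mul_eq_zero.1 h4 with h5 | h5
  · left
    intro x
    rw [hc, sub_eq_zero.1 h5, one_smul]
  · right
    intro x
    rw [hc, eq_neg_of_add_eq_zero_left h5, neg_smul, one_smul]

/-- cone of an odd cocycle with non zero path, reduced -/
theorem cone_red {Z Z' : TOb G k} {t : T} (hZ : Sing Z t) (hZ' : Sing Z' t)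
    (a : Z.X ⟶ Z'.X) (ha : a ∈ Cs Z.X Z'.X) (hD : D Z Z' a = 0) (ho : bar a = -a)
    (hp : Dual_338.path Z Z' a t ≠ 0) :
    ∃ C' : TOb G k, (∀ X : TOb G k, hT X C' + lam X t ≤ hT X Z + hT X Z') ∧
      ∀ s, lam C' s = Fintype.card (G.E t s) := by
  have hpath : ∀ s, Dual_338.path Z Z' a s = StepA_259.path a s := by
    intro s
    rw [Dual_338.path, StepA_259.path, ho, ci_neg, LinearMap.comp_neg, sub_neg_eq_add]
  have hbij : ∀ s, Function.Bijective (Dual_338.path Z Z' a s) :=
    bij_of_ne hZ.one (fun s hs => hZ.zero hs) hZ'.one (fun s hs => hZ'.zero hs) _ hp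
  have hcomm : ∀ s x, Dual_338.path Z Z' a s (Z.X.gW s x) =
      Z'.X.gW s (Dual_338.path Z Z' a s x) := by
    intro s x
    have h1 := Dual_338.path_bar (X := Z) (Y := Z') a s
    rw [ho, Dual_338.path_neg] at h1
    have h2 := LinearMap.congr_fun h1 (Z.X.gW s x)
    have h3 : Z.X.gW s (Z.X.gW s x) = x := LinearMap.congr_fun (Z.X.gW_sq s) x
    simp only [LinearMap.neg_apply, LinearMap.comp_apply, h3, neg_inj] at h2
    exact h2
  obtain ⟨C', h3, h4⟩ := conered a hD ho ha (fun s => Z.X.W s) (fun s => Z.X.gW s)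
    (fun s x => LinearMap.congr_fun (Z.X.gW_sq s) x) (fun s => LinearMap.id)
    (fun s => (LinearEquiv.ofBijective _ (hbij s)).symm.toLinearMap) (fun _ _ => rfl)
    (by
      intro s x
      change (LinearEquiv.ofBijective _ (hbij s)).symm (Z'.X.gW s x) =
        Z.X.gW s ((LinearEquiv.ofBijective _ (hbij s)).symm x)
      rw [LinearEquiv.symm_apply_eq, LinearEquiv.ofBijective_apply, hcomm]
      congr 1
      exact ((LinearEquiv.ofBijective _ (hbij s)).apply_symm_apply x).symm)
    (by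
      intro s x
      rw [← hpath]
      exact (LinearEquiv.ofBijective _ (hbij s)).symm_apply_apply x)
  have hsum : ∀ f : T → ℕ, ∑ s, finrank k (Z.X.W s) * f s = f t := by
    intro f
    rw [Finset.sum_eq_single t]
    · rw [hZ.one, one_mul]
    · intro s _ hs
      have := hZ.zero hs
      rw [finrank_zero_of_subsingleton, zero_mul]
    · intro h; exact absurd (Finset.mem_univ t) h
  refine ⟨C', fun X => ?_, fun s => ?_⟩
  · have h5 := h3 X
    rw [hsum] at h5
    exact h5
  · have h5 := h4 s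
    have h6 : ∑ t', Fintype.card (G.E t' s) * finrank k (Z.X.W t') = Fintype.card (G.E t s) := by
      rw [← hsum (fun t' => Fintype.card (G.E t' s))]
      exact Finset.sum_congr rfl fun _ _ => mul_comm _ _
    rw [h6] at h5
    have h7 : lam Z s = lam Z' s := by rw [hZ, hZ']
    change lam C' s + 2 * lam Z s = _ at h5
    omega

/-- the same frame parity: either an even closed map nonzero on the frame, or a reduction -/
theorem lift_or_red (h2 : (2 : k) ≠ 0) {Z Z' : TOb G k} {t : T}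
    (hZ : Sing Z t) (hZ' : Sing Z' t)
    (hg : ((∀ x, Z.X.gW t x = x) ∧ ∀ x, Z'.X.gW t x = x) ∨
      ((∀ x, Z.X.gW t x = -x) ∧ ∀ x, Z'.X.gW t x = -x)) :
    (∃ F : Z.X ⟶ Z'.X, bar F = F ∧ D Z Z' F = 0 ∧ cW F t ≠ 0) ∨
    ∃ C' : TOb G k, (∀ X : TOb G k, hT X C' + lam X t ≤ hT X Z + hT X Z') ∧
      ∀ s, lam C' s = Fintype.card (G.E t s) := by
  classical
  by_cases hex : ∃ a ∈ Cs Z'.X Z.X, D Z' Z a = 0 ∧ bar a = -a ∧ Dual_338.path Z' Z a t ≠ 0
  · right
    obtain ⟨a, ha, hD, ho, hp⟩ := hex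
    obtain ⟨C', h3, h4⟩ := cone_red hZ' hZ a ha hD ho hp
    exact ⟨C', fun X => by rw [add_comm (hT X Z)]; exact h3 X, h4⟩
  · left
    push Not at hex
    have hdim : ∀ s, finrank k (Z.X.W s) = finrank k (Z'.X.W s) := fun s => by
      have h1 : lam Z s = lam Z' s := by rw [hZ, hZ']
      exact h1
    let ψ : ∀ s, Z.X.W s →ₗ[k] Z'.X.W s := fun s => (LinearEquiv.ofFinrankEq _ _ (hdim s)).toLinearMap
    obtain ⟨F, hD, hb, hF⟩ := Dual_338.exists_lift_even h2 ψ (by
      intro s
      by_cases hs : s = t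
      · subst hs
        ext x
        rcases hg with ⟨h3, h4⟩ | ⟨h3, h4⟩
        · rw [LinearMap.comp_apply, LinearMap.comp_apply, h3, h4]
        · rw [LinearMap.comp_apply, LinearMap.comp_apply, h3, h4, map_neg]
      · have := hZ'.zero hs
        ext x
        exact Subsingleton.elim _ _) (by
      intro a ha hDa hba
      apply Finset.sum_eq_zero
      intro s _
      by_cases hs : s = t
      · subst hs
        rw [hex a ha hDa hba]
        simp
      · have := hZ.zero hs
        have h5 : (Z.X.gW s ∘ₗ Dual_338.path Z' Z a s ∘ₗ ψ s) = 0 := by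
          ext x
          exact Subsingleton.elim _ _
        rw [h5, map_zero])
    refine ⟨F, hb, hD, ?_⟩
    rw [hF]
    intro h0
    obtain ⟨v, hv0, -⟩ := finrank_eq_one_iff'.1 hZ.one
    have h6 : (LinearEquiv.ofFinrankEq _ _ (hdim t)) v = 0 := LinearMap.congr_fun h0 v
    exact hv0 ((LinearEquiv.map_eq_zero_iff _).1 h6)

theorem red_or_iso_even (h2 : (2 : k) ≠ 0) {Z Z' : TOb G k} {t : T}
    (iZ : IdTriv Z) (iZ' : IdTriv Z') (hZ : Sing Z t) (hZ' : Sing Z' t)
    (hg : ((∀ x, Z.X.gW t x = x) ∧ ∀ x, Z'.X.gW t x = x) ∨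
      ((∀ x, Z.X.gW t x = -x) ∧ ∀ x, Z'.X.gW t x = -x)) :
    HIso Z Z' ∨
    ∃ C' : TOb G k, (∀ X : TOb G k, hT X C' + lam X t ≤ hT X Z + hT X Z') ∧
      ∀ s, lam C' s = Fintype.card (G.E t s) := by
  rcases lift_or_red h2 hZ hZ' hg with ⟨F, bF, DF, hF⟩ | h
  · rcases lift_or_red h2 hZ' hZ (hg.imp And.symm And.symm) with ⟨F', bF', DF', hF'⟩ | ⟨C', h3, h4⟩
    · left
      exact hiso_of_frames iZ iZ' hZ.one hZ'.one bF bF' DF DF' hF hF'
    · right
      exact ⟨C', fun X => by rw [add_comm (hT X Z)]; exact h3 X, h4⟩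
  · exact Or.inr h

/-! ### shift -/

theorem sing_sh {X : TOb G k} {t : T} (h : Sing X t) : Sing (sh X) t := by
  have h1 : lam (sh X) = lam X := funext fun s => lam_sh X s
  rw [Sing, h1]
  exact h

theorem idTriv_sh {X : TOb G k} (h : IdTriv X) : IdTriv (sh X) := by
  intro e he hD hee
  -- `e = shf f`
  let f : X.X ⟶ X.X := th X ≫ e ≫ th' X
  have hf : shf f = e := by
    simp only [shf, f, Category.assoc, th'_th_assoc, th'_th, Category.comp_id]
  have h1 : bar f = f := by
    simp only [f, bar_comp, bar_th, bar_th', he, Preadditive.neg_comp, Preadditive.comp_neg,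
      neg_neg]
  have h2 : D X X f = 0 := by
    apply shf_injective
    rw [shf_zero]
    have h3 := D_shf f
    rw [hf, hD] at h3
    exact neg_eq_zero.1 h3.symm
  have h3 : f ≫ f = f := by
    simp only [f, Category.assoc, th'_th_assoc]
    rw [← Category.assoc e e, hee]
  rcases h f h1 h2 h3 with h4 | h4
  · left
    rw [← hf, h4, shf_zero]
  · right
    rw [← hf, h4, shf_id]

/-- **dichotomy** for two single-framed objects of the same type -/
theorem red_or_sim (h2 : (2 : k) ≠ 0) {Z Z' : TOb G k} {t : T}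
    (iZ : IdTriv Z) (iZ' : IdTriv Z') (hZ : Sing Z t) (hZ' : Sing Z' t) :
    Sim Z Z' ∨
    ∃ C' : TOb G k, (∀ X : TOb G k, hT X C' + lam X t ≤ hT X Z + hT X Z') ∧
      ∀ s, lam C' s = Fintype.card (G.E t s) := by
  have key : ((∀ x, Z.X.gW t x = x) ∧ ∀ x, (sh Z').X.gW t x = x) ∨
      ((∀ x, Z.X.gW t x = -x) ∧ ∀ x, (sh Z').X.gW t x = -x) →
      Sim Z Z' ∨ ∃ C' : TOb G k, (∀ X : TOb G k, hT X C' + lam X t ≤ hT X Z + hT X Z') ∧
      ∀ s, lam C' s = Fintype.card (G.E t s) := by
    intro hg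
    rcases red_or_iso_even h2 iZ (idTriv_sh iZ') hZ (sing_sh hZ') hg with h | ⟨C', h3, h4⟩
    · exact Or.inl (Or.inr h)
    · exact Or.inr ⟨C', fun X => by rw [← hT_sh_right (X := X) (Y := Z')]; exact h3 X, h4⟩
  have hsh : ∀ x, (sh Z').X.gW t x = -(Z'.X.gW t x) := fun x => rfl
  rcases sign hZ with h | h <;> rcases sign hZ' with h' | h'
  · exact (red_or_iso_even h2 iZ iZ' hZ hZ' (Or.inl ⟨h, h'⟩)).imp Or.inl id
  · exact key (Or.inl ⟨h, fun x => by rw [hsh, h', neg_neg]⟩)
  · exact key (Or.inr ⟨h, fun x => by rw [hsh, h']⟩)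
  · exact (red_or_iso_even h2 iZ iZ' hZ hZ' (Or.inr ⟨h, h'⟩)).imp Or.inl id

end Crest.Agent.R175.GlB_445
end

-- ▼ part R175/GlC_445
section

/-!
# R175 / GLUE-PT, part C: cones of non zero classes

* `nz`: `Z, Z'` single-framed, of different types or isomorphic up to a shift, `hT Z Z' ≠ 0`: there is
  `U` with `lam U = lam Z + lam Z'`, `hT X U ≤ hT X Z + hT X Z'`, and `hD Z U < hD Z Z + hD Z Z'`.
* `orthQ`: `Q` unframed, `Z` indecomposable single-framed, `hT Q Z ≠ 0`: `U` with `lam U = lam Z`,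
  `hT X U ≤ hT X Q + hT X Z`, and no object similar to `Z` is a retract of `U`.
-/

set_option autoImplicit false
set_option linter.unusedSectionVars false
set_option linter.unusedVariables false

open CategoryTheory Module LinearMap

namespace Crest.Agent.R175.GlC_445

open Crest.Agent.R175.PTA Crest.Agent.R175.GlA_445 Crest.Agent.R175.Shift_936
open Crest.Agent.R175.GlB_445 Crest.Agent.R175.Ocone_259

universe u v

variable {T : Type u} {G : MG T} {k : Type v} [Field k] [Fintype T] [DecidableEq T]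

/-! ### classes -/


/-- a nonzero class of `H_T` has a homogeneous representative which is not a coboundary of `Cs` -/
theorem exists_class (h2 : (2 : k) ≠ 0) {X Y : TOb G k} (h : hT X Y ≠ 0) :
    ∃ b : X.X ⟶ Y.X, b ∈ Cs X.X Y.X ∧ D X Y b = 0 ∧ (bar b = b ∨ bar b = -b) ∧
      ∀ y ∈ Cs X.X Y.X, D X Y y ≠ b := by
  by_contra hno
  push Not at hno
  apply h
  change LES_445.hh (DC X Y) = 0
  rw [LES_445.hh_eq_zero DC_DC]
  intro x hx
  have hx' : D X Y x.1 = 0 := congrArg Subtype.val hx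
  obtain ⟨a, b, hab, ba, bb, Da, Db⟩ := D_parts h2 x.1 hx'
  have hCa : a ∈ Cs X.X Y.X := by
    intro t
    have h1 : cW x.1 t = 0 := x.2 t
    rw [hab, cW_add] at h1
    have h3 : cW (bar x.1) t = 0 := by rw [cW_bar, x.2 t]; simp
    rw [hab, bar_add, ba, bb, cW_add, cW_neg] at h3
    have h4 : (2 : k) • cW a t = 0 := by
      rw [two_smul]
      calc cW a t + cW a t = (cW a t + cW b t) + (cW a t + -cW b t) := by abel
        _ = 0 := by rw [h1, h3, add_zero]
    exact (smul_eq_zero.1 h4).resolve_left h2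
  have hCb : b ∈ Cs X.X Y.X := by
    have h1 : b = x.1 - a := by rw [hab]; abel
    rw [h1]
    exact Submodule.sub_mem _ x.2 hCa
  obtain ⟨y, hy, hy'⟩ := hno a hCa Da (Or.inl ba)
  obtain ⟨z, hz, hz'⟩ := hno b hCb Db (Or.inr bb)
  refine ⟨⟨y + z, Submodule.add_mem _ hy hz⟩, Subtype.ext ?_⟩
  change D X Y (y + z) = x.1
  rw [map_add, hy', hz', hab]

/-- the same with an odd representative, after a shift of the target if necessary -/
theorem exists_odd (h2 : (2 : k) ≠ 0) {X Y : TOb G k} (h : hT X Y ≠ 0) :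
    ∃ Y' : TOb G k, (Y' = Y ∨ Y' = sh Y) ∧ ∃ b : X.X ⟶ Y'.X, b ∈ Cs X.X Y'.X ∧
      D X Y' b = 0 ∧ bar b = -b ∧ ∀ y ∈ Cs X.X Y'.X, D X Y' y ≠ b := by
  obtain ⟨b, hC, hD, hb | hb, hno⟩ := exists_class h2 h
  · refine ⟨sh Y, Or.inr rfl, b ≫ th Y, Cs_comp_right hC _, ?_, ?_, ?_⟩
    · rw [D_comp_th, hD, Limits.zero_comp, neg_zero]
    · rw [bar_comp, bar_th, hb, Preadditive.comp_neg]
    · intro y hy hy'
      refine hno (-(y ≫ th' Y)) (Submodule.neg_mem _ (Cs_comp_right hy _)) ?_
      rw [map_neg, D_comp_th', hy', neg_neg, Category.assoc, th_th', Category.comp_id]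
  · exact ⟨Y, Or.inl rfl, b, hC, hD, hb, hno⟩

/-! ### the cone -/

section cone

variable {Z Z' : TOb G k} (b : Z.X ⟶ Z'.X) (hb0 : D Z Z' b = 0) (ho : bar b = -b)
  (hW : ∀ t, cW b t = 0)

theorem D_il : D Z (ocone b hb0 ho hW) (il Z.X Z'.X) = b ≫ ir Z.X Z'.X := by
  rw [D_apply, bar_il]
  simp only [Preadditive.comp_add, il_pl_assoc, il_pr_assoc, add_zero]
  abel

theorem D_ir : D Z' (ocone b hb0 ho hW) (ir Z.X Z'.X) = 0 := by
  rw [D_apply, bar_ir, ir_d, sub_self]

/-- strict subadditivity of `hD Z` on the cone of a class which is nonzero in `H_D` -/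
theorem hD_ocone_lt (hno : ∀ y : Z.X ⟶ Z'.X, D Z Z' y ≠ b) :
    hD Z (ocone b hb0 ho hW) < hD Z Z + hD Z Z' := by
  have key := LES_445.hh_lt (k := k) (D := D Z (ocone b hb0 ho hW)) (D1 := D Z Z')
    (D2 := D Z Z)
    (i := { toFun := fun f => f ≫ ir Z.X Z'.X
            map_add' := fun f g => by simp
            map_smul' := fun c f => by simp })
    (p := { toFun := fun f => f ≫ pl Z.X Z'.X
            map_add' := fun f g => by simp
            map_smul' := fun c f => by simp })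
    ?_ ?_ ?_ ?_ D_D D_D D_D ?_ ?_ (v := il Z.X Z'.X) (a := b) ?_ hno
  · change LES_445.hh (D Z (ocone b hb0 ho hW)) < LES_445.hh (D Z Z) + LES_445.hh (D Z Z')
    omega
  · intro f g h
    have h1 : f ≫ ir Z.X Z'.X = g ≫ ir Z.X Z'.X := h
    have h2 := congrArg (fun z => z ≫ pr Z.X Z'.X) h1
    simpa only [Category.assoc, ir_pr, Category.comp_id] using h2
  · intro f
    refine ⟨f ≫ il Z.X Z'.X, ?_⟩
    change (f ≫ il Z.X Z'.X) ≫ pl Z.X Z'.X = f
    simp
  · intro f
    change (f ≫ ir Z.X Z'.X) ≫ pl Z.X Z'.X = 0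
    simp
  · let e : (Z.X ⟶ gsum Z.X Z'.X) ≃ₗ[k] (Z.X ⟶ Z'.X) × (Z.X ⟶ Z.X) :=
      { toFun := fun f => (f ≫ pr Z.X Z'.X, f ≫ pl Z.X Z'.X)
        map_add' := fun f g => by ext1 <;> simp
        map_smul' := fun c f => by ext1 <;> simp
        invFun := fun p => p.1 ≫ ir Z.X Z'.X + p.2 ≫ il Z.X Z'.X
        left_inv := fun f => by
          simp only [Category.assoc]
          rw [← Preadditive.comp_add, add_comm, tot_id, Category.comp_id]
        right_inv := fun p => by
          ext1 <;> simp }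
    rw [← Module.finrank_prod]
    exact e.finrank_eq
  · intro f
    change D Z (ocone b hb0 ho hW) (f ≫ ir Z.X Z'.X) = (D Z Z' f) ≫ ir Z.X Z'.X
    rw [D_apply, D_apply, bar_comp, bar_ir, Category.assoc, ir_d, Preadditive.sub_comp]
    simp
  · intro f
    change (D Z (ocone b hb0 ho hW) f) ≫ pl Z.X Z'.X = D Z Z (f ≫ pl Z.X Z'.X)
    rw [D_apply, D_apply, Preadditive.sub_comp, Category.assoc, d_pl, bar_comp, bar_pl]
    simp
  · exact D_il b hb0 ho hW

end cone

/-! ### objects similar to a single-framed one -/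

/-- a similarity gives a closed map, homogeneous, nonzero on the frame -/
theorem Sim.map {Z Z' : TOb G k} {t : T} (hZ : Sing Z t) (h : Sim Z Z') :
    ∃ p : Z.X ⟶ Z'.X, D Z Z' p = 0 ∧ (bar p = p ∨ bar p = -p) ∧ cW p t ≠ 0 := by
  have key : ∀ {Y : TOb G k} (e : HEquiv Z Y), cW e.p t ≠ 0 := by
    intro Y e h0
    obtain ⟨v, hv0, -⟩ := finrank_eq_one_iff'.1 hZ.one
    have h1 := LinearMap.congr_fun (e.cW_pq t) v
    rw [h0, LinearMap.comp_zero] at h1
    exact hv0 h1.symm
  rcases h with ⟨⟨e⟩⟩ | ⟨⟨e⟩⟩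
  · exact ⟨e.p, e.Dp, Or.inl e.bp, key e⟩
  · refine ⟨e.p ≫ th' Z', ?_, Or.inr ?_, ?_⟩
    · rw [D_comp_th', e.Dp, Limits.zero_comp, neg_zero]
    · rw [bar_comp, e.bp, bar_th', Preadditive.comp_neg]
    · rw [cW_comp, cW_th', LinearMap.id_comp]
      exact key e

/-- `H_T → H_D` is injective for single-framed objects of different types or similar ones -/
theorem not_cobound {Z Z' : TOb G k} {t t' : T} (hZ : Sing Z t) (hZ' : Sing Z' t')
    (hsim : t = t' → Sim Z Z') {b : Z.X ⟶ Z'.X}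
    (hno : ∀ y ∈ Cs Z.X Z'.X, D Z Z' y ≠ b) (y : Z.X ⟶ Z'.X) : D Z Z' y ≠ b := by
  intro hy
  by_cases htt : t = t'
  · subst htt
    obtain ⟨p, Dp, -, hp⟩ := Sim.map hZ (hsim rfl)
    have hdim1 := hZ.one
    -- `cW y t = c • cW p t`
    obtain ⟨c, hc⟩ : ∃ c : k, ∀ x, cW y t x = c • cW p t x := by
      have hb := bij_of_ne hZ.one (fun s hs => hZ.zero hs) hZ'.one (fun s hs => hZ'.zero hs)
        (fun s => cW p s) hp t
      let e := LinearEquiv.ofBijective (cW p t) hb
      obtain ⟨c, hc⟩ := one_dim_smul hZ.one (e.symm.toLinearMap ∘ₗ cW y t)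
      refine ⟨c, fun x => ?_⟩
      have h1 : e.symm (cW y t x) = c • x := hc x
      have h2 : cW y t x = e (c • x) := by rw [← h1, LinearEquiv.apply_symm_apply]
      rw [h2, map_smul]
      rfl
    refine hno (y - c • p) ?_ ?_
    · intro s
      by_cases hs : s = t
      · subst hs
        ext x
        rw [cW_sub, cW_smul, LinearMap.sub_apply, LinearMap.smul_apply, hc, sub_self]
        rfl
      · have := hZ'.zero hs
        ext x
        exact Subsingleton.elim _ _
    · rw [map_sub, map_smul, Dp, smul_zero, sub_zero, hy]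
  · refine hno y ?_ hy
    intro s
    by_cases hs : s = t
    · subst hs
      have := hZ'.zero htt
      ext x
      exact Subsingleton.elim _ _
    · have := hZ.zero hs
      ext x
      have h1 : x = 0 := Subsingleton.elim _ _
      rw [h1, map_zero, map_zero]

theorem sim_sh {X Y : TOb G k} (h : Sim X Y) : Sim X (sh Y) := by
  rcases h with h | h
  · exact Or.inr (h.trans (HIso_sh_sh Y).symm)
  · exact Or.inl h

/-- **field `nz`** -/
theorem nz (h2 : (2 : k) ≠ 0) {Z Z' : TOb G k} {t t' : T} (hZ : Sing Z t) (hZ' : Sing Z' t')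
    (hsim : t = t' → Sim Z Z') (h : hT Z Z' ≠ 0) :
    ∃ U : TOb G k, (∀ s, lam U s = lam Z s + lam Z' s) ∧
      (∀ X, hT X U ≤ hT X Z + hT X Z') ∧ hD Z U < hD Z Z + hD Z Z' := by
  obtain ⟨Y', hY', b, hC, hD', ho, hno⟩ := exists_odd h2 h
  rcases hY' with rfl | rfl
  · refine ⟨ocone b hD' ho hC, fun s => lam_ocone b hD' ho hC s, fun X => hT_ocone_le b hD' ho hC X,
      hD_ocone_lt b hD' ho hC (not_cobound hZ hZ' hsim hno)⟩
  · refine ⟨ocone b hD' ho hC, fun s => ?_, fun X => ?_, ?_⟩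
    · rw [lam_ocone b hD' ho hC, lam_sh]
    · rw [← hT_sh_right (X := X) (Y := Z')]
      exact hT_ocone_le b hD' ho hC X
    · rw [← hD_sh_right (X := Z) (Y := Z')]
      exact hD_ocone_lt b hD' ho hC
        (not_cobound hZ (sing_sh hZ') (fun htt => sim_sh (hsim htt)) hno)

/-! ### unframed objects -/

/-- retract up to homotopy -/
def Retr (Y U : TOb G k) : Prop :=
  ∃ (i : Y.X ⟶ U.X) (p : U.X ⟶ Y.X) (s : Y.X ⟶ Y.X), bar i = i ∧ bar p = p ∧ D Y U i = 0 ∧
    D U Y p = 0 ∧ i ≫ p = 𝟙 Y.X + D Y Y s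

theorem no_retract_aux (h2 : (2 : k) ≠ 0) {Q Z U : TOb G k} {t : T} (hQ : ∀ s, lam Q s = 0)
    (iZ : IdTriv Z) (hZ : Sing Z t) (hU : lam U t = 1) (b : Q.X ⟶ Z.X)
    (hno : ∀ y ∈ Cs Q.X Z.X, D Q Z y ≠ b) (j : Q.X ⟶ U.X) (ι : Z.X ⟶ U.X) (bι : bar ι = ι)
    (Dι : D Z U ι = 0) (Dj : D Q U j = b ≫ ι) (hιi : Function.Injective (cW ι t)) {Y : TOb G k}
    (hY : Retr Y U) (hs : Sim Y Z) : False := by
  obtain ⟨i, p, s, bi, bp, Di, Dp, hip⟩ := hY
  have hQ0 : ∀ s, Subsingleton (Q.X.W s) := fun s => finrank_zero_iff.1 (hQ s)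
  -- `Y` is single-framed
  have hlamY : lam Y = lam Z := by
    rcases hs with h | h
    · exact funext h.lam_eq
    · exact funext fun s => (h.lam_eq s).trans (lam_sh Z s)
  have hYs : Sing Y t := by rw [Sing, hlamY]; exact hZ
  obtain ⟨φ, Dφ, hφ, hφW⟩ := Sim.map hYs hs
  have hU1 : finrank k (U.X.W t) = 1 := hU
  have hps : Function.Surjective (cW p t) := by
    intro x
    refine ⟨cW i t x, ?_⟩
    have h1 : cW (i ≫ p) t = LinearMap.id := by rw [hip, cW_add, cW_D, add_zero, cW_id]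
    exact LinearMap.congr_fun h1 x
  have hpi : Function.Injective (cW p t) :=
    (LinearMap.injective_iff_surjective_of_finrank_eq_finrank (hU1.trans hYs.one.symm)).2 hps
  have hφb := bij_of_ne hYs.one (fun s hs => hYs.zero hs) hZ.one (fun s hs => hZ.zero hs)
    (fun s => cW φ s) hφW t
  have hc : cW (ι ≫ p ≫ φ) t ≠ 0 := by
    intro h0
    obtain ⟨v, hv0, -⟩ := finrank_eq_one_iff'.1 hZ.one
    have h1 : cW φ t (cW p t (cW ι t v)) = 0 := LinearMap.congr_fun h0 v
    have h3 : cW p t (cW ι t v) = 0 := hφb.1 (by rw [h1, map_zero])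
    have h4 : cW ι t v = 0 := hpi (by rw [h3, map_zero])
    exact hv0 (hιi (by rw [h4, map_zero]))
  have Dpφ : D U Z (p ≫ φ) = 0 := by
    rw [D_comp_left Dp, Dφ, Limits.comp_zero]
  have Dc : D Z Z (ι ≫ p ≫ φ) = 0 := by
    rw [D_comp_left Dι, Dpφ, Limits.comp_zero]
  have hφe : bar φ = φ := by
    rcases hφ with h | h
    · exact h
    · exfalso
      have hbc : bar (ι ≫ p ≫ φ) = (-1 : k) • (ι ≫ p ≫ φ) := by
        rw [bar_comp, bar_comp, bι, bp, h, Preadditive.comp_neg, Preadditive.comp_neg,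
          neg_one_smul]
      have h1 := sign_one hZ.one hbc hc
      apply h2
      linear_combination -h1
  have bc : bar (ι ≫ p ≫ φ) = ι ≫ p ≫ φ := by
    rw [bar_comp, bar_comp, bι, bp, hφe]
  obtain ⟨c', bc', Dc', hcc', -⟩ := frame_unit iZ hZ.one bc Dc hc
  -- `b = D (j ≫ p ≫ φ ≫ c')`
  have Dr : D U Z (p ≫ φ ≫ c') = 0 := by
    rw [D_comp_left Dp, D_comp_left Dφ, Dc', Limits.comp_zero, Limits.comp_zero]
  have br : bar (p ≫ φ ≫ c') = p ≫ φ ≫ c' := by
    rw [bar_comp, bar_comp, bp, hφe, bc']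
  refine hno (j ≫ p ≫ φ ≫ c') ?_ ?_
  · intro s
    have := hQ0 s
    ext x
    have h1 : x = 0 := Subsingleton.elim _ _
    rw [h1, map_zero, map_zero]
  · rw [D_comp_right _ Dr br, Dj, Category.assoc]
    have h4 : ι ≫ p ≫ φ ≫ c' = 𝟙 Z.X := by
      rw [← hcc']
      simp only [Category.assoc]
    rw [h4, Category.comp_id]

theorem no_retract (h2 : (2 : k) ≠ 0) {Q Z : TOb G k} {t : T} (hQ : ∀ s, lam Q s = 0)
    (iZ : IdTriv Z) (hZ : Sing Z t) (b : Q.X ⟶ Z.X) (hb0 : D Q Z b = 0) (ho : bar b = -b)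
    (hW : ∀ t, cW b t = 0) (hno : ∀ y ∈ Cs Q.X Z.X, D Q Z y ≠ b) {Y : TOb G k}
    (hY : Retr Y (ocone b hb0 ho hW)) (hs : Sim Y Z) : False := by
  refine no_retract_aux h2 hQ iZ hZ ?_ b hno (il Q.X Z.X) (ir Q.X Z.X) (bar_ir Q.X Z.X)
    (D_ir b hb0 ho hW) (D_il b hb0 ho hW) ?_ hY hs
  · have h1 := lam_ocone b hb0 ho hW t
    have h3 : lam Z t = 1 := hZ.one
    rw [hQ t, h3] at h1
    exact h1
  · intro x y hxy
    have h1 : ((0 : Q.X.W t), x) = (0, y) := hxy
    exact (Prod.ext_iff.1 h1).2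

/-- **field `orthQ`** -/
theorem orthQ (h2 : (2 : k) ≠ 0) {Q Z : TOb G k} {t : T} (hQ : ∀ s, lam Q s = 0)
    (iZ : IdTriv Z) (hZ : Sing Z t) (h : hT Q Z ≠ 0) :
    ∃ U : TOb G k, (∀ s, lam U s = lam Z s) ∧ (∀ X, hT X U ≤ hT X Q + hT X Z) ∧
      ∀ Y, Retr Y U → ¬ Sim Y Z := by
  obtain ⟨Y', hY', b, hC, hD', ho, hno⟩ := exists_odd h2 h
  rcases hY' with rfl | rfl
  · refine ⟨ocone b hD' ho hC, fun s => ?_, fun X => hT_ocone_le b hD' ho hC X,
      fun Y hY hs => no_retract h2 hQ iZ hZ b hD' ho hC hno hY hs⟩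
    rw [lam_ocone b hD' ho hC, hQ, zero_add]
  · refine ⟨ocone b hD' ho hC, fun s => ?_, fun X => ?_, fun Y hY hs =>
      no_retract h2 hQ (idTriv_sh iZ) (sing_sh hZ) b hD' ho hC hno hY (sim_sh hs)⟩
    · rw [lam_ocone b hD' ho hC, lam_sh, hQ, zero_add]
    · rw [← hT_sh_right (X := X) (Y := Z)]
      exact hT_ocone_le b hD' ho hC X

end Crest.Agent.R175.GlC_445
end

-- ▼ part R175/GlU_505

/-!
Row 175 (S0263), block (D) = `Lev.PT` (helper505): numeric facts about the unfolded graph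
`UG M Λ` for the instance of `PTMinF` (MinF_445, GlN_445).
-/

set_option autoImplicit false
set_option linter.unusedSectionVars false

namespace Crest.Agent.R175.GlU_505

open Crest.Agent.R175.Unf_109 Crest.Agent.R175.UG_27 Crest.Agent.R175.Pos_418
open Crest.Agent.R175.Lev_788 Crest.Agent.R175.FmC_180

variable {S : Type} [Fintype S] {M : CoxeterMatrix S} {Λ : Finset ℕ}

/-- `2 x_a - Σ_b #E(a,b) x_b = (Cu x)_a` -/
theorem mv_card (x : S × J Λ → ℝ) (a : S × J Λ) :
    2 * x a - ∑ b, (Fintype.card ((UG M Λ).E a b) : ℝ) * x b = mv (Cu M Λ) x a := by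
  classical
  unfold mv
  have h1 : ∀ b, Cu M Λ a b * x b
      = (if b = a then 2 * x a else 0) - (Fintype.card ((UG M Λ).E a b) : ℝ) * x b := by
    intro b
    by_cases h : a.1 = b.1
    · have h0 : Fintype.card ((UG M Λ).E a b) = 0 :=
        @Fintype.card_eq_zero _ _ (isEmpty_fibre h)
      rw [h0]
      unfold Cu
      rw [if_pos h]
      by_cases h2 : a.2 = b.2
      · have : b = a := Prod.ext h.symm h2.symm
        subst this
        simp
      · have : b ≠ a := fun h' => h2 (by rw [h'])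
        simp [h2, this]
    · have : b ≠ a := fun h' => h (by rw [h'])
      rw [if_neg this, card_UG_real]
      unfold Cu
      rw [if_neg h]
      ring
  rw [Finset.sum_congr rfl fun b _ => h1 b, Finset.sum_sub_distrib]
  simp


/-- `h ⊗ wt` -/
theorem mv_hwt (hΛ : Good M Λ) (h : S → ℝ) (a : S × J Λ) :
    2 * (h a.1 * wt Λ a.2) - ∑ b, (Fintype.card ((UG M Λ).E a b) : ℝ) * (h b.1 * wt Λ b.2)
      = mv (Cr M) h a.1 * wt Λ a.2 := by
  rw [mv_card (x := fun a => h a.1 * wt Λ a.2)]
  exact mv_wt hΛ h a.1 a.2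

/-- the weights `gam` and `om` -/
theorem exists_gam (hM : PDm (Cr M)) : ∃ c : S → ℝ, (∀ s, 0 < c s) ∧ ∀ s, mv (Cr M) c s = 1 := by
  refine exists_pos_mv_eq_one hM (fun s t hst => ?_)
  exact Num_774.C_nonpos M hst

/-- the frame inequality at all vertices of the unfolded graph from the one at the base points -/
theorem frame_ineq (hΛ : Good M Λ) (L : J Λ → S × J Λ → ℕ)
    (hL : ∀ s j, ∑ i, wt Λ i * (L i (s, j) : ℝ)
      = wt Λ j * ∑ i, wt Λ i * (L i (s, jz hΛ.four) : ℝ))
    (h : S → ℝ)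
    (hh : ∀ s, mv (Cr M) h s ≤ ∑ i, wt Λ i * (L i (s, jz hΛ.four) : ℝ)) (a : S × J Λ) :
    2 * (h a.1 * wt Λ a.2) - ∑ b, (Fintype.card ((UG M Λ).E a b) : ℝ) * (h b.1 * wt Λ b.2)
      ≤ ∑ i, wt Λ i * (L i a : ℝ) := by
  rw [mv_hwt hΛ, show a = (a.1, a.2) from rfl, hL]
  have := mul_le_mul_of_nonneg_right (hh a.1) (wt_pos Λ a.2).le
  linarith


end Crest.Agent.R175.GlU_505
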