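import Crest.Agent.R175.VdL_527

/-!
Row 175 (S0263), TOP part over numbers (proof #2667 of helper224).

`Num M` = the numbers `g s t r = h(E_s, r E_t)` and a family `Ob` of objects `X = (d, lam)`,
`d t r = d_t(r⁻¹ X)`, `lam t`.  `C s t = -2 cos (π / M s t)` (`2` on the diagonal, `-2` for label `∞`).
A vertex is a pair `(t, r)`, `t ∈ T`, `r ∈ A_T` (= coset `r A_{T - t}`).
-/

set_option autoImplicit false
set_option linter.unusedSectionVars false
set_option linter.deprecated false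

namespace Crest.Agent.R175.Num_774

open Crest.GroupTheory

universe u

section Basic

variable {S : Type u} (M : CoxeterMatrix S)

/-- twice the Gram matrix -/
noncomputable def C (s t : S) : ℝ := -2 * Real.cos (Real.pi / (M s t : ℝ))

theorem C_self (s : S) : C M s s = 2 := by
  simp [C]

theorem C_symm (s t : S) : C M s t = C M t s := by
  rw [C, C, M.symmetric]

theorem C_nonpos {s t : S} (h : s ≠ t) : C M s t ≤ 0 := by
  have h1 : M s t ≠ 1 := M.off_diagonal s t h
  have h2 : 0 ≤ Real.cos (Real.pi / (M s t : ℝ)) := by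
    apply Real.cos_nonneg_of_mem_Icc
    constructor
    · have := Real.pi_pos
      have : 0 ≤ Real.pi / (M s t : ℝ) := by positivity
      linarith
    · rcases Nat.eq_zero_or_pos (M s t) with h0 | h0
      · rw [h0]; simp; positivity
      · have h3 : 2 ≤ M s t := by omega
        have h4 : (2 : ℝ) ≤ (M s t : ℝ) := by exact_mod_cast h3
        exact div_le_div_of_nonneg_left Real.pi_pos.le (by norm_num) h4
  rw [C]
  linarith

theorem C_eq_zero {s t : S} (h : s ≠ t) (h0 : C M s t = 0) : M s t = 2 := by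
  have h1 : M s t ≠ 1 := M.off_diagonal s t h
  have h2 : Real.cos (Real.pi / (M s t : ℝ)) = 0 := by
    rw [C] at h0; linarith
  rcases Nat.eq_zero_or_pos (M s t) with h3 | h3
  · rw [h3] at h2; simp at h2
  · by_contra hne
    have h4 : 3 ≤ M s t := by omega
    have h5 : (3 : ℝ) ≤ (M s t : ℝ) := by exact_mod_cast h4
    have h6 : 0 < Real.cos (Real.pi / (M s t : ℝ)) := by
      apply Real.cos_pos_of_mem_Ioo
      constructor
      · have := Real.pi_pos
        have : 0 ≤ Real.pi / (M s t : ℝ) := by positivity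
        linarith
      · have h7 : Real.pi / (M s t : ℝ) ≤ Real.pi / 3 :=
          div_le_div_of_nonneg_left Real.pi_pos.le (by norm_num) h5
        have := Real.pi_pos
        linarith
    linarith


/-- the standard parabolic subgroup -/
abbrev A (T : Set S) : Subgroup (ArtinGroup M) := stdParabolic M T

theorem A_mono {X Y : Set S} (h : X ⊆ Y) : A M X ≤ A M Y :=
  Subgroup.closure_mono (Set.image_mono h)

theorem gen_mem {T : Set S} {s : S} (h : s ∈ T) : artinGen M s ∈ A M T :=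
  Subgroup.subset_closure ⟨s, h, rfl⟩

theorem A_diff_le {T : Set S} (t : S) : A M (T \ {t}) ≤ A M T := A_mono M Set.diff_subset

theorem A_diff_compl {T : Set S} (t : S) : A M (T \ {t}) ≤ A M {t}ᶜ :=
  A_mono M (fun _ hx => hx.2)

theorem A_compl {T : Set S} {u : S} (hu : u ∉ T) : A M T ≤ A M {u}ᶜ :=
  A_mono M (fun _ hx hxu => hu (hxu ▸ hx))

end Basic

section Numbers

variable {S : Type u} [Fintype S]

/-- `C_T` is positive definite -/
def PD (M : CoxeterMatrix S) (T : Set S) : Prop :=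
  ∀ x : S → ℝ, (∀ s, s ∉ T → x s = 0) → x ≠ 0 → 0 < ∑ s, ∑ t, C M s t * x s * x t

open Classical in
/-- `h` on `T`, `d` outside `T` -/
noncomputable def ext (T : Set S) (h d : S → ℝ) : S → ℝ := fun u => if u ∈ T then h u else d u

theorem ext_mem {T : Set S} {h d : S → ℝ} {u : S} (hu : u ∈ T) : ext T h d u = h u := by
  simp [ext, hu]

theorem ext_not {T : Set S} {h d : S → ℝ} {u : S} (hu : u ∉ T) : ext T h d u = d u := by
  simp [ext, hu]

/-- an object: `(d, lam)` with `d t r = d_t(r⁻¹ X)` -/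
abbrev Pre (M : CoxeterMatrix S) := (S → ArtinGroup M → ℝ) × (S → ℝ)

variable {M : CoxeterMatrix S}

/-- the object `r⁻¹ X` -/
def shift (X : Pre M) (r : ArtinGroup M) : Pre M := (fun t x => X.1 t (r * x), X.2)

@[simp] theorem shift_fst (X : Pre M) (r : ArtinGroup M) (t : S) (x : ArtinGroup M) :
    (shift X r).1 t x = X.1 t (r * x) := rfl

@[simp] theorem shift_snd (X : Pre M) (r : ArtinGroup M) : (shift X r).2 = X.2 := rfl

/-- `slk T X h s = lam^T_s(X) - (C_T h)_s` -/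
noncomputable def slk (T : Set S) (X : Pre M) (h : S → ℝ) (s : S) : ℝ :=
  X.2 s - ∑ u, C M s u * ext T h (fun u => X.1 u 1) u

variable (M) in
/-- the numbers -/
structure Num where
  /-- `g s t r = h(E_s, r E_t)` -/
  g : S → S → ArtinGroup M → ℝ
  /-- the objects -/
  Ob : Set (Pre M)
  g_nonneg : ∀ s t r, 0 ≤ g s t r
  g_left : ∀ s t r a, a ∈ A M {s}ᶜ → g s t (a * r) = g s t r
  g_right : ∀ s t r b, b ∈ A M {t}ᶜ → g s t (r * b) = g s t r
  d_nonneg : ∀ X ∈ Ob, ∀ t r, 0 ≤ X.1 t r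
  lam_nonneg : ∀ X ∈ Ob, ∀ t, 0 ≤ X.2 t
  d_inv : ∀ X ∈ Ob, ∀ t r b, b ∈ A M {t}ᶜ → X.1 t (r * b) = X.1 t r
  shift_mem : ∀ X ∈ Ob, ∀ r, shift X r ∈ Ob
  /-- `E_s` -/
  single : ∀ s, ∃ X ∈ Ob, (∀ t r, X.1 t r = g s t r) ∧ 0 < X.2 s
  /-- (K) -/
  K : ∀ T : Set S, PD M T → ∀ t ∈ T, ∀ X ∈ Ob, ∀ h : S → ℝ, (∀ s ∈ T, 0 ≤ h s) →
    h t = X.1 t 1 →
    (∀ t' ∈ T, t' ≠ t → ∀ r' ∈ A M (T \ {t}), h t' ≤ X.1 t' r') →
    (∀ t' ∈ T, t' ≠ t → 0 ≤ slk T X h t') →
    ∀ t' ∈ T, ∀ r' ∈ A M T, h t' + slk T X h t * g t t' r' ≤ X.1 t' r'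
  /-- (Z) for one type -/
  Z : ∀ T : Set S, PD M T → ∀ t ∈ T, ∀ r ∈ A M T, g t t r = 0 → r ∈ A M (T \ {t})

/-- one coordinate steps in the complex of `T` -/
def Adj (T : Set S) (x y : S × ArtinGroup M) : Prop :=
  (x.1 = y.1 ∧ x.2⁻¹ * y.2 ∈ A M (T \ {x.1})) ∨ x.2 = y.2

theorem Adj.symm {T : Set S} {x y : S × ArtinGroup M} (h : Adj T x y) : Adj T y x := by
  rcases h with ⟨h1, h2⟩ | h
  · left
    refine ⟨h1.symm, ?_⟩
    rw [← h1]
    have := (A M (T \ {x.1})).inv_mem h2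
    simpa using this
  · exact Or.inr h.symm

/-- the vertices of the complex of `T` -/
def V (M : CoxeterMatrix S) (T : Set S) : Set (S × ArtinGroup M) := {x | x.1 ∈ T ∧ x.2 ∈ A M T}

/-- the sublevel -/
def U (T : Set S) (X : Pre M) (h : S → ℝ) : Set (S × ArtinGroup M) :=
  {x | x.1 ∈ T ∧ x.2 ∈ A M T ∧ X.1 x.1 x.2 < h x.1}

/-- joined inside `W` -/
def Joined (T : Set S) (W : Set (S × ArtinGroup M)) : S × ArtinGroup M → S × ArtinGroup M → Prop :=
  Relation.ReflTransGen (fun x y => x ∈ W ∧ y ∈ W ∧ Adj T x y)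

theorem Joined.symm {T : Set S} {W : Set (S × ArtinGroup M)} {x y : S × ArtinGroup M}
    (h : Joined T W x y) : Joined T W y x := by
  induction h with
  | refl => exact Relation.ReflTransGen.refl
  | tail _ h' ih => exact Relation.ReflTransGen.head ⟨h'.2.1, h'.1, h'.2.2.symm⟩ ih

theorem Joined.trans {T : Set S} {W : Set (S × ArtinGroup M)} {x y z : S × ArtinGroup M}
    (h : Joined T W x y) (h' : Joined T W y z) : Joined T W x z :=
  Relation.ReflTransGen.trans h h'

theorem Joined.refl {T : Set S} {W : Set (S × ArtinGroup M)} (x : S × ArtinGroup M) :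
    Joined T W x x := Relation.ReflTransGen.refl

theorem Joined.single {T : Set S} {W : Set (S × ArtinGroup M)} {x y : S × ArtinGroup M}
    (hx : x ∈ W) (hy : y ∈ W) (h : Adj T x y) : Joined T W x y :=
  Relation.ReflTransGen.single ⟨hx, hy, h⟩

theorem Joined.mono {T : Set S} {W W' : Set (S × ArtinGroup M)} (hW : W ⊆ W')
    {x y : S × ArtinGroup M} (h : Joined T W x y) : Joined T W' x y := by
  induction h with
  | refl => exact Relation.ReflTransGen.refl
  | tail _ h' ih => exact Relation.ReflTransGen.tail ih ⟨hW h'.1, hW h'.2.1, h'.2.2⟩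

/-- admissible heights (#2667) -/
def Cls (T : Set S) (X : Pre M) (h : S → ℝ) : Prop :=
  ∀ s ∈ T, 0 ≤ h s ∧ (0 < h s → 0 < slk T X h s)

open Classical in
/-- raising one coordinate, staying admissible -/
def Step (T : Set S) (X : Pre M) (h h' : S → ℝ) : Prop :=
  ∃ t ∈ T, ∃ c, h t ≤ c ∧ h' = Function.update h t c ∧ Cls T X h'

variable (M) in
/-- `T` is connected in the Coxeter graph -/
def Connd (T : Set S) : Prop :=
  ∀ P : Set S, P ⊆ T → P.Nonempty → P ≠ T → ∃ s ∈ P, ∃ t ∈ T \ P, C M s t ≠ 0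

variable (M) in
/-- the intersection theorem for `A_T` (strong form) -/
def IntT (T : Set S) : Prop :=
  ∀ X ⊆ T, ∀ Y ⊆ T, ∀ g ∈ A M T, ∃ h ∈ A M X, ∃ Z ⊆ X,
    ∀ x, (x ∈ A M X ∧ g⁻¹ * x * g ∈ A M Y) ↔ h⁻¹ * x * h ∈ A M Z

/-- (U_T) -/
def UT (N : Num M) (T : Set S) : Prop :=
  ∀ X ∈ N.Ob, ∀ h, Cls T X h → ∀ p ∈ U T X h, ∀ q ∈ U T X h, Joined T (U T X h) p q

namespace Num

variable (N : Num M)

theorem d_const {X : Pre M} (hX : X ∈ N.Ob) {T : Set S} {u : S} (hu : u ∉ T)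
    {r : ArtinGroup M} (hr : r ∈ A M T) : X.1 u r = X.1 u 1 := by
  have := N.d_inv X hX u 1 r (A_compl M hu hr)
  simpa using this

theorem slk_shift {X : Pre M} (hX : X ∈ N.Ob) {T : Set S} {r : ArtinGroup M} (hr : r ∈ A M T)
    (h : S → ℝ) (s : S) : slk T (shift X r) h s = slk T X h s := by
  unfold slk
  congr 1
  apply Finset.sum_congr rfl
  intro u _
  congr 1
  by_cases hu : u ∈ T
  · rw [ext_mem hu, ext_mem hu]
  · rw [ext_not hu, ext_not hu]
    simp only [shift_fst, mul_one]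
    exact N.d_const hX hu hr


/-- the slack in the link of `(t, r)` -/
theorem slk_link {X : Pre M} (hX : X ∈ N.Ob) {T : Set S} {t : S} (ht : t ∈ T)
    {r : ArtinGroup M} (hr : r ∈ A M T) (h : S → ℝ) (s : S) :
    slk (T \ {t}) (shift X r) h s = slk T X h s - C M s t * (X.1 t r - h t) := by
  classical
  rw [← N.slk_shift hX hr]
  unfold slk
  have h1 : ∀ u, C M s u * ext (T \ {t}) h (fun u => (shift X r).1 u 1) u
      = C M s u * ext T h (fun u => (shift X r).1 u 1) u
        + if u = t then C M s t * (X.1 t r - h t) else 0 := by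
    intro u
    by_cases hut : u = t
    · subst hut
      rw [ext_not (by simp), ext_mem ht]
      simp
      ring
    · rw [if_neg hut, add_zero]
      congr 1
      by_cases hu : u ∈ T
      · rw [ext_mem (T := T \ {t}) (u := u) ⟨hu, hut⟩, ext_mem hu]
      · rw [ext_not (fun h' => hu h'.1), ext_not hu]
  rw [Finset.sum_congr rfl (fun u _ => h1 u), Finset.sum_add_distrib]
  simp
  ring

/-- **(LINK)** -/
theorem link {X : Pre M} (hX : X ∈ N.Ob) {T : Set S} {t : S} (ht : t ∈ T)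
    {r : ArtinGroup M} (hr : r ∈ A M T) {h : S → ℝ} (hc : Cls T X h) (hd : h t ≤ X.1 t r) :
    Cls (T \ {t}) (shift X r) h := by
  intro s hs
  obtain ⟨h1, h2⟩ := hc s hs.1
  refine ⟨h1, fun h3 => ?_⟩
  rw [N.slk_link hX ht hr]
  have h4 := C_nonpos M (s := s) (t := t) (fun h => hs.2 h)
  have h5 := h2 h3
  nlinarith

end Num

theorem mem_U_link {X : Pre M} {T : Set S} {t : S}
    {r : ArtinGroup M} (hr : r ∈ A M T) {h : S → ℝ} {x : S × ArtinGroup M}
    (hx : x ∈ U (T \ {t}) (shift X r) h) : (x.1, r * x.2) ∈ U T X h :=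
  ⟨hx.1.1, (A M T).mul_mem hr (A_diff_le M t hx.2.1), hx.2.2⟩

theorem mem_link {X : Pre M} {T : Set S} {t s : S} {r a : ArtinGroup M}
    {h : S → ℝ} (hs : s ≠ t) (ha : a ∈ A M (T \ {t})) (hx : (s, r * a) ∈ U T X h) :
    (s, a) ∈ U (T \ {t}) (shift X r) h :=
  ⟨⟨hx.1, hs⟩, ha, hx.2.2⟩

/-- joins in the link are joins -/
theorem joined_link {X : Pre M} {T : Set S} {t : S}
    {r : ArtinGroup M} (hr : r ∈ A M T) {h : S → ℝ} {x y : S × ArtinGroup M}
    (hxy : Joined (T \ {t}) (U (T \ {t}) (shift X r) h) x y) :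
    Joined T (U T X h) (x.1, r * x.2) (y.1, r * y.2) := by
  induction hxy with
  | refl => exact Relation.ReflTransGen.refl
  | @tail y z _ hyz ih =>
    refine ih.trans (Joined.single (mem_U_link hr hyz.1) (mem_U_link hr hyz.2.1) ?_)
    rcases hyz.2.2 with ⟨h1, h2⟩ | h1
    · left
      refine ⟨h1, ?_⟩
      have h3 : (r * y.2)⁻¹ * (r * z.2) = y.2⁻¹ * z.2 := by group
      rw [h3]
      exact A_mono M (Set.diff_subset_diff_left Set.diff_subset) h2
    · right
      show r * y.2 = r * z.2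
      rw [h1]

end Numbers

end Crest.Agent.R175.Num_774
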