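import Crest.Agent.R175.PTH_175
import Crest.Agent.R175.TwH_253
import Crest.Agent.R175.PTR_4
import Crest.Agent.R175.PTB_534

-- ▼ part R175/PTT_4
section

/-!
Row 175 (S0263), block (D): the position operator of a twist `Y = cone (ε : Q_U X → X)`.
-/

set_option autoImplicit false
set_option linter.unusedSectionVars false

open CategoryTheory Crest.Agent.R175.PTA Crest.Agent.R175.PTH Crest.Agent.R175.TwG_253

namespace Crest.Agent.R175.PTT_4

universe v

variable {T : Type v} {G : MG T} {k : Type v} [Field k] [Fintype T]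

noncomputable section

/-! ### the length operator on `Q_U X` -/

/-- `(v₀, m, w, v₂) ↦ (0, m, w, 2 v₂)` -/
def hL (X : Gob G k) (t : T) : HP X t →ₗ[k] HP X t where
  toFun x := (0, x.2.1, x.2.2.1, (2 : k) • x.2.2.2)
  map_add' x y := by
    refine Prod.ext ?_ (Prod.ext ?_ (Prod.ext ?_ ?_))
    · simp
    · rfl
    · rfl
    · simp
  map_smul' c x := by
    refine Prod.ext ?_ (Prod.ext ?_ (Prod.ext ?_ ?_))
    · simp
    · rfl
    · rfl
    · simp [smul_comm c (2 : k)]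

theorem hL_0 {X : Gob G k} {t : T} (x : HP X t) : (hL X t x).1 = 0 := rfl
theorem hL_1 {X : Gob G k} {t : T} (x : HP X t) (s : T) (a : G.E t s) :
    (hL X t x).2.1 s a = x.2.1 s a := rfl
theorem hL_w {X : Gob G k} {t : T} (x : HP X t) : (hL X t x).2.2.1 = x.2.2.1 := rfl
theorem hL_2 {X : Gob G k} {t : T} (x : HP X t) : (hL X t x).2.2.2 = (2 : k) • x.2.2.2 := rfl

/-- derivation property -/
theorem hL_hmap {X Y : Gob G k} (f : X ⟶ Y) (t : T) (x : HP X t) :
    hL Y t (hmap f t x) = hmap (L f) t x + hmap f t (hL X t x) := by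
  apply HP_ext
  · simp only [hL_0, hmap_0, Prod.fst_add, c0_L, LinearMap.zero_apply, map_zero, add_zero]
  · intro s a
    simp only [hL_1, hmap_1, Prod.snd_add, Prod.fst_add, Pi.add_apply, c0_L, c1_L, hL_0,
      LinearMap.zero_apply, map_zero, add_zero, zero_add]
  · simp only [hL_w, hmap_w, Prod.snd_add, Prod.fst_add, cW_L, cj_L, hL_0,
      LinearMap.zero_apply, map_zero, add_zero, zero_add]
  · simp only [hL_2, hmap_2, Prod.snd_add, c0_L, c1_L, ci_L, c2_L, hL_0, hL_1, hL_w,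
      LinearMap.zero_apply, map_zero, add_zero, zero_add, LinearMap.smul_apply, map_smul,
      smul_add]
    simp only [two_smul]
    abel

variable (U : T → Prop)

/-- the length operator of `Q_U X` -/
def lq (X : Gob G k) : QG U X ⟶ QG U X :=
  mkH (fun t => qin U X t ∘ₗ hL X t ∘ₗ qev U X t) (fun _ => 0) (fun _ _ _ => 0) (fun _ => 0)
    (fun _ => 0) (fun _ => 0)

variable {X Y : Gob G k}

theorem c0_lq (t : T) (x : (QG U X).V t) :
    c0 (lq U X) t x = qin U X t (hL X t (qev U X t x)) := rfl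
theorem c1_lq {s t : T} (a : G.E s t) : c1 (lq U X) a = 0 := rfl
theorem ci_lq (t : T) : ci (lq U X) t = 0 := rfl
theorem cj_lq (t : T) : cj (lq U X) t = 0 := rfl
theorem c2_lq (t : T) : c2 (lq U X) t = 0 := rfl

theorem m_lq (f : X ⟶ Y) : mG U f ≫ lq U Y = mG U (L f) + lq U X ≫ mG U f := by
  apply hm_ext
  · intro t; apply LinearMap.ext; intro x
    apply q_ext; intro h
    simp only [c0_comp, c0_add, LinearMap.add_apply, LinearMap.comp_apply, c0_lq, c0_mG,
      map_add, qev_qin h, hL_hmap]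
  · intro t; apply LinearMap.ext; intro x; exact Subsingleton.elim _ _
  · intro s t a; simp [c1_mG, c1_lq]
  · intro t; simp [ci_mG, ci_lq]
  · intro t; simp [cj_mG, cj_lq]
  · intro t; simp [c2_mG, c1_mG, cj_mG, c2_lq, c1_lq, cj_lq]

theorem L_mG (f : X ⟶ Y) : L (mG U f) = 0 := by
  apply hm_ext
  · intro t; rfl
  · intro t; rfl
  · intro s t a; rfl
  · intro t; rfl
  · intro t; rfl
  · intro t; rw [c2_L, c2_mG, smul_zero]; rfl


theorem lq_eps : lq U X ≫ epsG U X = L (epsG U X) := by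
  apply hm_ext
  · intro t; apply LinearMap.ext; intro x
    by_cases h : U t
    · simp only [c0_comp, LinearMap.comp_apply, c0_eps, c0_lq, qev_qin h, hL_0, c0_L,
        LinearMap.zero_apply]
    · rw [q_zero h x, map_zero, map_zero]
  · intro t; apply LinearMap.ext; intro x
    rw [Subsingleton.elim x 0, map_zero, map_zero]
  · intro s t a; apply LinearMap.ext; intro x
    by_cases h : U s
    · simp only [c1_comp, LinearMap.add_apply, LinearMap.comp_apply, c1_eps, c0_lq, c1_lq,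
        qev_qin h, hL_1, c1_L, LinearMap.zero_apply, map_zero, add_zero]
    · rw [q_zero h x, map_zero, map_zero]
  · intro t; apply LinearMap.ext; intro x
    rw [Subsingleton.elim x 0, map_zero, map_zero]
  · intro t; apply LinearMap.ext; intro x
    by_cases h : U t
    · simp only [cj_comp, LinearMap.add_apply, LinearMap.comp_apply, cj_eps, c0_lq, cj_lq,
        qev_qin h, hL_w, cj_L, LinearMap.zero_apply, map_zero, add_zero]
    · rw [q_zero h x, map_zero, map_zero]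
  · intro t; apply LinearMap.ext; intro x
    by_cases h : U t
    · simp only [c2_comp, LinearMap.add_apply, LinearMap.comp_apply, LinearMap.sum_apply,
        c2_eps, c0_lq, c1_lq, c2_lq, cj_lq, qev_qin h, hL_2, c2_L, LinearMap.smul_apply,
        LinearMap.zero_apply, map_zero, add_zero, Finset.sum_const_zero]
    · rw [q_zero h x, map_zero, map_zero]

/-! ### the twist, as a relation of TObs -/

/-- `Y` is the cone of `ε : Q_U X → X`, on a direct sum given by maps of length `0`. -/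
structure ConeOf (U : T → Prop) (X Y : TOb G k) where
  inl : QG U X.X ⟶ Y.X
  inr : X.X ⟶ Y.X
  fst : Y.X ⟶ QG U X.X
  snd : Y.X ⟶ X.X
  inl_fst : inl ≫ fst = 𝟙 _
  inl_snd : inl ≫ snd = 0
  inr_fst : inr ≫ fst = 0
  inr_snd : inr ≫ snd = 𝟙 _
  total : fst ≫ inl + snd ≫ inr = 𝟙 _
  L_inl : L inl = 0
  L_inr : L inr = 0
  L_fst : L fst = 0
  L_snd : L snd = 0
  d_inl : inl ≫ Y.d = -(mG U X.d ≫ inl) + epsG U X.X ≫ inr
  d_inr : inr ≫ Y.d = X.d ≫ inr
  g_inl : inl ≫ gam Y.X = -(mG U (gam X.X) ≫ inl)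
  g_inr : inr ≫ gam Y.X = gam X.X ≫ inr

attribute [reassoc (attr := simp)] ConeOf.inl_fst ConeOf.inl_snd ConeOf.inr_fst ConeOf.inr_snd
attribute [reassoc] ConeOf.d_inl ConeOf.d_inr ConeOf.g_inl ConeOf.g_inr

namespace ConeOf

variable {U} {X Y : TOb G k} (C : ConeOf U X Y)

include C in
theorem ext {Z : Gob G k} {f g : Y.X ⟶ Z} (h1 : C.inl ≫ f = C.inl ≫ g)
    (h2 : C.inr ≫ f = C.inr ≫ g) : f = g := by
  rw [← Category.id_comp f, ← Category.id_comp g, ← C.total, Preadditive.add_comp,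
    Preadditive.add_comp, Category.assoc, Category.assoc, Category.assoc, Category.assoc, h1, h2]

/-- the position operator of the cone -/
def pY (p : X.X ⟶ X.X) : Y.X ⟶ Y.X :=
  C.fst ≫ (mG U p + lq U X.X - 𝟙 _) ≫ C.inl + C.snd ≫ p ≫ C.inr

@[reassoc] theorem inl_pY (p : X.X ⟶ X.X) :
    C.inl ≫ C.pY p = (mG U p + lq U X.X - 𝟙 _) ≫ C.inl := by
  simp [pY, Preadditive.comp_add]

@[reassoc] theorem inr_pY (p : X.X ⟶ X.X) : C.inr ≫ C.pY p = p ≫ C.inr := by
  simp [pY, Preadditive.comp_add]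

theorem L_dY : L Y.d = C.fst ≫ L (epsG U X.X) ≫ C.inr + C.snd ≫ L X.d ≫ C.inr := by
  apply C.ext
  · have h := congrArg L C.d_inl
    rw [L_comp, C.L_inl, Limits.zero_comp, zero_add, map_add, map_neg, L_comp, L_comp, L_mG,
      C.L_inl, C.L_inr, Limits.zero_comp, Limits.comp_zero, Limits.comp_zero, zero_add, neg_zero,
      zero_add, add_zero] at h
    rw [h]
    simp [Preadditive.comp_add]
  · have h := congrArg L C.d_inr
    rw [L_comp, C.L_inr, Limits.zero_comp, zero_add, L_comp, C.L_inr, Limits.comp_zero,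
      add_zero] at h
    rw [h]
    simp [Preadditive.comp_add]

theorem bar_pY {p : X.X ⟶ X.X} (hp : bar p = p) : bar (C.pY p) = C.pY p := by
  have hg : L (gam X.X) = 0 := by
    apply hm_ext <;> intros <;> simp
  have h1 : mG U (gam X.X) ≫ lq U X.X = lq U X.X ≫ mG U (gam X.X) := by
    rw [m_lq, hg]
    have : mG U (0 : X.X ⟶ X.X) = 0 := by
      have h := m_add U (0 : X.X ⟶ X.X) 0
      rw [add_zero] at h
      exact left_eq_add.1 h
    rw [this, zero_add]
  have h2 : mG U (gam X.X) ≫ mG U (gam X.X) = 𝟙 _ := by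
    rw [← m_comp, gam_gam, m_id]
  have h3 : mG U (gam X.X) ≫ mG U p ≫ mG U (gam X.X) = mG U p := by
    rw [← m_comp, ← m_comp]
    exact congrArg (mG U) hp
  apply C.ext
  · rw [bar, C.g_inl_assoc, Preadditive.neg_comp, Category.assoc, C.inl_pY_assoc, C.inl_pY,
      C.g_inl]
    simp only [Preadditive.comp_neg, neg_neg, Preadditive.add_comp, Preadditive.sub_comp,
      Preadditive.comp_add, Preadditive.comp_sub, Category.assoc, Category.id_comp]
    rw [← Category.assoc (mG U (gam X.X)) (lq U X.X), h1, Category.assoc,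
      ← Category.assoc (mG U (gam X.X)) (mG U (gam X.X)), h2, Category.id_comp]
    have h4 := congrArg (fun z => z ≫ C.inl) h3
    simp only [Category.assoc] at h4
    rw [h4]
  · rw [bar, C.g_inr_assoc, C.inr_pY_assoc, C.inr_pY, C.g_inr]
    have h4 := congrArg (fun z => z ≫ C.inr) hp
    simp only [bar, Category.assoc] at h4
    exact h4

theorem eul {p : X.X ⟶ X.X} (hp : Eul X p) : Eul Y (C.pY p) := by
  have hb := C.bar_pY hp.bar
  refine ⟨?_, hb, ?_⟩
  · intro t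
    apply LinearMap.ext; intro x
    have h1 : cW p t = 0 := hp.mem t
    simp only [pY, cW_add, cW_comp, LinearMap.add_apply, LinearMap.comp_apply, h1,
      LinearMap.zero_apply, map_zero, add_zero]
    rw [Subsingleton.elim ((cW (mG U p + lq U X.X - 𝟙 (QG U X.X)) t) ((cW C.fst t) x)) 0,
      map_zero]
  · rw [D_apply, hb, C.L_dY]
    have hD : p ≫ X.d - X.d ≫ p = L X.d - X.d := by
      have := hp.D
      rw [D_apply, hp.bar] at this
      exact this
    have h5 : mG U p ≫ mG U X.d - mG U X.d ≫ mG U p = mG U (L X.d) - mG U X.d := by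
      have h6 : mG U (p ≫ X.d - X.d ≫ p) = mG U (L X.d - X.d) := by rw [hD]
      have hsub : ∀ f g : X.X ⟶ X.X, mG U (f - g) = mG U f - mG U g := by
        intro f g
        rw [eq_sub_iff_add_eq, ← m_add, sub_add_cancel]
      rw [hsub, hsub, m_comp, m_comp] at h6
      exact h6
    apply C.ext
    · rw [Preadditive.comp_sub, C.inl_pY_assoc, C.d_inl_assoc, C.d_inl, Preadditive.add_comp,
        Preadditive.neg_comp, Category.assoc, Category.assoc, C.inl_pY, C.inr_pY]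
      have h7 := m_lq U X.d
      have h8 := lq_eps U (X := X.X)
      have h9 := eps_nat U p
      simp only [Preadditive.comp_neg, Preadditive.neg_comp, Preadditive.add_comp,
        Preadditive.sub_comp, Preadditive.comp_add, Preadditive.comp_sub, Category.assoc,
        Category.id_comp, C.inl_fst_assoc, C.inl_snd_assoc, Limits.zero_comp, add_zero]
      have e5 := congrArg (fun z => z ≫ C.inl) h5
      have e7 := congrArg (fun z => z ≫ C.inl) h7
      have e8 := congrArg (fun z => z ≫ C.inr) h8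
      have e9 := congrArg (fun z => z ≫ C.inr) h9
      simp only [Preadditive.sub_comp, Preadditive.add_comp, Category.assoc] at e5 e7 e8 e9
      rw [C.d_inl, e8, e9]
      rw [sub_eq_iff_eq_add] at e5
      rw [e5, e7]
      abel
    · rw [Preadditive.comp_sub, C.inr_pY_assoc, C.d_inr_assoc, C.d_inr, C.inr_pY]
      simp only [Preadditive.comp_add, Preadditive.comp_sub, C.inr_fst_assoc, C.inr_snd_assoc,
        Limits.zero_comp, zero_add]
      rw [C.d_inr]
      have e := congrArg (fun z => z ≫ C.inr) hD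
      simp only [Preadditive.sub_comp, Category.assoc] at e
      exact e

end ConeOf

end

end Crest.Agent.R175.PTT_4
end

-- ▼ part R175/PTU_4
section

/-!
Row 175 (S0263), block (D): the exact triangle of the twist.
`QMof X p` : cohomology data of a TOb with position operator;
`ConeOf.td` : `TD {t | U t} (QMof X p) (QMof Y (pY p))` for `Y = cone (ε : Q_U X → X)`.
-/

set_option autoImplicit false
set_option linter.unusedSectionVars false

open CategoryTheory Crest.Agent.R175.PTA Crest.Agent.R175.PTH Crest.Agent.R175.TwG_253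
open Crest.Agent.R175.PTQ_4

namespace Crest.Agent.R175.PTT_4

universe u v

noncomputable section

section QM

variable {T : Type u} {G : MG T} {k : Type v} [Field k] [Fintype T]

/-- cohomology data of a TOb with a position operator -/
abbrev QMof (X : TOb G k) {p : X.X ⟶ X.X} (hp : Eul X p) : QM G k where
  H t := Hv X t
  W t := X.X.W t
  A t := Hp hp t
  B _ _ a := HB X a
  i t := Hi X t
  j t := Hj X t
  AB _ _ a v := Hp_HB hp a v
  Ai t w := Hp_Hi hp t w
  jA t v := Hj_Hp hp t v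
  MC t v := Hmc X t v

variable {X : TOb G k} {p : X.X ⟶ X.X} {hp : Eul X p}

theorem closed_sum {s : T} (y : ∀ t, G.E s t → X.X.V t) (hy : ∀ t a, c0 X.d t (y t a) = 0)
    (w : X.X.W s) :
    c0 X.d s (∑ t, ∑ a : G.E s t, c1 X.d (G.rev a) (y t a) + ci X.d s w) = 0 := by
  rw [map_add, map_sum, ddi, add_zero]
  refine Finset.sum_eq_zero fun t _ => ?_
  rw [map_sum]
  refine Finset.sum_eq_zero fun a _ => ?_
  have h := dd1 X (G.rev a) (y t a)
  rw [hy, map_zero, zero_add] at h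
  exact h

theorem sum_mk {s : T} (y : ∀ t, G.E s t → X.X.V t) (hy : ∀ t a, c0 X.d t (y t a) = 0)
    (w : X.X.W s) :
    ∑ t, ∑ a : G.E s t, HB X (G.rev a) (mk X t (y t a) (hy t a)) + Hi X s w =
      mk X s (∑ t, ∑ a : G.E s t, c1 X.d (G.rev a) (y t a) + ci X.d s w) (closed_sum y hy w) := by
  have h0 : ∀ t (a : G.E s t), c0 X.d s (c1 X.d (G.rev a) (y t a)) = 0 := by
    intro t a
    have h := dd1 X (G.rev a) (y t a)
    rw [hy, map_zero, zero_add] at h
    exact h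
  let z : LinearMap.ker (c0 X.d s) := (∑ t, ∑ a : G.E s t,
    (⟨c1 X.d (G.rev a) (y t a), LinearMap.mem_ker.2 (h0 t a)⟩ : LinearMap.ker (c0 X.d s))) +
      ⟨ci X.d s w, LinearMap.mem_ker.2 (ddi X s _)⟩
  have h3 : ∑ t, ∑ a : G.E s t, HB X (G.rev a) (mk X t (y t a) (hy t a)) + Hi X s w =
      mkL X s z := by
    rw [map_add, map_sum]
    simp only [map_sum]
    rfl
  have hz : (z : X.X.V s) = ∑ t, ∑ a : G.E s t, c1 X.d (G.rev a) (y t a) + ci X.d s w := by
    simp only [z, Submodule.coe_add, Submodule.coe_sum]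
  rw [h3, mkL_eq]
  exact mk_congr X _ hz

/-- membership in `im b_s`, on cocycles -/
theorem mem_imB_iff {s : T} {v : X.X.V s} (hv : c0 X.d s v = 0) :
    mk X s v hv ∈ (QMof X hp).imB s ↔ ∃ (y : ∀ t, G.E s t → X.X.V t) (w : X.X.W s)
      (z : X.X.V s), (∀ t a, c0 X.d t (y t a) = 0) ∧
      ∑ t, ∑ a : G.E s t, c1 X.d (G.rev a) (y t a) + ci X.d s w + c0 X.d s z = v := by
  rw [← TD.range_bS, LinearMap.mem_range]
  constructor
  · rintro ⟨⟨m, w⟩, hm⟩
    have h1 : ∀ t a, ∃ x, ∃ hx : c0 X.d t x = 0, mk X t x hx = m t a := fun t a =>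
      mk_surj X (m t a)
    choose y hy hym using h1
    rw [TD.bS_apply] at hm
    change ∑ t, ∑ a : G.E s t, HB X (G.rev a) (m t a) + Hi X s w = _ at hm
    have h2 : ∑ t, ∑ a : G.E s t, HB X (G.rev a) (mk X t (y t a) (hy t a)) + Hi X s w =
        mk X s v hv := by
      rw [← hm]
      congr 1
      exact Finset.sum_congr rfl fun t _ => Finset.sum_congr rfl fun a _ => by rw [hym]
    rw [sum_mk, eq_comm, mk_eq_iff] at h2
    obtain ⟨z, hz⟩ := h2
    exact ⟨y, w, z, hy, by rw [hz]; abel⟩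
  · rintro ⟨y, w, z, hy, h⟩
    refine ⟨(fun t a => mk X t (y t a) (hy t a), w), ?_⟩
    rw [TD.bS_apply]
    change ∑ t, ∑ a : G.E s t, HB X (G.rev a) (mk X t (y t a) (hy t a)) + Hi X s w = _
    rw [sum_mk, eq_comm, mk_eq_iff]
    exact ⟨z, by rw [← h]; abel⟩

end QM

/-! ### coordinates of the cone -/

section Cone

variable {T : Type v} {G : MG T} {k : Type v} [Field k] [Fintype T] {U : T → Prop}
  {X Y : TOb G k} (C : ConeOf U X Y)

namespace ConeOf

theorem comp0 {A B : Gob G k} {f g : A ⟶ B} (h : f = g) (t : T) (x : A.V t) :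
    c0 f t x = c0 g t x := by rw [h]

/-- `L f = 0` kills the length 1 parts -/
theorem c1_of_L {A B : Gob G k} {f : A ⟶ B} (h : L f = 0) {s t : T} (a : G.E s t) :
    c1 f a = 0 := by
  have := congrArg (fun g => c1 g a) h
  exact this

theorem ci_of_L {A B : Gob G k} {f : A ⟶ B} (h : L f = 0) (t : T) : ci f t = 0 := by
  have := congrArg (fun g => ci g t) h
  exact this

theorem cj_of_L {A B : Gob G k} {f : A ⟶ B} (h : L f = 0) (t : T) : cj f t = 0 := by
  have := congrArg (fun g => cj g t) h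
  exact this

/-- the coordinate inclusion of `Hom(P_t, X)` -/
def ι (t : T) : HP X.X t →ₗ[k] Y.X.V t := c0 C.inl t ∘ₗ qin U X.X t

/-- the coordinate inclusion of `X` -/
def ρ (t : T) : X.X.V t →ₗ[k] Y.X.V t := c0 C.inr t

theorem ρ_apply {t : T} (v : X.X.V t) : C.ρ t v = c0 C.inr t v := rfl
theorem ι_apply {t : T} (w : HP X.X t) : C.ι t w = c0 C.inl t (qin U X.X t w) := rfl

theorem decomp {t : T} (y : Y.X.V t) :
    ∃ (w : HP X.X t) (v : X.X.V t), y = C.ι t w + C.ρ t v := by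
  refine ⟨qev U X.X t (c0 C.fst t y), c0 C.snd t y, ?_⟩
  rw [ι_apply, qin_qev, ρ_apply]
  have h := comp0 C.total t y
  simp only [c0_add, c0_comp, LinearMap.add_apply, LinearMap.comp_apply, c0_id,
    LinearMap.id_apply] at h
  exact h.symm

theorem ι_zero {t : T} (h : ¬ U t) (w : HP X.X t) : C.ι t w = 0 := by
  rw [ι_apply, q_zero h (qin U X.X t w), map_zero]

theorem inj {t : T} (h : U t) {w : HP X.X t} {v : X.X.V t} (e : C.ι t w + C.ρ t v = 0) :
    w = 0 ∧ v = 0 := by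
  constructor
  · have h1 := congrArg (c0 C.fst t) e
    rw [map_add, map_zero, ι_apply, ρ_apply] at h1
    have h2 := comp0 C.inl_fst t (qin U X.X t w)
    have h3 := comp0 C.inr_fst t v
    simp only [c0_comp, LinearMap.comp_apply, c0_id, LinearMap.id_apply, c0_zero,
      LinearMap.zero_apply] at h2 h3
    rw [h2, h3, add_zero] at h1
    rw [← qev_qin h w, h1, map_zero]
  · have h1 := congrArg (c0 C.snd t) e
    rw [map_add, map_zero, ι_apply, ρ_apply] at h1
    have h2 := comp0 C.inl_snd t (qin U X.X t w)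
    have h3 := comp0 C.inr_snd t v
    simp only [c0_comp, LinearMap.comp_apply, c0_id, LinearMap.id_apply, c0_zero,
      LinearMap.zero_apply] at h2 h3
    rw [h2, h3, zero_add] at h1
    exact h1

theorem ρ_inj {t : T} {v : X.X.V t} (e : C.ρ t v = 0) : v = 0 := by
  have h3 := comp0 C.inr_snd t v
  simp only [c0_comp, LinearMap.comp_apply, c0_id, LinearMap.id_apply] at h3
  rw [← h3, ← ρ_apply, e, map_zero]

theorem d_ι {t : T} (w : HP X.X t) :
    c0 Y.d t (C.ι t w) = -C.ι t (hmap X.d t (qev U X.X t (qin U X.X t w))) +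
      C.ρ t (qev U X.X t (qin U X.X t w)).1 := by
  have h := comp0 C.d_inl t (qin U X.X t w)
  simp only [c0_comp, LinearMap.comp_apply, c0_add, c0_neg, LinearMap.add_apply,
    LinearMap.neg_apply, c0_mG, c0_eps] at h
  exact h

theorem d_ι' {t : T} (h : U t) (w : HP X.X t) :
    c0 Y.d t (C.ι t w) = -C.ι t (hmap X.d t w) + C.ρ t w.1 := by
  rw [d_ι, qev_qin h]

theorem d_ρ {t : T} (v : X.X.V t) : c0 Y.d t (C.ρ t v) = C.ρ t (c0 X.d t v) := by
  have h := comp0 C.d_inr t v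
  simp only [c0_comp, LinearMap.comp_apply] at h
  exact h

theorem B_ι {s t : T} (h : U s) (a : G.E s t) (w : HP X.X s) :
    c1 Y.d a (C.ι s w) = C.ρ t (w.2.1 t a) := by
  have h1 := congrArg (fun g => c1 g a (qin U X.X s w)) C.d_inl
  simp only [c1_comp, LinearMap.comp_apply, c1_add, c1_neg, LinearMap.add_apply,
    LinearMap.neg_apply, c1_of_L C.L_inl, c1_of_L C.L_inr, c1_mG, c1_eps, LinearMap.zero_apply,
    map_zero, add_zero, zero_add, neg_zero, qev_qin h] at h1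
  exact h1

theorem B_ρ {s t : T} (a : G.E s t) (v : X.X.V s) :
    c1 Y.d a (C.ρ s v) = C.ρ t (c1 X.d a v) := by
  have h1 := congrArg (fun g => c1 g a v) C.d_inr
  simp only [c1_comp, LinearMap.comp_apply, LinearMap.add_apply,
    c1_of_L C.L_inr, LinearMap.zero_apply, map_zero, add_zero, zero_add] at h1
  exact h1

theorem j_ι {t : T} (h : U t) (w : HP X.X t) :
    cj Y.d t (C.ι t w) = cW C.inr t w.2.2.1 := by
  have h1 := congrArg (fun g => cj g t (qin U X.X t w)) C.d_inl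
  simp only [cj_comp, LinearMap.comp_apply, cj_add, cj_neg, LinearMap.add_apply,
    LinearMap.neg_apply, cj_of_L C.L_inl, cj_of_L C.L_inr, cj_mG, cj_eps, LinearMap.zero_apply,
    map_zero, add_zero, zero_add, neg_zero, qev_qin h, Y.dW] at h1
  exact h1

theorem j_ρ {t : T} (v : X.X.V t) : cj Y.d t (C.ρ t v) = cW C.inr t (cj X.d t v) := by
  have h1 := congrArg (fun g => cj g t v) C.d_inr
  simp only [cj_comp, LinearMap.comp_apply, LinearMap.add_apply,
    cj_of_L C.L_inr, LinearMap.zero_apply, map_zero, add_zero, zero_add, Y.dW] at h1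
  exact h1

theorem i_ω {t : T} (w : X.X.W t) : ci Y.d t (cW C.inr t w) = C.ρ t (ci X.d t w) := by
  have h1 := congrArg (fun g => ci g t w) C.d_inr
  simp only [ci_comp, LinearMap.comp_apply, LinearMap.add_apply,
    ci_of_L C.L_inr, LinearMap.zero_apply, map_zero, add_zero, zero_add, X.dW] at h1
  exact h1

theorem pY_ι {t : T} (h : U t) (p : X.X ⟶ X.X) (w : HP X.X t) :
    c0 (C.pY p) t (C.ι t w) = C.ι t (hmap p t w + hL X.X t w - w) := by
  have h1 := comp0 (C.inl_pY p) t (qin U X.X t w)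
  simp only [c0_comp, LinearMap.comp_apply, c0_add, c0_sub, LinearMap.add_apply,
    LinearMap.sub_apply, c0_mG, c0_lq, c0_id, LinearMap.id_apply, qev_qin h] at h1
  rw [ι_apply, ι_apply, h1, map_sub (qin U X.X t), map_add (qin U X.X t)]

theorem pY_ρ {t : T} (p : X.X ⟶ X.X) (v : X.X.V t) :
    c0 (C.pY p) t (C.ρ t v) = C.ρ t (c0 p t v) := by
  have h1 := comp0 (C.inr_pY p) t v
  simp only [c0_comp, LinearMap.comp_apply] at h1
  exact h1

/-- the frames -/
def ω (t : T) : X.X.W t ≃ₗ[k] Y.X.W t :=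
  LinearEquiv.ofLinearMap (cW C.inr t) (cW C.snd t)
    (by
      have h1 := congrArg (fun g => cW g t) C.total
      simp only [cW_add, cW_comp, cW_id] at h1
      have h2 : cW C.fst t = 0 := by
        apply LinearMap.ext; intro x; exact Subsingleton.elim _ _
      rw [h2, LinearMap.comp_zero, zero_add] at h1
      exact h1)
    (by
      have h1 := congrArg (fun g => cW g t) C.inr_snd
      simpa only [cW_comp, cW_id] using h1)

theorem ω_apply {t : T} (w : X.X.W t) : C.ω t w = cW C.inr t w := rfl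

theorem closed_inr : D X Y C.inr = 0 := by
  have hb : bar C.inr = C.inr := by
    rw [bar, C.g_inr, ← Category.assoc, gam_gam, Category.id_comp]
  rw [D_apply, hb, C.d_inr, sub_self]

/-- `κ` at the vertices of `U` -/
def κ1 {t : T} (h : U t) : Hv X t →ₗ[k] Hv Y t :=
  mapG (C.ι t ∘ₗ i2 X.X t)
    (fun x hx => by
      rw [LinearMap.comp_apply, C.d_ι' h, hmap_i2, hx, map_zero, map_zero, neg_zero, i2_0,
        map_zero, add_zero])
    (fun y => ⟨-C.ι t (i2 X.X t y), by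
      rw [LinearMap.comp_apply, map_neg, C.d_ι' h, hmap_i2, i2_0, map_zero, add_zero, neg_neg]⟩)


theorem d_ρ0 {t : T} {x : X.X.V t} (hx : c0 X.d t x = 0) : c0 Y.d t (C.ρ t x) = 0 := by
  rw [d_ρ, hx, map_zero]

open Classical in
/-- `κ` -/
def κ (t : T) : Hv X t →ₗ[k] Hv Y t :=
  if h : U t then C.κ1 h else Hmap C.inr C.closed_inr t

theorem κ_of {t : T} (h : U t) : C.κ t = C.κ1 h := by
  unfold κ; rw [dif_pos h]

theorem κ_not {t : T} (h : ¬ U t) : C.κ t = Hmap C.inr C.closed_inr t := by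
  unfold κ; rw [dif_neg h]

theorem κ_not_mk {t : T} (h : ¬ U t) (x : X.X.V t) (hx : c0 X.d t x = 0) :
    C.κ t (PTH.mk X t x hx) = PTH.mk Y t (C.ρ t x) (C.d_ρ0 hx) := by
  rw [C.κ_not h]; rfl

theorem κ_of_mk {t : T} (h : U t) (x : X.X.V t) (hx : c0 X.d t x = 0) :
    C.κ t (PTH.mk X t x hx) = PTH.mk Y t (C.ι t (i2 X.X t x)) (by
      rw [C.d_ι' h, hmap_i2, hx, map_zero, map_zero, neg_zero, i2_0,
        map_zero, add_zero]) := by
  rw [C.κ_of h]; rfl

/-- outside `U` every element comes from `X` -/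
theorem eq_ρ {t : T} (h : ¬ U t) (y : Y.X.V t) : ∃ v, y = C.ρ t v := by
  obtain ⟨w, v, rfl⟩ := C.decomp y
  exact ⟨v, by rw [C.ι_zero h, zero_add]⟩

theorem κ_bij {t : T} (h : ¬ U t) : Function.Bijective (C.κ t) := by
  constructor
  · rw [injective_iff_map_eq_zero]
    intro ξ hξ
    obtain ⟨x, hx, rfl⟩ := mk_surj X ξ
    rw [C.κ_not_mk h, mk_eq_zero] at hξ
    obtain ⟨y, hy⟩ := hξ
    obtain ⟨v, rfl⟩ := C.eq_ρ h y
    rw [mk_eq_zero]
    refine ⟨v, ?_⟩
    rw [d_ρ, ← sub_eq_zero, ← map_sub] at hy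
    exact sub_eq_zero.1 (C.ρ_inj hy)
  · intro ξ
    obtain ⟨y, hy, rfl⟩ := mk_surj Y ξ
    obtain ⟨v, rfl⟩ := C.eq_ρ h y
    have hv : c0 X.d t v = 0 := by
      rw [d_ρ] at hy
      exact C.ρ_inj hy
    exact ⟨PTH.mk X t v hv, C.κ_not_mk h v hv⟩

/-- a cocycle of the cone at a vertex of `U` -/
theorem closed_iff {t : T} (h : U t) (w : HP X.X t) (v : X.X.V t) :
    c0 Y.d t (C.ι t w + C.ρ t v) = 0 ↔ hmap X.d t w = 0 ∧ w.1 + c0 X.d t v = 0 := by
  rw [map_add, C.d_ι' h, C.d_ρ]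
  constructor
  · intro e
    have e' : C.ι t (-hmap X.d t w) + C.ρ t (w.1 + c0 X.d t v) = 0 := by
      rw [map_neg, map_add, ← add_assoc]; exact e
    obtain ⟨h1, h2⟩ := C.inj h e'
    exact ⟨neg_eq_zero.1 h1, h2⟩
  · rintro ⟨h1, h2⟩
    rw [h1, map_zero, neg_zero, zero_add, ← map_add, h2, map_zero]

/-- the components of `hmap d w = 0` -/
theorem hmap_eq_zero {t : T} {w : HP X.X t} (h : hmap X.d t w = 0) :
    c0 X.d t w.1 = 0 ∧ (∀ s a, c1 X.d a w.1 + c0 X.d s (w.2.1 s a) = 0) ∧ cj X.d t w.1 = 0 ∧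
      c2 X.d t w.1 + (∑ s, ∑ a : G.E t s, c1 X.d (G.rev a) (w.2.1 s a)) + ci X.d t w.2.2.1
      + c0 X.d t w.2.2.2 = 0 := by
  refine ⟨congrArg Prod.fst h, fun s a => ?_, ?_, ?_⟩
  · exact congrFun (congrFun (congrArg (fun x => x.2.1) h) s) a
  · have h1 := congrArg (fun x => x.2.2.1) h
    simp only [hmap_w, X.dW, LinearMap.zero_apply, add_zero] at h1
    exact h1
  · exact congrArg (fun x => x.2.2.2) h

end ConeOf

end Cone

end

end Crest.Agent.R175.PTT_4
end

-- ▼ part R175/PTV_4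
section

/-!
Row 175 (S0263), block (D): `ConeOf.td`, the exact triangle of the twist
`H(M_s) → H(X)_s → H(Y)_s → H(M_s)`, `Y = cone (ε : Q_U X → X)`.
-/

set_option autoImplicit false
set_option linter.unusedSectionVars false

open CategoryTheory Crest.Agent.R175.PTA Crest.Agent.R175.PTH Crest.Agent.R175.TwG_253
open Crest.Agent.R175.PTQ_4

namespace Crest.Agent.R175.PTT_4

universe u v

noncomputable section

variable {T : Type v} {G : MG T} {k : Type v} [Field k] [Fintype T] {U : T → Prop}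
  {X Y : TOb G k} (C : ConeOf U X Y) {p : X.X ⟶ X.X} (hp : Eul X p)

namespace ConeOf

/-- an element of `Hom(P_t, X)` -/
abbrev el {t : T} (x0 : X.X.V t) (m : ∀ s, G.E t s → X.X.V s) (w : X.X.W t) (x2 : X.X.V t) :
    HP X.X t := (x0, m, w, x2)


theorem hmap_el {t : T} (x0 : X.X.V t) (m : ∀ s, G.E t s → X.X.V s) (w : X.X.W t)
    (x2 : X.X.V t) : hmap X.d t (el x0 m w x2) =
      el (c0 X.d t x0) (fun s a => c1 X.d a x0 + c0 X.d s (m s a)) (cj X.d t x0)
        (c2 X.d t x0 + (∑ s, ∑ a : G.E t s, c1 X.d (G.rev a) (m s a)) + ci X.d t w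
          + c0 X.d t x2) := by
  apply HP_ext
  · rfl
  · intro s a; rfl
  · simp only [hmap_w, X.dW, LinearMap.zero_apply, add_zero]
  · rfl


/-- `dB = -Bd` -/
theorem dB {s t : T} (a : G.E s t) (x : X.X.V s) :
    c0 X.d t (c1 X.d a x) = -c1 X.d a (c0 X.d s x) := by
  have := dd1 X a x
  rw [add_comm] at this
  exact eq_neg_of_add_eq_zero_left this

/-- `∑ B B + i j = -(e d + d e)` -/
theorem BBij {t : T} (x : X.X.V t) :
    (∑ s, ∑ a : G.E t s, c1 X.d (G.rev a) (c1 X.d a x)) + ci X.d t (cj X.d t x) =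
      -(c2 X.d t (c0 X.d t x) + c0 X.d t (c2 X.d t x)) := by
  have := dd2 X t x
  rw [add_assoc, add_comm] at this
  exact eq_neg_of_add_eq_zero_left this

theorem sum_d {s : T} (y : ∀ t, G.E s t → X.X.V t) :
    (∑ t, ∑ a : G.E s t, c1 X.d (G.rev a) (c0 X.d t (y t a))) =
      -c0 X.d s (∑ t, ∑ a : G.E s t, c1 X.d (G.rev a) (y t a)) := by
  rw [map_sum, ← Finset.sum_neg_distrib]
  refine Finset.sum_congr rfl fun t _ => ?_
  rw [map_sum, ← Finset.sum_neg_distrib]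
  refine Finset.sum_congr rfl fun a _ => ?_
  rw [dB, neg_neg]

theorem sum_add {s : T} (y y' : ∀ t, G.E s t → X.X.V t) :
    (∑ t, ∑ a : G.E s t, c1 X.d (G.rev a) (y t a + y' t a)) =
      (∑ t, ∑ a : G.E s t, c1 X.d (G.rev a) (y t a)) +
        ∑ t, ∑ a : G.E s t, c1 X.d (G.rev a) (y' t a) := by
  simp only [map_add, Finset.sum_add_distrib]

theorem sum_neg {s : T} (y : ∀ t, G.E s t → X.X.V t) :
    (∑ t, ∑ a : G.E s t, c1 X.d (G.rev a) (-(y t a))) =
      -(∑ t, ∑ a : G.E s t, c1 X.d (G.rev a) (y t a)) := by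
  simp only [map_neg, Finset.sum_neg_distrib]

/-- `ker κ = im b` -/
theorem ker_κ {s : T} (hs : U s) (ξ : Hv X s) : C.κ s ξ = 0 ↔ ξ ∈ (QMof X hp).imB s := by
  obtain ⟨v, hv, rfl⟩ := mk_surj X ξ
  rw [C.κ_of_mk hs, mk_eq_zero, mem_imB_iff]
  constructor
  · rintro ⟨z, hz⟩
    obtain ⟨w, x, rfl⟩ := C.decomp z
    rw [map_add, C.d_ι' hs, C.d_ρ] at hz
    have e' : C.ι s (-hmap X.d s w - i2 X.X s v) + C.ρ s (w.1 + c0 X.d s x) = 0 := by
      rw [map_sub, map_neg, map_add, ← hz]; abel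
    obtain ⟨h1, h2⟩ := C.inj hs e'
    have h3 : hmap X.d s w = -i2 X.X s v := by
      rw [sub_eq_zero] at h1
      rw [← h1, neg_neg]
    have hx0 : w.1 = -c0 X.d s x := eq_neg_of_add_eq_zero_left h2
    have g1 : ∀ t (a : G.E s t), c1 X.d a w.1 + c0 X.d t (w.2.1 t a) = 0 := fun t a => by
      have := congrFun (congrFun (congrArg (fun x => x.2.1) h3) t) a
      have e : (-i2 X.X s v).2.1 t a = 0 := neg_zero
      exact this.trans e
    have g2 : c2 X.d s w.1 + (∑ t, ∑ a : G.E s t, c1 X.d (G.rev a) (w.2.1 t a)) +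
        ci X.d s w.2.2.1 + c0 X.d s w.2.2.2 = -v := congrArg (fun x => x.2.2.2) h3
    refine ⟨fun t a => -(w.2.1 t a + c1 X.d a x), -(w.2.2.1 + cj X.d s x),
      -(w.2.2.2 + c2 X.d s x), fun t a => ?_, ?_⟩
    · rw [map_neg, map_add, dB, neg_eq_zero]
      have h4 := g1 t a
      rw [hx0, map_neg] at h4
      rw [add_comm]
      exact h4
    · rw [sum_neg, sum_add, map_neg, map_neg, map_add, map_add]
      have h5 := BBij (X := X) x
      rw [hx0, map_neg] at g2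
      have h6 : -v = -(c2 X.d s (c0 X.d s x)) + (∑ t, ∑ a : G.E s t, c1 X.d (G.rev a) (w.2.1 t a))
        + ci X.d s w.2.2.1 + c0 X.d s w.2.2.2 := g2.symm
      have h7 : v = -(-v) := (neg_neg v).symm
      rw [h7, h6]
      have h8 : (∑ s_1, ∑ a : G.E s s_1, c1 X.d (G.rev a) (c1 X.d a x)) =
          -(c2 X.d s (c0 X.d s x) + c0 X.d s (c2 X.d s x)) - ci X.d s (cj X.d s x) := by
        rw [← h5]; abel
      rw [h8]
      abel
  · rintro ⟨y, w, z, hy, h⟩
    refine ⟨-C.ι s (el 0 y w z), ?_⟩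
    rw [map_neg, C.d_ι' hs, hmap_el]
    simp only [map_zero, zero_add, hy, add_zero, neg_neg]
    rw [h]
    rfl

/-- the class of `ι w + ρ x` -/
theorem closed_of {s : T} (hs : U s) {w : HP X.X s} {x : X.X.V s}
    (h : c0 Y.d s (C.ι s w + C.ρ s x) = 0) :
    w.1 = -c0 X.d s x ∧ (∀ t a, c1 X.d a w.1 + c0 X.d t (w.2.1 t a) = 0) ∧
      c2 X.d s w.1 + (∑ t, ∑ a : G.E s t, c1 X.d (G.rev a) (w.2.1 t a)) + ci X.d s w.2.2.1
      + c0 X.d s w.2.2.2 = 0 := by
  obtain ⟨h1, h2⟩ := (C.closed_iff hs w x).1 h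
  obtain ⟨_, g1, _, g2⟩ := hmap_eq_zero h1
  exact ⟨eq_neg_of_add_eq_zero_left h2, g1, g2⟩

theorem mem_kerA_QMof {s : T} {q : Y.X ⟶ Y.X} (hq : Eul Y q) (ξ : Hv Y s) :
    ξ ∈ (QMof Y hq).kerA s ↔ (∀ t (a : G.E s t), HB Y a ξ = 0) ∧ Hj Y s ξ = 0 :=
  QM.mem_kerA (X := QMof Y hq)

/-- `ker a' ≤ im κ` -/
theorem range_κ {s : T} (hs : U s) (hU : ∀ s t, U s → U t → IsEmpty (G.E s t)) (ξ : Hv Y s)
    (hξ : (∀ t (a : G.E s t), HB Y a ξ = 0) ∧ Hj Y s ξ = 0) : ∃ v, C.κ s v = ξ := by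
  obtain ⟨z, hz, rfl⟩ := mk_surj Y ξ
  obtain ⟨w, x, rfl⟩ := C.decomp z
  obtain ⟨hx0, g1, g2⟩ := C.closed_of hs hz
  obtain ⟨hB, hj⟩ := hξ
  have hB' : ∀ t (a : G.E s t), ∃ y, c0 X.d t y = w.2.1 t a + c1 X.d a x := by
    intro t a
    have ht : ¬ U t := fun ht => (hU s t hs ht).false a
    have h1 := hB t a
    rw [HB_mk, mk_eq_zero] at h1
    obtain ⟨y', hy'⟩ := h1
    obtain ⟨y, rfl⟩ := C.eq_ρ ht y'
    refine ⟨y, ?_⟩
    rw [d_ρ, map_add, C.B_ι hs, C.B_ρ, ← map_add, ← sub_eq_zero, ← map_sub] at hy'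
    exact sub_eq_zero.1 (C.ρ_inj hy')
  choose y hy using hB'
  have hj' : w.2.2.1 + cj X.d s x = 0 := by
    rw [Hj_mk, map_add, C.j_ι hs, C.j_ρ, ← map_add, ← ω_apply] at hj
    exact (LinearEquiv.map_eq_zero_iff _).1 hj
  -- the class comes from `v2`
  set v2 : X.X.V s := w.2.2.2 + c2 X.d s x - ∑ t, ∑ a : G.E s t, c1 X.d (G.rev a) (y t a)
    with hv2
  have key : C.ι s w + C.ρ s x - c0 Y.d s (C.ι s (el x (fun t a => -(y t a)) 0 0)) =
      C.ι s (i2 X.X s v2) := by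
    rw [C.d_ι' hs, hmap_el]
    have e1 : w - (-(el (c0 X.d s x) (fun t a => c1 X.d a x + c0 X.d t (-(y t a))) (cj X.d s x)
        (c2 X.d s x + (∑ t, ∑ a : G.E s t, c1 X.d (G.rev a) (-(y t a))) + ci X.d s 0
          + c0 X.d s 0))) = i2 X.X s v2 := by
      apply HP_ext
      · change w.1 - -(c0 X.d s x) = 0
        rw [hx0]; abel
      · intro t a
        change w.2.1 t a - -(c1 X.d a x + c0 X.d t (-(y t a))) = 0
        rw [map_neg, hy]
        abel
      · change w.2.2.1 - -(cj X.d s x) = 0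
        rw [sub_neg_eq_add]
        exact hj'
      · change w.2.2.2 - -(c2 X.d s x + (∑ t, ∑ a : G.E s t, c1 X.d (G.rev a) (-(y t a)))
          + ci X.d s 0 + c0 X.d s 0) = v2
        rw [sum_neg, map_zero, map_zero, hv2]
        abel
    rw [← e1, map_sub, map_neg]
    abel
  have hcl : c0 X.d s v2 = 0 := by
    have h1 : c0 Y.d s (C.ι s (i2 X.X s v2)) = 0 := by
      rw [← key, map_sub, hz, dd0, sub_zero]
    rw [C.d_ι' hs, hmap_i2, i2_0, map_zero, add_zero] at h1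
    have h2 : C.ι s (i2 X.X s (c0 X.d s v2)) + C.ρ s 0 = 0 := by
      rw [map_zero, add_zero]; exact neg_eq_zero.1 h1
    exact congrArg (fun x => x.2.2.2) (C.inj hs h2).1
  refine ⟨PTH.mk X s v2 hcl, ?_⟩
  rw [C.κ_of_mk hs, eq_comm, mk_eq_iff]
  exact ⟨_, by rw [← key]; abel⟩

theorem range'_κ {s : T} (hs : U s) (ξ : Hv X s) :
    (∀ t (a : G.E s t), HB Y a (C.κ s ξ) = 0) ∧ Hj Y s (C.κ s ξ) = 0 := by
  obtain ⟨v, hv, rfl⟩ := mk_surj X ξ
  rw [C.κ_of_mk hs]
  refine ⟨fun t a => ?_, ?_⟩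
  · rw [HB_mk, mk_eq_zero]
    refine ⟨0, ?_⟩
    rw [map_zero, C.B_ι hs, i2_1, map_zero]
  · rw [Hj_mk, C.j_ι hs, i2_w, map_zero]

/-- `b a' = 0` -/
theorem ba_κ {s : T} (hs : U s) (hU : ∀ s t, U s → U t → IsEmpty (G.E s t)) (ξ : Hv Y s)
    (m : ∀ t, G.E s t → Hv X t) (wt : X.X.W s)
    (h1 : ∀ t a, C.κ t (m t a) = HB Y a ξ) (h2 : C.ω s wt = Hj Y s ξ) :
    ∑ t, ∑ a : G.E s t, HB X (G.rev a) (m t a) + Hi X s wt = 0 := by
  obtain ⟨z, hz, rfl⟩ := mk_surj Y ξ
  obtain ⟨w, x, rfl⟩ := C.decomp z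
  obtain ⟨hx0, g1, g2⟩ := C.closed_of hs hz
  have hm : ∀ t a, ∃ x, ∃ hx : c0 X.d t x = 0, PTH.mk X t x hx = m t a := fun t a =>
    mk_surj X (m t a)
  choose μ hμ hμm using hm
  have hB' : ∀ t (a : G.E s t), ∃ y, μ t a = w.2.1 t a + c1 X.d a x + c0 X.d t y := by
    intro t a
    have ht : ¬ U t := fun ht => (hU s t hs ht).false a
    have h3 := h1 t a
    rw [← hμm, C.κ_not_mk ht, HB_mk, mk_eq_iff] at h3
    obtain ⟨y', hy'⟩ := h3
    obtain ⟨y, rfl⟩ := C.eq_ρ ht y'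
    refine ⟨y, ?_⟩
    rw [d_ρ, map_add, C.B_ι hs, C.B_ρ, ← map_add, ← map_sub, ← sub_eq_zero, ← map_sub] at hy'
    have h4 := sub_eq_zero.1 (C.ρ_inj hy')
    rw [h4]
    abel
  choose y hy using hB'
  have hw : wt = w.2.2.1 + cj X.d s x := by
    apply (C.ω s).injective
    rw [h2, Hj_mk, map_add, C.j_ι hs, C.j_ρ, ← map_add, ← ω_apply]
  have h5 : ∑ t, ∑ a : G.E s t, HB X (G.rev a) (m t a) + Hi X s wt =
      ∑ t, ∑ a : G.E s t, HB X (G.rev a) (PTH.mk X t (μ t a) (hμ t a)) + Hi X s wt := by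
    congr 1
    exact Finset.sum_congr rfl fun t _ => Finset.sum_congr rfl fun a _ => by rw [hμm]
  rw [h5, sum_mk, mk_eq_zero]
  refine ⟨-(w.2.2.2 + c2 X.d s x + ∑ t, ∑ a : G.E s t, c1 X.d (G.rev a) (y t a)), ?_⟩
  have h6 : (∑ t, ∑ a : G.E s t, c1 X.d (G.rev a) (μ t a)) =
      (∑ t, ∑ a : G.E s t, c1 X.d (G.rev a) (w.2.1 t a)) +
      (∑ t, ∑ a : G.E s t, c1 X.d (G.rev a) (c1 X.d a x)) +
      (∑ t, ∑ a : G.E s t, c1 X.d (G.rev a) (c0 X.d t (y t a))) := by
    rw [← sum_add, ← sum_add]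
    exact Finset.sum_congr rfl fun t _ => Finset.sum_congr rfl fun a _ => by rw [hy]
  have h7 := BBij (X := X) x
  have h8 : (∑ t, ∑ a : G.E s t, c1 X.d (G.rev a) (c1 X.d a x)) =
      -(c2 X.d s (c0 X.d s x) + c0 X.d s (c2 X.d s x)) - ci X.d s (cj X.d s x) := by
    rw [← h7]; abel
  rw [h6, h8, sum_d, hw, map_add, map_neg, map_add, map_add]
  rw [hx0, map_neg] at g2
  have h9 : c0 X.d s w.2.2.2 = c2 X.d s (c0 X.d s x) -
      (∑ t, ∑ a : G.E s t, c1 X.d (G.rev a) (w.2.1 t a)) - ci X.d s w.2.2.1 := by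
    rw [← sub_eq_zero, ← g2]; abel
  rw [h9]
  abel

/-- `ker b ≤ im a'` -/
theorem ex_κ {s : T} (hs : U s) (hU : ∀ s t, U s → U t → IsEmpty (G.E s t))
    (m : ∀ t, G.E s t → Hv X t) (wt : X.X.W s)
    (h : ∑ t, ∑ a : G.E s t, HB X (G.rev a) (m t a) + Hi X s wt = 0) :
    ∃ ξ : Hv Y s, (∀ t a, HB Y a ξ = C.κ t (m t a)) ∧ Hj Y s ξ = C.ω s wt := by
  have hm : ∀ t a, ∃ x, ∃ hx : c0 X.d t x = 0, PTH.mk X t x hx = m t a := fun t a =>
    mk_surj X (m t a)
  choose μ hμ hμm using hm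
  have h5 : ∑ t, ∑ a : G.E s t, HB X (G.rev a) (m t a) + Hi X s wt =
      ∑ t, ∑ a : G.E s t, HB X (G.rev a) (PTH.mk X t (μ t a) (hμ t a)) + Hi X s wt := by
    congr 1
    exact Finset.sum_congr rfl fun t _ => Finset.sum_congr rfl fun a _ => by rw [hμm]
  rw [h5, sum_mk, mk_eq_zero] at h
  obtain ⟨z2, hz2⟩ := h
  have hcl : c0 Y.d s (C.ι s (el 0 μ wt (-z2))) = 0 := by
    rw [C.d_ι' hs, hmap_el]
    simp only [map_zero, zero_add, hμ, map_neg, hz2, add_zero]
    have e : el (X := X) (t := s) 0 (fun _ _ => 0) 0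
      (∑ t, ∑ a : G.E s t, c1 X.d (G.rev a) (μ t a) + ci X.d s wt +
        -(∑ t, ∑ a : G.E s t, c1 X.d (G.rev a) (μ t a) + ci X.d s wt)) = 0 := by
      rw [add_neg_cancel]; rfl
    rw [e, map_zero, neg_zero]
  refine ⟨PTH.mk Y s _ hcl, fun t a => ?_, ?_⟩
  · have ht : ¬ U t := fun ht => (hU s t hs ht).false a
    rw [HB_mk, ← hμm, C.κ_not_mk ht]
    exact mk_congr Y _ (C.B_ι hs a _)
  · rw [Hj_mk, C.j_ι hs]
    rfl

theorem Aκ_not {t : T} (h : ¬ U t) (ξ : Hv X t) :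
    Hp (C.eul hp) t (C.κ t ξ) = C.κ t (Hp hp t ξ) := by
  obtain ⟨x, hx, rfl⟩ := mk_surj X ξ
  rw [C.κ_not_mk h, Hp_mk, Hp_mk, C.κ_not_mk h]
  exact mk_congr Y _ (C.pY_ρ p x)

theorem Aκ_of {t : T} (h : U t) (ξ : Hv X t) :
    Hp (C.eul hp) t (C.κ t ξ) = C.κ t (Hp hp t ξ) + C.κ t ξ := by
  rw [← map_add]
  obtain ⟨x, hx, rfl⟩ := mk_surj X ξ
  have h1 : ∃ hy, Hp hp t (PTH.mk X t x hx) + PTH.mk X t x hx =
      PTH.mk X t (c0 p t x + x) hy := ⟨_, by rw [Hp_mk, ← mk_add]⟩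
  obtain ⟨hy, h1⟩ := h1
  rw [h1, C.κ_of_mk h, C.κ_of_mk h, Hp_mk]
  refine mk_congr Y _ ?_
  rw [C.pY_ι h]
  congr 1
  apply HP_ext
  · change (hmap p t (i2 X.X t x) + hL X.X t (i2 X.X t x) - i2 X.X t x).1 = 0
    rw [hmap_i2]
    change (0 : X.X.V t) + 0 - 0 = 0
    simp
  · intro s a
    rw [hmap_i2]
    change (0 : X.X.V s) + 0 - 0 = 0
    simp
  · rw [hmap_i2]
    change (0 : X.X.W t) + 0 - 0 = 0
    simp
  · rw [hmap_i2]
    change c0 p t x + (2 : k) • x - x = c0 p t x + x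
    rw [two_smul]
    abel

theorem B_κ {s t : T} (hs : ¬ U s) (ht : ¬ U t) (a : G.E s t) (ξ : Hv X s) :
    HB Y a (C.κ s ξ) = C.κ t (HB X a ξ) := by
  obtain ⟨x, hx, rfl⟩ := mk_surj X ξ
  rw [C.κ_not_mk hs, HB_mk, HB_mk, C.κ_not_mk ht]
  exact mk_congr Y _ (C.B_ρ a x)

theorem i_κ {t : T} (ht : ¬ U t) (w : X.X.W t) :
    Hi Y t (C.ω t w) = C.κ t (Hi X t w) := by
  rw [Hi_apply, Hi_apply, C.κ_not_mk ht]
  exact mk_congr Y _ (C.i_ω w)

theorem j_κ {t : T} (ht : ¬ U t) (ξ : Hv X t) :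
    Hj Y t (C.κ t ξ) = C.ω t (Hj X t ξ) := by
  obtain ⟨x, hx, rfl⟩ := mk_surj X ξ
  rw [C.κ_not_mk ht, Hj_mk, Hj_mk]
  exact C.j_ρ x

/-- the natural map `H X → H Y` at every vertex (it is `κ` outside `U`) -/
theorem B_nat {s t : T} (a : G.E s t) {x : X.X.V s} (hx : c0 X.d s x = 0) :
    HB Y a (PTH.mk Y s (C.ρ s x) (C.d_ρ0 hx)) =
      PTH.mk Y t (C.ρ t (c1 X.d a x)) (C.d_ρ0 (by
        have h := dd1 X a x
        rw [hx, map_zero, zero_add] at h
        exact h)) := by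
  rw [HB_mk]
  exact mk_congr Y _ (C.B_ρ a x)

theorem BB_κ {s : T} (hs : U s) (hU : ∀ s t, U s → U t → IsEmpty (G.E s t)) {t t' : T}
    (a : G.E t s) (b : G.E s t') (ξ : Hv X t) :
    HB Y b (HB Y a (C.κ t ξ)) = C.κ t' (HB X b (HB X a ξ)) := by
  have ht : ¬ U t := fun ht => (hU t s ht hs).false a
  have ht' : ¬ U t' := fun ht => (hU s t' hs ht).false b
  obtain ⟨x, hx, rfl⟩ := mk_surj X ξ
  have hcl : c0 X.d s (c1 X.d a x) = 0 := by
    have h := dd1 X a x
    rw [hx, map_zero, zero_add] at h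
    exact h
  rw [C.κ_not_mk ht, C.B_nat a hx, C.B_nat b hcl, HB_mk, HB_mk, C.κ_not_mk ht']

theorem jB_κ {s : T} (hs : U s) (hU : ∀ s t, U s → U t → IsEmpty (G.E s t)) {t : T}
    (a : G.E t s) (ξ : Hv X t) :
    Hj Y s (HB Y a (C.κ t ξ)) = C.ω s (Hj X s (HB X a ξ)) := by
  have ht : ¬ U t := fun ht => (hU t s ht hs).false a
  obtain ⟨x, hx, rfl⟩ := mk_surj X ξ
  rw [C.κ_not_mk ht, C.B_nat a hx, Hj_mk, HB_mk, Hj_mk]
  exact C.j_ρ _

theorem Bi_κ {s : T} (hs : U s) (hU : ∀ s t, U s → U t → IsEmpty (G.E s t)) {t : T}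
    (b : G.E s t) (w : X.X.W s) :
    HB Y b (Hi Y s (C.ω s w)) = C.κ t (HB X b (Hi X s w)) := by
  have ht : ¬ U t := fun ht => (hU s t hs ht).false b
  have h1 : Hi Y s (C.ω s w) = PTH.mk Y s (C.ρ s (ci X.d s w)) (C.d_ρ0 (ddi X s w)) := by
    rw [Hi_apply]
    exact mk_congr Y _ (C.i_ω w)
  rw [h1, C.B_nat b (ddi X s w), Hi_apply, HB_mk, C.κ_not_mk ht]

theorem ji_κ {s : T} (w : X.X.W s) :
    Hj Y s (Hi Y s (C.ω s w)) = C.ω s (Hj X s (Hi X s w)) := by
  have h1 : Hi Y s (C.ω s w) = PTH.mk Y s (C.ρ s (ci X.d s w)) (C.d_ρ0 (ddi X s w)) := by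
    rw [Hi_apply]
    exact mk_congr Y _ (C.i_ω w)
  rw [h1, Hj_mk, Hi_apply, Hj_mk]
  exact C.j_ρ _

/-- **the exact triangle of the twist** -/
def td (hU : ∀ s t, U s → U t → IsEmpty (G.E s t)) :
    TD {t | U t} (QMof X hp) (QMof Y (C.eul hp)) where
  κ := C.κ
  ω := C.ω
  bij _ ht := C.κ_bij ht
  nadj s hs t ht := hU s t hs ht
  Aκ _ ht ξ := C.Aκ_not hp ht ξ
  Aκ' _ ht ξ := C.Aκ_of hp ht ξ
  Bκ _ _ hs ht a ξ := C.B_κ hs ht a ξ
  iω _ ht w := C.i_κ ht w
  jκ _ ht ξ := C.j_κ ht ξ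
  ker _ hs ξ := C.ker_κ hp hs ξ
  range _ hs ξ hξ := C.range_κ hs hU ξ ((mem_kerA_QMof (C.eul hp) ξ).1 hξ)
  range' _ hs ξ := (mem_kerA_QMof (C.eul hp) _).2 (C.range'_κ hs ξ)
  ba _ hs ξ m w h1 h2 := C.ba_κ hs hU ξ m w h1 h2
  ex _ hs m w h := C.ex_κ hs hU m w h
  aBB _ hs _ _ a b ξ := C.BB_κ hs hU a b ξ
  ajB _ hs _ a ξ := C.jB_κ hs hU a ξ
  aBi _ hs _ b w := C.Bi_κ hs hU b w
  aji _ _ w := C.ji_κ w

end ConeOf

end

end Crest.Agent.R175.PTT_4
end

-- ▼ part R175/PTW_4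

/-!
Row 175 (S0263), block (D): invariance of the relation `TD` under isomorphisms of the homotopy
category (`tdIso`, `TD.isoR`, `TD.isoL`).
-/

set_option autoImplicit false
set_option linter.unusedSectionVars false

open CategoryTheory Crest.Agent.R175.PTA Crest.Agent.R175.PTH Crest.Agent.R175.TwG_253

universe u v

namespace Crest.Agent.R175.PTQ_4

variable {T : Type u} [Fintype T] {G : MG T} {k : Type v} [Field k]

namespace TD

variable {F : Set T} {X0 X X' X'' : QM G k}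

section iso

variable (e : TD ∅ X X')

include e in
theorem ebij (t : T) : Function.Bijective (e.κ t) := e.bij t (Set.notMem_empty t)

theorem eB {s t : T} (a : G.E s t) (v : X.H s) : X'.B s t a (e.κ s v) = e.κ t (X.B s t a v) :=
  e.Bκ s t (Set.notMem_empty s) (Set.notMem_empty t) a v

theorem ei {t : T} (w : X.W t) : X'.i t (e.ω t w) = e.κ t (X.i t w) :=
  e.iω t (Set.notMem_empty t) w

theorem ej {t : T} (v : X.H t) : X'.j t (e.κ t v) = e.ω t (X.j t v) :=
  e.jκ t (Set.notMem_empty t) v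

theorem eA {t : T} (v : X.H t) : X'.A t (e.κ t v) = e.κ t (X.A t v) :=
  e.Aκ t (Set.notMem_empty t) v

theorem e_eq_zero {t : T} {v : X.H t} : e.κ t v = 0 ↔ v = 0 := by
  constructor
  · intro h
    exact (e.ebij t).1 (h.trans (map_zero _).symm)
  · rintro rfl
    exact map_zero _

theorem e_mem_kerA {s : T} {v : X.H s} : e.κ s v ∈ X'.kerA s ↔ v ∈ X.kerA s := by
  rw [QM.mem_kerA, QM.mem_kerA]
  refine and_congr (forall_congr' fun t => forall_congr' fun a => ?_) ?_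
  · rw [e.eB, e.e_eq_zero]
  · rw [e.ej, LinearEquiv.map_eq_zero_iff]

theorem e_imB (s : T) : X'.imB s = (X.imB s).map (e.κ s) := by
  apply le_antisymm
  · rw [QM.imB_le]
    refine ⟨fun t a v => ?_, fun w => ?_⟩
    · obtain ⟨v, rfl⟩ := (e.ebij t).2 v
      rw [e.eB]
      exact Submodule.mem_map_of_mem (QM.B_mem_imB a v)
    · obtain ⟨w, rfl⟩ := (e.ω s).surjective w
      rw [e.ei]
      exact Submodule.mem_map_of_mem (QM.i_mem_imB w)
  · rw [Submodule.map_le_iff_le_comap, QM.imB_le]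
    refine ⟨fun t a v => ?_, fun w => ?_⟩
    · rw [Submodule.mem_comap, ← e.eB]
      exact QM.B_mem_imB a _
    · rw [Submodule.mem_comap, ← e.ei]
      exact QM.i_mem_imB _

theorem e_mem_imB {s : T} {v : X.H s} : e.κ s v ∈ X'.imB s ↔ v ∈ X.imB s := by
  rw [e.e_imB]
  constructor
  · rintro ⟨v', hv', h⟩
    rw [← (e.ebij s).1 h]
    exact hv'
  · exact Submodule.mem_map_of_mem

theorem e_sum {s : T} (m : ∀ t, G.E s t → X.H t) (w : X.W s) :
    ∑ t, ∑ a : G.E s t, X'.B t s (G.rev a) (e.κ t (m t a)) + X'.i s (e.ω s w) =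
      e.κ s (∑ t, ∑ a : G.E s t, X.B t s (G.rev a) (m t a) + X.i s w) := by
  rw [map_add, map_sum]
  simp only [map_sum, e.eB, e.ei]

end iso

/-- composition with an isomorphism of the twist -/
noncomputable def isoR (h : TD F X X') (e : TD ∅ X' X'') : TD F X X'' where
  κ t := e.κ t ∘ₗ h.κ t
  ω t := (h.ω t).trans (e.ω t)
  bij t ht := (e.ebij t).comp (h.bij t ht)
  nadj := h.nadj
  Aκ t ht v := by
    rw [LinearMap.comp_apply, LinearMap.comp_apply, e.eA, h.Aκ t ht]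
  Aκ' t ht v := by
    rw [LinearMap.comp_apply, LinearMap.comp_apply, e.eA, h.Aκ' t ht, map_add]
  Bκ s t hs ht a v := by
    rw [LinearMap.comp_apply, LinearMap.comp_apply, e.eB, h.Bκ s t hs ht]
  iω t ht w := by
    rw [LinearMap.comp_apply, LinearEquiv.trans_apply, e.ei, h.iω t ht]
  jκ t ht v := by
    rw [LinearMap.comp_apply, LinearEquiv.trans_apply, e.ej, h.jκ t ht]
  ker s hs v := by
    rw [LinearMap.comp_apply, e.e_eq_zero, h.ker s hs]
  range s hs v'' hv'' := by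
    obtain ⟨v', rfl⟩ := (e.ebij s).2 v''
    obtain ⟨v, rfl⟩ := h.range s hs v' (e.e_mem_kerA.1 hv'')
    exact ⟨v, rfl⟩
  range' s hs v := e.e_mem_kerA.2 (h.range' s hs v)
  ba s hs v'' m w h1 h2 := by
    obtain ⟨v', rfl⟩ := (e.ebij s).2 v''
    refine h.ba s hs v' m w (fun t a => ?_) ?_
    · apply (e.ebij t).1
      rw [← e.eB]
      exact h1 t a
    · apply (e.ω s).injective
      rw [← e.ej]
      exact h2
  ex s hs m w h1 := by
    obtain ⟨v', h2, h3⟩ := h.ex s hs m w h1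
    refine ⟨e.κ s v', fun t a => ?_, ?_⟩
    · rw [e.eB, h2]; rfl
    · rw [e.ej, h3]; rfl
  aBB s hs t t' a b v := by
    rw [LinearMap.comp_apply, LinearMap.comp_apply, e.eB, e.eB, h.aBB s hs]
  ajB s hs t a v := by
    rw [LinearMap.comp_apply, LinearEquiv.trans_apply, e.eB, e.ej, h.ajB s hs]
  aBi s hs t' b w := by
    rw [LinearMap.comp_apply, LinearEquiv.trans_apply, e.ei, e.eB, h.aBi s hs]
  aji s hs w := by
    rw [LinearEquiv.trans_apply, LinearEquiv.trans_apply, e.ei, e.ej, h.aji s hs]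

/-- composition with an isomorphism of the source -/
noncomputable def isoL (e : TD ∅ X0 X) (h : TD F X X') : TD F X0 X' where
  κ t := h.κ t ∘ₗ e.κ t
  ω t := (e.ω t).trans (h.ω t)
  bij t ht := (h.bij t ht).comp (e.ebij t)
  nadj := h.nadj
  Aκ t ht v := by
    rw [LinearMap.comp_apply, LinearMap.comp_apply, h.Aκ t ht, e.eA]
  Aκ' t ht v := by
    rw [LinearMap.comp_apply, LinearMap.comp_apply, h.Aκ' t ht, e.eA]
  Bκ s t hs ht a v := by
    rw [LinearMap.comp_apply, LinearMap.comp_apply, h.Bκ s t hs ht, e.eB]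
  iω t ht w := by
    rw [LinearMap.comp_apply, LinearEquiv.trans_apply, h.iω t ht, e.ei]
  jκ t ht v := by
    rw [LinearMap.comp_apply, LinearEquiv.trans_apply, h.jκ t ht, e.ej]
  ker s hs v := by
    rw [LinearMap.comp_apply, h.ker s hs, e.e_mem_imB]
  range s hs v' hv' := by
    obtain ⟨v, rfl⟩ := h.range s hs v' hv'
    obtain ⟨v0, rfl⟩ := (e.ebij s).2 v
    exact ⟨v0, rfl⟩
  range' s hs v := h.range' s hs _
  ba s hs v' m w h1 h2 := by
    have h3 := h.ba s hs v' (fun t a => e.κ t (m t a)) (e.ω s w) h1 h2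
    rw [e.e_sum] at h3
    exact e.e_eq_zero.1 h3
  ex s hs m w h1 := by
    obtain ⟨v', h2, h3⟩ := h.ex s hs (fun t a => e.κ t (m t a)) (e.ω s w) (by
      rw [e.e_sum, h1, map_zero])
    exact ⟨v', h2, h3⟩
  aBB s hs t t' a b v := by
    rw [LinearMap.comp_apply, LinearMap.comp_apply, h.aBB s hs, e.eB, e.eB]
  ajB s hs t a v := by
    rw [LinearMap.comp_apply, LinearEquiv.trans_apply, h.ajB s hs, e.eB, e.ej]
  aBi s hs t' b w := by
    rw [LinearMap.comp_apply, LinearEquiv.trans_apply, h.aBi s hs, e.ei, e.eB]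
  aji s hs w := by
    rw [LinearEquiv.trans_apply, LinearEquiv.trans_apply, h.aji s hs, e.ei, e.ej]

end TD

end Crest.Agent.R175.PTQ_4

namespace Crest.Agent.R175.PTT_4

open Crest.Agent.R175.PTQ_4

noncomputable section

variable {T : Type u} {G : MG T} {k : Type v} [Field k] [Fintype T] {X Y : TOb G k}

theorem Hmap_left_inv (e : HEquiv X Y) (t : T) (ξ : Hv X t) :
    Hmap e.q e.Dq t (Hmap e.p e.Dp t ξ) = ξ := by
  rw [← Hmap_comp]
  have h : e.p ≫ e.q - 𝟙 X.X = D X X e.s := by rw [e.pq]; abel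
  rw [Hmap_eq (closed_comp e.Dp e.Dq) D_id h, Hmap_id]

/-- a homotopy equivalence induces an isomorphism of the cohomology data -/
def tdIso (e : HEquiv X Y) {p : X.X ⟶ X.X} {q : Y.X ⟶ Y.X} (hp : Eul X p) (hq : Eul Y q)
    (h0 : hT X Y = 0) : TD ∅ (QMof X hp) (QMof Y hq) where
  κ t := Hmap e.p e.Dp t
  ω t := LinearEquiv.ofLinearMap (cW e.p t) (cW e.q t) (e.symm.cW_pq t) (e.cW_pq t)
  bij t _ := by
    constructor
    · exact Function.LeftInverse.injective (Hmap_left_inv e t)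
    · exact Function.RightInverse.surjective (Hmap_left_inv e.symm t)
  nadj s hs := (Set.notMem_empty s hs).elim
  Aκ t _ v := (eul_nat hp hq h0 e.Dp e.bp t v).symm
  Aκ' s hs := (Set.notMem_empty s hs).elim
  Bκ s t _ _ a v := HB_Hmap e.Dp e.bp a v
  iω t _ w := (Hmap_Hi e.Dp e.bp t w).symm
  jκ t _ v := Hj_Hmap e.Dp e.bp t v
  ker s hs := (Set.notMem_empty s hs).elim
  range s hs := (Set.notMem_empty s hs).elim
  range' s hs := (Set.notMem_empty s hs).elim
  ba s hs := (Set.notMem_empty s hs).elim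
  ex s hs := (Set.notMem_empty s hs).elim
  aBB s hs := (Set.notMem_empty s hs).elim
  ajB s hs := (Set.notMem_empty s hs).elim
  aBi s hs := (Set.notMem_empty s hs).elim
  aji s hs := (Set.notMem_empty s hs).elim

end

end Crest.Agent.R175.PTT_4
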