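import Mathlib
import Crest.Agent.R175.Geo3_974
import Crest.Agent.R175.Geo5_974
import Crest.Agent.R175.AttB_663
import Crest.Agent.R175.B3_83
import Crest.Agent.R175.FirstLet_83
import Crest.Agent.R175.Semi_663

-- ▼ part R175/Geo4_974
section

/-!
# R175 (S0264), geometry 4 : Lemma O (orthogonality) and Lemma D (`D₄`)
-/

set_option autoImplicit false

open Set Crest.Geometry Filter Topology

namespace Crest.Agent.R175.Geo

open R244

universe u

section

variable {X : Type u} [MetricSpace X] {G : Type*} [Group G] [MulAction G X]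

theorem dist_pow_pow (hi : IsIsometricSMul G X) (x : X) {f g : G} (hfg : Commute f g) (n : ℕ) :
    dist (f ^ n • x) (g ^ n • x) = len x ((f⁻¹ * g) ^ n) := by
  rw [dist_smul_smul' hi, hfg.inv_left.mul_pow, inv_pow]

theorem tendsto_dist_pow (hX : IsCAT0Space X) (hi : IsIsometricSMul G X) (x : X) {f g : G}
    (hfg : Commute f g) :
    Tendsto (fun k : ℕ => dist (f ^ 2 ^ k • x) (g ^ 2 ^ k • x) / 2 ^ k) atTop
      (𝓝 (Real.sqrt (stabSq (len (G := G) x) (f⁻¹ * g)))) := by
  refine (tendsto_len_div (quadLength (G := G) hX hi x) (f⁻¹ * g)).congr fun k => ?_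
  rw [dist_pow_pow hi x hfg]

theorem sqrt_le_dist (hX : IsCAT0Space X) (hi : IsIsometricSMul G X) (x : X) (f g : G) :
    Real.sqrt (stabSq (len (G := G) x) (f⁻¹ * g)) ≤ dist (f • x) (g • x) := by
  rw [dist_smul_smul' hi]
  exact sqrt_stabSq_le (quadLength (G := G) hX hi x) _

theorem tendsto_const_div_two_pow (K : ℝ) : Tendsto (fun k : ℕ => K / 2 ^ k) atTop (𝓝 0) :=
  Tendsto.div_atTop tendsto_const_nhds (tendsto_pow_atTop_atTop_of_one_lt (by norm_num))

/-- `stabSq (u⁻ⁱ hᵏ) ≥ i² stabSq u` when `h` is orthogonal to `u`. -/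
theorem le_stabSq_inv_pow_mul {ℓ : G → ℝ} (h : QuadLength ℓ) {u c : G} (hc : Commute u c)
    (h0 : stabIp ℓ c u = 0) (n : ℕ) (m : ℤ) :
    (n : ℝ) ^ 2 * stabSq ℓ u ≤ stabSq ℓ ((u ^ n)⁻¹ * c ^ m) := by
  have hcn : Commute (u ^ n)⁻¹ c := (hc.pow_left n).inv_left
  have h1 : stabIp ℓ c (u ^ n)⁻¹ = 0 := by
    rw [h.stabIp_inv (hc.symm.pow_right n), stabIp_pow_right h hc.symm, h0]; simp
  have h2 := stabSq_le_mul h hcn h1 m
  rw [h.stabSq_inv, h.stabSq_pow] at h2
  exact h2

end

variable {X : Type u} [MetricSpace X] [ProperSpace X] {G : Type*} [Group G] [MulAction G X]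

/-- **Lemma O** (orthogonality): `v` commutes with `u` and `u'`, and `u`, `u' u u'⁻¹` diverge. -/
theorem orth (hX : IsCAT0Space X) (hG : IsGeometricAction G X) (x : X) {u v u' r₁ r₂ : G}
    {U : Set G} (h1 : Commute r₁ u) (h2 : Commute r₁ u') (h3 : Commute r₂ u)
    (h4 : Commute r₂ u') (h5 : Commute v u) (h6 : Commute v u')
    (D : DivData {r₁ * r₂ * r₁⁻¹ * r₂⁻¹} {e | ∃ k : ℤ, e = (r₁ * r₂ * r₁⁻¹ * r₂⁻¹) ^ k} U
      u (u' * u * u'⁻¹)) :
    stabIp (len (G := G) x) u v = 0 := by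
  have hi := hG.1
  have hq := quadLength (G := G) hX hi x
  set ℓ := len (G := G) x with hℓ
  set c := r₁ * r₂ * r₁⁻¹ * r₂⁻¹ with hc
  set w := u' * u * u'⁻¹ with hw
  -- commutation facts
  have c1 : Commute u c := ((h1.symm.mul_right h3.symm).mul_right h1.symm.inv_right).mul_right
    h3.symm.inv_right
  have r1w : Commute r₁ w := (h2.mul_right h1).mul_right h2.inv_right
  have r2w : Commute r₂ w := (h4.mul_right h3).mul_right h4.inv_right
  have c2 : Commute w c := ((r1w.symm.mul_right r2w.symm).mul_right r1w.symm.inv_right).mul_right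
    r2w.symm.inv_right
  have vw : Commute v w := (h6.mul_right h5).mul_right h6.inv_right
  have ip1 : stabIp ℓ c u = 0 := by
    rw [← QuadLength.stabIp_comm c1]
    exact hq.stabIp_commutator h1.symm h3.symm
  have ip2 : stabIp ℓ c w = 0 := by
    rw [← QuadLength.stabIp_comm c2]
    exact hq.stabIp_commutator r1w.symm r2w.symm
  have sw : stabSq ℓ w = stabSq ℓ u := stabSq_conj hq u u'
  have ipw : stabIp ℓ w v = stabIp ℓ u v := by
    rw [← QuadLength.stabIp_comm vw, ← QuadLength.stabIp_comm h5]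
    exact stabIp_conj_right hq h6 u
  obtain ⟨K, hK⟩ := divergence hX hG x D
  -- main estimate
  have main : ∀ (q : ℕ) (p : ℤ), 0 < q → 2 * (p : ℝ) * q * stabIp ℓ u v ≤ p ^ 2 * stabSq ℓ v := by
    intro q p hq0
    have l1 := tendsto_dist_pow hX hi x (f := u ^ q) (g := v ^ p)
      ((h5.symm.pow_left q).zpow_right p)
    have l2 := tendsto_dist_pow hX hi x (f := w ^ q) (g := v ^ p)
      ((vw.symm.pow_left q).zpow_right p)
    have e1 : stabSq ℓ ((u ^ q)⁻¹ * v ^ p) = q ^ 2 * stabSq ℓ u - 2 * q * p * stabIp ℓ u v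
        + p ^ 2 * stabSq ℓ v := by
      have := stabSq_zpow_mul_zpow hq h5.symm (-(q : ℤ)) p
      rw [zpow_neg, zpow_natCast] at this
      rw [this]; push_cast; ring
    have e2 : stabSq ℓ ((w ^ q)⁻¹ * v ^ p) = q ^ 2 * stabSq ℓ u - 2 * q * p * stabIp ℓ u v
        + p ^ 2 * stabSq ℓ v := by
      have := stabSq_zpow_mul_zpow hq vw.symm (-(q : ℤ)) p
      rw [zpow_neg, zpow_natCast, sw, ipw] at this
      rw [this]; push_cast; ring
    rw [e1] at l1
    rw [e2] at l2
    set S := (q : ℝ) ^ 2 * stabSq ℓ u - 2 * q * p * stabIp ℓ u v + p ^ 2 * stabSq ℓ v with hS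
    have lK := tendsto_const_div_two_pow K
    have l3 := (l1.add l2).add lK
    rw [add_zero] at l3
    have hle : 2 * (q * Real.sqrt (stabSq ℓ u)) ≤ Real.sqrt S + Real.sqrt S := by
      refine ge_of_tendsto' l3 fun k => ?_
      have hn : 0 < q * 2 ^ k := Nat.mul_pos hq0 (pow_pos (by norm_num) k)
      obtain ⟨e, ⟨m, rfl⟩, he⟩ := hK (q * 2 ^ k) (q * 2 ^ k) hn hn
      have b1 := sqrt_le_dist hX hi x (u ^ (q * 2 ^ k)) (c ^ m)
      have b2 := sqrt_le_dist hX hi x (w ^ (q * 2 ^ k)) (c ^ m)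
      rw [dist_comm] at b2
      have s1 := le_stabSq_inv_pow_mul hq c1 ip1 (q * 2 ^ k) m
      have s2 := le_stabSq_inv_pow_mul hq c2 ip2 (q * 2 ^ k) m
      rw [sw] at s2
      have hsq : Real.sqrt (((q * 2 ^ k : ℕ) : ℝ) ^ 2 * stabSq ℓ u)
          = ((q * 2 ^ k : ℕ) : ℝ) * Real.sqrt (stabSq ℓ u) := by
        rw [Real.sqrt_mul (by positivity), Real.sqrt_sq (by positivity)]
      have t1 := Real.sqrt_le_sqrt s1
      have t2 := Real.sqrt_le_sqrt s2
      rw [hsq] at t1 t2
      have tri : dist (u ^ (q * 2 ^ k) • x) (w ^ (q * 2 ^ k) • x) ≤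
          dist ((u ^ q) ^ 2 ^ k • x) ((v ^ p) ^ 2 ^ k • x)
            + dist ((w ^ q) ^ 2 ^ k • x) ((v ^ p) ^ 2 ^ k • x) := by
        rw [pow_mul, pow_mul, dist_comm ((w ^ q) ^ 2 ^ k • x)]
        exact dist_triangle _ _ _
      have h2k : (0 : ℝ) < 2 ^ k := by positivity
      rw [← add_div, ← add_div, le_div_iff₀ h2k]
      have : ((q * 2 ^ k : ℕ) : ℝ) = q * 2 ^ k := by push_cast; ring
      rw [this] at t1 t2
      nlinarith [he, b1, b2, t1, t2, tri]
    have hle2 : (q : ℝ) * Real.sqrt (stabSq ℓ u) ≤ Real.sqrt S := by linarith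
    have hq' : (0 : ℝ) ≤ (q : ℝ) * Real.sqrt (stabSq ℓ u) := by positivity
    have hu0 := QuadLength.stabSq_nonneg (ℓ := ℓ) u
    have hSnn : 0 ≤ S := by rw [← e1]; exact QuadLength.stabSq_nonneg _
    have h7 : ((q : ℝ) * Real.sqrt (stabSq ℓ u)) ^ 2 ≤ (Real.sqrt S) ^ 2 :=
      pow_le_pow_left₀ hq' hle2 2
    rw [mul_pow, Real.sq_sqrt hu0, Real.sq_sqrt hSnn] at h7
    rw [hS] at h7
    linarith
  -- conclusion
  have hv := QuadLength.stabSq_nonneg (ℓ := ℓ) v
  by_contra hne
  rcases lt_or_gt_of_ne hne with hlt | hgt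
  · obtain ⟨q, hq1⟩ := exists_nat_gt (stabSq ℓ v / (2 * -(stabIp ℓ u v)))
    have hpos : 0 < 2 * -(stabIp ℓ u v) := by linarith
    rw [div_lt_iff₀ hpos] at hq1
    have hq0 : 0 < q := by
      rcases Nat.eq_zero_or_pos q with h | h
      · rw [h] at hq1; simp only [Nat.cast_zero, zero_mul] at hq1; linarith
      · exact h
    have := main q (-1) hq0
    push_cast at this
    nlinarith
  · obtain ⟨q, hq1⟩ := exists_nat_gt (stabSq ℓ v / (2 * (stabIp ℓ u v)))
    have hpos : 0 < 2 * (stabIp ℓ u v) := by linarith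
    rw [div_lt_iff₀ hpos] at hq1
    have hq0 : 0 < q := by
      rcases Nat.eq_zero_or_pos q with h | h
      · rw [h] at hq1; simp only [Nat.cast_zero, zero_mul] at hq1; linarith
      · exact h
    have := main q 1 hq0
    push_cast at this
    nlinarith

end Crest.Agent.R175.Geo
end

-- ▼ part R175/Geo6_974
section

/-!
# R175 (S0264), geometry 6 : Lemma T (the `(3,3,3)` triangle)
-/

set_option autoImplicit false

open Set Crest.Geometry Filter Topology

namespace Crest.Agent.R175.Geo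

open R244

universe u

/-- Group-theoretic input for the edge `{a, b}` of the triangle. -/
def EdgeData {G : Type*} [Group G] (a b : G) : Prop :=
  ∃ (r₁ r₂ : G) (U : Set G), Commute r₁ a ∧ Commute r₁ b ∧ Commute r₂ a ∧ Commute r₂ b ∧
    DivData {r₁ * r₂ * r₁⁻¹ * r₂⁻¹, (a * b) ^ 3}
      {e | ∃ j m : ℤ, e = ((a * b) ^ 3) ^ j * (r₁ * r₂ * r₁⁻¹ * r₂⁻¹) ^ m} U a b

/-- Group-theoretic input for the vertex `a` of the triangle `{a, b, c}`. -/
def VertexData {G : Type*} [Group G] (a b c : G) : Prop :=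
  ∃ (r₁ r₂ : G) (U : Set G), Commute r₁ a ∧ Commute r₁ b ∧ Commute r₁ c ∧
    Commute r₂ a ∧ Commute r₂ b ∧ Commute r₂ c ∧
    DivData {r₁ * r₂ * r₁⁻¹ * r₂⁻¹, a}
      {e | ∃ j m : ℤ, e = a ^ j * (r₁ * r₂ * r₁⁻¹ * r₂⁻¹) ^ m} U ((a * b) ^ 3) ((c * a) ^ 3)

section algebra

variable {G : Type*} [Group G] {a b : G}

theorem conj_of_braid (h : a * b * a = b * a * b) : (a * b) * a * (a * b)⁻¹ = b := by
  rw [mul_inv_eq_iff_eq_mul, h]
  simp only [mul_assoc]


theorem cube_eq (h : a * b * a = b * a * b) : (a * b) ^ 3 = (a * b * a) ^ 2 := by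
  calc (a * b) ^ 3 = (a * b * a) * (b * a * b) := by
        simp only [pow_succ, pow_zero, one_mul, mul_assoc]
    _ = (a * b * a) ^ 2 := by rw [← h, pow_two]

theorem commute_left_cube (h : a * b * a = b * a * b) : Commute a ((a * b) ^ 3) := by
  have e1 : a * (a * b * a) = (a * b * a) * b := by
    calc a * (a * b * a) = a * (b * a * b) := by rw [h]
      _ = (a * b * a) * b := by simp only [mul_assoc]
  have e2 : b * (a * b * a) = (a * b * a) * a := by
    calc b * (a * b * a) = (b * a * b) * a := by simp only [mul_assoc]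
      _ = (a * b * a) * a := by rw [← h]
  show a * (a * b) ^ 3 = (a * b) ^ 3 * a
  rw [cube_eq h, pow_two]
  calc a * (a * b * a * (a * b * a)) = a * (a * b * a) * (a * b * a) :=
        (mul_assoc a (a * b * a) (a * b * a)).symm
    _ = (a * b * a) * b * (a * b * a) := by rw [e1]
    _ = (a * b * a) * (b * (a * b * a)) := mul_assoc (a * b * a) b (a * b * a)
    _ = (a * b * a) * ((a * b * a) * a) := by rw [e2]
    _ = a * b * a * (a * b * a) * a := (mul_assoc (a * b * a) (a * b * a) a).symm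

theorem commute_right_cube (h : a * b * a = b * a * b) : Commute b ((a * b) ^ 3) := by
  have h1 := commute_left_cube h
  have h2 : Commute (a * b) ((a * b) ^ 3) := (Commute.refl _).pow_right 3
  have h3 := h1.inv_left.mul_left h2
  rwa [inv_mul_cancel_left] at h3

variable {ℓ : G → ℝ}

theorem stabSq_eq_of_braid (hq : QuadLength ℓ) (h : a * b * a = b * a * b) :
    stabSq ℓ b = stabSq ℓ a := by
  have := stabSq_conj hq a (a * b)
  rwa [conj_of_braid h] at this

theorem ip_eq_of_braid (hq : QuadLength ℓ) (h : a * b * a = b * a * b) :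
    stabIp ℓ b ((a * b) ^ 3) = stabIp ℓ a ((a * b) ^ 3) := by
  have hc : Commute ((a * b) ^ 3) (a * b) := (Commute.refl (a * b)).pow_left 3
  have h1 := stabIp_conj_right hq hc a
  rw [conj_of_braid h] at h1
  rw [QuadLength.stabIp_comm (commute_right_cube h), QuadLength.stabIp_comm (commute_left_cube h)]
  exact h1

theorem stabSq_cube (hq : QuadLength ℓ) (h : a * b * a = b * a * b) :
    stabSq ℓ ((a * b) ^ 3) = 6 * stabIp ℓ a ((a * b) ^ 3) := by
  have h1 := (commute_left_cube h).symm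
  have h2 := (commute_right_cube h).symm
  have e1 : stabIp ℓ ((a * b) ^ 3) ((a * b) ^ 3)
      = 3 * (stabIp ℓ ((a * b) ^ 3) a + stabIp ℓ ((a * b) ^ 3) b) := by
    have := stabIp_pow_right hq (h1.mul_right h2) 3
    rw [hq.stabIp_mul h1 h2] at this
    rw [this]; push_cast; ring
  rw [hq.stabIp_self] at e1
  rw [e1, QuadLength.stabIp_comm h1, QuadLength.stabIp_comm h2, ip_eq_of_braid hq h]
  ring

theorem stabSq_inv_six_mul (hq : QuadLength ℓ) {u z : G} (huz : Commute u z)
    (hz : stabSq ℓ z = 6 * stabIp ℓ u z) :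
    stabSq ℓ ((u ^ 6)⁻¹ * z) = 36 * stabSq ℓ u - 6 * stabIp ℓ u z := by
  have := stabSq_zpow_mul_zpow hq huz (-(6 : ℤ)) 1
  rw [zpow_neg, zpow_one, hz] at this
  have e : (u ^ (6 : ℤ)) = u ^ 6 := zpow_natCast u 6
  rw [e] at this
  rw [this]; push_cast; ring

/-- Lower bound for the distance of a point of the `a`-axis to the plane of `z`, `c`. -/
theorem edge_lower (hq : QuadLength ℓ) {u z c : G} (huz : Commute u z) (huc : Commute u c)
    (hzc : Commute z c) (hz : stabSq ℓ z = 6 * stabIp ℓ u z) (h1 : stabIp ℓ c u = 0)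
    (h2 : stabIp ℓ c z = 0) (n : ℕ) (j m : ℤ) :
    (n : ℝ) ^ 2 * (36 * stabSq ℓ u - 6 * stabIp ℓ u z) ≤
      stabSq ℓ ((u ^ (6 * n))⁻¹ * (z ^ j * c ^ m)) := by
  have c1 : Commute (u ^ (6 * n))⁻¹ c := (huc.pow_left _).inv_left
  have c2 : Commute (z ^ j) c := hzc.zpow_left j
  have i1 : stabIp ℓ c ((u ^ (6 * n))⁻¹ * z ^ j) = 0 := by
    rw [hq.stabIp_mul c1.symm c2.symm, hq.stabIp_inv (huc.symm.pow_right _),
      stabIp_pow_right hq huc.symm, stabIp_zpow_right hq hzc.symm, h1, h2]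
    ring
  have h3 := stabSq_le_mul hq (c1.mul_left c2) i1 m
  rw [mul_assoc] at h3
  refine le_trans ?_ h3
  have h4 := stabSq_zpow_mul_zpow hq huz (-((6 * n : ℕ) : ℤ)) j
  rw [zpow_neg, zpow_natCast, hz] at h4
  rw [h4]
  have hz0 : 0 ≤ stabIp ℓ u z := by
    have := QuadLength.stabSq_nonneg (ℓ := ℓ) z
    linarith
  push_cast
  nlinarith [mul_nonneg hz0 (sq_nonneg ((n : ℝ) - j))]

/-- Lower bound for the distance of a point of the `z`-axis to the plane of `u`, `c`. -/
theorem vertex_lower (hq : QuadLength ℓ) {u z c : G} (huz : Commute u z) (huc : Commute u c)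
    (hzc : Commute z c) (hz : stabSq ℓ z = 6 * stabIp ℓ u z) (h1 : stabIp ℓ c u = 0)
    (h2 : stabIp ℓ c z = 0) (n : ℕ) (j m : ℤ) :
    6 * (n : ℝ) ^ 2 * stabIp ℓ u z - 2 * n * j * stabIp ℓ u z + j ^ 2 * stabSq ℓ u ≤
      stabSq ℓ ((z ^ n)⁻¹ * (u ^ j * c ^ m)) := by
  have c1 : Commute (z ^ n)⁻¹ c := (hzc.pow_left _).inv_left
  have c2 : Commute (u ^ j) c := huc.zpow_left j
  have i1 : stabIp ℓ c ((z ^ n)⁻¹ * u ^ j) = 0 := by
    rw [hq.stabIp_mul c1.symm c2.symm, hq.stabIp_inv (hzc.symm.pow_right _),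
      stabIp_pow_right hq hzc.symm, stabIp_zpow_right hq huc.symm, h1, h2]
    ring
  have h3 := stabSq_le_mul hq (c1.mul_left c2) i1 m
  rw [mul_assoc] at h3
  refine le_trans ?_ h3
  have h4 := stabSq_zpow_mul_zpow hq huz.symm (-(n : ℤ)) j
  rw [zpow_neg, zpow_natCast, hz, QuadLength.stabIp_comm huz.symm] at h4
  rw [h4]
  push_cast
  nlinarith

end algebra

/-- Minkowski's inequality in the plane, unfolded form. -/
theorem mink (p₁ q₁ p₂ q₂ : ℝ) :
    Real.sqrt ((p₁ - p₂) ^ 2 + (q₁ + q₂) ^ 2) ≤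
      Real.sqrt (p₁ ^ 2 + q₁ ^ 2) + Real.sqrt (p₂ ^ 2 + q₂ ^ 2) := by
  have hA : 0 ≤ p₁ ^ 2 + q₁ ^ 2 := by positivity
  have hB : 0 ≤ p₂ ^ 2 + q₂ ^ 2 := by positivity
  apply Real.sqrt_le_iff.2
  refine ⟨by positivity, ?_⟩
  have h1 : (Real.sqrt (p₁ ^ 2 + q₁ ^ 2) + Real.sqrt (p₂ ^ 2 + q₂ ^ 2)) ^ 2
      = (p₁ ^ 2 + q₁ ^ 2) + (p₂ ^ 2 + q₂ ^ 2)
        + 2 * Real.sqrt ((p₁ ^ 2 + q₁ ^ 2) * (p₂ ^ 2 + q₂ ^ 2)) := by
    rw [add_sq, Real.sq_sqrt hA, Real.sq_sqrt hB, Real.sqrt_mul hA]; ring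
  have h2 : q₁ * q₂ - p₁ * p₂ ≤ Real.sqrt ((p₁ ^ 2 + q₁ ^ 2) * (p₂ ^ 2 + q₂ ^ 2)) := by
    apply Real.le_sqrt_of_sq_le
    nlinarith [sq_nonneg (p₁ * q₂ + p₂ * q₁)]
  rw [h1]
  nlinarith

variable {X : Type u} [MetricSpace X] [ProperSpace X] {G : Type*} [Group G] [MulAction G X]

/-- Lower bound of the distance between the axes of `a` and `b`. -/
theorem edge_dist (hX : IsCAT0Space X) (hG : IsGeometricAction G X) (x : X) {a b : G}
    (h : a * b * a = b * a * b) (E : EdgeData a b) :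
    ∃ K : ℝ, ∀ n : ℕ, 0 < n → 2 * n * Real.sqrt (36 * stabSq (len (G := G) x) a
      - 6 * stabIp (len (G := G) x) a ((a * b) ^ 3)) - K ≤
        dist ((a ^ 6) ^ n • x) ((b ^ 6) ^ n • x) := by
  have hi := hG.1
  have hq := quadLength (G := G) hX hi x
  obtain ⟨r₁, r₂, U, c1, c2, c3, c4, D⟩ := E
  set ℓ := len (G := G) x with hℓ
  set c := r₁ * r₂ * r₁⁻¹ * r₂⁻¹ with hc
  set z := (a * b) ^ 3 with hz
  have haz : Commute a z := commute_left_cube h
  have hbz : Commute b z := commute_right_cube h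
  have hac : Commute a c := ((c1.symm.mul_right c3.symm).mul_right c1.symm.inv_right).mul_right
    c3.symm.inv_right
  have hbc : Commute b c := ((c2.symm.mul_right c4.symm).mul_right c2.symm.inv_right).mul_right
    c4.symm.inv_right
  have z1 : Commute z r₁ := ((c1.symm.mul_left c2.symm).pow_left 3)
  have z2 : Commute z r₂ := ((c3.symm.mul_left c4.symm).pow_left 3)
  have hzc : Commute z c := ((z1.mul_right z2).mul_right z1.inv_right).mul_right z2.inv_right
  have ia : stabIp ℓ c a = 0 := by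
    rw [← QuadLength.stabIp_comm hac]; exact hq.stabIp_commutator c1.symm c3.symm
  have ib : stabIp ℓ c b = 0 := by
    rw [← QuadLength.stabIp_comm hbc]; exact hq.stabIp_commutator c2.symm c4.symm
  have iz : stabIp ℓ c z = 0 := by
    rw [← QuadLength.stabIp_comm hzc]; exact hq.stabIp_commutator z1 z2
  have sz : stabSq ℓ z = 6 * stabIp ℓ a z := stabSq_cube hq h
  have sb : stabSq ℓ b = stabSq ℓ a := stabSq_eq_of_braid hq h
  have ibz : stabIp ℓ b z = stabIp ℓ a z := ip_eq_of_braid hq h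
  obtain ⟨K, hK⟩ := divergence hX hG x D
  refine ⟨K, fun n hn => ?_⟩
  obtain ⟨e, ⟨j, m, rfl⟩, he⟩ := hK (6 * n) (6 * n) (by omega) (by omega)
  have b1 := sqrt_le_dist hX hi x (a ^ (6 * n)) (z ^ j * c ^ m)
  have b2 := sqrt_le_dist hX hi x (b ^ (6 * n)) (z ^ j * c ^ m)
  rw [dist_comm] at b2
  have l1 := edge_lower hq haz hac hzc sz ia iz n j m
  have l2 := edge_lower hq hbz hbc hzc (by rw [sz, ibz]) ib iz n j m
  rw [sb, ibz] at l2
  have t1 := Real.sqrt_le_sqrt l1
  have t2 := Real.sqrt_le_sqrt l2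
  rw [Real.sqrt_mul (by positivity), Real.sqrt_sq (by positivity)] at t1 t2
  rw [← pow_mul, ← pow_mul]
  linarith

set_option maxHeartbeats 1600000 in
/-- The inequality at a vertex of the triangle. -/
theorem vertex_ineq (hX : IsCAT0Space X) (hG : IsGeometricAction G X) (x : X) {a b c : G}
    (hab : a * b * a = b * a * b) (hbc : b * c * b = c * b * c) (hca : c * a * c = a * c * a)
    (Eab : EdgeData a b) (Eca : EdgeData c a) (V : VertexData a b c) {N τ₁ τ₂ τ₃ : ℝ}
    (hN : 0 < N) (hNa : stabSq (len (G := G) x) a = N)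
    (h1 : stabIp (len (G := G) x) a ((a * b) ^ 3) = N * τ₁)
    (h2 : stabIp (len (G := G) x) c ((c * a) ^ 3) = N * τ₂)
    (h3 : stabIp (len (G := G) x) b ((b * c) ^ 3) = N * τ₃) (hτ₁ : τ₁ ≤ 6) (hτ₂ : τ₂ ≤ 6) :
    3 * (τ₁ + τ₂ + τ₃) - 18 - τ₁ * τ₂ + Real.sqrt (τ₁ * (6 - τ₁)) * Real.sqrt (τ₂ * (6 - τ₂)) ≤ 0 := by
  have hi := hG.1
  have hq := quadLength (G := G) hX hi x
  set ℓ := len (G := G) x with hℓ
  set z₁ := (a * b) ^ 3 with hz₁
  set z₂ := (c * a) ^ 3 with hz₂
  set z₃ := (b * c) ^ 3 with hz₃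
  have haz₁ : Commute a z₁ := commute_left_cube hab
  have hbz₁ : Commute b z₁ := commute_right_cube hab
  have hcz₂ : Commute c z₂ := commute_left_cube hca
  have haz₂ : Commute a z₂ := commute_right_cube hca
  have hbz₃ : Commute b z₃ := commute_left_cube hbc
  have hcz₃ : Commute c z₃ := commute_right_cube hbc
  have sb : stabSq ℓ b = N := (stabSq_eq_of_braid hq hab).trans hNa
  have sc : stabSq ℓ c = N := (stabSq_eq_of_braid hq hbc).trans sb
  have s1 : stabSq ℓ z₁ = 6 * stabIp ℓ a z₁ := stabSq_cube hq hab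
  have s2 : stabSq ℓ z₂ = 6 * stabIp ℓ c z₂ := stabSq_cube hq hca
  have s3 : stabSq ℓ z₃ = 6 * stabIp ℓ b z₃ := stabSq_cube hq hbc
  have ib₁ : stabIp ℓ b z₁ = stabIp ℓ a z₁ := ip_eq_of_braid hq hab
  have ia₂ : stabIp ℓ a z₂ = stabIp ℓ c z₂ := ip_eq_of_braid hq hca
  have ic₃ : stabIp ℓ c z₃ = stabIp ℓ b z₃ := ip_eq_of_braid hq hbc
  have τ₁0 : 0 ≤ τ₁ := by
    have := QuadLength.stabSq_nonneg (ℓ := ℓ) z₁
    rw [s1, h1] at this
    by_contra hneg
    push Not at hneg
    nlinarith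
  have τ₂0 : 0 ≤ τ₂ := by
    have := QuadLength.stabSq_nonneg (ℓ := ℓ) z₂
    rw [s2, h2] at this
    by_contra hneg
    push Not at hneg
    nlinarith
  -- limits
  have LA1 := tendsto_dist_pow hX hi x (f := a ^ 6) (g := z₁) (haz₁.pow_left 6)
  have LB1 := tendsto_dist_pow hX hi x (f := b ^ 6) (g := z₁) (hbz₁.pow_left 6)
  have LA2 := tendsto_dist_pow hX hi x (f := a ^ 6) (g := z₂) (haz₂.pow_left 6)
  have LC2 := tendsto_dist_pow hX hi x (f := c ^ 6) (g := z₂) (hcz₂.pow_left 6)
  have LB3 := tendsto_dist_pow hX hi x (f := b ^ 6) (g := z₃) (hbz₃.pow_left 6)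
  have LC3 := tendsto_dist_pow hX hi x (f := c ^ 6) (g := z₃) (hcz₃.pow_left 6)
  rw [stabSq_inv_six_mul hq haz₁ s1, hNa, h1] at LA1
  rw [stabSq_inv_six_mul hq hbz₁ (by rw [s1, ib₁]), sb, ib₁, h1] at LB1
  rw [stabSq_inv_six_mul hq haz₂ (by rw [s2, ia₂]), hNa, ia₂, h2] at LA2
  rw [stabSq_inv_six_mul hq hcz₂ s2, sc, h2] at LC2
  rw [stabSq_inv_six_mul hq hbz₃ s3, sb, h3] at LB3
  rw [stabSq_inv_six_mul hq hcz₃ (by rw [s3, ic₃]), sc, ic₃, h3] at LC3
  set ρ₁ := Real.sqrt (36 * N - 6 * (N * τ₁)) with hρ₁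
  set ρ₂ := Real.sqrt (36 * N - 6 * (N * τ₂)) with hρ₂
  set ρ₃ := Real.sqrt (36 * N - 6 * (N * τ₃)) with hρ₃
  obtain ⟨K₁, hK₁⟩ := edge_dist hX hG x hab Eab
  obtain ⟨K₂, hK₂⟩ := edge_dist hX hG x hca Eca
  rw [hNa, h1] at hK₁
  rw [sc, h2] at hK₂
  -- the vertex bound
  set σ₁ := Real.sqrt (τ₁ * (6 - τ₁)) with hσ₁
  set σ₂ := Real.sqrt (τ₂ * (6 - τ₂)) with hσ₂
  have hσ₁2 : σ₁ ^ 2 = τ₁ * (6 - τ₁) := Real.sq_sqrt (mul_nonneg τ₁0 (by linarith))
  have hσ₂2 : σ₂ ^ 2 = τ₂ * (6 - τ₂) := Real.sq_sqrt (mul_nonneg τ₂0 (by linarith))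
  set v := Real.sqrt N * Real.sqrt ((τ₁ - τ₂) ^ 2 + (σ₁ + σ₂) ^ 2) with hv
  obtain ⟨K₃, hK₃⟩ : ∃ K₃ : ℝ, ∀ n : ℕ, 0 < n →
      n * v - K₃ ≤ dist (z₁ ^ n • x) (z₂ ^ n • x) := by
    obtain ⟨r₁, r₂, U, c1, c2, c3, c4, c5, c6, D⟩ := V
    set d := r₁ * r₂ * r₁⁻¹ * r₂⁻¹ with hd
    have hac : Commute a d := ((c1.symm.mul_right c4.symm).mul_right
      c1.symm.inv_right).mul_right c4.symm.inv_right
    have z11 : Commute z₁ r₁ := ((c1.symm.mul_left c2.symm).pow_left 3)
    have z12 : Commute z₁ r₂ := ((c4.symm.mul_left c5.symm).pow_left 3)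
    have z21 : Commute z₂ r₁ := ((c3.symm.mul_left c1.symm).pow_left 3)
    have z22 : Commute z₂ r₂ := ((c6.symm.mul_left c4.symm).pow_left 3)
    have hz1d : Commute z₁ d := ((z11.mul_right z12).mul_right z11.inv_right).mul_right
      z12.inv_right
    have hz2d : Commute z₂ d := ((z21.mul_right z22).mul_right z21.inv_right).mul_right
      z22.inv_right
    have ia : stabIp ℓ d a = 0 := by
      rw [← QuadLength.stabIp_comm hac]; exact hq.stabIp_commutator c1.symm c4.symm
    have iz1 : stabIp ℓ d z₁ = 0 := by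
      rw [← QuadLength.stabIp_comm hz1d]; exact hq.stabIp_commutator z11 z12
    have iz2 : stabIp ℓ d z₂ = 0 := by
      rw [← QuadLength.stabIp_comm hz2d]; exact hq.stabIp_commutator z21 z22
    obtain ⟨K, hK⟩ := divergence hX hG x D
    refine ⟨K, fun n hn => ?_⟩
    obtain ⟨e, ⟨j, m, rfl⟩, he⟩ := hK n n hn hn
    have b1 := sqrt_le_dist hX hi x (z₁ ^ n) (a ^ j * d ^ m)
    have b2 := sqrt_le_dist hX hi x (z₂ ^ n) (a ^ j * d ^ m)
    rw [dist_comm] at b2
    have l1 := vertex_lower hq haz₁ hac hz1d s1 ia iz1 n j m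
    have l2 := vertex_lower hq haz₂ hac hz2d (by rw [s2, ia₂]) ia iz2 n j m
    rw [h1, hNa] at l1
    rw [ia₂, h2, hNa] at l2
    have e1 : 6 * (n : ℝ) ^ 2 * (N * τ₁) - 2 * n * j * (N * τ₁) + j ^ 2 * N
        = N * ((j - n * τ₁) ^ 2 + (n * σ₁) ^ 2) := by
      rw [mul_pow, hσ₁2]; ring
    have e2 : 6 * (n : ℝ) ^ 2 * (N * τ₂) - 2 * n * j * (N * τ₂) + j ^ 2 * N
        = N * ((j - n * τ₂) ^ 2 + (n * σ₂) ^ 2) := by
      rw [mul_pow, hσ₂2]; ring
    rw [e1] at l1
    rw [e2] at l2
    have t1 := Real.sqrt_le_sqrt l1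
    have t2 := Real.sqrt_le_sqrt l2
    rw [Real.sqrt_mul hN.le] at t1 t2
    have hm := mink (j - n * τ₁) (n * σ₁) (j - n * τ₂) (n * σ₂)
    have e3 : Real.sqrt ((j - n * τ₁ - (j - n * τ₂)) ^ 2 + (n * σ₁ + n * σ₂) ^ 2)
        = n * Real.sqrt ((τ₁ - τ₂) ^ 2 + (σ₁ + σ₂) ^ 2) := by
      have : ((j : ℝ) - n * τ₁ - (j - n * τ₂)) ^ 2 + (n * σ₁ + n * σ₂) ^ 2
          = (n : ℝ) ^ 2 * ((τ₁ - τ₂) ^ 2 + (σ₁ + σ₂) ^ 2) := by ring
      rw [this, Real.sqrt_mul (by positivity), Real.sqrt_sq (by positivity)]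
    rw [e3] at hm
    have hm2 := mul_le_mul_of_nonneg_left hm (Real.sqrt_nonneg N)
    have e4 : (n : ℝ) * v = Real.sqrt N * (n * Real.sqrt ((τ₁ - τ₂) ^ 2 + (σ₁ + σ₂) ^ 2)) := by
      rw [hv]; ring
    rw [e4]
    nlinarith [hm2, t1, t2, b1, b2, he]
  -- error sequences
  have LK₁ := tendsto_const_div_two_pow K₁
  have LK₂ := tendsto_const_div_two_pow K₂
  have LK₃ := tendsto_const_div_two_pow K₃
  -- `E₁` and `E₂`
  have LE₁ : Tendsto (fun k : ℕ => Real.sqrt
      (((dist ((a ^ 6) ^ 2 ^ k • x) (z₁ ^ 2 ^ k • x) / 2 ^ k) ^ 2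
        + (dist ((b ^ 6) ^ 2 ^ k • x) (z₁ ^ 2 ^ k • x) / 2 ^ k) ^ 2) / 2
        - (2 * ρ₁ - K₁ / 2 ^ k) * |2 * ρ₁ - K₁ / 2 ^ k| / 4)) atTop (𝓝 0) := by
    have hw : Tendsto (fun k : ℕ => 2 * ρ₁ - K₁ / 2 ^ k) atTop (𝓝 (2 * ρ₁ - 0)) :=
      tendsto_const_nhds.sub LK₁
    have := ((((LA1.pow 2).add (LB1.pow 2)).div_const 2).sub ((hw.mul hw.abs).div_const 4)).sqrt
    have e0 : (ρ₁ ^ 2 + ρ₁ ^ 2) / 2 - (2 * ρ₁ - 0) * |2 * ρ₁ - 0| / 4 = 0 := by
      rw [sub_zero, abs_of_nonneg (by positivity)]; ring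
    rw [e0, Real.sqrt_zero] at this
    exact this
  have LE₂ : Tendsto (fun k : ℕ => Real.sqrt
      (((dist ((a ^ 6) ^ 2 ^ k • x) (z₂ ^ 2 ^ k • x) / 2 ^ k) ^ 2
        + (dist ((c ^ 6) ^ 2 ^ k • x) (z₂ ^ 2 ^ k • x) / 2 ^ k) ^ 2) / 2
        - (2 * ρ₂ - K₂ / 2 ^ k) * |2 * ρ₂ - K₂ / 2 ^ k| / 4)) atTop (𝓝 0) := by
    have hw : Tendsto (fun k : ℕ => 2 * ρ₂ - K₂ / 2 ^ k) atTop (𝓝 (2 * ρ₂ - 0)) :=
      tendsto_const_nhds.sub LK₂
    have := ((((LA2.pow 2).add (LC2.pow 2)).div_const 2).sub ((hw.mul hw.abs).div_const 4)).sqrt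
    have e0 : (ρ₂ ^ 2 + ρ₂ ^ 2) / 2 - (2 * ρ₂ - 0) * |2 * ρ₂ - 0| / 4 = 0 := by
      rw [sub_zero, abs_of_nonneg (by positivity)]; ring
    rw [e0, Real.sqrt_zero] at this
    exact this
  -- a general estimate for approximate midpoints
  have approx : ∀ (P Q M m : X) (w n : ℝ), 0 < n →
      (∀ q : X, dist q m ^ 2 ≤ (dist q P ^ 2 + dist q Q ^ 2) / 2 - dist P Q ^ 2 / 4) →
      n * w ≤ dist P Q →
      dist M m / n ≤ Real.sqrt (((dist P M / n) ^ 2 + (dist Q M / n) ^ 2) / 2 - w * |w| / 4) := by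
    intro P Q M m w n hn hm hw
    apply Real.le_sqrt_of_sq_le
    have h1 := hm M
    rw [dist_comm M P, dist_comm M Q] at h1
    have h2 : w * |w| ≤ (dist P Q / n) ^ 2 := by
      have hy : 0 ≤ dist P Q / n := by positivity
      have hwy : w ≤ dist P Q / n := by
        rw [le_div_iff₀ hn]; linarith
      rcases le_total 0 w with h | h
      · rw [abs_of_nonneg h]; nlinarith
      · rw [abs_of_nonpos h]; nlinarith
    have h3 : (dist M m / n) ^ 2 = dist M m ^ 2 / n ^ 2 := by rw [div_pow]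
    have h4 : ((dist P M / n) ^ 2 + (dist Q M / n) ^ 2) / 2 - (dist P Q / n) ^ 2 / 4
        = ((dist P M ^ 2 + dist Q M ^ 2) / 2 - dist P Q ^ 2 / 4) / n ^ 2 := by
      rw [div_pow, div_pow, div_pow]; field_simp
    have h5 : (dist M m / n) ^ 2 ≤
        ((dist P M / n) ^ 2 + (dist Q M / n) ^ 2) / 2 - (dist P Q / n) ^ 2 / 4 := by
      rw [h3, h4]
      exact div_le_div_of_nonneg_right h1 (by positivity)
    linarith
  have Lfin := ((LK₃.add LE₁).add ((LB3.add LC3).div_const 2)).add LE₂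
  have hfin : v ≤ 0 + 0 + (ρ₃ + ρ₃) / 2 + 0 := by
    refine ge_of_tendsto' Lfin fun k => ?_
    have h2k : (0 : ℝ) < 2 ^ k := by positivity
    have hnk : 0 < 2 ^ k := pow_pos (by norm_num : 0 < 2) k
    have cast : ((2 ^ k : ℕ) : ℝ) = 2 ^ k := by push_cast; ring
    obtain ⟨m₁, hm₁⟩ := exists_mid hX ((a ^ 6) ^ 2 ^ k • x) ((b ^ 6) ^ 2 ^ k • x)
    obtain ⟨m₂, hm₂⟩ := exists_mid hX ((a ^ 6) ^ 2 ^ k • x) ((c ^ 6) ^ 2 ^ k • x)
    have g1 := hK₁ (2 ^ k) hnk
    have g2 := hK₂ (2 ^ k) hnk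
    have g3 := hK₃ (2 ^ k) hnk
    rw [cast] at g1 g2 g3
    rw [dist_comm ((c ^ 6) ^ 2 ^ k • x)] at g2
    have a1 := approx _ _ (z₁ ^ 2 ^ k • x) m₁ (2 * ρ₁ - K₁ / 2 ^ k) (2 ^ k) h2k hm₁ (by
      have : (2 : ℝ) ^ k * (2 * ρ₁ - K₁ / 2 ^ k) = 2 * 2 ^ k * ρ₁ - K₁ := by
        field_simp
      rw [this]; exact g1)
    have a2 := approx _ _ (z₂ ^ 2 ^ k • x) m₂ (2 * ρ₂ - K₂ / 2 ^ k) (2 ^ k) h2k hm₂ (by
      have : (2 : ℝ) ^ k * (2 * ρ₂ - K₂ / 2 ^ k) = 2 * 2 ^ k * ρ₂ - K₂ := by
        field_simp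
      rw [this]; exact g2)
    have mid := midline ((a ^ 6) ^ 2 ^ k • x) ((b ^ 6) ^ 2 ^ k • x) ((c ^ 6) ^ 2 ^ k • x)
      m₁ m₂ hm₁ hm₂
    have tri1 := dist_triangle ((b ^ 6) ^ 2 ^ k • x) (z₃ ^ 2 ^ k • x) ((c ^ 6) ^ 2 ^ k • x)
    rw [dist_comm (z₃ ^ 2 ^ k • x) ((c ^ 6) ^ 2 ^ k • x)] at tri1
    have tri2 := dist_triangle4 (z₁ ^ 2 ^ k • x) m₁ m₂ (z₂ ^ 2 ^ k • x)
    rw [dist_comm m₂] at tri2
    have f1 : v ≤ K₃ / 2 ^ k + dist (z₁ ^ 2 ^ k • x) (z₂ ^ 2 ^ k • x) / 2 ^ k := by
      rw [← add_div, le_div_iff₀ h2k]; linarith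
    have f2 : dist (z₁ ^ 2 ^ k • x) (z₂ ^ 2 ^ k • x) / 2 ^ k ≤
        dist (z₁ ^ 2 ^ k • x) m₁ / 2 ^ k
        + (dist ((b ^ 6) ^ 2 ^ k • x) (z₃ ^ 2 ^ k • x) / 2 ^ k
          + dist ((c ^ 6) ^ 2 ^ k • x) (z₃ ^ 2 ^ k • x) / 2 ^ k) / 2
        + dist (z₂ ^ 2 ^ k • x) m₂ / 2 ^ k := by
      have : dist (z₁ ^ 2 ^ k • x) (z₂ ^ 2 ^ k • x) ≤ dist (z₁ ^ 2 ^ k • x) m₁
        + (dist ((b ^ 6) ^ 2 ^ k • x) (z₃ ^ 2 ^ k • x)
          + dist ((c ^ 6) ^ 2 ^ k • x) (z₃ ^ 2 ^ k • x)) / 2
        + dist (z₂ ^ 2 ^ k • x) m₂ := by linarith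
      have h := div_le_div_of_nonneg_right this h2k.le
      calc _ ≤ _ := h
        _ = _ := by ring
    linarith
  -- conclusion
  have hfin2 : v ≤ ρ₃ := by linarith
  have hv0 : 0 ≤ v := by positivity
  have hsq : v ^ 2 ≤ ρ₃ ^ 2 := pow_le_pow_left₀ hv0 hfin2 2
  have hv2 : v ^ 2 = N * ((τ₁ - τ₂) ^ 2 + (σ₁ + σ₂) ^ 2) := by
    rw [hv, mul_pow, Real.sq_sqrt hN.le, Real.sq_sqrt (by positivity)]
  have h3nn : 0 ≤ 36 * N - 6 * (N * τ₃) := by
    have := QuadLength.stabSq_nonneg (ℓ := ℓ) ((b ^ 6)⁻¹ * z₃)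
    rw [stabSq_inv_six_mul hq hbz₃ s3, sb, h3] at this
    exact this
  rw [hv2, hρ₃, Real.sq_sqrt h3nn] at hsq
  have hsq2 : (τ₁ - τ₂) ^ 2 + (σ₁ + σ₂) ^ 2 ≤ 36 - 6 * τ₃ := by
    have : N * ((τ₁ - τ₂) ^ 2 + (σ₁ + σ₂) ^ 2) ≤ N * (36 - 6 * τ₃) := by linarith
    exact le_of_mul_le_mul_left this hN
  nlinarith [hsq2, hσ₁2, hσ₂2]

end Crest.Agent.R175.Geo
end

-- ▼ part R175/Geo7_974
section

/-!
# R175 (S0264), geometry 7 : the final statement of the geometric side

`no_geometric_action` : a group with `BadData` has no geometric action on a CAT(0) space.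
-/

set_option autoImplicit false

open Set Crest.Geometry Filter Topology

namespace Crest.Agent.R175.Geo

open R244

universe u

/-- Group-theoretic input for the orthogonality of the commuting elements `u` and `v`. -/
def OData {G : Type*} [Group G] (u v : G) : Prop :=
  ∃ (u' r₁ r₂ : G) (U : Set G), Commute r₁ u ∧ Commute r₁ u' ∧ Commute r₂ u ∧ Commute r₂ u' ∧
    Commute v u ∧ Commute v u' ∧
    DivData {r₁ * r₂ * r₁⁻¹ * r₂⁻¹} {e | ∃ k : ℤ, e = (r₁ * r₂ * r₁⁻¹ * r₂⁻¹) ^ k} U
      u (u' * u * u'⁻¹)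

/-- A `D₄` piece with centre `m` and leaves `a`, `p`, `q`. -/
def D4Data {G : Type*} [Group G] (a m : G) : Prop :=
  ∃ p q : G, D4Rel a m p q ∧ OData a p ∧ OData a q ∧ OData p q ∧
    ∀ n : ℕ, 0 < n → D4Rel.dd a m p q ^ n ≠ 1

/-- The group-theoretic input for S0264. -/
structure BadData (G : Type*) [Group G] (a b c : G) : Prop where
  hab : a * b * a = b * a * b
  hbc : b * c * b = c * b * c
  hca : c * a * c = a * c * a
  Eab : EdgeData a b
  Ebc : EdgeData b c
  Eca : EdgeData c a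
  Va : VertexData a b c
  Vb : VertexData b c a
  Vc : VertexData c a b
  Dab : D4Data a b
  Dbc : D4Data b c
  Dca : D4Data c a
  ia : ∀ n : ℕ, 0 < n → a ^ n ≠ 1
  iab : ∀ n : ℕ, 0 < n → ((a ^ 6)⁻¹ * (a * b) ^ 3) ^ n ≠ 1
  ibc : ∀ n : ℕ, 0 < n → ((b ^ 6)⁻¹ * (b * c) ^ 3) ^ n ≠ 1
  ica : ∀ n : ℕ, 0 < n → ((c ^ 6)⁻¹ * (c * a) ^ 3) ^ n ≠ 1

/-- The numerical contradiction: the largest of the three is opposite to the chosen vertex. -/
theorem numeric {x y t : ℝ} (hx : 3 / 2 < x) (hy : 3 / 2 < y) (hx6 : x < 6) (hy6 : y < 6)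
    (htx : x ≤ t) (hty : y ≤ t)
    (h : 3 * (x + y + t) - 18 - x * y + Real.sqrt (x * (6 - x)) * Real.sqrt (y * (6 - y)) ≤ 0) :
    False := by
  -- reduce to `y ≤ x`
  have key : ∀ x y : ℝ, 3 / 2 < x → 3 / 2 < y → x < 6 → y < 6 → y ≤ x →
      3 * (x + y + x) - 18 - x * y + Real.sqrt (x * (6 - x)) * Real.sqrt (y * (6 - y)) ≤ 0 →
      False := by
    intro x y hx hy hx6 hy6 hyx h
    rw [← Real.sqrt_mul (by nlinarith)] at h
    set s := Real.sqrt (x * (6 - x) * (y * (6 - y))) with hs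
    have hpos : 0 < x * (6 - x) * (y * (6 - y)) := by
      have h1 : 0 < x * (6 - x) := by nlinarith
      have h2 : 0 < y * (6 - y) := by nlinarith
      positivity
    have hs0 : 0 < s := Real.sqrt_pos.2 hpos
    have hs2 : s ^ 2 = x * (6 - x) * (y * (6 - y)) := Real.sq_sqrt hpos.le
    -- `3(2x+y) - 18 - xy = (x - 3)(6 - y)`
    have e : 3 * (x + y + x) - 18 - x * y = (x - 3) * (6 - y) := by ring
    rw [e] at h
    have h1 : s ≤ (3 - x) * (6 - y) := by linarith
    rcases le_total 3 x with h3 | h3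
    · nlinarith [mul_nonneg (sub_nonneg.2 h3) (by linarith : (0 : ℝ) ≤ 6 - y)]
    · have h4 : s ^ 2 ≤ ((3 - x) * (6 - y)) ^ 2 := pow_le_pow_left₀ hs0.le h1 2
      rw [hs2] at h4
      -- divide by `6 - y`
      have h5 : x * (6 - x) * y ≤ (3 - x) ^ 2 * (6 - y) := by
        have h6 : (6 - y) * (x * (6 - x) * y) ≤ (6 - y) * ((3 - x) ^ 2 * (6 - y)) := by
          calc (6 - y) * (x * (6 - x) * y) = x * (6 - x) * (y * (6 - y)) := by ring
            _ ≤ ((3 - x) * (6 - y)) ^ 2 := h4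
            _ = _ := by ring
        exact le_of_mul_le_mul_left h6 (by linarith)
      -- `9 y ≤ 6 (3 - x)²`
      have h7 : 9 * y ≤ 6 * (3 - x) ^ 2 := by nlinarith
      nlinarith [mul_pos (by linarith : (0:ℝ) < x - 3/2) (by linarith : (0:ℝ) < 9/2 - x + 0)]
  rcases le_total y x with hyx | hxy
  · refine key x y hx hy hx6 hy6 hyx ?_
    linarith
  · refine key y x hy hx hy6 hx6 hxy ?_
    have : y * x = x * y := mul_comm _ _
    rw [mul_comm (Real.sqrt (y * (6 - y)))]
    linarith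

variable {X : Type u} [MetricSpace X] [ProperSpace X] {G : Type*} [Group G] [MulAction G X]

theorem OData.orth (hX : IsCAT0Space X) (hG : IsGeometricAction G X) (x : X) {u v : G}
    (h : OData u v) : stabIp (len (G := G) x) u v = 0 := by
  obtain ⟨u', r₁, r₂, U, h1, h2, h3, h4, h5, h6, D⟩ := h
  exact Geo.orth hX hG x h1 h2 h3 h4 h5 h6 D

theorem D4Data.lt (hX : IsCAT0Space X) (hG : IsGeometricAction G X) (x : X) {a m : G}
    (h : D4Data a m) :
    3 / 2 * stabSq (len (G := G) x) a < stabIp (len (G := G) x) a ((a * m) ^ 3) := by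
  obtain ⟨p, q, R, o1, o2, o3, hinf⟩ := h
  exact R.lemmaD (quadLength (G := G) hX hG.1 x) (o1.orth hX hG x) (o2.orth hX hG x)
    (o3.orth hX hG x) (stabSq_pos hX hG x _ hinf)

/-- **The geometric side of S0264.** -/
theorem no_geometric_action {a b c : G} (B : BadData G a b c) (hX : IsCAT0Space X)
    (hne : Nonempty X) : ¬ IsGeometricAction G X := by
  intro hG
  obtain ⟨x⟩ := hne
  have hq := quadLength (G := G) hX hG.1 x
  set N := stabSq (len (G := G) x) a with hN
  have hNpos : 0 < N := stabSq_pos hX hG x a B.ia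
  have sb : stabSq (len (G := G) x) b = N := stabSq_eq_of_braid hq B.hab
  have sc : stabSq (len (G := G) x) c = N := (stabSq_eq_of_braid hq B.hbc).trans sb
  set τ₁ := stabIp (len (G := G) x) a ((a * b) ^ 3) / N with hτ₁
  set τ₂ := stabIp (len (G := G) x) c ((c * a) ^ 3) / N with hτ₂
  set τ₃ := stabIp (len (G := G) x) b ((b * c) ^ 3) / N with hτ₃
  have e1 : stabIp (len (G := G) x) a ((a * b) ^ 3) = N * τ₁ := by rw [hτ₁]; field_simp
  have e2 : stabIp (len (G := G) x) c ((c * a) ^ 3) = N * τ₂ := by rw [hτ₂]; field_simp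
  have e3 : stabIp (len (G := G) x) b ((b * c) ^ 3) = N * τ₃ := by rw [hτ₃]; field_simp
  have l1 : 3 / 2 < τ₁ := by
    have := B.Dab.lt hX hG x
    rw [e1, ← hN] at this
    nlinarith
  have l2 : 3 / 2 < τ₂ := by
    have := B.Dca.lt hX hG x
    rw [e2, sc] at this
    nlinarith
  have l3 : 3 / 2 < τ₃ := by
    have := B.Dbc.lt hX hG x
    rw [e3, sb] at this
    nlinarith
  have u1 : τ₁ < 6 := by
    have h := stabSq_pos hX hG x _ B.iab
    rw [stabSq_inv_six_mul hq (commute_left_cube B.hab) (stabSq_cube hq B.hab), e1, ← hN] at h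
    nlinarith
  have u2 : τ₂ < 6 := by
    have h := stabSq_pos hX hG x _ B.ica
    rw [stabSq_inv_six_mul hq (commute_left_cube B.hca) (stabSq_cube hq B.hca), e2, sc] at h
    nlinarith
  have u3 : τ₃ < 6 := by
    have h := stabSq_pos hX hG x _ B.ibc
    rw [stabSq_inv_six_mul hq (commute_left_cube B.hbc) (stabSq_cube hq B.hbc), e3, sb] at h
    nlinarith
  have Ia := vertex_ineq hX hG x B.hab B.hbc B.hca B.Eab B.Eca B.Va hNpos hN.symm e1 e2 e3
    u1.le u2.le
  have Ib := vertex_ineq hX hG x B.hbc B.hca B.hab B.Ebc B.Eab B.Vb hNpos sb e3 e1 e2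
    u3.le u1.le
  have Ic := vertex_ineq hX hG x B.hca B.hab B.hbc B.Eca B.Ebc B.Vc hNpos sc e2 e3 e1
    u2.le u3.le
  rcases le_total τ₁ τ₂ with h12 | h12
  · rcases le_total τ₂ τ₃ with h23 | h23
    · exact numeric l1 l2 u1 u2 (h12.trans h23) h23 Ia
    · exact numeric l3 l1 u3 u1 h23 h12 Ib
  · rcases le_total τ₁ τ₃ with h13 | h13
    · exact numeric l1 l2 u1 u2 h13 (h12.trans h13) Ia
    · exact numeric l2 l3 u2 u3 h12 h13 Ic

end Crest.Agent.R175.Geo
end

-- ▼ part R175/Edge_974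
section

/-!
# R175 (S0264) : the edge input for the concrete group
-/

set_option autoImplicit false

namespace Crest.Agent.R175

open Geo Grp_184 Grp_184.Gn AttB_663

theorem gn_braid (i : Fin 3) : gn (a i) * gn (a (i + 1)) * gn (a i)
    = gn (a (i + 1)) * gn (a i) * gn (a (i + 1)) :=
  cond_gn.aa i (i + 1) (fun h => fin3_1 i h.symm)

theorem edge (i : Fin 3) : EdgeData (gn (a i)) (gn (a (i + 1))) := by
  have c1 : Commute (gn (s i false)) (gn (a i)) := cond_gn.s0 i false
  have c2 : Commute (gn (s i false)) (gn (a (i + 1))) := cond_gn.s1 i false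
  have c3 : Commute (gn (s i true)) (gn (a i)) := cond_gn.s0 i true
  have c4 : Commute (gn (s i true)) (gn (a (i + 1))) := cond_gn.s1 i true
  have hb := gn_braid i
  set x := gn (a i) with hx
  set y := gn (a (i + 1)) with hy
  set z := (x * y) ^ 3 with hz
  set h := gn (s i false) * gn (s i true) * (gn (s i false))⁻¹ * (gn (s i true))⁻¹ with hh
  have hhs : hs i = h := rfl
  have hhx : Commute h x := (((c1.mul_left c3).mul_left c1.inv_left).mul_left c3.inv_left)
  have hhy : Commute h y := (((c2.mul_left c4).mul_left c2.inv_left).mul_left c4.inv_left)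
  have hzx : Commute z x := (commute_left_cube hb).symm
  have hzy : Commute z y := (commute_right_cube hb).symm
  set π := edgeHom B3_83.braid i with hπ
  have hπx : π x = B3_83.sa := edgeHom_a _ i
  have hπy : π y = B3_83.sb := edgeHom_b _ i
  have hπh : π h = 1 := edgeHom_hs _ i i
  refine ⟨gn (s i false), gn (s i true), _, c1, c2, c3, c4,
    FirstLet_83.div_of_hom' (Set.toFinite _) π ?_ ?_ ?_ ?_ true ?_ ?_⟩
  · -- the kernel
    intro g hg hπg
    have hgh : g * hs i = hs i * g := (hg h (Or.inl rfl)).symm.eq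
    obtain ⟨n, k, hk, hgk⟩ := cent_s i g hgh
    rw [hgk, hhs, map_mul, map_zpow, hπh, one_zpow, one_mul] at hπg
    obtain ⟨j, hj⟩ := B3_83.ker_zpowers hb π hπx hπy hk hπg
    have hj' : z ^ j = k := hj
    refine ⟨j, n, ?_⟩
    rw [hgk, hhs, ← hj']
    have : Commute z h := by
      have : Commute h z := ((hhx.mul_right hhy).pow_right 3)
      exact this.symm
    exact ((this.zpow_left j).zpow_right n).eq.symm
  · rintro e ⟨j, m, rfl⟩ g hg
    exact ((hg z (Or.inr rfl)).zpow_left j).mul_left ((hg h (Or.inl rfl)).zpow_left m)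
  · rintro f (rfl | hf)
    · exact hhx
    · rw [Set.mem_singleton_iff] at hf
      rw [hf]; exact hzx
  · rintro f (rfl | hf)
    · exact hhy
    · rw [Set.mem_singleton_iff] at hf
      rw [hf]; exact hzy
  · intro n hn
    rw [hπx]
    exact B3_83.sa_pow_mem hn
  · intro n hn
    rw [hπy]
    exact B3_83.sb_pow_notMem hn

end Crest.Agent.R175
end

-- ▼ part R175/Asm_974
section

/-!
# R175 (S0264) : assembly
-/

set_option autoImplicit false

namespace Crest.Agent.R175

open Geo Grp_184 Grp_184.Gn AttB_663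

/-- the length homomorphism -/
noncomputable def lenHom : GG →* Multiplicative ℤ :=
  mk (fun _ => Multiplicative.ofAdd (1 : ℤ)) (by constructor <;> intros <;> rfl)

theorem lenHom_gn (x : Gn) : lenHom (gn x) = Multiplicative.ofAdd 1 := mk_gn _ _ _

theorem pow_ne_one_of_len {g : GG} {k : ℤ} (hk : lenHom g = Multiplicative.ofAdd k) (hk0 : k ≠ 0)
    (n : ℕ) (hn : 0 < n) : g ^ n ≠ 1 := by
  intro h
  have h1 := congrArg lenHom h
  rw [map_pow, hk, map_one, ← ofAdd_nsmul] at h1
  have h2 : n • k = 0 := h1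
  rw [nsmul_eq_mul] at h2
  rcases mul_eq_zero.1 h2 with h3 | h3
  · have : n = 0 := by exact_mod_cast h3
    omega
  · exact hk0 h3

theorem d4rel (i : Fin 3) : D4Rel (gn (a i)) (gn (a (i + 1))) (gn (l i false)) (gn (l i true)) where
  am := gn_braid i
  pm := cond_gn.la3 i false
  qm := cond_gn.la3 i true
  ap := (cond_gn.la2 i false).symm
  aq := (cond_gn.la2 i true).symm
  pq := cond_gn.ll i false true

/-- `D₄` data from the nine orthogonality inputs. -/
theorem d4data (O : ∀ i j : Fin 3, OData (gn (UU i j)) (gn (VV i j))) (i : Fin 3) :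
    D4Data (gn (a i)) (gn (a (i + 1))) := by
  refine ⟨gn (l i false), gn (l i true), d4rel i, O i 0, O i 1, O i 2, ?_⟩
  apply pow_ne_one_of_len (k := 12)
  · unfold D4Rel.dd D4Rel.gg
    simp only [map_mul, lenHom_gn]
    rfl
  · norm_num

/-- The group-theoretic data of S0264 from the remaining inputs. -/
theorem badData (O : ∀ i j : Fin 3, OData (gn (UU i j)) (gn (VV i j)))
    (W : ∀ i : Fin 3, VertexData (gn (a i)) (gn (a (i + 1))) (gn (a (i + 2))))
    (I : ∀ i : Fin 3, ∀ n : ℕ, 0 < n →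
      ((gn (a i) ^ 6)⁻¹ * (gn (a i) * gn (a (i + 1))) ^ 3) ^ n ≠ 1) :
    BadData GG (gn (a 0)) (gn (a 1)) (gn (a 2)) where
  hab := gn_braid 0
  hbc := gn_braid 1
  hca := gn_braid 2
  Eab := edge 0
  Ebc := edge 1
  Eca := edge 2
  Va := W 0
  Vb := W 1
  Vc := W 2
  Dab := d4data O 0
  Dbc := d4data O 1
  Dca := d4data O 2
  ia := pow_ne_one_of_len (lenHom_gn _) (by norm_num)
  iab := I 0
  ibc := I 1
  ica := I 2

universe u in
theorem final (O : ∀ i j : Fin 3, OData (gn (UU i j)) (gn (VV i j)))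
    (W : ∀ i : Fin 3, VertexData (gn (a i)) (gn (a (i + 1))) (gn (a (i + 2))))
    (I : ∀ i : Fin 3, ∀ n : ℕ, 0 < n →
      ((gn (a i) ^ 6)⁻¹ * (gn (a i) * gn (a (i + 1))) ^ 3) ^ n ≠ 1) :
    ∃ (S : Type) (_ : Fintype S) (M : CoxeterMatrix S),
      Fintype.card S = 116 ∧ (∀ s t : S, s ≠ t → M.M s t = 0 ∨ M.M s t = 2 ∨ M.M s t = 3) ∧
      ∀ (X : Type u) [MetricSpace X] [ProperSpace X] [Nonempty X]
        [MulAction (Crest.GroupTheory.ArtinGroup M) X],
        Crest.Geometry.IsCAT0Space X →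
          ¬ Crest.Geometry.IsGeometricAction (Crest.GroupTheory.ArtinGroup M) X := by
  refine ⟨Gn, inferInstance, MM, card_Gn, MM_label, ?_⟩
  intro X _ _ hne _ hX
  exact no_geometric_action (badData O W I) hX hne

end Crest.Agent.R175
end

-- ▼ part R175/Inf_974
section

/-!
# R175 (S0264) : `a⁻⁶ (a b)³` has infinite order
-/

set_option autoImplicit false

namespace Crest.Agent.R175

open Grp_184 Grp_184.Gn AttB_663 Matrix

/-- upper transvection -/
def sx : SpecialLinearGroup (Fin 2) ℤ := ⟨!![1, 1; 0, 1], by simp⟩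
/-- lower transvection -/
def sy : SpecialLinearGroup (Fin 2) ℤ := ⟨!![1, 0; -1, 1], by simp⟩

theorem sxy_braid : sx * sy * sx = sy * sx * sy := by decide

/-- the element `x⁻⁶ (x y)³ = -x⁻⁶` -/
def sw : SpecialLinearGroup (Fin 2) ℤ := ⟨!![-1, 6; 0, -1], by simp⟩

theorem sw_eq : (sx ^ 6)⁻¹ * (sx * sy) ^ 3 = sw := by decide

theorem sw_pow (n : ℕ) : (sw ^ n).1 =
    !![(-1 : ℤ) ^ n, -(-1 : ℤ) ^ n * 6 * (n : ℤ); 0, (-1 : ℤ) ^ n] := by
  induction n with
  | zero =>
    have : (sw ^ 0).1 = (1 : Matrix (Fin 2) (Fin 2) ℤ) := rfl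
    rw [this, Matrix.one_fin_two]
    simp
  | succ n ih =>
    have e : (sw ^ (n + 1)).1 = (sw ^ n).1 * sw.1 := by rw [pow_succ]; rfl
    rw [e, ih]
    simp only [sw, Matrix.mul_fin_two]
    congr 1
    ext i j
    fin_cases i <;> fin_cases j <;> simp <;> ring

theorem inf_order (i : Fin 3) (n : ℕ) (hn : 0 < n) :
    ((gn (a i) ^ 6)⁻¹ * (gn (a i) * gn (a (i + 1))) ^ 3) ^ n ≠ 1 := by
  intro h
  have h1 := congrArg (edgeHom sxy_braid i) h
  simp only [map_pow, map_mul, map_inv, map_one] at h1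
  rw [edgeHom_a, edgeHom_b, sw_eq] at h1
  have h2 : (sw ^ n).1 0 1 = (1 : SpecialLinearGroup (Fin 2) ℤ).1 0 1 := by rw [h1]
  rw [sw_pow] at h2
  have h3 : (1 : SpecialLinearGroup (Fin 2) ℤ).1 0 1 = 0 := rfl
  rw [h3] at h2
  simp at h2
  omega

end Crest.Agent.R175
end

-- ▼ part R175/Tv_184
section

/-!
# R175 (S0264): transvections of `ℤ⁴` and free subgroups
-/

set_option autoImplicit false

namespace Crest.Agent.R175.Tv_184

open Monoid
open scoped Pointwise

/-- `ℤ⁴`. -/
abbrev V4 := ℤ × ℤ × ℤ × ℤ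

/-- the symplectic form. -/
def om (v w : V4) : ℤ := v.1 * w.2.1 - v.2.1 * w.1 + v.2.2.1 * w.2.2.2 - v.2.2.2 * w.2.2.1

lemma om_self (v : V4) : om v v = 0 := by unfold om; ring
lemma om_swap (v w : V4) : om v w = - om w v := by unfold om; ring

/-- `x + n ω(x,v) v`. -/
def tv (v : V4) (n : ℤ) (x : V4) : V4 :=
  (x.1 + n * om x v * v.1, x.2.1 + n * om x v * v.2.1, x.2.2.1 + n * om x v * v.2.2.1,
    x.2.2.2 + n * om x v * v.2.2.2)

lemma om_tv (v : V4) (n : ℤ) (x w : V4) : om (tv v n x) w = om x w + n * om x v * om v w := by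
  unfold tv om; ring

lemma tv_add (v : V4) (m n : ℤ) (x : V4) : tv v m (tv v n x) = tv v (m + n) x := by
  have h : om (tv v n x) v = om x v := by rw [om_tv, om_self]; ring
  unfold tv at h ⊢
  rw [h]
  ext <;> simp only <;> ring

lemma tv_zero (v x : V4) : tv v 0 x = x := by
  unfold tv; ext <;> simp

/-- the transvection subgroup. -/
def Tv (v : V4) : Multiplicative ℤ →* Equiv.Perm V4 where
  toFun n :=
    { toFun := tv v n.toAdd
      invFun := tv v (-n.toAdd)
      left_inv := fun x => by rw [tv_add, neg_add_cancel, tv_zero]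
      right_inv := fun x => by rw [tv_add, add_neg_cancel, tv_zero] }
  map_one' := by ext1 x; exact tv_zero v x
  map_mul' m n := by ext1 x; exact (tv_add v _ _ x).symm

/-- the transvection. -/
def T (v : V4) : Equiv.Perm V4 := Tv v (Multiplicative.ofAdd 1)

lemma T_apply (v x : V4) : T v x = tv v 1 x := rfl

lemma T_zpow_apply (v : V4) (n : ℤ) (x : V4) : (T v ^ n) x = tv v n x := by
  have h : T v ^ n = Tv v (Multiplicative.ofAdd n) := by
    rw [T, ← map_zpow, ← ofAdd_zsmul, smul_eq_mul, mul_one]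
  rw [h]; rfl

lemma T_zero : T (0, 0, 0, 0) = 1 := by
  ext1 x
  rw [T_apply]
  unfold tv
  ext <;> simp

lemma T_comm {v w : V4} (h : om v w = 0) : T v * T w = T w * T v := by
  have h' : om w v = 0 := by rw [om_swap, h, neg_zero]
  ext1 x
  rw [Equiv.Perm.mul_apply, Equiv.Perm.mul_apply]
  simp only [T_apply]
  have e1 : om (tv w 1 x) v = om x v := by rw [om_tv, h']; ring
  have e2 : om (tv v 1 x) w = om x w := by rw [om_tv, h]; ring
  unfold tv at e1 e2 ⊢
  rw [e1, e2]
  ext <;> simp only <;> ring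

lemma T_braid {v w : V4} (h : om v w ^ 2 = 1) : T v * T w * T v = T w * T v * T w := by
  have h' : om w v = - om v w := om_swap w v
  ext1 x
  simp only [Equiv.Perm.mul_apply, T_apply]
  have a1 : om (tv v 1 x) w = om x w + om x v * om v w := by rw [om_tv]; ring
  have a2 : om (tv w 1 (tv v 1 x)) v = om x v - (om x w + om x v * om v w) * om v w := by
    rw [om_tv, om_tv, om_tv, om_self, h']; ring
  have b1 : om (tv w 1 x) v = om x v - om x w * om v w := by rw [om_tv, h']; ring
  have b2 : om (tv v 1 (tv w 1 x)) w = om x w + (om x v - om x w * om v w) * om v w := by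
    rw [om_tv, om_tv, om_tv, om_self, h']; ring
  have key : ∀ p q r : ℤ, p + 1 * om x v * q + 1 * (om x w + om x v * om v w) * r +
      1 * (om x v - (om x w + om x v * om v w) * om v w) * q =
      p + 1 * om x w * r + 1 * (om x v - om x w * om v w) * q +
      1 * (om x w + (om x v - om x w * om v w) * om v w) * r := by
    intro p q r
    linear_combination (-(om x v) * q + om x w * r) * h
  have e1 : tv v 1 (tv w 1 (tv v 1 x)) = (
      x.1 + 1 * om x v * v.1 + 1 * (om x w + om x v * om v w) * w.1 +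
        1 * (om x v - (om x w + om x v * om v w) * om v w) * v.1,
      x.2.1 + 1 * om x v * v.2.1 + 1 * (om x w + om x v * om v w) * w.2.1 +
        1 * (om x v - (om x w + om x v * om v w) * om v w) * v.2.1,
      x.2.2.1 + 1 * om x v * v.2.2.1 + 1 * (om x w + om x v * om v w) * w.2.2.1 +
        1 * (om x v - (om x w + om x v * om v w) * om v w) * v.2.2.1,
      x.2.2.2 + 1 * om x v * v.2.2.2 + 1 * (om x w + om x v * om v w) * w.2.2.2 +
        1 * (om x v - (om x w + om x v * om v w) * om v w) * v.2.2.2) := by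
    rw [tv, a2, tv, a1, tv]
  have e2 : tv w 1 (tv v 1 (tv w 1 x)) = (
      x.1 + 1 * om x w * w.1 + 1 * (om x v - om x w * om v w) * v.1 +
        1 * (om x w + (om x v - om x w * om v w) * om v w) * w.1,
      x.2.1 + 1 * om x w * w.2.1 + 1 * (om x v - om x w * om v w) * v.2.1 +
        1 * (om x w + (om x v - om x w * om v w) * om v w) * w.2.1,
      x.2.2.1 + 1 * om x w * w.2.2.1 + 1 * (om x v - om x w * om v w) * v.2.2.1 +
        1 * (om x w + (om x v - om x w * om v w) * om v w) * w.2.2.1,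
      x.2.2.2 + 1 * om x w * w.2.2.2 + 1 * (om x v - om x w * om v w) * v.2.2.2 +
        1 * (om x w + (om x v - om x w * om v w) * om v w) * w.2.2.2) := by
    rw [tv, b2, tv, b1, tv]
  rw [e1, e2]
  simp only [key]

/-- the free product of two copies of `ℤ`. -/
abbrev ZZ := CoprodI (fun _ : Bool => Multiplicative ℤ)

/-- `ℤ * ℤ → G`, `false ↦ x`, `true ↦ y`. -/
def two {G : Type*} [Group G] (x y : G) : ZZ →* G :=
  CoprodI.lift (fun b => zpowersHom G (if b then y else x))

/-- ping-pong sets -/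
def PP (v w : V4) (b : Bool) : Set V4 :=
  if b then {x | |om x w| < |om x v|} else {x | |om x v| < |om x w|}

/-- the two homomorphisms -/
def ff (v w : V4) (b : Bool) : Multiplicative ℤ →* Equiv.Perm V4 :=
  zpowersHom (Equiv.Perm V4) (if b then T w else T v)

lemma ff_false (v w : V4) (n : Multiplicative ℤ) (x : V4) :
    ff v w false n • x = tv v n.toAdd x := T_zpow_apply v n.toAdd x

lemma ff_true (v w : V4) (n : Multiplicative ℤ) (x : V4) :
    ff v w true n • x = tv w n.toAdd x := T_zpow_apply w n.toAdd x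

lemma est {a b n c : ℤ} (hn : 1 ≤ |n|) (hc : |c| = 2) (h : |b| < |a|) : |a| < |b + n * a * c| := by
  have h1 : |n * a * c| ≤ |b + n * a * c| + |b| := by
    have := abs_sub (b + n * a * c) b
    rwa [add_sub_cancel_left] at this
  have h2 : |n * a * c| = 2 * (|n| * |a|) := by
    rw [abs_mul, abs_mul, hc]; ring
  have h3 : |a| ≤ |n| * |a| := le_mul_of_one_le_left (abs_nonneg _) hn
  linarith

/-- **Sanov**: if `ω(v, w) = 2` the transvections generate a free group. -/
theorem two_T_injective {v w : V4} (h : om v w = 2) : Function.Injective (two (T v) (T w)) := by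
  have h' : om w v = -2 := by rw [om_swap, h]
  have hcard : 3 ≤ Cardinal.mk Bool ∨ ∃ _ : Bool, 3 ≤ Cardinal.mk (Multiplicative ℤ) := by
    right
    refine ⟨false, ?_⟩
    rw [Cardinal.mk_congr Multiplicative.toAdd, Cardinal.mk_int]
    exact_mod_cast (Cardinal.natCast_lt_aleph0 (n := 3)).le
  have hX : ∀ b, (PP v w b).Nonempty := by
    intro b
    cases b
    · refine ⟨v, ?_⟩
      show |om v v| < |om v w|
      rw [om_self, h]; norm_num
    · refine ⟨w, ?_⟩
      show |om w w| < |om w v|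
      rw [om_self, h']; norm_num
  have hd : Pairwise (Function.onFun Disjoint (PP v w)) := by
    intro b b' hbb
    cases b <;> cases b'
    · exact absurd rfl hbb
    · rw [Function.onFun, Set.disjoint_left]
      intro x (h1 : |om x v| < |om x w|) (h2 : |om x w| < |om x v|)
      exact lt_asymm h1 h2
    · rw [Function.onFun, Set.disjoint_left]
      intro x (h1 : |om x w| < |om x v|) (h2 : |om x v| < |om x w|)
      exact lt_asymm h1 h2
    · exact absurd rfl hbb
  have hn : ∀ n : Multiplicative ℤ, n ≠ 1 → 1 ≤ |n.toAdd| := by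
    intro n hn
    exact Int.one_le_abs (fun h => hn (by rwa [← toAdd_eq_zero] ))
  have hpp : Pairwise fun b b' => ∀ n : Multiplicative ℤ, n ≠ 1 →
      ff v w b n • PP v w b' ⊆ PP v w b := by
    intro b b' hbb n hn1
    have hn1' := hn n hn1
    cases b <;> cases b'
    · exact absurd rfl hbb
    · rintro _ ⟨x, (hx : |om x w| < |om x v|), rfl⟩
      show |om (ff v w false n • x) v| < |om (ff v w false n • x) w|
      rw [ff_false, om_tv, om_tv, om_self, h, mul_zero, add_zero]
      exact est hn1' (by norm_num) hx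
    · rintro _ ⟨x, (hx : |om x v| < |om x w|), rfl⟩
      show |om (ff v w true n • x) w| < |om (ff v w true n • x) v|
      rw [ff_true, om_tv, om_tv, om_self, h', mul_zero, add_zero]
      exact est hn1' (by norm_num) hx
    · exact absurd rfl hbb
  exact @CoprodI.lift_injective_of_ping_pong Bool (Equiv.Perm V4) _ (fun _ => Multiplicative ℤ) _
    (ff v w) hcard V4 _ (PP v w) hX hd hpp inferInstance

end Crest.Agent.R175.Tv_184
end

-- ▼ part R175/OIn_184
section

/-!
# R175 (S0264): the orthogonality input (4-cycle lemma), abstract form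
-/

set_option autoImplicit false

namespace Crest.Agent.R175.OIn_184

open Monoid Tv_184 FirstLet_83 Geo

variable {G Q : Type*} [Group G] [Group Q]

lemma two_false (x y : G) (n : Multiplicative ℤ) :
    two x y (CoprodI.of (i := false) n) = x ^ n.toAdd := by
  simp [two]

lemma two_true (x y : G) (n : Multiplicative ℤ) :
    two x y (CoprodI.of (i := true) n) = y ^ n.toAdd := by
  simp [two]

lemma map_two (T : G →* Q) (x y : G) (w : ZZ) : T (two x y w) = two (T x) (T y) w := by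
  have h : T.comp (two x y) = two (T x) (T y) := by
    refine CoprodI.ext_hom _ _ fun b => ?_
    ext
    cases b <;> simp [two]
  rw [← h]; rfl

lemma closure_le_range (x y : G) : Subgroup.closure {x, y} ≤ (two x y).range := by
  rw [Subgroup.closure_le]
  rintro g (rfl | hg)
  · exact ⟨CoprodI.of (i := false) (Multiplicative.ofAdd 1), by rw [two_false]; simp⟩
  · rw [Set.mem_singleton_iff] at hg
    subst hg
    exact ⟨CoprodI.of (i := true) (Multiplicative.ofAdd 1), by rw [two_true]; simp⟩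

/-- **O-lemma**. -/
theorem odata {u v u' r₁ r₂ : G} (c1 : Commute r₁ u) (c2 : Commute r₁ u') (c3 : Commute r₂ u)
    (c4 : Commute r₂ u') (c5 : Commute v u) (c6 : Commute v u')
    (A1 : ∀ g, Commute (r₁ * r₂ * r₁⁻¹ * r₂⁻¹) g → ∃ n : ℤ, ∃ k ∈ Subgroup.closure {u, u'},
      g = (r₁ * r₂ * r₁⁻¹ * r₂⁻¹) ^ n * k)
    (T : G →* Q) (Tr : T r₁ = 1) (inj : Function.Injective (two (T u) (T u'))) : OData u v := by
  classical
  set h := r₁ * r₂ * r₁⁻¹ * r₂⁻¹ with hh
  have Th : T h = 1 := by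
    rw [hh]; simp [Tr]
  have hu : Commute h u := (((c1.mul_left c3).mul_left c1.inv_left).mul_left c3.inv_left)
  have hu' : Commute h u' := (((c2.mul_left c4).mul_left c2.inv_left).mul_left c4.inv_left)
  set J := two (T u) (T u') with hJ
  -- image of the centraliser
  have him : ∀ g : G, Commute h g → T g ∈ J.range := by
    intro g hg
    obtain ⟨n, k, hk, rfl⟩ := A1 g hg
    rw [map_mul, map_zpow, Th, one_zpow, one_mul]
    obtain ⟨w, rfl⟩ := closure_le_range u u' hk
    exact ⟨w, (map_two T u u' w).symm⟩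
  have hcen : ∀ g : Subgroup.centralizer {h}, Commute h (g : G) := by
    intro g
    exact Subgroup.mem_centralizer_iff.1 g.2 h rfl
  let θ₀ : Subgroup.centralizer {h} →* J.range :=
    (T.comp (Subgroup.centralizer {h}).subtype).codRestrict J.range (fun g => him g (hcen g))
  let θ : Subgroup.centralizer {h} →* ZZ := (MonoidHom.ofInjective inj).symm.toMonoidHom.comp θ₀
  have hθ : ∀ g, J (θ g) = T g := by
    intro g
    have : (MonoidHom.ofInjective inj) (θ g) = θ₀ g := by simp [θ]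
    exact congrArg Subtype.val this
  have hmu : u ∈ Subgroup.centralizer {h} := by
    rw [Subgroup.mem_centralizer_iff]
    rintro _ rfl; exact hu
  have hmu' : u' ∈ Subgroup.centralizer {h} := by
    rw [Subgroup.mem_centralizer_iff]
    rintro _ rfl; exact hu'
  have hmg : u' * u * u'⁻¹ ∈ Subgroup.centralizer {h} :=
    mul_mem (mul_mem hmu' hmu) (inv_mem hmu')
  have eu : θ ⟨u, hmu⟩ = CoprodI.of (i := false) (Multiplicative.ofAdd 1) := by
    apply inj
    rw [hθ, hJ, two_false]; simp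
  have eg : θ ⟨u' * u * u'⁻¹, hmg⟩ = CoprodI.of (i := true) (Multiplicative.ofAdd 1) *
      CoprodI.of (i := false) (Multiplicative.ofAdd 1) *
      (CoprodI.of (i := true) (Multiplicative.ofAdd 1))⁻¹ := by
    apply inj
    rw [hθ, map_mul, map_mul, map_inv, map_mul, map_mul, map_inv, hJ, two_false, two_true]; simp
  have hpow : ∀ n : ℕ, 0 < n → (Multiplicative.ofAdd (1:ℤ)) ^ n ≠ 1 := by
    intro n hn h0
    have h1 := congrArg Multiplicative.toAdd h0
    rw [toAdd_pow, toAdd_ofAdd, toAdd_one] at h1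
    simp at h1
    omega
  refine ⟨u', r₁, r₂, _, c1, c2, c3, c4, c5, c6, div_of_hom (Set.finite_singleton h) θ ?_ ?_
    hmu hmg false ?_ ?_⟩
  · intro g hg
    obtain ⟨n, k, hk, e⟩ := A1 g (hcen g)
    have h1 : T (g : G) = 1 := by rw [← hθ, hg, map_one]
    obtain ⟨w, rfl⟩ := closure_le_range u u' hk
    rw [e, map_mul, map_zpow, Th, one_zpow, one_mul, map_two] at h1
    have h2 : w = 1 := inj (by rw [map_one]; exact h1)
    refine ⟨n, ?_⟩
    rw [e, h2, map_one, mul_one]
  · rintro e ⟨k, rfl⟩ g hg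
    exact (hg h rfl).zpow_left k
  · intro n hn
    rw [eu, ← map_pow]
    exact st_of (hpow n hn)
  · intro n hn
    rw [eg]
    exact st_disjoint (by decide) (st_conj_pow (by decide) (hpow n hn)
      (by simp))

end Crest.Agent.R175.OIn_184
end

-- ▼ part R175/OConc_184
section

/-!
# R175 (S0264): all orthogonality inputs and infinite order facts of the concrete group
-/

set_option autoImplicit false

namespace Crest.Agent.R175.OConc_184

open Grp_184 Grp_184.Gn Tv_184 AttB_663 Geo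

/-- vectors of the core. -/
def core : Fin 3 → V4
  | 0 => (1, 0, 0, 0)
  | 1 => (0, 1, 0, 0)
  | 2 => (1, 1, 0, 0)

/-- the vectors of the `(i, j)` representation. -/
def vec (i j : Fin 3) : Gn → V4
  | a k => if a k = UU i j then core k + (0, 0, 1, 0) else core k
  | l k b => if l k b = UU i j then core k + (0, 0, 1, 0) else core k
  | u i' j' => if i' = i ∧ j' = j then (0, 0, 0, 2) else (0, 0, 0, 0)
  | _ => (0, 0, 0, 0)

lemma om_zero (v : V4) : om (0, 0, 0, 0) v = 0 := by simp [om]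

lemma vaa : ∀ i j k k' : Fin 3, k ≠ k' → om (vec i j (a k)) (vec i j (a k')) ^ 2 = 1 := by decide
lemma vla3 : ∀ i j k : Fin 3, ∀ b, om (vec i j (l k b)) (vec i j (a (k + 1))) ^ 2 = 1 := by decide
lemma vla2 : ∀ i j k : Fin 3, ∀ b, om (vec i j (l k b)) (vec i j (a k)) = 0 := by decide
lemma vll : ∀ i j k : Fin 3, ∀ b b', om (vec i j (l k b)) (vec i j (l k b')) = 0 := by decide
lemma vuV : ∀ i j i' j' : Fin 3, om (vec i j (u i' j')) (vec i j (VV i' j')) = 0 := by decide
lemma vUu : ∀ i j : Fin 3, om (vec i j (UU i j)) (vec i j (u i j)) = 2 := by decide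

lemma cond_vec (i j : Fin 3) : Cond (fun x => T (vec i j x)) where
  aa k k' h := T_braid (vaa i j k k' h)
  la3 k b := T_braid (vla3 i j k b)
  la2 k b := T_comm (vla2 i j k b)
  ll k b b' := T_comm (vll i j k b b')
  uV i' j' := T_comm (vuV i j i' j')
  rU _ _ _ := T_comm (om_zero _)
  ru _ _ _ := T_comm (om_zero _)
  s0 _ _ := T_comm (om_zero _)
  s1 _ _ := T_comm (om_zero _)
  ta _ _ := T_comm (om_zero _)

lemma comm_VU (i j : Fin 3) : Commute (gn (VV i j)) (gn (UU i j)) := by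
  fin_cases j
  · exact cond_gn.la2 i false
  · exact cond_gn.la2 i true
  · exact cond_gn.ll i true false

/-- **all orthogonality inputs.** -/
theorem odata_all (i j : Fin 3) : OData (gn (UU i j)) (gn (VV i j)) := by
  refine OIn_184.odata (u' := gn (u i j)) (r₁ := gn (r i j false)) (r₂ := gn (r i j true))
    (cond_gn.rU i j false) (cond_gn.ru i j false) (cond_gn.rU i j true) (cond_gn.ru i j true)
    (comm_VU i j) (cond_gn.uV i j).symm ?_ (mk _ (cond_vec i j)) ?_ ?_
  · intro g hg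
    obtain ⟨n, k, hk, e⟩ := cent_r i j g hg.symm
    exact ⟨n, k, hk, e⟩
  · rw [mk_gn]; exact T_zero
  · rw [mk_gn, mk_gn]
    exact two_T_injective (vUu i j)










end Crest.Agent.R175.OConc_184
end

-- ▼ part R175/A2t_83
section

/-!
# R175 (S0264), group side, vertex : `Ã₂ → F₃ ⋊ B₃`

`MM n` : the Coxeter matrix on `Fin n` with off-diagonal label `3`; `At = ArtinGroup (MM 3)` (`Ã₂`),
`B3 = ArtinGroup (MM 2)`.  `F3` is free on `x = x₁`, `y = x₁ x₂`, `v = x₃` and `B3` acts on it by the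
Artin representation.
-/

set_option autoImplicit false

open Crest.GroupTheory

namespace Crest.Agent.R175.A2t_83

open Semi_663

/-- off-diagonal label `3` -/
def MM (n : ℕ) : CoxeterMatrix (Fin n) where
  M := Matrix.of fun i j => if i = j then 1 else 3
  isSymm := by
    apply Matrix.IsSymm.ext
    intro i j
    simp only [Matrix.of_apply]
    by_cases h : i = j
    · simp [h]
    · rw [if_neg h, if_neg (Ne.symm h)]
  diagonal := fun i => by simp [Matrix.of_apply]
  off_diagonal := fun i j h => by simp [Matrix.of_apply, h]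

theorem MM_of_ne {n : ℕ} {i j : Fin n} (h : i ≠ j) : (MM n).M i j = 3 := by
  simp [MM, Matrix.of_apply, h]

/-- homomorphisms out of `ArtinGroup (MM n)` -/
def toH {n : ℕ} {L : Type*} [Group L] (f : Fin n → L) (h : ∀ s t, f s * f t * f s = f t * f s * f t) :
    ArtinGroup (MM n) →* L :=
  toHom (MM n) f fun s t => by
    by_cases hst : s = t
    · subst hst; rfl
    · rw [MM_of_ne hst]
      simpa [alt, mul_assoc] using h s t

@[simp] theorem toH_gen {n : ℕ} {L : Type*} [Group L] (f : Fin n → L)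
    (h : ∀ s t, f s * f t * f s = f t * f s * f t) (s : Fin n) :
    toH f h (artinGen (MM n) s) = f s := toHom_gen _ _ _ s

theorem braid {n : ℕ} (s t : Fin n) :
    artinGen (MM n) s * artinGen (MM n) t * artinGen (MM n) s =
      artinGen (MM n) t * artinGen (MM n) s * artinGen (MM n) t := by
  by_cases hst : s = t
  · subst hst; rfl
  · exact braid_of_three _ (MM_of_ne hst)

theorem closure_gen (n : ℕ) : Subgroup.closure (Set.range (artinGen (MM n))) = ⊤ :=
  PresentedGroup.closure_range_of _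

/-- Artin group of type `Ã₂` -/
abbrev At : Type := ArtinGroup (MM 3)
/-- three strand braid group -/
abbrev B3 : Type := ArtinGroup (MM 2)

/-- first generator -/
def s1 : B3 := artinGen (MM 2) 0
/-- second generator -/
def s2 : B3 := artinGen (MM 2) 1

theorem s_braid : s1 * s2 * s1 = s2 * s1 * s2 := braid 0 1

/-- free group on `x, y, v` -/
abbrev F3 : Type := FreeGroup (Fin 3)

/-- `x₁` -/
def gx : F3 := FreeGroup.of 0
/-- `x₁ x₂` -/
def gy : F3 := FreeGroup.of 1
/-- `x₃` -/
def gv : F3 := FreeGroup.of 2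

/-- a homomorphism out of `F3` -/
def hF {L : Type*} [Group L] (p q r : L) : F3 →* L := FreeGroup.lift ![p, q, r]

@[simp] theorem hF_x {L : Type*} [Group L] (p q r : L) : hF p q r gx = p := by simp [hF, gx]
@[simp] theorem hF_y {L : Type*} [Group L] (p q r : L) : hF p q r gy = q := by simp [hF, gy]
@[simp] theorem hF_v {L : Type*} [Group L] (p q r : L) : hF p q r gv = r := by simp [hF, gv]

theorem F3_ext {L : Type*} [Group L] {f g : F3 →* L} (hx : f gx = g gx) (hy : f gy = g gy)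
    (hv : f gv = g gv) : f = g := by
  apply FreeGroup.ext_hom
  intro i
  fin_cases i
  · exact hx
  · exact hy
  · exact hv

/-- an automorphism of `F3` -/
def aut (f g : F3 →* F3) (hfx : f (g gx) = gx) (hfy : f (g gy) = gy) (hfv : f (g gv) = gv)
    (hgx : g (f gx) = gx) (hgy : g (f gy) = gy) (hgv : g (f gv) = gv) : MulAut F3 :=
  MonoidHom.toMulEquiv f g (F3_ext hgx hgy hgv) (F3_ext hfx hfy hfv)

/-- action of `s1` -/
def S1 : MulAut F3 :=
  aut (hF (gy * gx⁻¹) gy gv) (hF (gx⁻¹ * gy) gy gv) (by simp) (by simp) (by simp)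
    (by simp) (by simp) (by simp)

/-- action of `s2` -/
def S2 : MulAut F3 :=
  aut (hF gx (gy * gv * gy⁻¹ * gx) (gx⁻¹ * gy)) (hF gx (gx * gv) (gv⁻¹ * gx⁻¹ * gy * gv))
    (by simp) (by simp only [hF_x, hF_y, hF_v, map_mul, map_inv]; group)
    (by simp only [hF_x, hF_y, hF_v, map_mul, map_inv]; group) (by simp)
    (by simp only [hF_x, hF_y, hF_v, map_mul, map_inv]; group)
    (by simp only [hF_x, hF_y, hF_v, map_mul, map_inv]; group)

@[simp] theorem S1_x : S1 gx = gy * gx⁻¹ := by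
  show hF (gy * gx⁻¹) gy gv gx = _
  simp
@[simp] theorem S1_y : S1 gy = gy := by
  show hF (gy * gx⁻¹) gy gv gy = _
  simp
@[simp] theorem S1_v : S1 gv = gv := by
  show hF (gy * gx⁻¹) gy gv gv = _
  simp
@[simp] theorem S2_x : S2 gx = gx := by
  show hF gx (gy * gv * gy⁻¹ * gx) (gx⁻¹ * gy) gx = _
  simp
@[simp] theorem S2_y : S2 gy = gy * gv * gy⁻¹ * gx := by
  show hF gx (gy * gv * gy⁻¹ * gx) (gx⁻¹ * gy) gy = _
  simp
@[simp] theorem S2_v : S2 gv = gx⁻¹ * gy := by
  show hF gx (gy * gv * gy⁻¹ * gx) (gx⁻¹ * gy) gv = _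
  simp

theorem MulAut_ext {f g : MulAut F3} (hx : f gx = g gx) (hy : f gy = g gy) (hv : f gv = g gv) :
    f = g := by
  have := F3_ext (f := f.toMonoidHom) (g := g.toMonoidHom) hx hy hv
  exact MulEquiv.ext fun w => DFunLike.congr_fun this w

theorem S_braid : S1 * S2 * S1 = S2 * S1 * S2 := by
  apply MulAut_ext
  · simp only [MulAut.mul_apply, S1_x, S1_y, S1_v, S2_x, S2_y, S2_v, map_mul, map_inv]; group
  · simp only [MulAut.mul_apply, S1_x, S1_y, S1_v, S2_x, S2_y, S2_v, map_mul, map_inv]; group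
  · simp only [MulAut.mul_apply, S1_x, S1_y, S1_v, S2_x, S2_y, S2_v, map_mul, map_inv]; group

/-- Artin representation -/
def phi : B3 →* MulAut F3 := toH ![S1, S2] (by
  intro s t
  fin_cases s <;> fin_cases t
  · rfl
  · exact S_braid
  · exact S_braid.symm
  · rfl)

@[simp] theorem phi_s1 : phi s1 = S1 := toH_gen _ _ _
@[simp] theorem phi_s2 : phi s2 = S2 := toH_gen _ _ _

/-- `x₁ x₂ x₃` -/
def dl : F3 := gy * gv

theorem phi_z : phi ((s1 * s2) ^ 3) = MulAut.conj dl := by
  rw [map_pow, map_mul, phi_s1, phi_s2]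
  apply MulAut_ext
  · simp only [pow_succ, pow_zero, one_mul, MulAut.mul_apply, S1_x, S1_y, S1_v, S2_x, S2_y, S2_v,
      map_mul, map_inv, MulAut.conj_apply, dl]
    group
  · simp only [pow_succ, pow_zero, one_mul, MulAut.mul_apply, S1_x, S1_y, S1_v, S2_x, S2_y, S2_v,
      map_mul, map_inv, MulAut.conj_apply, dl]
    group
  · simp only [pow_succ, pow_zero, one_mul, MulAut.mul_apply, S1_x, S1_y, S1_v, S2_x, S2_y, S2_v,
      map_mul, map_inv, MulAut.conj_apply, dl]
    group

/-- annular braid group `F₃ ⋊ B₃` -/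
abbrev AB : Type := F3 ⋊[phi] B3

/-- `B3 → AB` -/
abbrev nr : B3 →* AB := SemidirectProduct.inr
/-- `F3 → AB` -/
abbrev nl : F3 →* AB := SemidirectProduct.inl

theorem nr_nl (b : B3) (w : F3) : nr b * nl w = nl (phi b w) * nr b := by
  have := SemidirectProduct.inl_aut (φ := phi) b w
  rw [this, mul_assoc, mul_assoc, ← map_mul, inv_mul_cancel, map_one, mul_one]

theorem S_V : nr s1 * nl gv = nl gv * nr s1 := by rw [nr_nl, phi_s1, S1_v]
theorem T_V : nr s2 * nl gv = nl (gx⁻¹ * gy) * nr s2 := by rw [nr_nl, phi_s2, S2_v]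

/-- image of the third generator -/
def cc : AB := nl gv * nr (s1 * s2 * s1⁻¹) * (nl gv)⁻¹

/-- `R = s₁ s₂ x₃⁻¹` -/
def RR : AB := nr s1 * nr s2 * (nl gv)⁻¹

theorem R_S : RR * nr s1 * RR⁻¹ = nr s2 := by
  have h1 : (nl gv)⁻¹ * nr s1 * nl gv = nr s1 := by
    rw [mul_assoc, S_V]; group
  have h2 : nr s1 * nr s2 * nr s1 = nr s2 * nr s1 * nr s2 := by
    rw [← map_mul, ← map_mul, s_braid, map_mul, map_mul]
  calc RR * nr s1 * RR⁻¹ = nr s1 * nr s2 * ((nl gv)⁻¹ * nr s1 * nl gv) * (nr s2)⁻¹ * (nr s1)⁻¹ := by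
        rw [RR]; group
    _ = (nr s1 * nr s2 * nr s1) * (nr s2)⁻¹ * (nr s1)⁻¹ := by rw [h1]; 
    _ = nr s2 := by rw [h2]; group

theorem R_c : RR * cc * RR⁻¹ = nr s1 := by
  have h2 : nr s1 * nr s2 * nr s1 = nr s2 * nr s1 * nr s2 := by
    rw [← map_mul, ← map_mul, s_braid, map_mul, map_mul]
  have e : cc = nl gv * (nr s1 * nr s2 * (nr s1)⁻¹) * (nl gv)⁻¹ := by
    rw [cc, map_mul, map_mul, map_inv]
  calc RR * cc * RR⁻¹ = nr s1 * (nr s2 * nr s1 * nr s2) * (nr s1)⁻¹ * (nr s2)⁻¹ * (nr s1)⁻¹ := by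
        rw [RR, e]; group
    _ = nr s1 := by rw [← h2]; group

theorem nl_mul (p q : F3) : nl (p * q) = nl p * nl q := map_mul _ _ _

theorem R_T : RR * nr s2 * RR⁻¹ = cc := by
  -- both sides are `V X⁻¹ S T S⁻¹`
  have hW : nr s2 * nl gv * (nr s2)⁻¹ = nl (gx⁻¹ * gy) := by rw [T_V]; group
  have hW2 : nr s2 * nl (gx⁻¹ * gy) * (nr s2)⁻¹ = nl (gx⁻¹ * gy * gv * (gx⁻¹ * gy)⁻¹) := by
    have : S2 (gx⁻¹ * gy) = gx⁻¹ * gy * gv * (gx⁻¹ * gy)⁻¹ := by
      rw [map_mul, map_inv, S2_x, S2_y]; group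
    rw [nr_nl, phi_s2, this, mul_inv_cancel_right]
  have hW3 : nr s1 * nl (gx⁻¹ * gy) * (nr s1)⁻¹ = nl gx := by
    have : S1 (gx⁻¹ * gy) = gx := by
      rw [map_mul, map_inv, S1_x, S1_y]; group
    rw [nr_nl, phi_s1, this, mul_inv_cancel_right]
  have e : cc = nl gv * (nr s1 * nr s2 * (nr s1)⁻¹) * (nl gv)⁻¹ := by
    rw [cc, map_mul, map_mul, map_inv]
  have hV : (nr s1)⁻¹ * (nl gv)⁻¹ = (nl gv)⁻¹ * (nr s1)⁻¹ := by
    rw [← mul_inv_rev, ← mul_inv_rev, S_V]
  calc RR * nr s2 * RR⁻¹ = nr s1 * (nr s2 * nl gv * (nr s2)⁻¹)⁻¹ * (nr s2 * (nr s2 * nl gv *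
        (nr s2)⁻¹) * (nr s2)⁻¹) * nr s2 * (nr s1)⁻¹ := by rw [RR]; group
    _ = nr s1 * nl gv * (nl (gx⁻¹ * gy))⁻¹ * nr s2 * (nr s1)⁻¹ := by
      have e3 : nl (gx⁻¹ * gy * gv * (gx⁻¹ * gy)⁻¹) =
          nl (gx⁻¹ * gy) * nl gv * (nl (gx⁻¹ * gy))⁻¹ := by
        rw [nl_mul, nl_mul (gx⁻¹ * gy) gv, map_inv]
      rw [hW, hW2, e3]; group
    _ = nl gv * (nr s1 * nl (gx⁻¹ * gy) * (nr s1)⁻¹)⁻¹ * (nr s1 * nr s2 * (nr s1)⁻¹) := by
      rw [S_V]; group
    _ = nl gv * (nl gx)⁻¹ * (nr s1 * nr s2 * (nr s1)⁻¹) := by rw [hW3]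
    _ = cc := by
      rw [e, ← hW3, ← hW]
      have e2 : nr s1 * nr s2 * (nr s1)⁻¹ * (nl gv)⁻¹ =
          nr s1 * nr s2 * ((nl gv)⁻¹ * (nr s1)⁻¹) := by rw [← hV]; group
      calc _ = nl gv * (nr s1 * nr s2 * ((nl gv)⁻¹ * (nr s1)⁻¹)) := by group
        _ = nl gv * (nr s1 * nr s2 * (nr s1)⁻¹ * (nl gv)⁻¹) := by rw [e2]
        _ = _ := by group

/-- `Ã₂ → F₃ ⋊ B₃` -/
def Phi : At →* AB := toH ![nr s1, nr s2, cc] (by
  have h01 : nr s1 * nr s2 * nr s1 = nr s2 * nr s1 * nr s2 := by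
    rw [← map_mul, ← map_mul, s_braid, map_mul, map_mul]
  have h12 : nr s2 * cc * nr s2 = cc * nr s2 * cc := by
    have : RR * (nr s1 * nr s2 * nr s1) * RR⁻¹ = RR * (nr s2 * nr s1 * nr s2) * RR⁻¹ := by
      rw [h01]
    have c : ∀ p q r : AB, RR * (p * q * r) * RR⁻¹ =
        (RR * p * RR⁻¹) * (RR * q * RR⁻¹) * (RR * r * RR⁻¹) := by intros; group
    rwa [c, c, R_S, R_T] at this
  have h20 : cc * nr s1 * cc = nr s1 * cc * nr s1 := by
    have : RR * (nr s2 * cc * nr s2) * RR⁻¹ = RR * (cc * nr s2 * cc) * RR⁻¹ := by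
      rw [h12]
    have c : ∀ p q r : AB, RR * (p * q * r) * RR⁻¹ =
        (RR * p * RR⁻¹) * (RR * q * RR⁻¹) * (RR * r * RR⁻¹) := by intros; group
    rwa [c, c, R_T, R_c] at this
  intro s t
  fin_cases s <;> fin_cases t
  · rfl
  · exact h01
  · exact h20.symm
  · exact h01.symm
  · rfl
  · exact h12
  · exact h20
  · exact h12.symm
  · rfl)

theorem Phi_0 : Phi (artinGen (MM 3) 0) = nr s1 := toH_gen _ _ _
theorem Phi_1 : Phi (artinGen (MM 3) 1) = nr s2 := toH_gen _ _ _
theorem Phi_2 : Phi (artinGen (MM 3) 2) = cc := toH_gen _ _ _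

end Crest.Agent.R175.A2t_83
end

-- ▼ part R175/A2u_83
section

/-!
# R175 (S0264), group side, vertex : `Phi : Ã₂ → F₃ ⋊ B₃` is injective

The left inverse goes to `Ã₂ ⋊ ℤ` (rotation of the triangle).
-/

set_option autoImplicit false

open Crest.GroupTheory

namespace Crest.Agent.R175.A2t_83

open Semi_663

section words

variable {D : Type*} [Group D] {A B C r : D}

theorem w1x (hA : r * A = C * r) (hB : r * B = A * r) (hC : r * C = B * r)
    (ab : A * B * A = B * A * B) :
    A * (A * B * r) * A⁻¹ = (A * B * A * B * r * r) * (A * B * r)⁻¹ := by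
  rw [eq_mul_inv_iff_mul_eq]
  calc A * (A * B * r) * A⁻¹ * (A * B * r) = A * A * B * (r * B) * r := by group
    _ = A * (A * B * A) * r * r := by rw [hB]; group
    _ = A * B * A * B * r * r := by conv_lhs => rw [ab]
                                    group

theorem w1y (hA : r * A = C * r) (hB : r * B = A * r) (hC : r * C = B * r)
    (ab : A * B * A = B * A * B) :
    A * (A * B * A * B * r * r) * A⁻¹ = A * B * A * B * r * r := by
  rw [mul_inv_eq_iff_eq_mul]
  calc A * (A * B * A * B * r * r) = A * (A * B * A) * B * r * r := by group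
    _ = A * B * A * B * (B * r) * r := by conv_lhs => rw [ab]
                                          group
    _ = A * B * A * B * r * (C * r) := by rw [← hC]; group
    _ = A * B * A * B * r * r * A := by rw [← hA]; group

theorem w1v (hA : r * A = C * r) (ca : C * A * C = A * C * A) :
    A * (C * A * r) * A⁻¹ = C * A * r := by
  rw [mul_inv_eq_iff_eq_mul]
  calc A * (C * A * r) = (A * C * A) * r := by group
    _ = C * A * (C * r) := by rw [← ca]; group
    _ = C * A * r * A := by rw [← hA]; group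

theorem w2x (hB : r * B = A * r) (ab : A * B * A = B * A * B) :
    B * (A * B * r) * B⁻¹ = A * B * r := by
  rw [mul_inv_eq_iff_eq_mul]
  calc B * (A * B * r) = (B * A * B) * r := by group
    _ = A * B * (A * r) := by rw [← ab]; group
    _ = A * B * r * B := by rw [← hB]; group

theorem ww (hA : r * A = C * r) (hB : r * B = A * r) (hC : r * C = B * r) :
    (A * B * r)⁻¹ * (A * B * A * B * r * r) = B * C * r := by
  rw [inv_mul_eq_iff_eq_mul]
  calc A * B * A * B * r * r = A * B * (A * (B * r)) * r := by group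
    _ = A * B * ((A * r) * C) * r := by rw [← hC]; group
    _ = A * B * r * (B * C * r) := by rw [← hB]; group

theorem w2v (hA : r * A = C * r) (hB : r * B = A * r) (hC : r * C = B * r) :
    B * (C * A * r) * B⁻¹ = (A * B * r)⁻¹ * (A * B * A * B * r * r) := by
  rw [ww hA hB hC, mul_inv_eq_iff_eq_mul]
  calc B * (C * A * r) = B * C * (A * r) := by group
    _ = B * C * r * B := by rw [← hB]; group

theorem w2y (hA : r * A = C * r) (hB : r * B = A * r) (hC : r * C = B * r)
    (ab : A * B * A = B * A * B) :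
    B * (A * B * A * B * r * r) * B⁻¹ = (A * B * A * B * r * r) * (C * A * r) *
      (A * B * A * B * r * r)⁻¹ * (A * B * r) := by
  have h1 : (A * B * A * B * r * r)⁻¹ * (A * B * r) = (B * C * r)⁻¹ := by
    rw [← ww hA hB hC]; group
  rw [mul_assoc _ (A * B * A * B * r * r)⁻¹, h1, eq_mul_inv_iff_mul_eq]
  have e1 : r * r * C = A * r * r := by rw [mul_assoc, hC, ← mul_assoc, hB]
  have e2 : r * r * A = B * r * r := by rw [mul_assoc, hA, ← mul_assoc, hC]
  calc B * (A * B * A * B * r * r) * B⁻¹ * (B * C * r) =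
      B * A * B * A * B * (r * r * C) * r := by group
    _ = (B * A * B) * (A * B * A) * r * r * r := by rw [e1]; group
    _ = (A * B * A) * (B * A * B) * r * r * r := by rw [ab]
    _ = A * B * A * B * A * (B * r * r) * r := by group
    _ = A * B * A * B * (A * r * r) * A * r := by rw [← e2]; group
    _ = A * B * A * B * r * r * (C * A * r) := by rw [← e1]; group

end words

/-- generators of `Ã₂` -/
abbrev ga (i : Fin 3) : At := artinGen (MM 3) i

/-- rotation -/
def rot : MulAut At :=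
  MonoidHom.toMulEquiv (toH (fun i => ga (i + 1)) fun s t => braid _ _)
    (toH (fun i => ga (i - 1)) fun s t => braid _ _)
    (by
      apply hom_ext
      intro s
      simp [ga])
    (by
      apply hom_ext
      intro s
      simp [ga])

theorem rot_gen (i : Fin 3) : rot (ga i) = ga (i + 1) := by
  show (toH (fun i => ga (i + 1)) fun s t => braid _ _) (ga i) = ga (i + 1)
  exact toH_gen _ _ _

/-- `Ã₂ ⋊ ℤ` -/
abbrev DD : Type := At ⋊[zpowersHom (MulAut At) rot] (Multiplicative ℤ)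

/-- `At → DD` -/
abbrev il : At →* DD := SemidirectProduct.inl

/-- the rotation (inverse) -/
def rr : DD := SemidirectProduct.inr (Multiplicative.ofAdd (-1 : ℤ))

theorem rr_mul (g : At) : rr * il (rot g) = il g * rr := by
  have := SemidirectProduct.inl_aut (φ := zpowersHom (MulAut At) rot) (Multiplicative.ofAdd (-1 : ℤ))
    (rot g)
  rw [zpowersHom_apply] at this
  simp only [Int.reduceNeg, toAdd_ofAdd, zpow_neg, zpow_one, MulAut.inv_apply_self] at this
  rw [this, rr, mul_assoc, ← map_mul, inv_mul_cancel, map_one, mul_one]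

theorem hA : rr * il (ga 0) = il (ga 2) * rr := by
  rw [← rr_mul, rot_gen]; rfl
theorem hB : rr * il (ga 1) = il (ga 0) * rr := by
  rw [← rr_mul, rot_gen]; rfl
theorem hC : rr * il (ga 2) = il (ga 1) * rr := by
  rw [← rr_mul, rot_gen]; rfl

theorem ibraid (i j : Fin 3) : il (ga i) * il (ga j) * il (ga i) =
    il (ga j) * il (ga i) * il (ga j) := by
  rw [← map_mul, ← map_mul, braid, map_mul, map_mul]

/-- on `F3` -/
def f1 : F3 →* DD := hF (il (ga 0) * il (ga 1) * rr)
  (il (ga 0) * il (ga 1) * il (ga 0) * il (ga 1) * rr * rr) (il (ga 2) * il (ga 0) * rr)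

/-- on `B3` -/
def f2 : B3 →* DD := toH ![il (ga 0), il (ga 1)] (by
  intro s t
  fin_cases s <;> fin_cases t
  · rfl
  · exact ibraid 0 1
  · exact ibraid 1 0
  · rfl)

theorem f2_s1 : f2 s1 = il (ga 0) := toH_gen _ _ _
theorem f2_s2 : f2 s2 = il (ga 1) := toH_gen _ _ _

theorem compat_s1 (w : F3) : f1 (S1 w) = il (ga 0) * f1 w * (il (ga 0))⁻¹ := by
  have : f1.comp S1.toMonoidHom = (MulAut.conj (il (ga 0))).toMonoidHom.comp f1 := by
    apply F3_ext
    · show f1 (S1 gx) = il (ga 0) * f1 gx * (il (ga 0))⁻¹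
      rw [S1_x, map_mul, map_inv, f1, hF_x, hF_y]
      exact (w1x hA hB hC (ibraid 0 1)).symm
    · show f1 (S1 gy) = il (ga 0) * f1 gy * (il (ga 0))⁻¹
      rw [S1_y, f1, hF_y]
      exact (w1y hA hB hC (ibraid 0 1)).symm
    · show f1 (S1 gv) = il (ga 0) * f1 gv * (il (ga 0))⁻¹
      rw [S1_v, f1, hF_v]
      exact (w1v hA (ibraid 2 0)).symm
  exact DFunLike.congr_fun this w

theorem compat_s2 (w : F3) : f1 (S2 w) = il (ga 1) * f1 w * (il (ga 1))⁻¹ := by
  have : f1.comp S2.toMonoidHom = (MulAut.conj (il (ga 1))).toMonoidHom.comp f1 := by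
    apply F3_ext
    · show f1 (S2 gx) = il (ga 1) * f1 gx * (il (ga 1))⁻¹
      rw [S2_x, f1, hF_x]
      exact (w2x hB (ibraid 0 1)).symm
    · show f1 (S2 gy) = il (ga 1) * f1 gy * (il (ga 1))⁻¹
      rw [S2_y, map_mul, map_mul, map_mul, map_inv, f1, hF_x, hF_y, hF_v]
      exact (w2y hA hB hC (ibraid 0 1)).symm
    · show f1 (S2 gv) = il (ga 1) * f1 gv * (il (ga 1))⁻¹
      rw [S2_v, map_mul, map_inv, f1, hF_x, hF_y, hF_v]
      exact (w2v hA hB hC).symm
  exact DFunLike.congr_fun this w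

theorem compat (b : B3) : ∀ w : F3, f1 (phi b w) = f2 b * f1 w * (f2 b)⁻¹ := by
  have hb : b ∈ Subgroup.closure (Set.range (artinGen (MM 2))) := by
    rw [closure_gen]; trivial
  induction hb using Subgroup.closure_induction with
  | mem x hx =>
    obtain ⟨i, rfl⟩ := hx
    intro w
    fin_cases i
    · show f1 (phi s1 w) = f2 s1 * f1 w * (f2 s1)⁻¹
      rw [phi_s1, f2_s1, compat_s1]
    · show f1 (phi s2 w) = f2 s2 * f1 w * (f2 s2)⁻¹
      rw [phi_s2, f2_s2, compat_s2]
  | one => intro w; simp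
  | mul x y _ _ hx hy =>
    intro w
    rw [map_mul, MulAut.mul_apply, hx, hy, map_mul]; group
  | inv x _ hx =>
    intro w
    have := hx (phi x⁻¹ w)
    rw [map_inv, MulAut.apply_inv_self] at this
    rw [map_inv, map_inv, this]; group

/-- `AB → DD` -/
def Psi : AB →* DD := SemidirectProduct.lift f1 f2 fun b => by
  ext1 i
  exact compat b _

theorem Psi_nl (w : F3) : Psi (nl w) = f1 w := SemidirectProduct.lift_inl _ _ _ _
theorem Psi_nr (b : B3) : Psi (nr b) = f2 b := SemidirectProduct.lift_inr _ _ _ _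

theorem Psi_Phi (g : At) : Psi (Phi g) = il g := by
  have : Psi.comp Phi = il := by
    apply hom_ext
    intro s
    fin_cases s
    · show Psi (Phi (artinGen (MM 3) 0)) = il (ga 0)
      rw [Phi_0, Psi_nr, f2_s1]
    · show Psi (Phi (artinGen (MM 3) 1)) = il (ga 1)
      rw [Phi_1, Psi_nr, f2_s2]
    · show Psi (Phi (artinGen (MM 3) 2)) = il (ga 2)
      rw [Phi_2, cc, map_mul, map_mul, map_inv, Psi_nl, Psi_nr, map_mul, map_mul, map_inv, f2_s1,
        f2_s2, f1, hF_v]
      -- `C A r (A B A⁻¹) (C A r)⁻¹ = C`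
      have h1 : il (ga 2) * il (ga 0) * rr = rr * (il (ga 0) * il (ga 1)) := by
        rw [← mul_assoc, hA, mul_assoc _ rr, hB]; group
      rw [h1]
      have h2 : rr * (il (ga 0) * il (ga 1)) * (il (ga 0) * il (ga 1) * (il (ga 0))⁻¹) *
          (rr * (il (ga 0) * il (ga 1)))⁻¹ = rr * il (ga 0) * rr⁻¹ := by
        have h3 := ibraid 0 1
        calc _ = rr * ((il (ga 0) * il (ga 1) * il (ga 0)) * il (ga 1) * (il (ga 0))⁻¹ *
            (il (ga 1))⁻¹ * (il (ga 0))⁻¹) * rr⁻¹ := by group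
          _ = rr * il (ga 0) * rr⁻¹ := by
            congr 2
            rw [mul_assoc (il (ga 0)), mul_assoc (il (ga 0)), ← h3]
            group
      rw [h2, hA]; group
  exact DFunLike.congr_fun this g

theorem Phi_injective : Function.Injective Phi := by
  intro g h hgh
  have := congrArg Psi hgh
  rw [Psi_Phi, Psi_Phi] at this
  exact SemidirectProduct.inl_injective this

end Crest.Agent.R175.A2t_83
end

-- ▼ part R175/Cent23_83
section

/-!
# R175 (S0264), group side : centralisers in a free product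

* `commute_list` : if `g ≠ 1` commutes with the product of a reduced word `t` whose first and last
  letters lie in different factors, then `g` or `g⁻¹` has a reduced word `l` with `l ++ t = t ++ l`;
* `cent_sa` : the centraliser of `sa` in `ℤ/2 * ℤ/3` is `⟨sa⟩`.
-/

set_option autoImplicit false

open Monoid Monoid.CoprodI

namespace Crest.Agent.R175.Cent23_83

variable {ι : Type*} [DecidableEq ι] {A : ι → Type*} [∀ i, Group (A i)] [∀ i, DecidableEq (A i)]

theorem length_smul_le {i : ι} (m : A i) (w : Word A) :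
    ((of m : CoprodI A) • w).toList.length ≤ w.toList.length + 1 := by
  by_cases hm1 : m = 1
  · subst hm1; rw [map_one, one_smul]; omega
  induction w using Word.consRecOn with
  | empty =>
    rw [← Word.cons_eq_smul (h1 := FirstLet_83.fstIdx_empty i) (h2 := hm1)]
    simp
  | cons k g t h1 h2 _ =>
    by_cases hk : k = i
    · subst hk
      rw [FirstLet_83.smul_cons]
      by_cases hm : m * g = 1
      · rw [hm, map_one, one_smul]
        simp only [Word.cons_toList, List.length_cons]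
        omega
      · rw [← Word.cons_eq_smul (h1 := h1) (h2 := hm)]
        simp only [Word.cons_toList, List.length_cons]
        omega
    · have h3 : (Word.cons g t h1 h2).fstIdx ≠ some i := by
        rw [Word.fstIdx_cons]
        exact fun h => hk (Option.some.inj h)
      rw [← Word.cons_eq_smul (h1 := h3) (h2 := hm1)]
      simp

/-- number of syllables -/
def len (g : CoprodI A) : ℕ := (g • (Word.empty : Word A)).toList.length

theorem length_prod_smul_le (l : List (Σ i, A i)) (w : Word A) :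
    ((l.map fun x => (of x.2 : CoprodI A)).prod • w).toList.length ≤ l.length + w.toList.length := by
  induction l with
  | nil => simp
  | cons x l ih =>
    rw [List.map_cons, List.prod_cons, mul_smul]
    refine (length_smul_le _ _).trans ?_
    rw [List.length_cons]
    omega

theorem prod_toList (g : CoprodI A) :
    ((g • (Word.empty : Word A)).toList.map fun x => (of x.2 : CoprodI A)).prod = g := by
  have : Word.prod (g • (Word.empty : Word A)) = g := by
    rw [Word.prod_smul, Word.prod_empty, mul_one]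
  exact this

theorem len_mul_le (g h : CoprodI A) : len (g * h) ≤ len g + len h := by
  rw [len, mul_smul]
  conv_lhs => rw [← prod_toList g]
  exact length_prod_smul_le _ _

theorem len_of_le {i : ι} (m : A i) : len (of m : CoprodI A) ≤ 1 :=
  (length_smul_le m _).trans (by simp)

theorem len_one : len (1 : CoprodI A) = 0 := by rw [len, one_smul]; rfl

theorem neWord_smul {i j : ι} (w : NeWord A i j) :
    (w.prod • (Word.empty : Word A)).toList = w.toList := by
  have h : w.prod • (Word.empty : Word A) = w.toWord := by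
    apply (Word.equiv (M := A)).symm.injective
    show Word.prod (w.prod • (Word.empty : Word A)) = Word.prod w.toWord
    rw [Word.prod_smul, Word.prod_empty, mul_one]
    rfl
  rw [h]
  rfl

theorem len_neWord {i j : ι} (w : NeWord A i j) : len w.prod = w.toList.length := by
  rw [len, neWord_smul]


theorem last_split {i j : ι} (w : NeWord A i j) :
    ∃ g : CoprodI A, w.prod = g * of w.last ∧ len g + 1 ≤ w.toList.length := by
  induction w with
  | singleton x hx => exact ⟨1, by simp, by rw [len_one]; simp⟩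
  | append w₁ hne w₂ _ ih =>
    obtain ⟨g, hg, hl⟩ := ih
    refine ⟨w₁.prod * g, ?_, ?_⟩
    · rw [NeWord.append_prod, hg, NeWord.append_last, mul_assoc]
    · have := len_mul_le w₁.prod g
      rw [len_neWord] at this
      simp only [NeWord.toList, List.length_append]
      omega

theorem head_split {i j : ι} (w : NeWord A i j) :
    ∃ g : CoprodI A, w.prod = of w.head * g ∧ len g + 1 ≤ w.toList.length := by
  induction w with
  | singleton x hx => exact ⟨1, by simp, by rw [len_one]; simp⟩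
  | append w₁ hne w₂ ih _ =>
    obtain ⟨g, hg, hl⟩ := ih
    refine ⟨g * w₂.prod, ?_, ?_⟩
    · rw [NeWord.append_prod, hg, NeWord.append_head, mul_assoc]
    · have := len_mul_le g w₂.prod
      rw [len_neWord] at this
      simp only [NeWord.toList, List.length_append]
      omega

theorem len_merge {p i j : ι} (v : NeWord A p i) (w : NeWord A i j) :
    len (v.prod * w.prod) + 1 ≤ v.toList.length + w.toList.length := by
  obtain ⟨g, hg, hg'⟩ := last_split v
  obtain ⟨k, hk, hk'⟩ := head_split w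
  have e : v.prod * w.prod = g * (of (v.last * w.head) * k) := by
    rw [hg, hk, map_mul]; group
  rw [e]
  have h1 := len_mul_le g (of (v.last * w.head) * k)
  have h2 := len_mul_le (of (v.last * w.head) : CoprodI A) k
  have h3 := len_of_le (A := A) (v.last * w.head)
  omega

theorem exists_neWord {g : CoprodI A} (hg : g ≠ 1) : ∃ (i j : ι) (w : NeWord A i j), w.prod = g := by
  obtain ⟨i, j, w, hw⟩ := NeWord.of_word (g • (Word.empty : Word A)) (by
    intro h
    apply hg
    have := congrArg Word.prod h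
    rwa [Word.prod_smul, Word.prod_empty, mul_one] at this)
  refine ⟨i, j, w, ?_⟩
  show Word.prod w.toWord = g
  rw [hw, Word.prod_smul, Word.prod_empty, mul_one]

theorem len_inv (g : CoprodI A) : len g⁻¹ = len g := by
  by_cases hg : g = 1
  · rw [hg, inv_one]
  obtain ⟨i, j, w, rfl⟩ := exists_neWord hg
  rw [← NeWord.inv_prod, len_neWord, len_neWord]
  clear hg
  induction w with
  | singleton x hx => rfl
  | append w₁ hne w₂ h1 h2 =>
    simp only [NeWord.inv, NeWord.toList, List.length_append]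
    omega

theorem neWord_idx {i j p q : ι} (v : NeWord A i j) (w : NeWord A p q) (h : v.prod = w.prod) :
    i = p ∧ j = q ∧ v.toList = w.toList := by
  have h1 : v.toList = w.toList := by rw [← neWord_smul, ← neWord_smul, h]
  have h2 := congrArg List.head? h1
  have h3 := congrArg List.getLast? h1
  rw [NeWord.toList_head?, NeWord.toList_head?, Option.some_inj] at h2
  rw [NeWord.toList_getLast?, NeWord.toList_getLast?, Option.some_inj] at h3
  exact ⟨congrArg Sigma.fst h2, congrArg Sigma.fst h3, h1⟩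

/-- Elements commuting with a word whose ends are in different factors. -/
theorem commute_list {i j : ι} (hij : i ≠ j) (t : NeWord A i j) {g : CoprodI A} (hg1 : g ≠ 1)
    (h : g * t.prod = t.prod * g) : ∃ v : NeWord A i j, (v.prod = g ∨ v.prod = g⁻¹) ∧
      v.toList ++ t.toList = t.toList ++ v.toList := by
  have main : ∀ {p q : ι} (v : NeWord A p q), p ≠ j → q ≠ i → v.prod * t.prod = t.prod * v.prod →
      ∃ v' : NeWord A i j, v'.prod = v.prod ∧ v'.toList ++ t.toList = t.toList ++ v'.toList := by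
    intro p q v hp hq h
    have e := neWord_idx (NeWord.append v hq t) (NeWord.append t (Ne.symm hp) v) (by
      rw [NeWord.append_prod, NeWord.append_prod, h])
    obtain ⟨rfl, rfl, e⟩ := e
    exact ⟨v, rfl, e⟩
  obtain ⟨p, q, v, rfl⟩ := exists_neWord hg1
  by_cases hp : p = j
  · by_cases hq : q = i
    · subst hp hq
      obtain ⟨v', h1, h2⟩ := main v.inv hij hij.symm (by
        rw [NeWord.inv_prod]
        exact (Commute.inv_left (show Commute v.prod t.prod from h)))
      exact ⟨v', Or.inr (by rw [h1, NeWord.inv_prod]), h2⟩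
    · exfalso
      subst hp
      have h1 := len_merge t v
      rw [← h] at h1
      have h2 := len_neWord (NeWord.append v hq t)
      rw [NeWord.append_prod] at h2
      simp only [NeWord.toList, List.length_append] at h2
      omega
  · by_cases hq : q = i
    · exfalso
      subst hq
      have h1 := len_merge v t
      rw [h] at h1
      have h2 := len_neWord (NeWord.append t (Ne.symm hp) v)
      rw [NeWord.append_prod] at h2
      simp only [NeWord.toList, List.length_append] at h2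
      omega
    · obtain ⟨v', h1, h2⟩ := main v hp hq h
      exact ⟨v', Or.inl h1, h2⟩

/-- The centraliser of `x y`, `x ∈ A i`, `y ∈ A j`, `i ≠ j`, is generated by `x y`. -/
theorem centralizer_two {i j : ι} (hij : i ≠ j) {x : A i} {y : A j} (hx : x ≠ 1) (hy : y ≠ 1)
    {g : CoprodI A} (h : g * (of x * of y) = of x * of y * g) :
    g ∈ Subgroup.zpowers (of x * of y : CoprodI A) := by
  set t : NeWord A i j := NeWord.append (NeWord.singleton x hx) hij (NeWord.singleton y hy) with ht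
  have htp : t.prod = of x * of y := by
    rw [ht, NeWord.append_prod, NeWord.prod_singleton, NeWord.prod_singleton]
  have key : ∀ (n : ℕ) (g : CoprodI A), len g ≤ n → g * t.prod = t.prod * g →
      g ∈ Subgroup.zpowers t.prod := by
    intro n
    induction n using Nat.strong_induction_on with
    | _ n ih =>
      intro g hn h
      by_cases hg1 : g = 1
      · subst hg1; exact one_mem _
      obtain ⟨v, hv, hl⟩ := commute_list hij t hg1 h
      have hcv : v.prod * t.prod = t.prod * v.prod := by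
        rcases hv with hv | hv
        · rw [hv]; exact h
        · rw [hv]; exact (Commute.inv_left (show Commute g t.prod from h))
      have hmem : v.prod ∈ Subgroup.zpowers t.prod → g ∈ Subgroup.zpowers t.prod := by
        rcases hv with hv | hv
        · rw [hv]; exact id
        · rw [hv]; exact fun h => (Subgroup.inv_mem_iff _).1 h
      apply hmem
      have htl : t.toList = [⟨i, x⟩, ⟨j, y⟩] := rfl
      rw [htl] at hl
      -- the list of `v` has length at least two
      have hh := NeWord.toList_head? v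
      have hL := NeWord.toList_getLast? v
      rcases hvl : v.toList with _ | ⟨a, _ | ⟨b, l⟩⟩
      · exact absurd hvl v.toList_ne_nil
      · exfalso
        rw [hvl] at hh hL
        simp only [List.head?_cons, List.getLast?_singleton, Option.some_inj] at hh hL
        rw [hh] at hL
        exact hij (congrArg Sigma.fst hL)
      · rw [hvl] at hl
        simp only [List.cons_append, List.nil_append, List.cons.injEq] at hl
        obtain ⟨rfl, rfl, hl⟩ := hl
        have hp : v.prod = t.prod * (l.map fun x => (of x.2 : CoprodI A)).prod := by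
          have : v.prod = (v.toList.map fun x => (of x.2 : CoprodI A)).prod := rfl
          rw [this, hvl, htp]
          simp [mul_assoc]
        have hlen : len v.prod = l.length + 2 := by
          rw [len_neWord, hvl]; rfl
        have hvn : len v.prod ≤ n := by
          rcases hv with hv | hv
          · rw [hv]; exact hn
          · rw [hv, len_inv]; exact hn
        have hle : len (l.map fun x => (of x.2 : CoprodI A)).prod ≤ l.length := by
          have := length_prod_smul_le l (Word.empty : Word A)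
          simpa [len] using this
        rw [hp]
        refine mul_mem (Subgroup.mem_zpowers _) (ih l.length (by omega) _ hle ?_)
        have e : (l.map fun x => (of x.2 : CoprodI A)).prod = t.prod⁻¹ * v.prod := by
          rw [hp]; group
        rw [e]
        exact ((Commute.refl t.prod).inv_left.mul_left (show Commute v.prod t.prod from hcv))
  rw [← htp]
  exact key _ g le_rfl (by rw [htp]; exact h)

open B3_83 in
/-- The centraliser of `sa` in `ℤ/2 * ℤ/3`. -/
theorem cent_sa {g : P23} (h : g * sa = sa * g) : g ∈ Subgroup.zpowers sa := by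
  have e : sa = of Y0⁻¹ * of X0 := by rw [sa, Y, X, map_inv]
  rw [e] at h ⊢
  exact centralizer_two (A := AA) (by decide) Y0i_ne X0_ne h

end Crest.Agent.R175.Cent23_83
end

-- ▼ part R175/Vert_83
section

/-!
# R175 (S0264), group side : the vertex of the triangle
-/

set_option autoImplicit false

open Crest.GroupTheory Monoid Monoid.CoprodI

namespace Crest.Agent.R175.Vert_83

open Semi_663 A2t_83

/-- the centre generator -/
abbrev zz : B3 := (s1 * s2) ^ 3

/-- the factors of `ℤ * ℤ` -/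
abbrev ZF (_ : Bool) : Type := Multiplicative ℤ

/-- `ℤ * ℤ` -/
abbrev P : Type := CoprodI ZF

/-- generator of `ℤ` -/
def o1 : Multiplicative ℤ := Multiplicative.ofAdd 1

theorem o1_ne : o1 ≠ 1 := by decide

/-- `y` -/
def yy : P := of (i := true) o1
/-- `v` -/
def vv : P := of (i := false) o1

/-- kill `x₁` -/
def ret : F3 →* P := hF 1 yy vv

/-- `ℤ * ℤ → F₃` -/
def sec : P →* F3 := CoprodI.lift fun b => match b with
  | true => zpowersHom F3 gy
  | false => zpowersHom F3 gv

theorem sec_yy : sec yy = gy := by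
  rw [sec, yy, CoprodI.lift_of]
  show zpowersHom F3 gy o1 = gy
  simp [o1, zpowersHom_apply]

theorem sec_vv : sec vv = gv := by
  rw [sec, vv, CoprodI.lift_of]
  show zpowersHom F3 gv o1 = gv
  simp [o1, zpowersHom_apply]

theorem ret_y : ret gy = yy := hF_y _ _ _
theorem ret_v : ret gv = vv := hF_v _ _ _

theorem sec_ret {w : F3} (hw : w ∈ Subgroup.closure {gy, gv}) : sec (ret w) = w := by
  induction hw using Subgroup.closure_induction with
  | mem x hx =>
    rcases hx with rfl | hx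
    · rw [ret_y, sec_yy]
    · rw [Set.mem_singleton_iff] at hx
      rw [hx, ret_v, sec_vv]
  | one => simp
  | mul x y _ _ hx hy => rw [map_mul, map_mul, hx, hy]
  | inv x _ hx => rw [map_inv, map_inv, hx]

/-- degree on `F₃` -/
def dgF : F3 →* Multiplicative ℤ := hF o1 (o1 * o1) o1

theorem dgF_S1 (w : F3) : dgF (S1 w) = dgF w := by
  have : dgF.comp S1.toMonoidHom = dgF := by
    apply F3_ext
    · show dgF (S1 gx) = dgF gx
      rw [S1_x, map_mul, map_inv, dgF, hF_x, hF_y]; group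
    · show dgF (S1 gy) = dgF gy
      rw [S1_y]
    · show dgF (S1 gv) = dgF gv
      rw [S1_v]
  exact DFunLike.congr_fun this w

theorem dgF_S2 (w : F3) : dgF (S2 w) = dgF w := by
  have : dgF.comp S2.toMonoidHom = dgF := by
    apply F3_ext
    · show dgF (S2 gx) = dgF gx
      rw [S2_x]
    · show dgF (S2 gy) = dgF gy
      rw [S2_y, map_mul, map_mul, map_mul, map_inv, dgF, hF_x, hF_y, hF_v]; 
      rw [mul_assoc (o1 * o1), mul_comm o1 (o1 * o1)⁻¹, ← mul_assoc, mul_inv_cancel, one_mul]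
    · show dgF (S2 gv) = dgF gv
      rw [S2_v, map_mul, map_inv, dgF, hF_x, hF_y, hF_v]; group
  exact DFunLike.congr_fun this w

theorem dgF_phi (b : B3) : ∀ w : F3, dgF (phi b w) = dgF w := by
  have hb : b ∈ Subgroup.closure (Set.range (artinGen (MM 2))) := by
    rw [closure_gen]; trivial
  induction hb using Subgroup.closure_induction with
  | mem x hx =>
    obtain ⟨i, rfl⟩ := hx
    intro w
    fin_cases i
    · show dgF (phi s1 w) = dgF w
      rw [phi_s1, dgF_S1]
    · show dgF (phi s2 w) = dgF w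
      rw [phi_s2, dgF_S2]
  | one => intro w; simp
  | mul x y _ _ hx hy =>
    intro w
    rw [map_mul, MulAut.mul_apply, hx, hy]
  | inv x _ hx =>
    intro w
    have := hx (phi x⁻¹ w)
    rw [map_inv, MulAut.apply_inv_self] at this
    rw [map_inv, this]

/-- degree on `AB` -/
def dg : AB →* Multiplicative ℤ := SemidirectProduct.lift dgF 1 fun b => by
  ext1 i
  show dgF (phi b (FreeGroup.of i)) = _
  rw [dgF_phi]
  simp

theorem dg_nl (w : F3) : dg (nl w) = dgF w := SemidirectProduct.lift_inl _ _ _ _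
theorem dg_nr (b : B3) : dg (nr b) = 1 := SemidirectProduct.lift_inr _ _ _ _

theorem dg_left (p : AB) : dg p = dgF p.left := by
  conv_lhs => rw [← SemidirectProduct.inl_left_mul_inr_right p]
  rw [map_mul]
  have h1 := dg_nl p.left
  have h2 := dg_nr p.right
  rw [show (SemidirectProduct.inl p.left : AB) = nl p.left from rfl, h1,
    show (SemidirectProduct.inr p.right : AB) = nr p.right from rfl, h2, mul_one]

theorem dg_Phi (g : At) : dg (Phi g) = 1 := by
  have : dg.comp Phi = 1 := by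
    apply hom_ext
    intro s
    fin_cases s
    · show dg (Phi (artinGen (MM 3) 0)) = 1
      rw [Phi_0, dg_nr]
    · show dg (Phi (artinGen (MM 3) 1)) = 1
      rw [Phi_1, dg_nr]
    · show dg (Phi (artinGen (MM 3) 2)) = 1
      rw [Phi_2, cc, map_mul, map_mul, map_inv, dg_nr, mul_one, mul_inv_cancel]
  exact DFunLike.congr_fun this g

theorem data_left {p : AB} (hp : p * nr s1 = nr s1 * p) : S1 p.left = p.left := by
  have := congrArg SemidirectProduct.left hp
  simp only [SemidirectProduct.mul_left, SemidirectProduct.left_inr, SemidirectProduct.right_inr,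
    map_one, mul_one, one_mul, phi_s1] at this
  exact this.symm

theorem data_right {p : AB} (hp : p * nr s1 = nr s1 * p) : p.right * s1 = s1 * p.right := by
  have := congrArg SemidirectProduct.right hp
  simpa only [SemidirectProduct.mul_right, SemidirectProduct.right_inr] using this

theorem zz_comm (b : B3) : b * zz = zz * b := by
  have hb : b ∈ Subgroup.closure (Set.range (artinGen (MM 2))) := by
    rw [closure_gen]; trivial
  induction hb using Subgroup.closure_induction with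
  | mem x hx =>
    obtain ⟨i, rfl⟩ := hx
    fin_cases i
    · exact (B3_83.comm_a s_braid).symm
    · exact (B3_83.comm_b s_braid).symm
  | one => simp
  | mul x y _ _ hx hy => rw [mul_assoc, hy, ← mul_assoc, hx, mul_assoc]
  | inv x _ hx => exact (Commute.inv_left (show Commute x zz from hx))

theorem fix_zpow {f : MulAut F3} {w : F3} (h : f w = w) (k : ℤ) : (f ^ k) w = w := by
  have h1 : f ∈ MulAction.stabilizer (MulAut F3) w := h
  exact zpow_mem h1 k

theorem conj_zpow (k : ℤ) (w : F3) : ((MulAut.conj dl) ^ k) w = dl ^ k * w * (dl ^ k)⁻¹ := by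
  rw [← map_zpow, MulAut.conj_apply]

theorem S1_dl : S1 dl = dl := by rw [dl, map_mul, S1_y, S1_v]

section main

variable (hFix : ∀ w : F3, S1 w = w → w ∈ Subgroup.closure {gy, gv})
  (hCent : ∀ b : B3, b * s1 = s1 * b → ∃ k m : ℤ, b = s1 ^ k * zz ^ m)
  (hUniq : ∀ k m k' m' : ℤ, s1 ^ k * zz ^ m = s1 ^ k' * zz ^ m' → k = k' ∧ m = m')

/-- centraliser of `s1` in `AB` -/
abbrev C1 : Subgroup AB := Subgroup.centralizer {nr s1}

theorem mem_C1 {p : AB} : p ∈ C1 ↔ p * nr s1 = nr s1 * p := by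
  rw [Subgroup.mem_centralizer_singleton_iff]

/-- the exponent of `z` -/
noncomputable def mm (hCent : ∀ b : B3, b * s1 = s1 * b → ∃ k m : ℤ, b = s1 ^ k * zz ^ m)
    (p : C1) : ℤ := (hCent p.1.right (data_right (mem_C1.1 p.2))).choose_spec.choose

include hUniq in
theorem mm_eq (p : C1) {k m : ℤ} (h : p.1.right = s1 ^ k * zz ^ m) : mm hCent p = m := by
  have := (hCent p.1.right (data_right (mem_C1.1 p.2))).choose_spec.choose_spec
  exact (hUniq _ _ _ _ (h.symm.trans this)).2.symm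

/-- the homomorphism `(w, s₁ᵏ zᵐ) ↦ w (y v)ᵐ`. -/
noncomputable def theta : C1 →* P where
  toFun p := ret p.1.left * (yy * vv) ^ (mm hCent p)
  map_one' := by
    rw [mm_eq hCent hUniq 1 (k := 0) (m := 0) (by simp)]
    simp
  map_mul' p q := by
    obtain ⟨k, m, hkm⟩ := hCent p.1.right (data_right (mem_C1.1 p.2))
    obtain ⟨k', m', hkm'⟩ := hCent q.1.right (data_right (mem_C1.1 q.2))
    have h1 : (p * q).1.right = s1 ^ (k + k') * zz ^ (m + m') := by
      show p.1.right * q.1.right = _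
      rw [hkm, hkm', zpow_add, zpow_add]
      have : Commute (zz ^ m) (s1 ^ k') :=
        ((show Commute s1 zz from zz_comm s1).zpow_zpow k' m).symm
      calc s1 ^ k * zz ^ m * (s1 ^ k' * zz ^ m') = s1 ^ k * (zz ^ m * s1 ^ k') * zz ^ m' := by group
        _ = s1 ^ k * (s1 ^ k' * zz ^ m) * zz ^ m' := by rw [this.eq]
        _ = s1 ^ k * s1 ^ k' * (zz ^ m * zz ^ m') := by group
    have h2 : (p * q).1.left = p.1.left * (dl ^ m * q.1.left * (dl ^ m)⁻¹) := by
      show (p.1 * q.1).left = _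
      rw [SemidirectProduct.mul_left, hkm, map_mul, map_zpow, map_zpow, phi_z, phi_s1,
        MulAut.mul_apply, conj_zpow]
      congr 1
      apply fix_zpow
      rw [map_mul, map_mul, map_inv, map_zpow, S1_dl, data_left (mem_C1.1 q.2)]
    rw [mm_eq hCent hUniq _ h1, mm_eq hCent hUniq _ hkm, mm_eq hCent hUniq _ hkm', h2]
    have h3 : ret dl = yy * vv := by rw [dl, map_mul, ret_y, ret_v]
    rw [map_mul, map_mul, map_mul, map_inv, map_zpow, h3, zpow_add]
    group

theorem theta_eq (p : C1) {k m : ℤ} (h : p.1.right = s1 ^ k * zz ^ m) :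
    theta hCent hUniq p = ret p.1.left * (yy * vv) ^ m := by
  show ret p.1.left * (yy * vv) ^ (mm hCent p) = _
  rw [mm_eq hCent hUniq _ h]

include hFix in
theorem theta_ker (p : C1) (h : theta hCent hUniq p = 1) (hd : dg p.1 = 1) :
    ∃ k : ℤ, p.1 = nr (s1 ^ k) := by
  obtain ⟨k, m, hkm⟩ := hCent p.1.right (data_right (mem_C1.1 p.2))
  rw [theta_eq hCent hUniq p hkm] at h
  have hw := hFix _ (data_left (mem_C1.1 p.2))
  have h1 : ret p.1.left = (yy * vv) ^ (-m) := by
    rw [zpow_neg]; exact eq_inv_of_mul_eq_one_left h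
  have h2 : p.1.left = dl ^ (-m) := by
    rw [← sec_ret hw, h1, map_zpow, map_mul, sec_yy, sec_vv, dl]
  have h3 : m = 0 := by
    rw [dg_left, h2, map_zpow] at hd
    have h4 : dgF dl = Multiplicative.ofAdd 3 := by
      rw [dl, map_mul, dgF, hF_y, hF_v]; rfl
    rw [h4] at hd
    have h5 : (-m) * 3 = 0 := by
      have := congrArg Multiplicative.toAdd hd
      rw [toAdd_zpow, toAdd_ofAdd, toAdd_one, smul_eq_mul] at this
      exact this
    omega
  subst h3
  refine ⟨k, SemidirectProduct.ext ?_ ?_⟩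
  · rw [h2, neg_zero, zpow_zero]
    exact (SemidirectProduct.left_inr (s1 ^ k)).symm
  · rw [hkm, zpow_zero, mul_one]
    exact (SemidirectProduct.right_inr (s1 ^ k)).symm

include hFix hCent hUniq in
/-- **The vertex.** -/
theorem vertex_aux {G : Type*} [Group G] {a b c r₁ r₂ : G} (π : G →* At)
    (ha : π a = ga 0) (hb : π b = ga 1) (hc : π c = ga 2) (hr1 : π r₁ = 1) (hr2 : π r₂ = 1)
    (ab : a * b * a = b * a * b) (bc : b * c * b = c * b * c) (ca : c * a * c = a * c * a)
    (c1a : Commute r₁ a) (c1b : Commute r₁ b) (c1c : Commute r₁ c)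
    (c2a : Commute r₂ a) (c2b : Commute r₂ b) (c2c : Commute r₂ c)
    (A1 : ∀ g : G, g * (r₁ * r₂ * r₁⁻¹ * r₂⁻¹) = (r₁ * r₂ * r₁⁻¹ * r₂⁻¹) * g →
      ∃ (n : ℤ) (k : G), k ∈ Subgroup.closure {a, b, c} ∧ g = (r₁ * r₂ * r₁⁻¹ * r₂⁻¹) ^ n * k) :
    Geo.VertexData a b c := by
  set h := r₁ * r₂ * r₁⁻¹ * r₂⁻¹ with hh
  have cha : Commute h a := ((c1a.mul_left c2a).mul_left c1a.inv_left).mul_left c2a.inv_left
  have chb : Commute h b := ((c1b.mul_left c2b).mul_left c1b.inv_left).mul_left c2b.inv_left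
  have chc : Commute h c := ((c1c.mul_left c2c).mul_left c1c.inv_left).mul_left c2c.inv_left
  have πh : π h = 1 := by rw [hh, map_mul, map_mul, map_mul, map_inv, map_inv, hr1, hr2]; simp
  set F : Set G := {h, a} with hF
  have hC : ∀ g : G, (∀ f ∈ F, Commute f g) ↔ g ∈ Subgroup.centralizer F := fun g => by
    rw [Subgroup.mem_centralizer_iff]; rfl
  -- the homomorphism to `ℤ * ℤ`
  have hmem : ∀ g : Subgroup.centralizer F,
      ((Phi.comp π).comp (Subgroup.centralizer F).subtype) g ∈ C1 := by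
    intro g
    rw [mem_C1]
    show Phi (π g.1) * nr s1 = nr s1 * Phi (π g.1)
    rw [← Phi_0, show artinGen (MM 3) 0 = ga 0 from rfl, ← ha, ← map_mul, ← map_mul, ← map_mul,
      ← map_mul]
    congr 2
    exact (((hC g.1).2 g.2) a (by simp [hF])).symm
  set θ : Subgroup.centralizer F →* P := (theta hCent hUniq).comp
    (((Phi.comp π).comp (Subgroup.centralizer F).subtype).codRestrict C1 hmem) with hθ
  -- `π` is injective on `⟨a, b, c⟩`
  let σ : At →* G := toH ![a, b, c] (by
    intro s t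
    fin_cases s <;> fin_cases t
    · rfl
    · exact ab
    · exact ca.symm
    · exact ab.symm
    · rfl
    · exact bc
    · exact ca
    · exact bc.symm
    · rfl)
  have hσ : ∀ k ∈ Subgroup.closure ({a, b, c} : Set G), σ (π k) = k := by
    intro k hk
    induction hk using Subgroup.closure_induction with
    | mem x hx =>
      rcases hx with rfl | rfl | hx
      · rw [ha]; exact toH_gen _ _ _
      · rw [hb]; exact toH_gen _ _ _
      · rw [Set.mem_singleton_iff] at hx
        subst hx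
        rw [hc]; exact toH_gen _ _ _
    | one => simp
    | mul x y _ _ hx hy => rw [map_mul, map_mul, hx, hy]
    | inv x _ hx => rw [map_inv, map_inv, hx]
  have hker : ∀ g : Subgroup.centralizer F, θ g = 1 → (g : G) ∈ {e : G | ∃ j m : ℤ, e = a ^ j * h ^ m} := by
    intro g hg
    obtain ⟨k, hk⟩ := theta_ker hFix hCent hUniq _ hg (dg_Phi (π g.1))
    have h1 : Phi (π g.1) = nr (s1 ^ k) := hk
    have h2 : π g.1 = ga 0 ^ k := by
      apply Phi_injective
      rw [h1, map_zpow, map_zpow]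
      rw [show Phi (ga 0) = nr s1 from Phi_0]
    obtain ⟨n, q, hq, hgq⟩ := A1 g.1 ((((hC g.1).2 g.2) h (by simp [hF])).symm)
    have h3 : π q = ga 0 ^ k := by
      rw [← h2, hgq, map_mul, map_zpow, πh, one_zpow, one_mul]
    have h4 : q = a ^ k := by
      rw [← hσ q hq, h3, ← ha, ← map_zpow, hσ _ (zpow_mem (Subgroup.subset_closure (by simp)) k)]
    refine ⟨k, n, ?_⟩
    rw [hgq, h4]
    exact ((cha.zpow_zpow n k)).eq
  have hE : ∀ e ∈ {e : G | ∃ j m : ℤ, e = a ^ j * h ^ m}, ∀ g : G, (∀ f ∈ F, Commute f g) →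
      Commute e g := by
    rintro e ⟨j, m, rfl⟩ g hg
    exact ((hg a (by simp [hF])).zpow_left j).mul_left ((hg h (by simp [hF])).zpow_left m)
  have hα : (a * b) ^ 3 ∈ Subgroup.centralizer F := by
    rw [← hC]
    rintro f (rfl | rfl)
    · exact (cha.mul_right chb).pow_right 3
    · exact (B3_83.comm_a ab).symm
  have hγ : (c * a) ^ 3 ∈ Subgroup.centralizer F := by
    rw [← hC]
    rintro f (rfl | rfl)
    · exact (chc.mul_right cha).pow_right 3
    · exact (B3_83.comm_b ca).symm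
  have hnrz : nr zz ∈ C1 := by
    rw [mem_C1, ← map_mul, ← map_mul, zz_comm]
  have hnv : nl gv ∈ C1 := by rw [mem_C1, S_V]
  have tz : theta hCent hUniq ⟨nr zz, hnrz⟩ = yy * vv := by
    rw [theta_eq hCent hUniq ⟨nr zz, hnrz⟩ (k := 0) (m := 1) (by
      rw [zpow_zero, zpow_one, one_mul]
      exact SemidirectProduct.right_inr zz)]
    rw [zpow_one, show ((⟨nr zz, hnrz⟩ : C1) : AB).left = 1 from SemidirectProduct.left_inr zz,
      map_one, one_mul]
  have tv : theta hCent hUniq ⟨nl gv, hnv⟩ = vv := by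
    rw [theta_eq hCent hUniq _ (k := 0) (m := 0) (by simp)]
    simp [ret_v]
  have θα : θ ⟨(a * b) ^ 3, hα⟩ = yy * vv := by
    rw [← tz, hθ]
    show theta hCent hUniq _ = theta hCent hUniq _
    congr 1
    apply Subtype.ext
    show Phi (π ((a * b) ^ 3)) = nr zz
    rw [map_pow, map_mul, ha, hb, map_pow, map_mul]
    show (Phi (artinGen (MM 3) 0) * Phi (artinGen (MM 3) 1)) ^ 3 = _
    rw [Phi_0, Phi_1, map_pow, map_mul]
  have θγ : θ ⟨(c * a) ^ 3, hγ⟩ = vv * yy := by
    have : theta hCent hUniq (⟨nl gv, hnv⟩ * ⟨nr zz, hnrz⟩ * ⟨nl gv, hnv⟩⁻¹) = vv * yy := by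
      rw [map_mul, map_mul, map_inv, tz, tv]; group
    rw [← this, hθ]
    show theta hCent hUniq _ = theta hCent hUniq _
    congr 1
    apply Subtype.ext
    show Phi (π ((c * a) ^ 3)) = nl gv * nr zz * (nl gv)⁻¹
    rw [map_pow, map_mul, ha, hc, map_pow, map_mul]
    show (Phi (artinGen (MM 3) 2) * Phi (artinGen (MM 3) 0)) ^ 3 = _
    rw [Phi_0, Phi_2, cc]
    have e1 : nl gv * nr (s1 * s2 * s1⁻¹) * (nl gv)⁻¹ * nr s1 =
        nl gv * nr (s1 * s2) * (nl gv)⁻¹ := by
      have e2 : (nl gv)⁻¹ * nr s1 = nr s1 * (nl gv)⁻¹ := by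
        rw [inv_mul_eq_iff_eq_mul, ← mul_assoc, ← S_V]; group
      rw [mul_assoc _ (nl gv)⁻¹, e2, map_mul nr (s1 * s2), map_inv]
      group
    rw [e1, conj_pow, map_pow]
  have key := FirstLet_83.div_of_hom (E := {e : G | ∃ j m : ℤ, e = a ^ j * h ^ m})
    (Set.toFinite F) θ hker hE hα hγ true
    (fun n hn => by
      rw [θα]
      exact FirstLet_83.st_pow (A := ZF) (i := true) (j := false) (by decide) o1_ne o1_ne hn)
    (fun n hn => by
      rw [θγ]
      exact FirstLet_83.st_disjoint (by decide)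
        (FirstLet_83.st_pow (A := ZF) (i := false) (j := true) (by decide) o1_ne o1_ne hn))
  exact ⟨r₁, r₂, _, c1a, c1b, c1c, c2a, c2b, c2c, key⟩

end main

end Crest.Agent.R175.Vert_83
end

-- ▼ part R175/Fix_974
section

/-!
# R175 (S0264), vertex: fixed points of `S1` on `F3`

`F3 = FreeGroup B ⋊ B`, `B = ⟨y, v⟩`; `S1 ^ 2` permutes the basis of `FreeGroup B` by right
translation by `y`, which has no fixed point.
-/

set_option autoImplicit false

namespace Crest.Agent.R175.Fix_974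

open A2t_83

theorem eq_one_of_map_eq {α : Type*} (f : α → α) (hf : Function.Injective f)
    (hx : ∀ a, f a ≠ a) (n : FreeGroup α) (h : FreeGroup.map f n = n) : n = 1 := by
  classical
  have h1 : (FreeGroup.map f n).toWord = n.toWord.map (fun p => (f p.1, p.2)) := by
    conv_lhs => rw [← FreeGroup.mk_toWord (x := n)]
    rw [FreeGroup.map.mk, FreeGroup.toWord_mk]
    apply FreeGroup.IsReduced.reduce_eq
    have h2 : FreeGroup.IsReduced n.toWord := FreeGroup.isReduced_toWord
    unfold FreeGroup.IsReduced at h2 ⊢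
    rw [List.isChain_map]
    refine h2.imp ?_
    intro a b hab h3
    exact hab (hf h3)
  rw [h] at h1
  rcases hw : n.toWord with _ | ⟨p, tl⟩
  · exact FreeGroup.toWord_eq_nil_iff.1 hw
  · rw [hw] at h1
    simp only [List.map_cons, List.cons.injEq] at h1
    exact absurd (congrArg Prod.fst h1.1).symm (hx p.1)

/-- the free group on `y, v` -/
abbrev BB : Type := FreeGroup Bool

/-- left translations of the basis -/
def act : BB →* MulAut (FreeGroup BB) where
  toFun b := FreeGroup.freeGroupCongr (Equiv.mulLeft b)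
  map_one' := by
    ext x
    show FreeGroup.map (fun y => 1 * y) x = x
    simp
  map_mul' b c := by
    ext x
    show FreeGroup.map (fun y => b * c * y) x =
      FreeGroup.map (fun y => b * y) (FreeGroup.map (fun y => c * y) x)
    rw [FreeGroup.map.comp]
    congr 2
    funext y
    simp [mul_assoc]

theorem act_apply (b : BB) (x : FreeGroup BB) : act b x = FreeGroup.map (fun y => b * y) x := rfl

/-- `B → F3` -/
def emb : BB →* F3 := FreeGroup.lift fun b => cond b gv gy

theorem emb_mem (b : BB) : emb b ∈ Subgroup.closure {gy, gv} := by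
  have : (emb).range ≤ Subgroup.closure {gy, gv} := by
    apply FreeGroup.range_lift_le
    rintro _ ⟨b, rfl⟩
    cases b
    · exact Subgroup.subset_closure (by simp)
    · exact Subgroup.subset_closure (by simp)
  exact this ⟨b, rfl⟩

/-- the semidirect product -/
abbrev SD : Type := FreeGroup BB ⋊[act] BB

/-- `F3 → FreeGroup B ⋊ B` -/
def Th : F3 →* SD :=
  hF (SemidirectProduct.inl (FreeGroup.of 1)) (SemidirectProduct.inr (FreeGroup.of false))
    (SemidirectProduct.inr (FreeGroup.of true))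

/-- `FreeGroup B ⋊ B → F3` -/
def La : SD →* F3 :=
  SemidirectProduct.lift (FreeGroup.lift fun b => emb b * gx * (emb b)⁻¹) emb (by
    intro g
    apply FreeGroup.ext_hom
    intro b
    simp only [MonoidHom.comp_apply, MulEquiv.coe_toMonoidHom, act_apply, FreeGroup.map.of,
      FreeGroup.lift_apply_of, map_mul, MulAut.conj_apply]
    group)

theorem La_Th (w : F3) : La (Th w) = w := by
  have : La.comp Th = MonoidHom.id F3 := by
    apply F3_ext
    · simp [La, Th]
    · simp [La, Th, emb]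
    · simp [La, Th, emb]
  exact DFunLike.congr_fun this w

/-- right translation by `y` -/
def Rm : SD →* SD :=
  SemidirectProduct.map (FreeGroup.map fun b => b * FreeGroup.of false) (MonoidHom.id _) (by
    intro g
    apply FreeGroup.ext_hom
    intro b
    simp only [MonoidHom.comp_apply, MulEquiv.coe_toMonoidHom, act_apply, FreeGroup.map.of,
      MonoidHom.id_apply, mul_assoc])

theorem Th_S (w : F3) : Th (S1 (S1 w)) = Rm (Th w) := by
  have : (Th.comp (S1.toMonoidHom.comp S1.toMonoidHom)) = Rm.comp Th := by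
    apply F3_ext
    · simp only [MonoidHom.comp_apply, MulEquiv.coe_toMonoidHom, S1_x, map_mul, map_inv, S1_y]
      simp only [Th, hF_x, hF_y, Rm, SemidirectProduct.map_inl, FreeGroup.map.of, one_mul]
      rw [mul_inv_rev, inv_inv, ← mul_assoc, ← map_inv, ← SemidirectProduct.inl_aut, act_apply,
        FreeGroup.map.of, mul_one]
    · simp only [MonoidHom.comp_apply, MulEquiv.coe_toMonoidHom, S1_y]
      simp [Th, Rm]
    · simp only [MonoidHom.comp_apply, MulEquiv.coe_toMonoidHom, S1_v]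
      simp [Th, Rm]
  exact DFunLike.congr_fun this w

/-- **fixed points of `S1`.** -/
theorem fix_S1 {w : F3} (h : S1 w = w) : w ∈ Subgroup.closure {gy, gv} := by
  have h1 : Rm (Th w) = Th w := by rw [← Th_S, h, h]
  have h2 : (Th w).left = 1 := by
    apply eq_one_of_map_eq (fun b : BB => b * FreeGroup.of false)
    · intro a b hab
      exact mul_right_cancel hab
    · intro a ha
      have h3 : FreeGroup.of false = (1 : BB) := mul_left_cancel (ha.trans (mul_one a).symm)
      exact FreeGroup.of_ne_one _ h3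
    · exact congrArg SemidirectProduct.left h1
  have h4 : Th w = SemidirectProduct.inr (Th w).right := by
    rw [← SemidirectProduct.inl_left_mul_inr_right (Th w), h2]
    simp
  rw [← La_Th w, h4, La, SemidirectProduct.lift_inr]
  exact emb_mem _

end Crest.Agent.R175.Fix_974
end

-- ▼ part R175/Wfin_974

/-!
# R175 (S0264), vertex input
-/

set_option autoImplicit false

open Crest.GroupTheory

namespace Crest.Agent.R175.Wfin_974

open Semi_663 A2t_83 B3_83 Vert_83 Grp_184 Grp_184.Gn AttB_663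

/-- `B₃ → ℤ/2 * ℤ/3` -/
noncomputable def rho : B3 →* P23 := toH ![sa, sb] (by
  intro s t
  fin_cases s <;> fin_cases t
  · rfl
  · exact B3_83.braid
  · exact B3_83.braid.symm
  · rfl)

theorem rho_s1 : rho s1 = sa := toH_gen _ _ _
theorem rho_s2 : rho s2 = sb := toH_gen _ _ _

theorem closure_s : Subgroup.closure ({s1, s2} : Set B3) = ⊤ := by
  rw [← closure_gen 2]
  congr 1
  ext x
  constructor
  · rintro (rfl | hx)
    · exact ⟨0, rfl⟩
    · rw [Set.mem_singleton_iff] at hx
      subst hx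
      exact ⟨1, rfl⟩
  · rintro ⟨i, rfl⟩
    fin_cases i
    · left; rfl
    · right; rfl

theorem cent_s1 (b : B3) (h : b * s1 = s1 * b) : ∃ k m : ℤ, b = s1 ^ k * zz ^ m := by
  have h1 : rho b * sa = sa * rho b := by
    rw [← rho_s1, ← map_mul, h, map_mul]
  obtain ⟨k, hk⟩ := Cent23_83.cent_sa h1
  have hk' : sa ^ k = rho b := hk
  have h2 : rho ((s1 ^ k)⁻¹ * b) = 1 := by
    rw [map_mul, map_inv, map_zpow, rho_s1, hk', inv_mul_cancel]
  have h3 := ker_zpowers s_braid rho rho_s1 rho_s2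
    (by rw [closure_s]; trivial : (s1 ^ k)⁻¹ * b ∈ Subgroup.closure {s1, s2}) h2
  obtain ⟨m, hm⟩ := h3
  refine ⟨k, m, ?_⟩
  have hm' : zz ^ m = (s1 ^ k)⁻¹ * b := hm
  rw [hm', mul_inv_cancel_left]

/-- degree -/
noncomputable def lg : B3 →* Multiplicative ℤ := toH (fun _ => Multiplicative.ofAdd 1) (by
  intros; rfl)

theorem sa_zpow_ne {k : ℤ} (hk : k ≠ 0) : sa ^ k ≠ 1 := by
  have key : ∀ n : ℕ, 0 < n → sa ^ n ≠ 1 := by
    intro n hn h1
    have h2 := sa_pow_mem hn
    rw [h1, FirstLet_83.mem_st, inv_one, one_smul, FirstLet_83.lst_empty] at h2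
    exact absurd h2 (by simp)
  intro h
  obtain ⟨n, rfl | rfl⟩ := k.eq_nat_or_neg
  · rw [zpow_natCast] at h
    exact key n (by omega) h
  · rw [zpow_neg, zpow_natCast, inv_eq_one] at h
    exact key n (by omega) h

theorem uniq (k m k' m' : ℤ) (h : s1 ^ k * zz ^ m = s1 ^ k' * zz ^ m') : k = k' ∧ m = m' := by
  have hz : rho zz = 1 := by
    rw [map_pow, map_mul, rho_s1, rho_s2, sa_mul_sb, pow_three' B3_83.Y, Y_cube]
  have h1 := congrArg rho h
  rw [map_mul, map_mul, map_zpow, map_zpow, map_zpow, map_zpow, hz, one_zpow, one_zpow, mul_one,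
    mul_one, rho_s1] at h1
  have h2 : k = k' := by
    by_contra hne
    apply sa_zpow_ne (sub_ne_zero.2 hne)
    rw [zpow_sub, h1, mul_inv_cancel]
  subst h2
  have h3 := congrArg lg (mul_left_cancel h)
  have h4 : lg zz = Multiplicative.ofAdd 6 := by
    rw [map_pow, map_mul]
    show (lg (artinGen (MM 2) 0) * lg (artinGen (MM 2) 1)) ^ 3 = _
    rw [lg, toH_gen, toH_gen]
    rfl
  rw [map_zpow, map_zpow, h4] at h3
  have h5 : m * 6 = m' * 6 := by
    have := congrArg Multiplicative.toAdd h3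
    simpa using this
  exact ⟨rfl, by omega⟩

theorem set3 (i : Fin 3) : ({gn (a i), gn (a (i + 1)), gn (a (i + 2))} : Set GG) =
    {gn (a 0), gn (a 1), gn (a 2)} := by
  fin_cases i
  · rfl
  · show ({gn (a 1), gn (a 2), gn (a 0)} : Set GG) = _
    ext x
    simp only [Set.mem_insert_iff, Set.mem_singleton_iff]
    tauto
  · show ({gn (a 2), gn (a 0), gn (a 1)} : Set GG) = _
    ext x
    simp only [Set.mem_insert_iff, Set.mem_singleton_iff]
    tauto

/-- **input W.** -/
theorem vertex (i : Fin 3) : Geo.VertexData (gn (a i)) (gn (a (i + 1))) (gn (a (i + 2))) := by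
  have e1 : i + 1 - i = 1 := by revert i; decide
  have e2 : i + 2 - i = 2 := by revert i; decide
  have n1 : i ≠ i + 1 := by revert i; decide
  have n2 : i + 1 ≠ i + 2 := by revert i; decide
  have n3 : i + 2 ≠ i := by revert i; decide
  have hA : ∀ p q : Fin 3, p ≠ q → ga (p - i) * ga (q - i) * ga (p - i) =
      ga (q - i) * ga (p - i) * ga (q - i) := fun p q _ => A2t_83.braid _ _
  refine vertex_aux (fun w hw => Fix_974.fix_S1 hw) cent_s1 uniq
    (r₁ := gn (t false)) (r₂ := gn (t true)) (tri (fun p => ga (p - i)) hA)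
    ?_ ?_ ?_ (tri_t _ _ _) (tri_t _ _ _) ?_ ?_ ?_ ?_ ?_ ?_ ?_ ?_ ?_ ?_
  · rw [tri_a, sub_self]
  · rw [tri_a, e1]
  · rw [tri_a, e2]
  · exact cond_gn.aa _ _ n1
  · exact cond_gn.aa _ _ n2
  · exact cond_gn.aa _ _ n3
  · exact cond_gn.ta _ _
  · exact cond_gn.ta _ _
  · exact cond_gn.ta _ _
  · exact cond_gn.ta _ _
  · exact cond_gn.ta _ _
  · exact cond_gn.ta _ _
  · intro g hg
    obtain ⟨n, k, hk, e⟩ := cent_t g hg
    exact ⟨n, k, by rw [set3]; exact hk, e⟩

end Crest.Agent.R175.Wfin_974
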